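import Mathlib

attribute [-instance] ProperSMul.toContinuousSMul IsTopologicalTorsor.toContinuousSMul IdemSemiring.toCanonicallyOrderedAdd IdemSemiring.toMulLeftMono IdemSemiring.toMulRightMono AddQuantale.instAddLeftMono AddQuantale.instAddRightMono Quantale.instMulLeftMono Quantale.instMulRightMono FiniteDimensional.rclike_to_real IsScalarTower.complexToReal FiniteDimensional.complexToReal

set_option linter.all false

section

/-!
# P097, regularity theorem: definitions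

Working files for: a smooth table with rational leaves `1/q` for all large `q` is real-analytic.
-/

namespace Vale.Agent.P097.Reg

open Complex
open scoped ComplexConjugate

/-- the open horizontal strip -/
def strip (β : ℝ) : Set ℂ := {ζ : ℂ | |ζ.im| < β}

/-- value at the boundary point with normal angle `φ + x` of the functional of direction `φ` -/
noncomputable def lp (h : ℂ → ℂ) (φ x : ℂ) : ℂ :=
  h (φ + x) * cos x - deriv h (φ + x) * sin x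

/-- A real-analytic table with uniform bounds on the complex domain `D`, which is the strip of
width `β` in the Lazutkin coordinate `X` (`z` is the inverse of `X`, `lam` is the cube root of the
radius of curvature, `P` is the period of the Lazutkin coordinate). -/
structure CTab (M β P : ℝ) where
  D : Set ℂ
  G : ℂ → ℂ
  lam : ℂ → ℂ
  X : ℂ → ℂ
  z : ℂ → ℂ
  M1 : 1 ≤ M
  β0 : 0 < β
  β1 : β ≤ 1
  P0 : 0 < P
  isOpen : IsOpen D
  dG : DifferentiableOn ℂ G D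
  dlam : DifferentiableOn ℂ lam D
  dX : ∀ ψ ∈ D, HasDerivAt X (lam ψ) ψ
  dz : ∀ ζ ∈ strip β, HasDerivAt z (lam (z ζ))⁻¹ ζ
  XD : ∀ ψ ∈ D, X ψ ∈ strip β
  zD : ∀ ζ ∈ strip β, z ζ ∈ D
  zX : ∀ ψ ∈ D, z (X ψ) = ψ
  Xz : ∀ ζ ∈ strip β, X (z ζ) = ζ
  rho : ∀ ψ ∈ D, G ψ + deriv (deriv G) ψ = lam ψ ^ 3
  bG : ∀ ψ ∈ D, ‖G ψ‖ ≤ M
  b0 : ∀ ψ ∈ D, ‖lam ψ‖ ≤ M
  b1 : ∀ ψ ∈ D, ‖deriv lam ψ‖ ≤ M
  b2 : ∀ ψ ∈ D, ‖deriv (deriv lam) ψ‖ ≤ M
  b3 : ∀ ψ ∈ D, ‖deriv (deriv (deriv lam)) ψ‖ ≤ M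
  bl : ∀ ψ ∈ D, 1 ≤ M * ‖lam ψ‖
  cD : ∀ ψ ∈ D, conj ψ ∈ D
  cG : ∀ ψ ∈ D, G (conj ψ) = conj (G ψ)
  clam : ∀ ψ ∈ D, lam (conj ψ) = conj (lam ψ)
  cX : ∀ ψ ∈ D, X (conj ψ) = conj (X ψ)
  rD : ∀ x : ℝ, (x : ℂ) ∈ D
  rpos : ∀ x : ℝ, 0 < (lam x).re
  pD : ∀ ψ ∈ D, ψ + 2 * Real.pi ∈ D
  mD : ∀ ψ ∈ D, ψ - 2 * Real.pi ∈ D
  pG : ∀ ψ ∈ D, G (ψ + 2 * Real.pi) = G ψ
  plam : ∀ ψ ∈ D, lam (ψ + 2 * Real.pi) = lam ψ
  pX : ∀ ψ ∈ D, X (ψ + 2 * Real.pi) = X ψ + P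

/-- Fourier coefficient of a function of period `P`. -/
noncomputable def fc (P : ℝ) (F : ℝ → ℂ) (n : ℤ) : ℂ :=
  (P : ℂ)⁻¹ * ∫ x in (0 : ℝ)..P, F x * exp (-(2 * Real.pi * I * n * x / P))

/-- the exponential of frequency `n` for the period `P` -/
noncomputable def ex (P : ℝ) (n : ℤ) (ζ : ℂ) : ℂ := exp (2 * Real.pi * I * n * ζ / P)

/-- the difference of a real support function and a complexified table on the reals -/
noncomputable def df {M β P : ℝ} (T : CTab M β P) (h : ℝ → ℝ) (x : ℝ) : ℝ := h x - (T.G x).re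

/-- The two tables are `E`-close in `C²`. -/
def Close {M β P : ℝ} (T : CTab M β P) (h : ℝ → ℝ) (E : ℝ) : Prop :=
  ∀ x, |df T h x| ≤ E ∧ |deriv (df T h) x| ≤ E ∧ |deriv (deriv (df T h)) x| ≤ E

/-- the weighted difference in the Lazutkin coordinate -/
noncomputable def wd {M β P : ℝ} (T : CTab M β P) (h : ℝ → ℝ) (x : ℝ) : ℂ :=
  (df T h (T.z x).re : ℂ) / T.lam (T.z x)

/-- cubic expansion of `lam` -/
def Aq (l0 l1 l2 s x : ℂ) : ℂ := l0 + l1 * x + l2 * x ^ 2 + s * x ^ 3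

/-- expansion of the sagitta divided by `x ^ 2` when `rho = lam ^ 3` -/
noncomputable def Bq (l0 l1 l2 y x : ℂ) : ℂ :=
  l0 ^ 3 / 2 + l0 ^ 2 * l1 * x
    + ((3 * l0 ^ 2 * l2 + 3 * l0 * l1 ^ 2) - l0 ^ 3 / 6) / 4 * x ^ 2 + y * x ^ 3

/-- the correction of the table -/
noncomputable def corr {M β P : ℝ} (T : CTab M β P) (h : ℝ → ℝ) (N : ℕ) (ψ : ℂ) : ℂ :=
  T.lam ψ * ∑ n ∈ Finset.Icc (-(N : ℤ)) N, fc P (wd T h) n * ex P n (T.X ψ)

/-- the weights -/
noncomputable def Wg (Λ T : ℝ) (q : ℕ) (n : ℤ) : ℝ :=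
  min (Real.exp (Λ * max (|(n : ℝ)| - q) 0)) T

end Vale.Agent.P097.Reg
end

section

/-!
# P097, regularity theorem, R2: algebra of one step
-/

namespace Vale.Agent.P097.Reg

open Complex

/-- `(v - 1) / x` -/
noncomputable def r2W (a b y x : ℂ) : ℂ :=
  2 * a + (3 * b / 2 + 3 * a ^ 2 / 2 - 1 / 12) * x + y * x ^ 2

/-- `(u - 1) / x` -/
noncomputable def r2U (a b s x : ℂ) : ℂ :=
  (a + b * x + s * x ^ 2) * (2 + x * (a + b * x + s * x ^ 2))

/-- the second order coefficient -/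
noncomputable def r2c (a b : ℂ) : ℂ := 3 / 2 * (b - a ^ 2) + 1 / 4

/-- the third order remainder -/
noncomputable def r2R (a b s y x : ℂ) : ℂ :=
  (r2c a b / 3) * (r2U a b s x * (1 + x * r2U a b s x + 1)
    + (r2U a b s x * (1 + x * r2W a b y x) + r2W a b y x)
    + r2W a b y x * (1 + x * r2W a b y x + 1)
    - 3 * r2W a b y x * ((1 + x * r2W a b y x) ^ 2 + (1 + x * r2W a b y x) + 1))
  + (2 * a * b + 2 * s - y + (b ^ 2 + 2 * a * s) * x + 2 * b * s * x ^ 2 + s ^ 2 * x ^ 3)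
    * ((1 + x * r2U a b s x) ^ 2 + (1 + x * r2U a b s x) * (1 + x * r2W a b y x)
      + (1 + x * r2W a b y x) ^ 2)

theorem r2_key (a b s y x : ℂ) :
    (1 + x * r2U a b s x) ^ 3
      = (1 + x * r2W a b y x) ^ 3 * (1 + r2c a b * x ^ 2) + x ^ 3 * r2R a b s y x := by
  have h1 : (1 + x * r2U a b s x) - (1 + x * r2W a b y x) = r2c a b / 3 * x ^ 2 + x ^ 3 *
      (2 * a * b + 2 * s - y + (b ^ 2 + 2 * a * s) * x + 2 * b * s * x ^ 2 + s ^ 2 * x ^ 3) := by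
    unfold r2U r2W r2c
    ring
  have h2 : (1 + x * r2U a b s x) ^ 3 - (1 + x * r2W a b y x) ^ 3 =
      ((1 + x * r2U a b s x) - (1 + x * r2W a b y x)) *
        ((1 + x * r2U a b s x) ^ 2 + (1 + x * r2U a b s x) * (1 + x * r2W a b y x)
      + (1 + x * r2W a b y x) ^ 2) := by ring
  rw [h1] at h2
  rw [← sub_eq_iff_eq_add', r2R]
  generalize r2U a b s x = U at *
  generalize r2W a b y x = W at *
  linear_combination h2

theorem r2_bound (N : ℝ) : ∃ C : ℝ, 1 ≤ C ∧ ∀ a b s y x : ℂ, ‖a‖ ≤ N → ‖b‖ ≤ N → ‖s‖ ≤ N →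
    ‖y‖ ≤ N → ‖x‖ ≤ N → ‖r2R a b s y x‖ ≤ C ∧ ‖r2W a b y x‖ ≤ C ∧ ‖r2c a b‖ ≤ C ∧
      ‖1 + x * r2W a b y x‖ ≤ C := by
  have h1 : Continuous fun p : ℂ × ℂ × ℂ × ℂ × ℂ => r2R p.1 p.2.1 p.2.2.1 p.2.2.2.1 p.2.2.2.2 := by
    unfold r2R r2U r2W r2c
    (clear * -; fun_prop)
  have h2 : Continuous fun p : ℂ × ℂ × ℂ × ℂ × ℂ => r2W p.1 p.2.1 p.2.2.2.1 p.2.2.2.2 := by
    unfold r2W
    (clear * -; fun_prop)
  have h3 : Continuous fun p : ℂ × ℂ × ℂ × ℂ × ℂ => r2c p.1 p.2.1 := by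
    unfold r2c
    fun_prop
  have h4 : Continuous fun p : ℂ × ℂ × ℂ × ℂ × ℂ =>
      1 + p.2.2.2.2 * r2W p.1 p.2.1 p.2.2.2.1 p.2.2.2.2 := by
    unfold r2W
    fun_prop
  obtain ⟨C1, hC1⟩ := (isCompact_closedBall (0 : ℂ × ℂ × ℂ × ℂ × ℂ) N).exists_bound_of_continuousOn
    h1.continuousOn
  obtain ⟨C2, hC2⟩ := (isCompact_closedBall (0 : ℂ × ℂ × ℂ × ℂ × ℂ) N).exists_bound_of_continuousOn
    h2.continuousOn
  obtain ⟨C3, hC3⟩ := (isCompact_closedBall (0 : ℂ × ℂ × ℂ × ℂ × ℂ) N).exists_bound_of_continuousOn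
    h3.continuousOn
  obtain ⟨C4, hC4⟩ := (isCompact_closedBall (0 : ℂ × ℂ × ℂ × ℂ × ℂ) N).exists_bound_of_continuousOn
    h4.continuousOn
  refine ⟨max 1 (max (max C1 C2) (max C3 C4)), le_max_left _ _, ?_⟩
  intro a b s y x ha hb hs hy hx
  have hm : (a, b, s, y, x) ∈ Metric.closedBall (0 : ℂ × ℂ × ℂ × ℂ × ℂ) N := by
    rw [mem_closedBall_zero_iff]
    simp only [Prod.norm_def]
    exact max_le ha (max_le hb (max_le hs (max_le hy hx)))
  have hm1 := le_max_left 1 (max (max C1 C2) (max C3 C4))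
  have hm2 := le_max_right 1 (max (max C1 C2) (max C3 C4))
  refine ⟨(hC1 _ hm).trans ?_, (hC2 _ hm).trans ?_, (hC3 _ hm).trans ?_, (hC4 _ hm).trans ?_⟩
  · exact ((le_max_left C1 C2).trans (le_max_left _ _)).trans hm2
  · exact ((le_max_right C1 C2).trans (le_max_left _ _)).trans hm2
  · exact ((le_max_left C3 C4).trans (le_max_right _ _)).trans hm2
  · exact ((le_max_right C3 C4).trans (le_max_right _ _)).trans hm2

theorem alg (M : ℝ) (hM : 1 ≤ M) : ∃ C : ℝ, 1 ≤ C ∧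
    ∀ (l0 l1 l2 sp sm yp ym dp dm : ℂ) (r : ℝ),
      ‖l0‖ ≤ M → ‖l1‖ ≤ M → ‖l2‖ ≤ M → ‖sp‖ ≤ M → ‖sm‖ ≤ M → ‖yp‖ ≤ M → ‖ym‖ ≤ M →
      1 ≤ M * ‖l0‖ → r ≤ 1 → ‖dp‖ ≤ r → ‖dm‖ ≤ r →
      dp ^ 2 * Bq l0 l1 l2 yp dp = dm ^ 2 * Bq l0 l1 l2 ym (-dm) →
      ‖(dp * Aq l0 l1 l2 sp dp) ^ 6 - (dm * Aq l0 l1 l2 sm (-dm)) ^ 6‖ ≤ C * r ^ 9 := by
  obtain ⟨C, hC1, hC⟩ := r2_bound (2 * M ^ 4)
  have hC0 : 0 ≤ C := by linarith only [hC1]
  have hM0 : 0 ≤ M := by linarith only [hM]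
  refine ⟨M ^ 6 * (4 * C ^ 5), ?_, ?_⟩
  · have h1 : 1 ≤ M ^ 6 := one_le_pow₀ hM
    have h2 : 1 ≤ C ^ 5 := one_le_pow₀ hC1
    nlinarith only [h1, h2]
  intro l0 l1 l2 sp sm yp ym dp dm r h0 h1 h2 h3 h4 h5 h6 h7 hr hdp hdm he
  have hr0 : 0 ≤ r := (norm_nonneg _).trans hdp
  have hl0 : l0 ≠ 0 := by
    rintro rfl
    simp only [norm_zero, mul_zero] at h7
    linarith only [h7]
  have hl0' : 0 < ‖l0‖ := norm_pos_iff.2 hl0
  have hinv : ‖l0‖⁻¹ ≤ M := by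
    rw [inv_le_iff_one_le_mul₀ hl0']
    exact h7
  have hinv0 : 0 ≤ ‖l0‖⁻¹ := inv_nonneg.2 hl0'.le
  have hM2 : M * M ≤ 2 * M ^ 4 := by
    have : 1 ≤ M ^ 2 := one_le_pow₀ hM
    linarith only [mul_nonneg (sq_nonneg (M : ℝ)) (sub_nonneg.2 this), this]
  have hdiv : ∀ z : ℂ, ‖z‖ ≤ M → ‖z / l0‖ ≤ 2 * M ^ 4 := by
    intro z hz
    rw [norm_div, div_eq_mul_inv]
    exact (mul_le_mul hz hinv hinv0 hM0).trans hM2
  have hdiv3 : ∀ z : ℂ, ‖z‖ ≤ M → ‖2 * z / l0 ^ 3‖ ≤ 2 * M ^ 4 := by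
    intro z hz
    rw [norm_div, norm_mul, norm_pow, div_eq_mul_inv, ← inv_pow]
    have : (‖l0‖⁻¹) ^ 3 ≤ M ^ 3 := pow_le_pow_left₀ hinv0 hinv 3
    have h2 : ‖(2 : ℂ)‖ = 2 := by simp
    rw [h2]
    calc 2 * ‖z‖ * (‖l0‖⁻¹) ^ 3 ≤ 2 * M * M ^ 3 := by (clear * - hz this hl0 hM; gcongr)
      _ = 2 * M ^ 4 := by ring
  have hone : (1 : ℝ) ≤ 2 * M ^ 4 := by
    have : 1 ≤ M ^ 4 := one_le_pow₀ hM
    linarith only [this]
  have hdp1 : ‖dp‖ ≤ 2 * M ^ 4 := (hdp.trans hr).trans hone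
  have hdm1 : ‖-dm‖ ≤ 2 * M ^ 4 := by rw [norm_neg]; exact (hdm.trans hr).trans hone
  obtain ⟨hRp, hWp, hc, hvp⟩ := hC (l1 / l0) (l2 / l0) (sp / l0) (2 * yp / l0 ^ 3) dp
    (hdiv _ h1) (hdiv _ h2) (hdiv _ h3) (hdiv3 _ h5) hdp1
  obtain ⟨hRm, hWm, _, hvm⟩ := hC (l1 / l0) (l2 / l0) (sm / l0) (2 * ym / l0 ^ 3) (-dm)
    (hdiv _ h1) (hdiv _ h2) (hdiv _ h4) (hdiv3 _ h6) hdm1
  have hkp := r2_key (l1 / l0) (l2 / l0) (sp / l0) (2 * yp / l0 ^ 3) dp
  have hkm := r2_key (l1 / l0) (l2 / l0) (sm / l0) (2 * ym / l0 ^ 3) (-dm)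
  have hA : ∀ s x : ℂ, Aq l0 l1 l2 s x ^ 6 = l0 ^ 6 *
      (1 + x * r2U (l1 / l0) (l2 / l0) (s / l0) x) ^ 3 := by
    intro s x
    have e1 : l0 ^ 2 * (1 + x * r2U (l1 / l0) (l2 / l0) (s / l0) x) = Aq l0 l1 l2 s x ^ 2 := by
      unfold r2U Aq
      field_simp
      ring
    calc Aq l0 l1 l2 s x ^ 6 = (Aq l0 l1 l2 s x ^ 2) ^ 3 := by ring
      _ = _ := by rw [← e1]; ring
  have hB : ∀ y x : ℂ, 2 * Bq l0 l1 l2 y x = l0 ^ 3 *
      (1 + x * r2W (l1 / l0) (l2 / l0) (2 * y / l0 ^ 3) x) := by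
    intro y x
    unfold r2W Bq
    field_simp
    ring
  have hw : dp ^ 2 * (1 + dp * r2W (l1 / l0) (l2 / l0) (2 * yp / l0 ^ 3) dp) =
      dm ^ 2 * (1 + (-dm) * r2W (l1 / l0) (l2 / l0) (2 * ym / l0 ^ 3) (-dm)) := by
    have e1 := hB yp dp
    have e2 := hB ym (-dm)
    have e3 : l0 ^ 3 ≠ 0 := pow_ne_zero _ hl0
    apply mul_left_cancel₀ e3
    linear_combination 2 * he - dp ^ 2 * e1 + dm ^ 2 * e2
  rw [mul_pow, mul_pow, hA, hA, hkp, hkm]
  generalize r2R (l1 / l0) (l2 / l0) (sp / l0) (2 * yp / l0 ^ 3) dp = Rp at *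
  generalize r2R (l1 / l0) (l2 / l0) (sm / l0) (2 * ym / l0 ^ 3) (-dm) = Rm at *
  generalize r2W (l1 / l0) (l2 / l0) (2 * yp / l0 ^ 3) dp = Wp at *
  generalize r2W (l1 / l0) (l2 / l0) (2 * ym / l0 ^ 3) (-dm) = Wm at *
  generalize r2c (l1 / l0) (l2 / l0) = c at *
  have key : dp ^ 6 * (l0 ^ 6 * ((1 + dp * Wp) ^ 3 * (1 + c * dp ^ 2) + dp ^ 3 * Rp)) -
      dm ^ 6 * (l0 ^ 6 * ((1 + -dm * Wm) ^ 3 * (1 + c * (-dm) ^ 2) + (-dm) ^ 3 * Rm)) =
      l0 ^ 6 * (-((dp ^ 2 * (1 + dp * Wp)) ^ 3 * c * (dp ^ 3 * Wp + dm ^ 3 * Wm)) +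
        dp ^ 9 * Rp + dm ^ 9 * Rm) := by
    have e1 : dp ^ 2 - dm ^ 2 = -(dp ^ 3 * Wp + dm ^ 3 * Wm) := by linear_combination hw
    have e2 : dm ^ 6 * (1 + -dm * Wm) ^ 3 = (dp ^ 2 * (1 + dp * Wp)) ^ 3 := by
      rw [hw]; ring
    linear_combination l0 ^ 6 * (-(1 + c * dm ^ 2)) * e2 +
      l0 ^ 6 * (dp ^ 2 * (1 + dp * Wp)) ^ 3 * c * e1
  rw [key, norm_mul, norm_pow]
  have b0 : ‖l0‖ ^ 6 ≤ M ^ 6 := pow_le_pow_left₀ (norm_nonneg _) h0 6
  have b1 : ‖(dp ^ 2 * (1 + dp * Wp)) ^ 3 * c * (dp ^ 3 * Wp + dm ^ 3 * Wm)‖ ≤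
      (r ^ 2 * C) ^ 3 * C * (r ^ 3 * C + r ^ 3 * C) := by
    have e1 : ‖dp ^ 3 * Wp + dm ^ 3 * Wm‖ ≤ r ^ 3 * C + r ^ 3 * C := by
      refine (norm_add_le _ _).trans (add_le_add ?_ ?_)
      · rw [norm_mul, norm_pow]
        (clear * - hdp hWp hr0; gcongr)
      · rw [norm_mul, norm_pow]
        (clear * - hdm hWm hr0; gcongr)
    rw [norm_mul, norm_mul, norm_pow, norm_mul, norm_pow]
    (clear * - hdp hvp hc hC1 e1; gcongr)
  have b2 : ‖dp ^ 9 * Rp‖ ≤ r ^ 9 * C := by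
    rw [norm_mul, norm_pow]
    (clear * - hdp hRp hr0; gcongr)
  have b3 : ‖dm ^ 9 * Rm‖ ≤ r ^ 9 * C := by
    rw [norm_mul, norm_pow]
    (clear * - hdm hRm hr0; gcongr)
  have b4 : ‖-((dp ^ 2 * (1 + dp * Wp)) ^ 3 * c * (dp ^ 3 * Wp + dm ^ 3 * Wm)) +
        dp ^ 9 * Rp + dm ^ 9 * Rm‖ ≤ 4 * C ^ 5 * r ^ 9 := by
    refine (norm_add_le _ _).trans ?_
    refine (add_le_add (norm_add_le _ _) le_rfl).trans ?_
    rw [norm_neg]
    have e1 : (r ^ 2 * C) ^ 3 * C * (r ^ 3 * C + r ^ 3 * C) = 2 * C ^ 5 * r ^ 9 := by ring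
    rw [e1] at b1
    have e2 : C ≤ C ^ 5 := le_self_pow₀ hC1 (by norm_num)
    have e3 : r ^ 9 * C ≤ C ^ 5 * r ^ 9 := by
      rw [mul_comm]
      (clear * - e2 hr0; gcongr)
    linarith only [b1, b2, b3, e3]
  calc ‖l0‖ ^ 6 * _ ≤ M ^ 6 * (4 * C ^ 5 * r ^ 9) := by (clear * - b0 b4 hM; gcongr)
    _ = M ^ 6 * (4 * C ^ 5) * r ^ 9 := by ring

end Vale.Agent.P097.Reg
end

section

/-!
# P097, regularity theorem, part R7: basic facts on complexified tables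
-/

namespace Vale.Agent.P097.Reg

open Complex Set
open scoped ComplexConjugate

theorem period_bounds {M β P : ℝ} (T : CTab M β P) :
    2 * Real.pi ≤ M * P ∧ P ≤ 2 * Real.pi * M := by
  have hM := T.M1
  have hpi := Real.pi_pos
  have hre : ∀ x : ℝ, (T.lam x).im = 0 := by
    intro x
    have h := T.clam x (T.rD x)
    rw [conj_ofReal] at h
    exact conj_eq_iff_im.1 h.symm
  have hnorm : ∀ x : ℝ, ‖T.lam x‖ = (T.lam x).re := by
    intro x
    have h : T.lam x = ((T.lam x).re : ℂ) := by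
      apply Complex.ext
      · simp
      · simp [hre x]
    rw [h, norm_real, Real.norm_of_nonneg (T.rpos x).le, ofReal_re]
  have hd : ∀ x : ℝ, HasDerivAt (fun x : ℝ => (T.X x).re) (T.lam x).re x := fun x =>
    (T.dX x (T.rD x)).real_of_complex
  obtain ⟨c, -, hc⟩ := exists_hasDerivAt_eq_slope (fun x : ℝ => (T.X x).re)
    (fun x => (T.lam x).re) (show (0 : ℝ) < 2 * Real.pi by positivity)
    (fun x _ => (hd x).continuousAt.continuousWithinAt) (fun x _ => hd x)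
  have hP : (T.X ((2 * Real.pi : ℝ) : ℂ)).re - (T.X ((0 : ℝ) : ℂ)).re = P := by
    have h := T.pX ((0 : ℝ) : ℂ) (T.rD 0)
    have e : ((2 * Real.pi : ℝ) : ℂ) = ((0 : ℝ) : ℂ) + 2 * Real.pi := by push_cast; ring
    rw [e, h, add_re, ofReal_re]
    ring
  rw [hP, sub_zero] at hc
  have hc' : P = (T.lam c).re * (2 * Real.pi) := by
    rw [hc]
    (clear * -; field_simp)
  have h1 := T.bl c (T.rD c)
  have h2 := T.b0 c (T.rD c)
  rw [hnorm] at h1 h2
  constructor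
  · rw [hc']
    linarith only [mul_nonneg (le_of_lt (sub_pos.2 hpi)) (sub_nonneg.2 h1)]
  · rw [hc']
    nlinarith only [hpi, h2]

/-- Lipschitz bound along a segment contained in the domain. -/
theorem lip_segment {M β P : ℝ} (T : CTab M β P) {φ ψ : ℂ} (h : segment ℝ φ ψ ⊆ T.D) :
    ‖T.X ψ - T.X φ‖ ≤ M * ‖ψ - φ‖ :=
  (convex_segment φ ψ).norm_image_sub_le_of_norm_hasDerivWithin_le
    (fun x hx => (T.dX x (h hx)).hasDerivWithinAt) (fun x hx => T.b0 x (h hx))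
    (left_mem_segment ℝ φ ψ) (right_mem_segment ℝ φ ψ)

theorem ball_subset {M β P : ℝ} (T : CTab M β P) {φ ψ : ℂ} (hφ : φ ∈ T.D)
    (hs : |(T.X φ).im| + M * ‖ψ - φ‖ < β) :
    ψ ∈ T.D ∧ ‖T.X ψ - T.X φ‖ ≤ M * ‖ψ - φ‖ := by
  have hM := T.M1
  set r : ℝ := M * ‖ψ - φ‖ with hr
  have hr0 : 0 ≤ r := by (clear * - hM; positivity)
  set K : Set ℂ := Metric.closedBall (T.X φ) r with hK
  have hKs : K ⊆ strip β := by
    intro ζ hζ
    have h1 : ‖ζ - T.X φ‖ ≤ r := by rwa [hK, Metric.mem_closedBall, dist_eq_norm] at hζ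
    have h2 : |(ζ - T.X φ).im| ≤ r := (abs_im_le_norm _).trans h1
    have h3 : |ζ.im| ≤ |(T.X φ).im| + |(ζ - T.X φ).im| := by
      have e : ζ.im = (T.X φ).im + (ζ - T.X φ).im := by simp
      calc |ζ.im| = |(T.X φ).im + (ζ - T.X φ).im| := by rw [← e]
        _ ≤ _ := abs_add_le _ _
    show |ζ.im| < β
    linarith only [hs, h2, h3]
  have hKc : IsCompact (T.z '' K) := (isCompact_closedBall _ _).image_of_continuousOn
    fun ζ hζ => (T.dz ζ (hKs hζ)).continuousAt.continuousWithinAt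
  have hzD : T.z '' K ⊆ T.D := by
    rintro _ ⟨ζ, hζ, rfl⟩
    exact T.zD ζ (hKs hζ)
  set γ : ℝ → ℂ := fun t => φ + t • (ψ - φ) with hγ
  have hγc : Continuous γ := by fun_prop
  have hγ0 : γ 0 = φ := by simp [hγ]
  have hγ1 : γ 1 = ψ := by simp [hγ]
  have hseg : ∀ t : ℝ, 0 ≤ t → (∀ u ∈ Icc 0 t, γ u ∈ T.D) → segment ℝ φ (γ t) ⊆ T.D := by
    intro t ht h x hx
    rw [segment_eq_image'] at hx
    obtain ⟨θ, hθ, rfl⟩ := hx
    have e : φ + θ • (γ t - φ) = γ (θ * t) := by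
      simp only [hγ, add_sub_cancel_left, smul_smul]
    show φ + θ • (γ t - φ) ∈ T.D
    rw [e]
    exact h _ ⟨mul_nonneg hθ.1 ht, mul_le_of_le_one_left ht hθ.2⟩
  have hmem : ∀ t : ℝ, 0 ≤ t → t ≤ 1 → (∀ u ∈ Icc 0 t, γ u ∈ T.D) → γ t ∈ T.z '' K := by
    intro t ht ht1 h
    have h1 := lip_segment T (hseg t ht h)
    have h2 : ‖γ t - φ‖ ≤ ‖ψ - φ‖ := by
      simp only [hγ, add_sub_cancel_left, norm_smul, Real.norm_of_nonneg ht]
      exact mul_le_of_le_one_left (norm_nonneg _) ht1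
    refine ⟨T.X (γ t), ?_, T.zX _ (h t ⟨ht, le_rfl⟩)⟩
    rw [hK, Metric.mem_closedBall, dist_eq_norm]
    exact h1.trans (mul_le_mul_of_nonneg_left h2 (by linarith only [hM]))
  set S : Set ℝ := {t | ∀ u ∈ Icc 0 t, γ u ∈ T.z '' K} with hS
  have hind : Icc (0 : ℝ) 1 ⊆ S := by
    apply IsClosed.Icc_subset_of_forall_exists_gt
    · apply IsSeqClosed.isClosed
      intro u t hu hut
      have ht : t ∈ Icc (0 : ℝ) 1 := isClosed_Icc.mem_of_tendsto hut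
        (Filter.Eventually.of_forall fun k => (hu k).2)
      refine ⟨?_, ht⟩
      intro x hx
      rcases hx.2.lt_or_eq with hlt | heq
      · obtain ⟨k, hk⟩ := (hut.eventually (lt_mem_nhds hlt)).exists
        exact (hu k).1 x ⟨hx.1, hk.le⟩
      · rw [heq]
        exact hKc.isClosed.mem_of_tendsto ((hγc.tendsto t).comp hut)
          (Filter.Eventually.of_forall fun k => (hu k).1 (u k) ⟨(hu k).2.1, le_rfl⟩)
    · intro x hx
      have hx0 : x = 0 := le_antisymm hx.2 hx.1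
      rw [hx0, hγ0]
      exact ⟨T.X φ, by rw [hK]; exact Metric.mem_closedBall_self hr0, T.zX φ hφ⟩
    · intro x hx y hy
      have hxD : γ x ∈ T.D := hzD (hx.1 x ⟨hx.2.1, le_rfl⟩)
      obtain ⟨δ, hδ, hball⟩ := Metric.isOpen_iff.1 (T.isOpen.preimage hγc) x hxD
      have hxy : x < y := hy
      set t := min (x + δ / 2) (min y 1) with ht
      have ht1 : x < t := by
        rw [ht]
        exact lt_min (by linarith only [hδ]) (lt_min hxy hx.2.2)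
      refine ⟨t, ?_, ht1, (min_le_right _ _).trans (min_le_left _ _)⟩
      have hD : ∀ u ∈ Icc 0 t, γ u ∈ T.D := by
        intro u hu
        rcases le_total u x with h | h
        · exact hzD (hx.1 u ⟨hu.1, h⟩)
        · apply hball
          rw [Metric.mem_ball, Real.dist_eq, abs_of_nonneg (by linarith only [h])]
          have h3 : t ≤ x + δ / 2 := min_le_left _ _
          linarith only [ht1, h3, hu.2]
      have htle : t ≤ 1 := (min_le_right _ _).trans (min_le_right _ _)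
      intro u hu
      exact hmem u hu.1 (hu.2.trans htle) fun v hv => hD v ⟨hv.1, hv.2.trans hu.2⟩
  have hfin : ∀ u ∈ Icc (0 : ℝ) 1, γ u ∈ T.D := fun u hu =>
    hzD (hind ⟨zero_le_one, le_rfl⟩ u hu)
  have hsg := hseg 1 zero_le_one hfin
  rw [hγ1] at hsg
  exact ⟨hsg (right_mem_segment ℝ φ ψ), lip_segment T hsg⟩

end Vale.Agent.P097.Reg
end

section

/-!
# P097, regularity theorem, R11: local expansions
-/

namespace Vale.Agent.P097.Reg

open Complex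
open scoped ComplexConjugate

/-- mean value inequality on a ball around the origin -/
theorem mvb {f f' : ℂ → ℂ} {r C : ℝ} (hf : ∀ x, ‖x‖ ≤ r → HasDerivAt f (f' x) x)
    (hb : ∀ x, ‖x‖ ≤ r → ‖f' x‖ ≤ C) {x y : ℂ} (hx : ‖x‖ ≤ r) (hy : ‖y‖ ≤ r) :
    ‖f y - f x‖ ≤ C * ‖y - x‖ := by
  refine (convex_closedBall (0 : ℂ) r).norm_image_sub_le_of_norm_hasDerivWithin_le
    (f := f) (f' := f') (C := C) (fun z hz => (hf z (by simpa only [Metric.mem_closedBall, dist_zero_right] using hz)).hasDerivWithinAt)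
    (fun z hz => ?_) ?_ ?_
  · exact hb z (by simpa only [Metric.mem_closedBall, dist_zero_right] using hz)
  · simpa only [Metric.mem_closedBall, dist_zero_right] using hx
  · simpa only [Metric.mem_closedBall, dist_zero_right] using hy

theorem mvi {f f' : ℂ → ℂ} {r C : ℝ} {n : ℕ} (hf : ∀ y, ‖y‖ ≤ r → HasDerivAt f (f' y) y)
    (hb : ∀ y, ‖y‖ ≤ r → ‖f' y‖ ≤ C * ‖y‖ ^ n) (hC : 0 ≤ C) (h0 : f 0 = 0) {x : ℂ}
    (hx : ‖x‖ ≤ r) : ‖f x‖ ≤ C * ‖x‖ ^ (n + 1) := by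
  have := mvb (f := f) (f' := f') (r := ‖x‖) (C := C * ‖x‖ ^ n)
    (fun y hy => hf y (hy.trans hx)) (fun y hy => (hb y (hy.trans hx)).trans (by (clear * - hy hC; gcongr)))
    (x := 0) (y := x) (by simp only [norm_zero, norm_nonneg]) le_rfl
  rw [h0, sub_zero, sub_zero] at this
  rw [pow_succ, ← mul_assoc]
  exact this

theorem cst_bound (Q : (Fin 6 → ℂ) → ℂ) (hQ : Continuous Q) (M : ℝ) :
    ∃ C : ℝ, 1 ≤ C ∧ ∀ v : Fin 6 → ℂ, (∀ i, ‖v i‖ ≤ M) → ‖Q v‖ ≤ C := by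
  obtain ⟨C, hC⟩ := (isCompact_closedBall (0 : Fin 6 → ℂ) (max M 0)).exists_bound_of_continuousOn
    hQ.continuousOn
  refine ⟨max 1 C, le_max_left _ _, fun v hv => (hC v ?_).trans (le_max_right _ _)⟩
  rw [mem_closedBall_zero_iff, pi_norm_le_iff_of_nonneg (le_max_right _ _)]
  exact fun i => (hv i).trans (le_max_left _ _)

section

variable {M β P : ℝ} (T : CTab M β P)

/-- the ball of radius `r` around `φ` lies in the domain -/
def Bin (φ : ℂ) (r : ℝ) : Prop := ∀ y : ℂ, ‖y‖ ≤ r → φ + y ∈ T.D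

variable {T}

theorem Bin.mono {φ : ℂ} {r r' : ℝ} (h : Bin T φ r) (hr : r' ≤ r) : Bin T φ r' :=
  fun y hy => h y (hy.trans hr)

theorem Bin.shift {φ y : ℂ} {r r' : ℝ} (h : Bin T φ r) (hr : r' + ‖y‖ ≤ r) : Bin T (φ + y) r' := by
  intro x hx
  rw [add_assoc]
  exact h _ ((norm_add_le _ _).trans (by linarith only [hr, hx]))

theorem Bin.mem {φ : ℂ} {r : ℝ} (h : Bin T φ r) (hr : 0 ≤ r) : φ ∈ T.D := by
  simpa using h 0 (by simpa only [norm_zero] using hr)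

theorem bin_of {φ : ℂ} {r : ℝ} (hφ : φ ∈ T.D) (hs : |(T.X φ).im| + M * r < β) : Bin T φ r := by
  intro y hy
  have hM : 0 ≤ M := by linarith [T.M1]
  refine (ball_subset T hφ (ψ := φ + y) ?_).1
  have : ‖φ + y - φ‖ ≤ r := by simpa only [add_sub_cancel_left] using hy
  linarith only [mul_nonneg (sub_nonneg.2 this) (sub_nonneg.2 hM), hs]

variable (T) in
theorem dlam1 {ψ : ℂ} (h : ψ ∈ T.D) : HasDerivAt T.lam (deriv T.lam ψ) ψ :=
  ((T.dlam ψ h).differentiableAt (T.isOpen.mem_nhds h)).hasDerivAt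

variable (T) in
theorem dlam2 {ψ : ℂ} (h : ψ ∈ T.D) : HasDerivAt (deriv T.lam) (deriv (deriv T.lam) ψ) ψ :=
  (((T.dlam.deriv T.isOpen) ψ h).differentiableAt (T.isOpen.mem_nhds h)).hasDerivAt

variable (T) in
theorem dlam3 {ψ : ℂ} (h : ψ ∈ T.D) :
    HasDerivAt (deriv (deriv T.lam)) (deriv (deriv (deriv T.lam)) ψ) ψ :=
  ((((T.dlam.deriv T.isOpen).deriv T.isOpen) ψ h).differentiableAt
    (T.isOpen.mem_nhds h)).hasDerivAt

variable (T) in
theorem dG1 {ψ : ℂ} (h : ψ ∈ T.D) : HasDerivAt T.G (deriv T.G ψ) ψ :=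
  ((T.dG ψ h).differentiableAt (T.isOpen.mem_nhds h)).hasDerivAt

variable (T) in
theorem dG2 {ψ : ℂ} (h : ψ ∈ T.D) : HasDerivAt (deriv T.G) (deriv (deriv T.G) ψ) ψ :=
  (((T.dG.deriv T.isOpen) ψ h).differentiableAt (T.isOpen.mem_nhds h)).hasDerivAt

theorem shiftD {f : ℂ → ℂ} {f' φ y : ℂ} (h : HasDerivAt f f' (φ + y)) :
    HasDerivAt (fun x => f (φ + x)) f' y := by
  simpa only using h.comp_const_add φ y

theorem lam_t0 {φ : ℂ} {r : ℝ} (h : Bin T φ r) {x : ℂ} (hx : ‖x‖ ≤ r) :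
    ‖T.lam (φ + x) - T.lam φ‖ ≤ M * ‖x‖ := by
  have hM : 0 ≤ M := by linarith only [T.M1]
  have := mvi (f := fun x => T.lam (φ + x) - T.lam φ) (f' := fun x => deriv T.lam (φ + x))
    (r := r) (C := M) (n := 0) (fun y hy => (shiftD (dlam1 T (h y hy))).sub_const _)
    (fun y hy => by simpa only [pow_zero, mul_one] using T.b1 _ (h y hy)) hM (by simp) hx
  simpa only [ge_iff_le, zero_add, pow_one] using this

theorem lam_t1 {φ : ℂ} {r : ℝ} (h : Bin T φ r) {x : ℂ} (hx : ‖x‖ ≤ r) :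
    ‖T.lam (φ + x) - T.lam φ - deriv T.lam φ * x‖ ≤ M * ‖x‖ ^ 2 := by
  have hM : 0 ≤ M := by linarith [T.M1]
  have a1 : ∀ y : ℂ, ‖y‖ ≤ r → ‖deriv T.lam (φ + y) - deriv T.lam φ‖ ≤ M * ‖y‖ ^ 1 := by
    intro y hy
    exact mvi (f := fun x => deriv T.lam (φ + x) - deriv T.lam φ)
      (f' := fun x => deriv (deriv T.lam) (φ + x))
      (r := r) (C := M) (n := 0) (fun y hy => (shiftD (dlam2 T (h y hy))).sub_const _)
      (fun y hy => by simpa only [pow_zero, mul_one] using T.b2 _ (h y hy)) hM (by simp) hy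
  exact mvi (f := fun x => T.lam (φ + x) - T.lam φ - deriv T.lam φ * x)
    (f' := fun x => deriv T.lam (φ + x) - deriv T.lam φ)
    (r := r) (C := M) (n := 1) (fun y hy => by
      refine (((shiftD (dlam1 T (h y hy))).sub_const _).sub
        ((hasDerivAt_id y).const_mul (deriv T.lam φ))).congr_deriv ?_
      simp)
    a1 hM (by simp) hx

theorem lam_t2 {φ : ℂ} {r : ℝ} (h : Bin T φ r) {x : ℂ} (hx : ‖x‖ ≤ r) :
    ‖T.lam (φ + x) - T.lam φ - deriv T.lam φ * x - deriv (deriv T.lam) φ / 2 * x ^ 2‖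
      ≤ M * ‖x‖ ^ 3 := by
  have hM : 0 ≤ M := by linarith [T.M1]
  have a1 : ∀ y : ℂ, ‖y‖ ≤ r → ‖deriv (deriv T.lam) (φ + y) - deriv (deriv T.lam) φ‖
      ≤ M * ‖y‖ ^ 1 := by
    intro y hy
    exact mvi (f := fun x => deriv (deriv T.lam) (φ + x) - deriv (deriv T.lam) φ)
      (f' := fun x => deriv (deriv (deriv T.lam)) (φ + x))
      (r := r) (C := M) (n := 0) (fun y hy => (shiftD (dlam3 T (h y hy))).sub_const _)
      (fun y hy => by simpa only [pow_zero, mul_one] using T.b3 _ (h y hy)) hM (by simp) hy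
  have a2 : ∀ y : ℂ, ‖y‖ ≤ r →
      ‖deriv T.lam (φ + y) - deriv T.lam φ - deriv (deriv T.lam) φ * y‖ ≤ M * ‖y‖ ^ 2 := by
    intro y hy
    exact mvi (f := fun x => deriv T.lam (φ + x) - deriv T.lam φ - deriv (deriv T.lam) φ * x)
      (f' := fun x => deriv (deriv T.lam) (φ + x) - deriv (deriv T.lam) φ)
      (r := r) (C := M) (n := 1) (fun y hy => by
        refine (((shiftD (dlam2 T (h y hy))).sub_const _).sub
          ((hasDerivAt_id y).const_mul (deriv (deriv T.lam) φ))).congr_deriv ?_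
        simp)
      a1 hM (by simp) hy
  exact mvi (f := fun x => T.lam (φ + x) - T.lam φ - deriv T.lam φ * x
      - deriv (deriv T.lam) φ / 2 * x ^ 2)
    (f' := fun x => deriv T.lam (φ + x) - deriv T.lam φ - deriv (deriv T.lam) φ * x)
    (r := r) (C := M) (n := 2) (fun y hy => by
      refine ((((shiftD (dlam1 T (h y hy))).sub_const _).sub
        ((hasDerivAt_id y).const_mul (deriv T.lam φ))).sub
        ((hasDerivAt_pow 2 y).const_mul (deriv (deriv T.lam) φ / 2))).congr_deriv ?_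
      simp only [mul_one, Nat.cast_ofNat]
      ring)
    a2 hM (by simp) hx

theorem X_t1 {φ : ℂ} {r : ℝ} (h : Bin T φ r) {x : ℂ} (hx : ‖x‖ ≤ r) :
    ‖T.X (φ + x) - T.X φ - T.lam φ * x‖ ≤ M * ‖x‖ ^ 2 := by
  have hM : 0 ≤ M := by linarith only [T.M1]
  exact mvi (f := fun x => T.X (φ + x) - T.X φ - T.lam φ * x)
    (f' := fun x => T.lam (φ + x) - T.lam φ)
    (r := r) (C := M) (n := 1) (fun y hy => by
      refine (((shiftD (T.dX _ (h y hy))).sub_const _).sub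
        ((hasDerivAt_id y).const_mul (T.lam φ))).congr_deriv ?_
      simp)
    (fun y hy => by simpa only [pow_one] using lam_t0 h hy) hM (by simp) hx

theorem X_t2 {φ : ℂ} {r : ℝ} (h : Bin T φ r) {x : ℂ} (hx : ‖x‖ ≤ r) :
    ‖T.X (φ + x) - T.X φ - T.lam φ * x - deriv T.lam φ / 2 * x ^ 2‖ ≤ M * ‖x‖ ^ 3 := by
  have hM : 0 ≤ M := by linarith only [T.M1]
  exact mvi (f := fun x => T.X (φ + x) - T.X φ - T.lam φ * x - deriv T.lam φ / 2 * x ^ 2)
    (f' := fun x => T.lam (φ + x) - T.lam φ - deriv T.lam φ * x)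
    (r := r) (C := M) (n := 2) (fun y hy => by
      refine ((((shiftD (T.dX _ (h y hy))).sub_const _).sub
        ((hasDerivAt_id y).const_mul (T.lam φ))).sub
        ((hasDerivAt_pow 2 y).const_mul (deriv T.lam φ / 2))).congr_deriv ?_
      simp only [mul_one, Nat.cast_ofNat]
      ring)
    (fun y hy => lam_t1 h hy) hM (by simp) hx

/-- midpoint rule -/
theorem X_mid {ψ : ℂ} {r : ℝ} (h : Bin T ψ r) {δ : ℂ} (hx : ‖δ‖ ≤ r) :
    ‖T.X (ψ + δ) - T.X (ψ - δ) - 2 * (δ * T.lam ψ)‖ ≤ 2 * M * ‖δ‖ ^ 3 := by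
  have h1 := X_t2 h hx
  have h2 := X_t2 h (x := -δ) (by rwa [norm_neg])
  rw [norm_neg] at h2
  have e : T.X (ψ + δ) - T.X (ψ - δ) - 2 * (δ * T.lam ψ)
      = (T.X (ψ + δ) - T.X ψ - T.lam ψ * δ - deriv T.lam ψ / 2 * δ ^ 2)
        - (T.X (ψ + -δ) - T.X ψ - T.lam ψ * (-δ) - deriv T.lam ψ / 2 * (-δ) ^ 2) := by
    rw [← sub_eq_add_neg]; ring
  rw [e]
  refine (norm_sub_le _ _).trans ?_
  linarith only [h1, h2]

theorem hasDerivAt_lp' {φ x : ℂ} (h : φ + x ∈ T.D) :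
    HasDerivAt (fun x => lp T.G φ x) (-(T.lam (φ + x) ^ 3 * sin x)) x := by
  have h1 := shiftD (dG1 T h)
  have h2 := shiftD (dG2 T h)
  have h3 := (h1.mul (Complex.hasDerivAt_cos x)).sub (h2.mul (Complex.hasDerivAt_sin x))
  refine h3.congr_deriv ?_
  rw [← T.rho _ h]
  ring

/-- the cubic remainder -/
theorem exists_s {φ : ℂ} {r : ℝ} (h : Bin T φ r) {x : ℂ} (hx : ‖x‖ ≤ r) :
    ∃ s : ℂ, ‖s‖ ≤ M ∧
      T.lam (φ + x) = Aq (T.lam φ) (deriv T.lam φ) (deriv (deriv T.lam) φ / 2) s x := by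
  have hM : 0 ≤ M := by linarith only [T.M1]
  by_cases h0 : x = 0
  · refine ⟨0, by simpa only [norm_zero] using hM, ?_⟩
    simp only [h0, add_zero, Aq, mul_zero, ne_eq, OfNat.ofNat_ne_zero, not_false_eq_true, zero_pow]
  · refine ⟨(T.lam (φ + x) - T.lam φ - deriv T.lam φ * x - deriv (deriv T.lam) φ / 2 * x ^ 2)
      / x ^ 3, ?_, ?_⟩
    · rw [norm_div, norm_pow, div_le_iff₀ (by positivity)]
      exact lam_t2 h hx
    · rw [Aq, div_mul_cancel₀ _ (pow_ne_zero 3 h0)]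
      ring

/-- the coefficient in the expansion -/
noncomputable def Rpol (v : Fin 6 → ℂ) : ℂ :=
  3 * v 0 ^ 2 * v 3 + 6 * v 0 * v 1 * v 2 + v 1 ^ 3
    + v 5 * (6 * v 0 * v 1 * v 3 + 3 * v 0 * v 2 ^ 2 + 3 * v 1 ^ 2 * v 2)
    + v 5 ^ 2 * (6 * v 0 * v 2 * v 3 + 3 * v 1 ^ 2 * v 3 + 3 * v 1 * v 2 ^ 2)
    + v 5 ^ 3 * (3 * v 0 * v 3 ^ 2 + 6 * v 1 * v 2 * v 3 + v 2 ^ 3)
    + v 5 ^ 4 * (3 * v 1 * v 3 ^ 2 + 3 * v 2 ^ 2 * v 3)
    + v 5 ^ 5 * (3 * v 2 * v 3 ^ 2) + v 5 ^ 6 * v 3 ^ 3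

noncomputable def Qpol (v : Fin 6 → ℂ) : ℂ :=
  Rpol v - (3 * v 0 ^ 2 * v 1 + (3 * v 0 ^ 2 * v 2 + 3 * v 0 * v 1 ^ 2) * v 5 + v 5 ^ 2 * Rpol v) / 6
    + v 4 * v 5 * Aq (v 0) (v 1) (v 2) (v 3) (v 5) ^ 3

theorem Qpol_eq (l0 l1 l2 s t x : ℂ) :
    Aq l0 l1 l2 s x ^ 3 * (x - x ^ 3 / 6 + t * x ^ 5)
      - (l0 ^ 3 * x + 3 * l0 ^ 2 * l1 * x ^ 2
        + ((3 * l0 ^ 2 * l2 + 3 * l0 * l1 ^ 2) - l0 ^ 3 / 6) * x ^ 3)
      = x ^ 4 * Qpol ![l0, l1, l2, s, t, x] := by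
  simp only [Aq, Qpol, Rpol, Matrix.cons_val]
  ring

theorem continuous_Qpol : Continuous Qpol := by
  unfold Qpol Rpol Aq
  (clear * -; fun_prop)

theorem exists_y (M0 : ℝ) : ∃ C : ℝ, 1 ≤ C ∧ ∀ {M β P : ℝ} (T : CTab M β P), M ≤ M0 →
    ∀ (φ : ℂ) (r : ℝ), Bin T φ r → r ≤ 1 → ∀ x : ℂ, ‖x‖ ≤ r → ∃ y : ℂ, ‖y‖ ≤ C ∧
      T.G φ - lp T.G φ x
        = x ^ 2 * Bq (T.lam φ) (deriv T.lam φ) (deriv (deriv T.lam) φ / 2) y x := by
  obtain ⟨C, hC1, hC⟩ := cst_bound Qpol continuous_Qpol (max M0 1)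
  refine ⟨C, hC1, ?_⟩
  intro M β P T hMM φ r hB hr x hx
  have hM1 := T.M1
  have hr0 : 0 ≤ r := le_trans (norm_nonneg _) hx
  set l0 := T.lam φ with hl0
  set l1 := deriv T.lam φ with hl1
  set l2 := deriv (deriv T.lam) φ / 2 with hl2
  have hφ : φ ∈ T.D := hB.mem hr0
  have hD : ∀ y : ℂ, ‖y‖ ≤ r → ‖T.lam (φ + y) ^ 3 * sin y - (l0 ^ 3 * y + 3 * l0 ^ 2 * l1 * y ^ 2
        + ((3 * l0 ^ 2 * l2 + 3 * l0 * l1 ^ 2) - l0 ^ 3 / 6) * y ^ 3)‖ ≤ C * ‖y‖ ^ 4 := by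
    intro y hy
    obtain ⟨s, hs, hse⟩ := exists_s hB hy
    obtain ⟨t, ht, hte⟩ : ∃ t : ℂ, ‖t‖ ≤ 1 ∧ sin y = y - y ^ 3 / 6 + t * y ^ 5 := by
      by_cases h0 : y = 0
      · exact ⟨0, by simp only [norm_zero, zero_le_one], by simp [h0]⟩
      · refine ⟨(sin y - (y - y ^ 3 / 6)) / y ^ 5, ?_, ?_⟩
        · rw [norm_div, norm_pow, div_le_one (by positivity)]
          refine (Complex.sin_bound (hy.trans hr)).trans ?_
          have : 0 ≤ ‖y‖ ^ 5 := by positivity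
          linarith only [this]
        · rw [div_mul_cancel₀ _ (pow_ne_zero 5 h0)]
          ring
    rw [hse, hte, Qpol_eq, norm_mul, norm_pow, mul_comm]
    refine mul_le_mul_of_nonneg_right (hC _ ?_) (by (clear * -; positivity))
    intro i
    have c0 := T.b0 _ hφ
    have c1 := T.b1 _ hφ
    have c2 := T.b2 _ hφ
    have c2' : ‖deriv (deriv T.lam) φ / 2‖ ≤ M := by
      rw [norm_div]; norm_num; linarith only [hM1, c2]
    have m1 : M ≤ max M0 1 := hMM.trans (le_max_left _ _)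
    have m2 : (1 : ℝ) ≤ max M0 1 := le_max_right _ _
    fin_cases i
    · exact c0.trans m1
    · exact c1.trans m1
    · exact c2'.trans m1
    · exact hs.trans m1
    · exact ht.trans m2
    · exact (hy.trans hr).trans m2
  have hI : ∀ y : ℂ, ‖y‖ ≤ r → ‖T.G φ - lp T.G φ y - (l0 ^ 3 * y ^ 2 / 2 + l0 ^ 2 * l1 * y ^ 3
        + ((3 * l0 ^ 2 * l2 + 3 * l0 * l1 ^ 2) - l0 ^ 3 / 6) / 4 * y ^ 4)‖ ≤ C * ‖y‖ ^ 5 := by
    intro y hy
    refine mvi (f := fun y => T.G φ - lp T.G φ y - (l0 ^ 3 * y ^ 2 / 2 + l0 ^ 2 * l1 * y ^ 3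
        + ((3 * l0 ^ 2 * l2 + 3 * l0 * l1 ^ 2) - l0 ^ 3 / 6) / 4 * y ^ 4))
      (f' := fun y => T.lam (φ + y) ^ 3 * sin y - (l0 ^ 3 * y + 3 * l0 ^ 2 * l1 * y ^ 2
        + ((3 * l0 ^ 2 * l2 + 3 * l0 * l1 ^ 2) - l0 ^ 3 / 6) * y ^ 3))
      (r := r) (C := C) (n := 4) (fun y hy => ?_) hD (by linarith only [hC1]) ?_ hy
    · have h1 := (hasDerivAt_lp' (hB y hy)).const_sub (T.G φ)
      have h2 := (((hasDerivAt_pow 2 y).const_mul (l0 ^ 3)).div_const 2)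
      have h3 := (hasDerivAt_pow 3 y).const_mul (l0 ^ 2 * l1)
      have h4 := (hasDerivAt_pow 4 y).const_mul
        (((3 * l0 ^ 2 * l2 + 3 * l0 * l1 ^ 2) - l0 ^ 3 / 6) / 4)
      refine (h1.sub ((h2.add h3).add h4)).congr_deriv ?_
      simp only [Nat.cast_ofNat]
      ring
    · simp only [lp, add_zero, cos_zero, mul_one, sin_zero, mul_zero, sub_zero, sub_self, ne_eq, OfNat.ofNat_ne_zero, not_false_eq_true, zero_pow, zero_div]
  by_cases h0 : x = 0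
  · refine ⟨0, by simpa only [norm_zero] using (by linarith : (0 : ℝ) ≤ C), ?_⟩
    simp [h0, lp]
  · refine ⟨(T.G φ - lp T.G φ x - (l0 ^ 3 * x ^ 2 / 2 + l0 ^ 2 * l1 * x ^ 3
        + ((3 * l0 ^ 2 * l2 + 3 * l0 * l1 ^ 2) - l0 ^ 3 / 6) / 4 * x ^ 4)) / x ^ 5, ?_, ?_⟩
    · rw [norm_div, norm_pow, div_le_iff₀ (by positivity)]
      exact hI x hx
    · rw [Bq]
      field_simp
      ring

end

end Vale.Agent.P097.Reg
end

section

namespace Vale.Agent.P097.Cusp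

open Complex Filter Topology

/-- Holomorphic dependence of the fixed point of a contraction on one complex parameter. -/
theorem holFix {E : Type*} [NormedAddCommGroup E] [NormedSpace ℂ E] [CompleteSpace E]
    {U : Set ℂ} (hU : IsOpen U) (R : ℝ) (hR : 0 ≤ R) (g : ℂ → E → E) (K : ℝ) (hK0 : 0 ≤ K)
    (hK : K < 1)
    (hmaps : ∀ z ∈ U, ∀ u, ‖u‖ ≤ R → ‖g z u‖ ≤ R)
    (hlip : ∀ z ∈ U, ∀ u v, ‖u‖ ≤ R → ‖v‖ ≤ R → ‖g z u - g z v‖ ≤ K * ‖u - v‖)
    (hhol : ∀ u : ℂ → E, DifferentiableOn ℂ u U → (∀ z ∈ U, ‖u z‖ ≤ R) →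
      DifferentiableOn ℂ (fun z => g z (u z)) U) :
    ∃ u : ℂ → E, DifferentiableOn ℂ u U ∧
      ∀ z ∈ U, ‖u z‖ ≤ R ∧ g z (u z) = u z ∧ ∀ v, ‖v‖ ≤ R → g z v = v → v = u z := by
  classical
  set s : ℕ → ℂ → E := fun n => Nat.rec (fun _ => 0) (fun _ f z => g z (f z)) n with hs
  have hs0 : ∀ z, s 0 z = 0 := fun z => rfl
  have hsS : ∀ n z, s (n + 1) z = g z (s n z) := fun n z => rfl
  have hb : ∀ n, ∀ z ∈ U, ‖s n z‖ ≤ R := by
    intro n
    induction n with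
    | zero => intro z _; simpa [hs0] using hR
    | succ n ih => intro z hz; rw [hsS]; exact hmaps z hz _ (ih z hz)
  have hd : ∀ n, ∀ z ∈ U, ‖s (n + 1) z - s n z‖ ≤ R * K ^ n := by
    intro n
    induction n with
    | zero =>
      intro z hz
      have h1 := hb 1 z hz
      simpa [hs0] using h1
    | succ n ih =>
      intro z hz
      rw [hsS (n + 1), hsS n]
      calc ‖g z (s (n + 1) z) - g z (s n z)‖ ≤ K * ‖s (n + 1) z - s n z‖ :=
            hlip z hz _ _ (hb (n + 1) z hz) (hb n z hz)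
        _ ≤ K * (R * K ^ n) := by gcongr; exact ih z hz
        _ = R * K ^ (n + 1) := by ring
  have hcau : ∀ z ∈ U, CauchySeq (fun n => s n z) := by
    intro z hz
    refine cauchySeq_of_le_geometric K R hK (fun n => ?_)
    rw [dist_eq_norm, norm_sub_rev]
    exact hd n z hz
  have hlim : ∀ z ∈ U, ∃ v, Tendsto (fun n => s n z) atTop (𝓝 v) := fun z hz =>
    cauchySeq_tendsto_of_complete (hcau z hz)
  choose! u hu using hlim
  have hdist : ∀ n, ∀ z ∈ U, dist (s n z) (u z) ≤ R * K ^ n / (1 - K) := by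
    intro n z hz
    refine dist_le_of_le_geometric_of_tendsto K R hK (fun n => ?_) (hu z hz) n
    rw [dist_eq_norm, norm_sub_rev]
    exact hd n z hz
  have hKn : Tendsto (fun n : ℕ => R * K ^ n / (1 - K)) atTop (𝓝 0) := by
    have h1 := tendsto_pow_atTop_nhds_zero_of_lt_one hK0 hK
    have h2 := (h1.const_mul R).div_const (1 - K)
    simpa using h2
  have hunif : TendstoUniformlyOn s u atTop U := by
    rw [Metric.tendstoUniformlyOn_iff]
    intro ε hε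
    have h1 := hKn.eventually (gt_mem_nhds hε)
    filter_upwards [h1] with n hn z hz
    rw [dist_comm]
    exact lt_of_le_of_lt (hdist n z hz) hn
  have hsd : ∀ n, DifferentiableOn ℂ (s n) U := by
    intro n
    induction n with
    | zero => exact differentiableOn_const (0 : E)
    | succ n ih => exact hhol _ ih (hb n)
  refine ⟨u, ?_, ?_⟩
  · exact hunif.tendstoLocallyUniformlyOn.differentiableOn (Eventually.of_forall hsd) hU
  · intro z hz
    have hun : ‖u z‖ ≤ R := by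
      refine le_of_tendsto (hu z hz).norm (Eventually.of_forall (fun n => hb n z hz))
    have hfix : g z (u z) = u z := by
      have h1 : Tendsto (fun n => s (n + 1) z) atTop (𝓝 (u z)) :=
        (hu z hz).comp (tendsto_add_atTop_nat 1)
      have h2 : Tendsto (fun n => g z (s n z)) atTop (𝓝 (g z (u z))) := by
        rw [tendsto_iff_norm_sub_tendsto_zero]
        have h3 : Tendsto (fun n => K * ‖s n z - u z‖) atTop (𝓝 0) := by
          have := (tendsto_iff_norm_sub_tendsto_zero.1 (hu z hz)).const_mul K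
          simpa using this
        exact squeeze_zero (fun n => norm_nonneg _)
          (fun n => hlip z hz _ _ (hb n z hz) hun) h3
      exact tendsto_nhds_unique h2 h1
    refine ⟨hun, hfix, ?_⟩
    intro v hv hgv
    have h1 : ‖v - u z‖ ≤ K * ‖v - u z‖ := by
      calc ‖v - u z‖ = ‖g z v - g z (u z)‖ := by rw [hgv, hfix]
        _ ≤ K * ‖v - u z‖ := hlip z hz _ _ hv hun
    have h2 : ‖v - u z‖ ≤ 0 := by (by_contra nlg; linarith only [nlg, mul_nonneg (le_of_lt (sub_pos.2 hK)) (sub_nonneg.2 h1), mul_nonneg (sub_nonneg.2 hK0) (sub_nonneg.2 h1), mul_pos (sub_pos.2 (not_le.1 nlg)) (sub_pos.2 hK)])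
    have h3 := norm_le_zero_iff.1 h2
    exact sub_eq_zero.1 h3

end Vale.Agent.P097.Cusp
end

section

/-!
# P097, regularity theorem, R11: one step in the complex domain
-/

namespace Vale.Agent.P097.Reg

open Complex
open scoped ComplexConjugate

section

variable {M β P : ℝ} {T : CTab M β P}

variable (T) in
/-- remainder -/
noncomputable def W3 (φ x : ℂ) : ℂ := T.G φ - lp T.G φ x - T.lam φ ^ 3 * x ^ 2 / 2

theorem W3_lip {φ : ℂ} {r : ℝ} (h : Bin T φ r) (hr : r ≤ 1) {x y : ℂ} (hx : ‖x‖ ≤ r)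
    (hy : ‖y‖ ≤ r) : ‖W3 T φ y - W3 T φ x‖ ≤ 4 * M ^ 3 * r ^ 2 * ‖y - x‖ := by
  have hM1 := T.M1
  have hr0 : 0 ≤ r := le_trans (norm_nonneg _) hx
  refine mvb (f := fun x => W3 T φ x) (f' := fun x => T.lam (φ + x) ^ 3 * sin x - T.lam φ ^ 3 * x)
    (r := r) (fun z hz => ?_) (fun z hz => ?_) hx hy
  · have h1 := (hasDerivAt_lp' (h z hz)).const_sub (T.G φ)
    have h2 := (((hasDerivAt_pow 2 z).const_mul (T.lam φ ^ 3)).div_const 2)
    refine (h1.sub h2).congr_deriv ?_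
    simp only [Nat.cast_ofNat]
    ring
  · have b1 := lam_t0 h hz
    have b2 := T.b0 _ (h z hz)
    have b3 := T.b0 _ (h.mem hr0)
    have b4 : ‖sin z - z‖ ≤ ‖z‖ ^ 3 / 4 := by
      have h1 := Complex.sin_bound (hz.trans hr)
      have e : sin z - z = (sin z - (z - z ^ 3 / 6)) + (-(z ^ 3 / 6)) := by ring
      rw [e]
      refine (norm_add_le _ _).trans ?_
      have h2 : ‖-(z ^ 3 / 6)‖ = ‖z‖ ^ 3 / 6 := by
        rw [norm_neg, norm_div, norm_pow]; norm_num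
      rw [h2]
      have h3 : ‖z‖ ^ 5 ≤ ‖z‖ ^ 3 := pow_le_pow_of_le_one (norm_nonneg _) (hz.trans hr)
        (by norm_num)
      have := pow_nonneg (norm_nonneg z) 3
      linarith only [this, h3, h1]
    set a := T.lam (φ + z)
    set b := T.lam φ
    have e : a ^ 3 * sin z - b ^ 3 * z
        = (a - b) * (a ^ 2 + a * b + b ^ 2) * z + a ^ 3 * (sin z - z) := by ring
    rw [e]
    have c1 : ‖a ^ 2 + a * b + b ^ 2‖ ≤ 3 * M ^ 2 := by
      calc ‖a ^ 2 + a * b + b ^ 2‖ ≤ ‖a ^ 2‖ + ‖a * b‖ + ‖b ^ 2‖ := norm_add₃_le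
        _ = ‖a‖ ^ 2 + ‖a‖ * ‖b‖ + ‖b‖ ^ 2 := by rw [norm_pow, norm_mul, norm_pow]
        _ ≤ M ^ 2 + M * M + M ^ 2 := by (clear * - b2 b3 hM1; gcongr)
        _ = 3 * M ^ 2 := by ring
    have hz0 := norm_nonneg z
    have hz1 := hz.trans hr
    calc ‖(a - b) * (a ^ 2 + a * b + b ^ 2) * z + a ^ 3 * (sin z - z)‖
        ≤ ‖(a - b) * (a ^ 2 + a * b + b ^ 2) * z‖ + ‖a ^ 3 * (sin z - z)‖ := norm_add_le _ _
      _ = ‖a - b‖ * ‖a ^ 2 + a * b + b ^ 2‖ * ‖z‖ + ‖a‖ ^ 3 * ‖sin z - z‖ := by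
          simp only [norm_mul, norm_pow]
      _ ≤ (M * ‖z‖) * (3 * M ^ 2) * ‖z‖ + M ^ 3 * (‖z‖ ^ 3 / 4) := by gcongr
      _ = (3 + ‖z‖ / 4) * M ^ 3 * ‖z‖ ^ 2 := by ring
      _ ≤ 4 * M ^ 3 * r ^ 2 := by
          gcongr
          linarith only [hr, hz]

variable (T) in
/-- admissible states -/
def Ad (φ δ : ℂ) : Prop :=
  φ ∈ T.D ∧ δ ≠ 0 ∧ |(T.X φ).im| + 2 * M * ‖δ‖ < β ∧ 400 * M ^ 6 * ‖δ‖ ≤ 1

variable (T) in
/-- the map whose fixed point gives the next half gap -/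
noncomputable def gm (φ δ u : ℂ) : ℂ :=
  u - ((T.G φ - lp T.G φ (δ * (1 + u))) - (T.G φ - lp T.G φ (-δ))) / (T.lam φ ^ 3 * δ ^ 2)

variable (T) in
noncomputable def rm (φ δ u : ℂ) : ℂ :=
  (W3 T φ (δ * (1 + u)) - W3 T φ (-δ)) / (T.lam φ ^ 3 * δ ^ 2)

theorem lam_ne {ψ : ℂ} (h : ψ ∈ T.D) : T.lam ψ ≠ 0 := by
  intro h0
  have := T.bl _ h
  rw [h0] at this
  simp only [norm_zero, mul_zero] at this
  linarith only [this]

theorem inv_lam {ψ : ℂ} (h : ψ ∈ T.D) : ‖(T.lam ψ)⁻¹‖ ≤ M := by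
  have h0 : 0 < ‖T.lam ψ‖ := norm_pos_iff.2 (lam_ne h)
  rw [norm_inv, inv_eq_one_div, div_le_iff₀ h0]
  exact T.bl _ h

theorem Ad.bin {φ δ : ℂ} (h : Ad T φ δ) : Bin T φ (2 * ‖δ‖) :=
  bin_of h.1 (by have := h.2.2.1; linarith only [this])

theorem Ad.small {φ δ : ℂ} (h : Ad T φ δ) : 400 * ‖δ‖ ≤ 1 := by
  have h1 : 1 ≤ M ^ 6 := one_le_pow₀ T.M1
  have := h.2.2.2
  nlinarith [norm_nonneg δ]

theorem bu {u : ℂ} (hu : ‖u‖ ≤ 1 / 4) : ‖1 + u‖ ≤ 5 / 4 := by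
  have := norm_add_le (1 : ℂ) u
  simp only [norm_one] at this; linarith only [this, hu]

theorem bdu {δ u : ℂ} (hu : ‖u‖ ≤ 1 / 4) : ‖δ * (1 + u)‖ ≤ (5 / 4) * ‖δ‖ := by
  rw [norm_mul, mul_comm]
  have := bu hu
  gcongr

theorem rm_bound {φ δ : ℂ} (h : Ad T φ δ) {u v : ℂ} (hu : ‖u‖ ≤ 1 / 4) (hv : ‖v‖ ≤ 1 / 4) :
    ‖rm T φ δ u‖ ≤ 15 * M ^ 6 * ‖δ‖ ∧ ‖rm T φ δ u - rm T φ δ v‖ ≤ 7 * M ^ 6 * ‖δ‖ * ‖u - v‖ := by
  have hM1 := T.M1
  have hd : 0 < ‖δ‖ := norm_pos_iff.2 h.2.1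
  have hs := h.small
  have hB : Bin T φ ((5 / 4) * ‖δ‖) := h.bin.mono (by linarith only [hd])
  have hden : ‖(T.lam φ ^ 3 * δ ^ 2)⁻¹‖ ≤ M ^ 3 / ‖δ‖ ^ 2 := by
    rw [mul_inv, norm_mul, ← inv_pow, ← inv_pow, norm_pow, norm_pow, norm_inv δ, inv_pow,
      div_eq_mul_inv]
    have := inv_lam h.1
    gcongr
  have key : ∀ x y : ℂ, ‖x‖ ≤ (5 / 4) * ‖δ‖ → ‖y‖ ≤ (5 / 4) * ‖δ‖ →
      ‖(W3 T φ y - W3 T φ x) / (T.lam φ ^ 3 * δ ^ 2)‖ ≤ (25 / 4) * M ^ 6 * ‖y - x‖ := by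
    intro x y hx hy
    have h1 := W3_lip hB (by linarith only [hs]) hx hy
    rw [div_eq_mul_inv, norm_mul]
    calc ‖W3 T φ y - W3 T φ x‖ * ‖(T.lam φ ^ 3 * δ ^ 2)⁻¹‖
        ≤ (4 * M ^ 3 * ((5 / 4) * ‖δ‖) ^ 2 * ‖y - x‖) * (M ^ 3 / ‖δ‖ ^ 2) := by gcongr
      _ = (25 / 4) * M ^ 6 * ‖y - x‖ := by field_simp; ring
  constructor
  · refine (key _ _ (by rw [norm_neg]; linarith only [hd]) (bdu hu)).trans ?_
    have e1 : δ * (1 + u) - -δ = δ * (2 + u) := by ring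
    have e2 : ‖δ * (1 + u) - -δ‖ ≤ (9 / 4) * ‖δ‖ := by
      rw [e1, norm_mul, mul_comm]
      have : ‖2 + u‖ ≤ 9 / 4 := by
        have := norm_add_le (2 : ℂ) u
        simp only [norm_ofNat] at this; linarith only [this, hu]
      (clear * - this hd; gcongr)
    calc (25 / 4) * M ^ 6 * ‖δ * (1 + u) - -δ‖ ≤ (25 / 4) * M ^ 6 * ((9 / 4) * ‖δ‖) := by (clear * - e2 hM1; gcongr)
      _ = (225 / 16) * (M ^ 6 * ‖δ‖) := by ring
      _ ≤ 15 * M ^ 6 * ‖δ‖ := by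
          have : 0 ≤ M ^ 6 * ‖δ‖ := by positivity
          linarith only [this]
  · have e0 : rm T φ δ u - rm T φ δ v
        = (W3 T φ (δ * (1 + u)) - W3 T φ (δ * (1 + v))) / (T.lam φ ^ 3 * δ ^ 2) := by
      rw [rm, rm]; ring
    rw [e0]
    refine (key _ _ (bdu hv) (bdu hu)).trans ?_
    have e1 : δ * (1 + u) - δ * (1 + v) = δ * (u - v) := by ring
    rw [e1, norm_mul]
    have : 0 ≤ M ^ 6 * ‖δ‖ * ‖u - v‖ := by (clear * - hM1 hd; positivity)
    linarith only [this]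

theorem gm_eq {φ δ : ℂ} (h : Ad T φ δ) (u : ℂ) :
    gm T φ δ u = -(u ^ 2 / 2) - rm T φ δ u := by
  have h1 := lam_ne h.1
  have h2 := h.2.1
  simp only [gm, rm, W3]
  field_simp
  ring

theorem gm_maps {φ δ : ℂ} (h : Ad T φ δ) {u : ℂ} (hu : ‖u‖ ≤ 1 / 4) : ‖gm T φ δ u‖ ≤ 1 / 4 := by
  have hr := (rm_bound h hu hu).1
  rw [gm_eq h]
  have a1 : ‖-(u ^ 2 / 2)‖ ≤ 1 / 32 := by
    rw [norm_neg, norm_div, norm_pow]
    have : ‖(2 : ℂ)‖ = 2 := by norm_num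
    rw [this]
    linarith [mul_nonneg (sub_nonneg.2 hu) (sub_nonneg.2 (norm_nonneg u)), mul_nonneg (sub_nonneg.2 hu) (sub_nonneg.2 hu)]
  have := norm_sub_le (-(u ^ 2 / 2)) (rm T φ δ u)
  have := h.2.2.2
  linarith

theorem gm_lip {φ δ : ℂ} (h : Ad T φ δ) {u v : ℂ} (hu : ‖u‖ ≤ 1 / 4) (hv : ‖v‖ ≤ 1 / 4) :
    ‖gm T φ δ u - gm T φ δ v‖ ≤ 1 / 2 * ‖u - v‖ := by
  have hr := (rm_bound h hu hv).2
  rw [gm_eq h, gm_eq h]
  have e : (-(u ^ 2 / 2) - rm T φ δ u) - (-(v ^ 2 / 2) - rm T φ δ v)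
      = (-((u + v) / 2)) * (u - v) - (rm T φ δ u - rm T φ δ v) := by ring
  rw [e]
  have a1 : ‖-((u + v) / 2)‖ ≤ 1 / 4 := by
    rw [norm_neg, norm_div]
    have : ‖(2 : ℂ)‖ = 2 := by norm_num
    rw [this]
    have := norm_add_le u v
    linarith only [hu, hv, this]
  refine (norm_sub_le _ _).trans ?_
  rw [norm_mul]
  have h3 := h.2.2.2
  have hn := norm_nonneg (u - v)
  nlinarith only [hr, hn, a1, h3]

theorem gm_fixed_iff {φ δ : ℂ} (h : Ad T φ δ) (u : ℂ) :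
    gm T φ δ u = u ↔ lp T.G φ (δ * (1 + u)) = lp T.G φ (-δ) := by
  have hne : T.lam φ ^ 3 * δ ^ 2 ≠ 0 := mul_ne_zero (pow_ne_zero _ (lam_ne h.1))
    (pow_ne_zero _ h.2.1)
  simp only [gm]
  rw [sub_eq_self, div_eq_zero_iff]
  constructor
  · rintro (h1 | h1)
    · linear_combination -h1
    · exact absurd h1 hne
  · intro h1
    left
    linear_combination -h1

theorem step_family {U : Set ℂ} (hU : IsOpen U) {φ δ : ℂ → ℂ} (hφ : DifferentiableOn ℂ φ U)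
    (hδ : DifferentiableOn ℂ δ U) (hA : ∀ z ∈ U, Ad T (φ z) (δ z)) :
    ∃ u : ℂ → ℂ, DifferentiableOn ℂ u U ∧ ∀ z ∈ U, ‖u z‖ ≤ 1 / 4 ∧
      lp T.G (φ z) (δ z * (1 + u z)) = lp T.G (φ z) (-δ z) ∧
      ∀ v, ‖v‖ ≤ 1 / 4 → lp T.G (φ z) (δ z * (1 + v)) = lp T.G (φ z) (-δ z) → v = u z := by
  obtain ⟨u, hu1, hu2⟩ := Cusp.holFix (E := ℂ) hU (1 / 4) (by norm_num)
    (fun z u => gm T (φ z) (δ z) u) (1 / 2) (by norm_num) (by norm_num)
    (fun z hz u hu => gm_maps (hA z hz) hu)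
    (fun z hz u v hu hv => gm_lip (hA z hz) hu hv)
    (by
      intro u hu hub
      have hne : ∀ z ∈ U, T.lam (φ z) ^ 3 * (δ z) ^ 2 ≠ 0 := fun z hz =>
        mul_ne_zero (pow_ne_zero _ (lam_ne (hA z hz).1)) (pow_ne_zero _ (hA z hz).2.1)
      have c0 : Set.MapsTo φ U T.D := fun z hz => (hA z hz).1
      have cW : ∀ x : ℂ → ℂ, DifferentiableOn ℂ x U → (∀ z ∈ U, ‖x z‖ ≤ 2 * ‖δ z‖) →
          DifferentiableOn ℂ (fun z => T.G (φ z) - lp T.G (φ z) (x z)) U := by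
        intro x hx hxb
        have c1 : Set.MapsTo (fun z => φ z + x z) U T.D := fun z hz =>
          (hA z hz).bin _ (hxb z hz)
        simp only [lp]
        have d1 : DifferentiableOn ℂ (fun z => T.G (φ z)) U := T.dG.comp hφ c0
        have d2 : DifferentiableOn ℂ (fun z => T.G (φ z + x z)) U := T.dG.comp (hφ.add hx) c1
        have d3 : DifferentiableOn ℂ (fun z => deriv T.G (φ z + x z)) U :=
          (T.dG.deriv T.isOpen).comp (hφ.add hx) c1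
        have d4 : DifferentiableOn ℂ (fun z => cos (x z)) U :=
          Complex.differentiable_cos.comp_differentiableOn hx
        have d5 : DifferentiableOn ℂ (fun z => sin (x z)) U :=
          Complex.differentiable_sin.comp_differentiableOn hx
        exact d1.sub ((d2.mul d4).sub (d3.mul d5))
      have cr : DifferentiableOn ℂ (fun z => T.lam (φ z)) U := T.dlam.comp hφ c0
      simp only [gm]
      refine hu.sub (((cW _ (hδ.mul (hu.const_add 1)) ?_).sub (cW _ hδ.neg ?_)).div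
        ((cr.pow 3).mul (hδ.pow 2)) hne)
      · intro z hz
        refine (bdu (hub z hz)).trans ?_
        have := norm_nonneg (δ z)
        linarith only [this]
      · intro z hz
        simp only [Pi.neg_apply, norm_neg]
        have := norm_nonneg (δ z)
        linarith)
  refine ⟨u, hu1, fun z hz => ?_⟩
  obtain ⟨a1, a2, a3⟩ := hu2 z hz
  refine ⟨a1, (gm_fixed_iff (hA z hz) _).1 a2, fun v hv hv2 => ?_⟩
  exact a3 v hv ((gm_fixed_iff (hA z hz) _).2 hv2)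

variable (T) in
open Classical in
/-- the relative increment of the half gap -/
noncomputable def nu (φ δ : ℂ) : ℂ :=
  if hex : ∃ u : ℂ, ‖u‖ ≤ 1 / 4 ∧ lp T.G φ (δ * (1 + u)) = lp T.G φ (-δ)
  then Classical.choose hex else 0

theorem exists_nu {φ δ : ℂ} (h : Ad T φ δ) :
    ∃ u : ℂ, ‖u‖ ≤ 1 / 4 ∧ lp T.G φ (δ * (1 + u)) = lp T.G φ (-δ) ∧
      ∀ v, ‖v‖ ≤ 1 / 4 → lp T.G φ (δ * (1 + v)) = lp T.G φ (-δ) → v = u := by
  obtain ⟨u, _, hu⟩ := step_family (T := T) (U := Set.univ) isOpen_univ (φ := fun _ => φ)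
    (δ := fun _ => δ) (differentiableOn_const _) (differentiableOn_const _) (fun _ _ => h)
  exact ⟨u 0, hu 0 (Set.mem_univ _)⟩

theorem nu_spec {φ δ : ℂ} (h : Ad T φ δ) :
    ‖nu T φ δ‖ ≤ 1 / 4 ∧ lp T.G φ (δ * (1 + nu T φ δ)) = lp T.G φ (-δ) := by
  obtain ⟨u, hu1, hu2, _⟩ := exists_nu h
  have hex : ∃ u : ℂ, ‖u‖ ≤ 1 / 4 ∧ lp T.G φ (δ * (1 + u)) = lp T.G φ (-δ) := ⟨u, hu1, hu2⟩
  have e : nu T φ δ = Classical.choose hex := by rw [nu, dif_pos hex]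
  have hs := Classical.choose_spec hex
  rw [e]
  exact hs

theorem nu_unique {φ δ : ℂ} (h : Ad T φ δ) {v : ℂ} (hv : ‖v‖ ≤ 1 / 4)
    (hv2 : lp T.G φ (δ * (1 + v)) = lp T.G φ (-δ)) : v = nu T φ δ := by
  obtain ⟨u, _, _, hu3⟩ := exists_nu h
  have h1 := nu_spec h
  rw [hu3 v hv hv2, ← hu3 (nu T φ δ) h1.1 h1.2]

theorem nu_diff {U : Set ℂ} (hU : IsOpen U) {φ δ : ℂ → ℂ} (hφ : DifferentiableOn ℂ φ U)
    (hδ : DifferentiableOn ℂ δ U) (hA : ∀ z ∈ U, Ad T (φ z) (δ z)) :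
    DifferentiableOn ℂ (fun z => nu T (φ z) (δ z)) U := by
  obtain ⟨u, hu1, hu2⟩ := step_family hU hφ hδ hA
  refine hu1.congr (fun z hz => ?_)
  obtain ⟨a1, a2, a3⟩ := hu2 z hz
  exact (nu_unique (hA z hz) a1 a2).symm

theorem nu_bound {φ δ : ℂ} (h : Ad T φ δ) : ‖nu T φ δ‖ ≤ 20 * M ^ 6 * ‖δ‖ := by
  obtain ⟨h1, h2⟩ := nu_spec h
  have h3 := (gm_fixed_iff h _).2 h2
  rw [gm_eq h] at h3
  have h4 := (rm_bound h h1 h1).1
  have h5 : ‖nu T φ δ‖ ≤ ‖nu T φ δ‖ ^ 2 / 2 + ‖rm T φ δ (nu T φ δ)‖ := by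
    conv_lhs => rw [← h3]
    refine (norm_sub_le _ _).trans ?_
    rw [norm_neg, norm_div, norm_pow]
    norm_num
  have h6 : 0 ≤ M ^ 6 * ‖δ‖ := by have := T.M1; positivity
  nlinarith only [h4, h5, h6, h1]

end

end Vale.Agent.P097.Reg
end

section

/-!
# P097, regularity theorem, R11: symmetries of the step and its adiabatic invariant
-/

namespace Vale.Agent.P097.Reg

open Complex Filter Topology
open scoped ComplexConjugate

section

variable {M β P : ℝ} {T : CTab M β P}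

theorem derivG_conj {ψ : ℂ} (h : ψ ∈ T.D) : deriv T.G (conj ψ) = conj (deriv T.G ψ) := by
  have h1 := (dG1 T h).conj_conj
  have h2 : T.G =ᶠ[𝓝 (conj ψ)] (conj ∘ T.G ∘ conj) := by
    filter_upwards [T.isOpen.mem_nhds (T.cD _ h)] with y hy
    have := T.cG _ (T.cD _ hy)
    simp only [Complex.conj_conj] at this
    simp only [Function.comp_apply]
    exact this
  exact (h1.congr_of_eventuallyEq h2).deriv

theorem lp_conj {φ x : ℂ} (h : φ + x ∈ T.D) :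
    lp T.G (conj φ) (conj x) = conj (lp T.G φ x) := by
  simp only [lp]
  rw [← map_add, T.cG _ h, derivG_conj h, cos_conj, sin_conj]
  simp

theorem derivG_per {ψ : ℂ} (h : ψ ∈ T.D) : deriv T.G (ψ + 2 * Real.pi) = deriv T.G ψ := by
  rw [← deriv_comp_add_const]
  apply Filter.EventuallyEq.deriv_eq
  filter_upwards [T.isOpen.mem_nhds h] with y hy
  exact T.pG y hy

theorem lp_per {φ x : ℂ} (h : φ + x ∈ T.D) :
    lp T.G (φ + 2 * Real.pi) x = lp T.G φ x := by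
  simp only [lp]
  rw [show φ + 2 * (Real.pi : ℂ) + x = φ + x + 2 * Real.pi by ring, T.pG _ h, derivG_per h]

theorem Ad.conj {φ δ : ℂ} (h : Ad T φ δ) : Ad T (conj φ) (conj δ) := by
  refine ⟨T.cD _ h.1, by simpa using h.2.1, ?_, ?_⟩
  · rw [T.cX _ h.1, conj_im, abs_neg, RCLike.norm_conj]
    exact h.2.2.1
  · rw [RCLike.norm_conj]
    exact h.2.2.2

theorem Ad.per {φ δ : ℂ} (h : Ad T φ δ) : Ad T (φ + 2 * Real.pi) δ := by
  refine ⟨T.pD _ h.1, h.2.1, ?_, h.2.2.2⟩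
  rw [T.pX _ h.1]
  simpa only [add_im, ofReal_im, add_zero] using h.2.2.1

theorem Ad.mem1 {φ δ u : ℂ} (h : Ad T φ δ) (hu : ‖u‖ ≤ 1 / 4) : φ + δ * (1 + u) ∈ T.D := by
  refine h.bin _ ((bdu hu).trans ?_)
  have := norm_nonneg δ
  linarith only [this]

theorem Ad.mem2 {φ δ : ℂ} (h : Ad T φ δ) : φ + -δ ∈ T.D := by
  refine h.bin _ ?_
  rw [norm_neg]
  have := norm_nonneg δ
  linarith only [this]

theorem nu_conj {φ δ : ℂ} (h : Ad T φ δ) : nu T (conj φ) (conj δ) = conj (nu T φ δ) := by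
  obtain ⟨h1, h2⟩ := nu_spec h
  symm
  refine nu_unique h.conj (by rwa [RCLike.norm_conj]) ?_
  have e1 : conj δ * (1 + conj (nu T φ δ)) = conj (δ * (1 + nu T φ δ)) := by simp only [map_mul, map_add, map_one]
  have e2 : -conj δ = conj (-δ) := by simp only [map_neg]
  rw [e1, e2, lp_conj (h.mem1 h1), lp_conj h.mem2, h2]

theorem nu_per {φ δ : ℂ} (h : Ad T φ δ) : nu T (φ + 2 * Real.pi) δ = nu T φ δ := by
  obtain ⟨h1, h2⟩ := nu_spec h
  symm
  refine nu_unique h.per h1 ?_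
  rw [lp_per (h.mem1 h1), lp_per h.mem2, h2]

end

theorem w_step (M0 : ℝ) (hM0 : 1 ≤ M0) : ∃ C : ℝ, 1 ≤ C ∧ ∀ {M β P : ℝ} (T : CTab M β P),
    M ≤ M0 → ∀ φ δ : ℂ, Ad T φ δ → C * ‖δ‖ ≤ 1 →
      ‖δ * (1 + nu T φ δ) * T.lam (φ + δ * (1 + nu T φ δ)) - δ * T.lam (φ - δ)‖
        ≤ C * ‖δ‖ ^ 4 := by
  obtain ⟨C1, hC1, hy⟩ := exists_y M0
  obtain ⟨C2, hC2, ha⟩ := alg (max M0 C1) (le_trans hM0 (le_max_left _ _))
  refine ⟨460 * M0 ^ 8 + 512 * C2 * M0 ^ 5, ?_, ?_⟩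
  · have : 1 ≤ M0 ^ 8 := one_le_pow₀ hM0
    have : 0 ≤ 512 * C2 * M0 ^ 5 := by (clear * - hC2 hM0; positivity)
    (clear C1 hC1 hy ha; linarith)
  intro M β P T hM φ δ h hδ
  have hM1 := T.M1
  obtain ⟨h1, h2⟩ := nu_spec h
  have h3 := nu_bound h
  set u := nu T φ δ with hu
  set dp := δ * (1 + u) with hdp
  have hd0 : 0 < ‖δ‖ := norm_pos_iff.2 h.2.1
  have hbin := h.bin
  have hsm := h.small
  have hdpb : ‖dp‖ ≤ 2 * ‖δ‖ := (bdu h1).trans (by linarith only [hd0])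
  have hdmb : ‖-δ‖ ≤ 2 * ‖δ‖ := by rw [norm_neg]; linarith only [hd0]
  obtain ⟨sp, hsp, hspe⟩ := exists_s hbin hdpb
  obtain ⟨sm, hsm', hsme⟩ := exists_s hbin hdmb
  obtain ⟨yp, hyp, hype⟩ := hy T hM φ _ hbin (by linarith only [hsm]) dp hdpb
  obtain ⟨ym, hym, hyme⟩ := hy T hM φ _ hbin (by linarith only [hsm]) (-δ) hdmb
  have hφ := h.1
  have m1 : M ≤ max M0 C1 := hM.trans (le_max_left _ _)
  have m2 : C1 ≤ max M0 C1 := le_max_right _ _
  have c2' : ‖deriv (deriv T.lam) φ / 2‖ ≤ M := by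
    have := T.b2 _ hφ
    rw [norm_div]; norm_num; linarith only [this, hM1]
  have key := ha (T.lam φ) (deriv T.lam φ) (deriv (deriv T.lam) φ / 2) sp sm yp ym dp δ
    (2 * ‖δ‖) ((T.b0 _ hφ).trans m1) ((T.b1 _ hφ).trans m1) (c2'.trans m1) (hsp.trans m1)
    (hsm'.trans m1) (hyp.trans m2) (hym.trans m2)
    ((T.bl _ hφ).trans (mul_le_mul_of_nonneg_right m1 (norm_nonneg _)))
    (by linarith only [hsm]) hdpb (by linarith only [hd0])
    (by rw [← hype, h2, hyme]; ring)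
  rw [← hspe, ← hsme, ← sub_eq_add_neg] at key
  rw [← sub_eq_add_neg] at hsme
  have hmem : φ - δ ∈ T.D := by
    have := h.mem2
    rwa [← sub_eq_add_neg] at this
  set w' := dp * T.lam (φ + dp) with hw'
  set w := δ * T.lam (φ - δ) with hw
  have hwne : w ≠ 0 := mul_ne_zero h.2.1 (lam_ne hmem)
  have hwpos : 0 < ‖w‖ := norm_pos_iff.2 hwne
  have hwlow : ‖δ‖ ≤ M * ‖w‖ := by
    rw [hw, norm_mul]
    have := T.bl _ hmem
    linarith only [mul_nonneg (le_of_lt (sub_pos.2 hd0)) (sub_nonneg.2 this)]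
  -- crude estimate
  have hη : ‖T.lam (φ + dp) - T.lam (φ - δ)‖ ≤ (9 / 4) * (M * ‖δ‖) := by
    have e : T.lam (φ + dp) - T.lam (φ - δ)
        = (T.lam (φ + dp) - T.lam φ) - (T.lam (φ + -δ) - T.lam φ) := by
      rw [← sub_eq_add_neg]; ring
    rw [e]
    refine (norm_sub_le _ _).trans ?_
    have a1 := lam_t0 hbin hdpb
    have a2 := lam_t0 hbin hdmb
    rw [norm_neg] at a2
    have a3 : M * ‖dp‖ ≤ M * ((5 / 4) * ‖δ‖) := by
      have := bdu (δ := δ) h1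
      (clear * - this hM1; gcongr)
    linarith only [a1, a2, a3]
  have hcr : ‖w' - w‖ ≤ 23 * M ^ 7 * ‖δ‖ ^ 2 := by
    have e : w' - w = δ * (u * T.lam (φ - δ) + (1 + u) * (T.lam (φ + dp) - T.lam (φ - δ))) := by
      rw [hw', hw, hdp]; ring
    rw [e, norm_mul]
    have b1 : ‖u * T.lam (φ - δ)‖ ≤ (20 * M ^ 6 * ‖δ‖) * M := by
      rw [norm_mul]
      have := T.b0 _ hmem
      (clear * - h3 this hM1 hd0; gcongr)
    have b2 : ‖(1 + u) * (T.lam (φ + dp) - T.lam (φ - δ))‖ ≤ (5 / 4) * ((9 / 4) * (M * ‖δ‖)) := by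
      rw [norm_mul]
      have := bu h1
      (clear * - this hη; gcongr)
    have b3 : M ≤ M ^ 7 := by
      calc M = M ^ 1 := (pow_one M).symm
        _ ≤ M ^ 7 := pow_le_pow_right₀ hM1 (by norm_num)
    have b4 := norm_add_le (u * T.lam (φ - δ)) ((1 + u) * (T.lam (φ + dp) - T.lam (φ - δ)))
    have b5 : M * ‖δ‖ ≤ M ^ 7 * ‖δ‖ := by (clear * - b3 hd0; gcongr)
    have b6 : (20 * M ^ 6 * ‖δ‖) * M = 20 * (M ^ 7 * ‖δ‖) := by ring
    have b7 : ‖u * T.lam (φ - δ) + (1 + u) * (T.lam (φ + dp) - T.lam (φ - δ))‖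
        ≤ 23 * (M ^ 7 * ‖δ‖) := by
      have : 0 ≤ M ^ 7 * ‖δ‖ := by positivity
      linarith only [b1, b2, b4, b5, this]
    calc ‖δ‖ * ‖u * T.lam (φ - δ) + (1 + u) * (T.lam (φ + dp) - T.lam (φ - δ))‖
        ≤ ‖δ‖ * (23 * (M ^ 7 * ‖δ‖)) := by (clear * - b7 hd0; gcongr)
      _ = 23 * M ^ 7 * ‖δ‖ ^ 2 := by ring
  set ε := (w' - w) / w with hε
  have hεe : w' = w * (1 + ε) := by rw [hε]; field_simp; ring
  have hεb : ‖ε‖ ≤ 1 / 20 := by
    rw [hε, norm_div, div_le_iff₀ hwpos]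
    have hMM : M ^ 8 ≤ M0 ^ 8 := by (clear * - hM1 hM; gcongr)
    have k1 : 460 * M ^ 8 * ‖δ‖ ≤ 1 := by
      have : 0 ≤ 512 * C2 * M0 ^ 5 * ‖δ‖ := by positivity
      have : M ^ 8 * ‖δ‖ ≤ M0 ^ 8 * ‖δ‖ := by (clear * - hMM hd0; gcongr)
      (clear C1 hC1 hy ha u h1 h3 hu dp h2 hdp hbin hsm hdpb hdmb sp hsp hspe sm hsm' hsme yp hyp hype ym hym hyme hφ m1 m2 c2' hmem w' hw' w key hw hwne hwpos hwlow hη hcr ε hε hεe; nlinarith)
    calc ‖w' - w‖ ≤ 23 * M ^ 7 * ‖δ‖ ^ 2 := hcr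
      _ = (23 * M ^ 7 * ‖δ‖) * ‖δ‖ := by ring
      _ ≤ (23 * M ^ 7 * ‖δ‖) * (M * ‖w‖) := by (clear * - hwlow hM1 hd0; gcongr)
      _ = (460 * M ^ 8 * ‖δ‖) * (1 / 20 * ‖w‖) := by ring
      _ ≤ 1 * (1 / 20 * ‖w‖) := by (clear * - k1 hwne; gcongr)
      _ = 1 / 20 * ‖w‖ := one_mul _
  have e6 : w' ^ 6 - w ^ 6
      = w ^ 6 * (ε * (6 + (15 * ε + 20 * ε ^ 2 + 15 * ε ^ 3 + 6 * ε ^ 4 + ε ^ 5))) := by
    rw [hεe]; ring
  have hlow : 1 ≤ ‖6 + (15 * ε + 20 * ε ^ 2 + 15 * ε ^ 3 + 6 * ε ^ 4 + ε ^ 5)‖ := by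
    have g1 : ‖15 * ε + 20 * ε ^ 2 + 15 * ε ^ 3 + 6 * ε ^ 4 + ε ^ 5‖ ≤ 5 := by
      have e0 := norm_nonneg ε
      calc ‖15 * ε + 20 * ε ^ 2 + 15 * ε ^ 3 + 6 * ε ^ 4 + ε ^ 5‖
          ≤ ‖15 * ε‖ + ‖20 * ε ^ 2‖ + ‖15 * ε ^ 3‖ + ‖6 * ε ^ 4‖ + ‖ε ^ 5‖ := by
            refine (norm_add_le _ _).trans ?_
            gcongr
            refine (norm_add_le _ _).trans ?_
            gcongr
            refine (norm_add_le _ _).trans ?_
            gcongr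
            exact norm_add_le _ _
        _ = 15 * ‖ε‖ + 20 * ‖ε‖ ^ 2 + 15 * ‖ε‖ ^ 3 + 6 * ‖ε‖ ^ 4 + ‖ε‖ ^ 5 := by
            simp only [norm_mul, norm_pow]
            norm_num
        _ ≤ 15 * (1 / 20) + 20 * (1 / 20) ^ 2 + 15 * (1 / 20) ^ 3 + 6 * (1 / 20) ^ 4
              + (1 / 20) ^ 5 := by (clear * - hεb; gcongr)
        _ ≤ 5 := by (clear * -; norm_num)
    have g2 := norm_sub_norm_le (6 : ℂ) (-(15 * ε + 20 * ε ^ 2 + 15 * ε ^ 3 + 6 * ε ^ 4 + ε ^ 5))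
    rw [norm_neg, sub_neg_eq_add] at g2
    have g3 : ‖(6 : ℂ)‖ = 6 := by norm_num
    linarith only [g1, g2, g3]
  rw [e6, norm_mul, norm_mul, norm_pow] at key
  have key2 : ‖w‖ ^ 6 * ‖ε‖ ≤ C2 * (2 * ‖δ‖) ^ 9 := by
    refine le_trans ?_ key
    gcongr
    linarith only [mul_nonneg (sub_nonneg.2 hlow) (sub_nonneg.2 (norm_nonneg ε))]
  have e7 : ‖w' - w‖ = ‖w‖ * ‖ε‖ := by
    rw [hε, norm_div]; (clear * - hwne; field_simp)
  rw [e7]
  have hδ5 : ‖δ‖ ^ 5 ≤ M0 ^ 5 * ‖w‖ ^ 5 := by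
    rw [← mul_pow]
    have : M * ‖w‖ ≤ M0 * ‖w‖ := by (clear * - hM hwne; gcongr)
    gcongr
    linarith only [hwlow, this]
  have key3 : ‖w‖ ^ 5 * (‖w‖ * ‖ε‖) ≤ ‖w‖ ^ 5 * (512 * C2 * M0 ^ 5 * ‖δ‖ ^ 4) := by
    calc ‖w‖ ^ 5 * (‖w‖ * ‖ε‖) = ‖w‖ ^ 6 * ‖ε‖ := by ring
      _ ≤ C2 * (2 * ‖δ‖) ^ 9 := key2
      _ = 512 * C2 * ‖δ‖ ^ 4 * ‖δ‖ ^ 5 := by ring
      _ ≤ 512 * C2 * ‖δ‖ ^ 4 * (M0 ^ 5 * ‖w‖ ^ 5) := by (clear * - hδ5 hC2 hd0; gcongr)
      _ = ‖w‖ ^ 5 * (512 * C2 * M0 ^ 5 * ‖δ‖ ^ 4) := by ring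
  have key4 := le_of_mul_le_mul_left key3 (by positivity)
  refine key4.trans ?_
  have : 0 ≤ 460 * M0 ^ 8 * ‖δ‖ ^ 4 := by positivity
  linarith only [this]

end Vale.Agent.P097.Reg
end

section

/-! # P097, regularity theorem: R3a, Fourier coefficients of analytic functions, inversion -/

namespace Vale.Agent.P097.Reg

open Complex MeasureTheory Filter Topology
open scoped ComplexConjugate Interval

/-- The integral over a period does not depend on the height. -/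
theorem r3a_shift {P β : ℝ} (hP : 0 < P) {L : ℂ → ℂ}
    (hL : DifferentiableOn ℂ L (strip β)) (hper : ∀ ζ ∈ strip β, L (ζ + P) = L ζ) (n : ℤ)
    {y : ℝ} (hy : |y| < β) :
    ∫ x in (0 : ℝ)..P, L x * exp (-(2 * Real.pi * I * n * x / P))
      = ∫ x in (0 : ℝ)..P, L (x + y * I) * exp (-(2 * Real.pi * I * n * (x + y * I) / P)) := by
  let g : ℂ → ℂ := fun z => L z * exp (-(2 * Real.pi * I * n * z / P))
  have hPc : (P : ℂ) ≠ 0 := by exact_mod_cast hP.ne'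
  have hg : DifferentiableOn ℂ g (strip β) :=
    hL.mul (by (clear * -; fun_prop) : Differentiable ℂ fun z : ℂ =>
      exp (-(2 * Real.pi * I * n * z / P))).differentiableOn
  have hgper : ∀ ζ ∈ strip β, g (ζ + P) = g ζ := by
    intro ζ hζ
    show L (ζ + P) * exp (-(2 * Real.pi * I * n * (ζ + P) / P)) = _
    rw [hper ζ hζ]
    congr 1
    have e1 : -(2 * Real.pi * I * n * (ζ + P) / P)
        = -(2 * Real.pi * I * n * ζ / P) + ((-n : ℤ) : ℂ) * (2 * Real.pi * I) := by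
      push_cast
      field_simp
      ring
    rw [e1, Complex.exp_add, Complex.exp_int_mul_two_pi_mul_I, mul_one]
  have hrect : DifferentiableOn ℂ g ([[(0 : ℂ).re, ((P : ℂ) + y * I).re]] ×ℂ
      [[(0 : ℂ).im, ((P : ℂ) + y * I).im]]) := by
    refine hg.mono ?_
    intro ζ hζ
    rw [Complex.mem_reProdIm] at hζ
    have h2 := hζ.2
    simp only [Complex.zero_im, Complex.add_im, Complex.ofReal_im, Complex.mul_im, Complex.I_im,
      Complex.ofReal_re, Complex.I_re, mul_one, mul_zero, add_zero, zero_add] at h2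
    show |ζ.im| < β
    refine lt_of_le_of_lt ?_ hy
    have := Set.abs_sub_left_of_mem_uIcc h2
    simpa only [ge_iff_le, sub_zero] using this
  have key := Complex.integral_boundary_rect_eq_zero_of_differentiableOn g 0 ((P : ℂ) + y * I) hrect
  simp only [Complex.zero_im, Complex.zero_re, Complex.add_im, Complex.add_re, Complex.ofReal_im,
    Complex.mul_im, Complex.mul_re, Complex.I_im, Complex.ofReal_re, Complex.I_re, mul_one,
    mul_zero, add_zero, zero_add, sub_self, Complex.ofReal_zero, zero_mul] at key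
  have hvert : (∫ t in (0 : ℝ)..y, g ((P : ℂ) + t * I)) = ∫ t in (0 : ℝ)..y, g (t * I) := by
    refine intervalIntegral.integral_congr fun t ht => ?_
    show g ((P : ℂ) + t * I) = g (t * I)
    rw [add_comm]
    refine hgper _ ?_
    show |(t * I : ℂ).im| < β
    have h1 : (t * I : ℂ).im = t := by simp
    rw [h1]
    refine lt_of_le_of_lt ?_ hy
    have := Set.abs_sub_left_of_mem_uIcc ht
    simpa only [ge_iff_le, sub_zero] using this
  rw [hvert] at key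
  have : (∫ x in (0 : ℝ)..P, g x) = ∫ x in (0 : ℝ)..P, g (x + y * I) := by
    have h3 : (∫ x in (0 : ℝ)..P, g x) - (∫ x in (0 : ℝ)..P, g (x + y * I)) = 0 := by
      have h4 := key
      rw [add_sub_assoc, sub_self, add_zero] at h4
      exact h4
    exact sub_eq_zero.1 h3
  exact this

theorem fc_shift {P β B : ℝ} (hP : 0 < P) (hβ : 0 < β) {L : ℂ → ℂ}
    (hL : DifferentiableOn ℂ L (strip β)) (hper : ∀ ζ ∈ strip β, L (ζ + P) = L ζ)
    (hB : ∀ ζ ∈ strip β, ‖L ζ‖ ≤ B) (n : ℤ) :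
    ‖fc P (fun x => L x) n‖ ≤ B * Real.exp (-(2 * Real.pi * |(n : ℝ)| * β / P)) := by
  have hB0 : 0 ≤ B := (norm_nonneg _).trans (hB 0 (by show |(0 : ℂ).im| < β; simpa only [zero_im, abs_zero] using hβ))
  have key : ∀ b : ℝ, 0 < b → b < β →
      ‖fc P (fun x => L x) n‖ ≤ B * Real.exp (-(2 * Real.pi * |(n : ℝ)| * b / P)) := by
    intro b hb0 hb
    obtain ⟨y, hy1, hy2⟩ : ∃ y : ℝ, |y| < β ∧ (n : ℝ) * y = -(|(n : ℝ)| * b) := by
      rcases le_or_gt 0 (n : ℝ) with h | h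
      · exact ⟨-b, by rw [abs_neg, abs_of_pos hb0]; exact hb, by rw [abs_of_nonneg h]; ring⟩
      · exact ⟨b, by rw [abs_of_pos hb0]; exact hb, by rw [abs_of_neg h]; ring⟩
    unfold fc
    rw [r3a_shift hP hL hper n hy1, norm_mul]
    have h1 : ‖∫ x in (0 : ℝ)..P, L (x + y * I) *
        exp (-(2 * Real.pi * I * n * (x + y * I) / P))‖
        ≤ (B * Real.exp (-(2 * Real.pi * |(n : ℝ)| * b / P))) * |P - 0| := by
      refine intervalIntegral.norm_integral_le_of_norm_le_const fun x _ => ?_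
      rw [norm_mul]
      have h2 : ‖L (x + y * I)‖ ≤ B := hB _ (by
        show |(x + y * I : ℂ).im| < β
        have : (x + y * I : ℂ).im = y := by simp
        rw [this]; exact hy1)
      have h3 : ‖exp (-(2 * Real.pi * I * n * (x + y * I) / P))‖
          = Real.exp (-(2 * Real.pi * |(n : ℝ)| * b / P)) := by
        rw [Complex.norm_exp]
        congr 1
        have e1 : (-(2 * Real.pi * I * n * (x + y * I) / P) : ℂ)
            = ((2 * Real.pi * (n * y) / P : ℝ) : ℂ) + ((-(2 * Real.pi * n * x / P) : ℝ) : ℂ) * I := by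
          push_cast
          have : (I : ℂ) * I = -1 := Complex.I_mul_I
          field_simp
          ring_nf
          rw [Complex.I_sq]
          ring
        rw [e1, Complex.add_re, Complex.ofReal_re, Complex.re_ofReal_mul, Complex.I_re, mul_zero,
          add_zero, hy2]
        ring
      rw [h3]
      exact mul_le_mul_of_nonneg_right h2 (Real.exp_pos _).le
    have h4 : ‖((P : ℂ))⁻¹‖ = P⁻¹ := by
      rw [norm_inv, Complex.norm_real, Real.norm_eq_abs, abs_of_pos hP]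
    rw [h4]
    calc P⁻¹ * ‖∫ x in (0 : ℝ)..P, L (x + y * I) *
        exp (-(2 * Real.pi * I * n * (x + y * I) / P))‖
        ≤ P⁻¹ * ((B * Real.exp (-(2 * Real.pi * |(n : ℝ)| * b / P))) * |P - 0|) := by (clear * - h1 hP; gcongr)
      _ = B * Real.exp (-(2 * Real.pi * |(n : ℝ)| * b / P)) := by
          rw [sub_zero, abs_of_pos hP]; field_simp
  have hcont : Continuous fun b : ℝ => B * Real.exp (-(2 * Real.pi * |(n : ℝ)| * b / P)) := by
    fun_prop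
  have ht : Tendsto (fun b : ℝ => B * Real.exp (-(2 * Real.pi * |(n : ℝ)| * b / P))) (𝓝[<] β)
      (𝓝 (B * Real.exp (-(2 * Real.pi * |(n : ℝ)| * β / P)))) :=
    (hcont.tendsto β).mono_left nhdsWithin_le_nhds
  refine ge_of_tendsto ht ?_
  filter_upwards [Ioo_mem_nhdsLT hβ] with b hb
  exact key b hb.1 hb.2

theorem fc_sum {P : ℝ} (hP : 0 < P) {F : ℝ → ℂ} (hF : Continuous F)
    (hper : ∀ x, F (x + P) = F x) (hs : Summable fun n : ℤ => ‖fc P F n‖) (x : ℝ) :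
    HasSum (fun n : ℤ => fc P F n * ex P n x) (F x) := by
  have : Fact (0 < P) := ⟨hP⟩
  have hp : Function.Periodic F P := hper
  let g : C(AddCircle P, ℂ) := ⟨hp.lift, continuous_coinduced_dom.mpr hF⟩
  have hg : ∀ y : ℝ, g (y : AddCircle P) = F y := fun y => rfl
  have hfc : ∀ n : ℤ, fourierCoeff g n = fc P F n := by
    intro n
    rw [fourierCoeff_eq_intervalIntegral g n 0]
    unfold fc
    rw [zero_add, Complex.real_smul]
    congr 1
    · push_cast; rw [one_div]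
    · refine intervalIntegral.integral_congr fun y _ => ?_
      show (fourier (-n) (y : AddCircle P)) • g (y : AddCircle P) = _
      rw [hg, fourier_coe_apply, smul_eq_mul, mul_comm]
      congr 2
      push_cast
      ring
  have hsum : Summable (fourierCoeff g) := by
    have : Summable fun n : ℤ => ‖fourierCoeff g n‖ := by
      simpa only [hfc] using hs
    exact this.of_norm
  have h := has_pointwise_sum_fourier_series_of_summable hsum (x : AddCircle P)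
  rw [hg] at h
  convert h using 1
  funext n
  rw [hfc, fourier_coe_apply, smul_eq_mul]
  rfl

end Vale.Agent.P097.Reg
end

section

/-!
# P097, regularity theorem: the Fourier relation
-/

namespace Vale.Agent.P097.Reg

open Complex
open scoped ComplexConjugate

theorem rb_geom (x : ℝ) (hx : 0 < x) (q : ℤ) : ∃ G : ℝ,
    HasSum (fun n : ℤ => Real.exp (-(x * |(q : ℝ) - n|))) G ∧ G ≤ 2 * ((1 + x) / x) := by
  obtain ⟨r, hr⟩ : ∃ r : ℝ, r = Real.exp (-x) := ⟨_, rfl⟩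
  have hr0 : 0 < r := by rw [hr]; exact Real.exp_pos _
  have hr1 : r < 1 := by
    rw [hr, ← Real.exp_zero]; exact Real.exp_lt_exp.mpr (by linarith only [hx])
  have hpow : ∀ n : ℕ, Real.exp (-(x * n)) = r ^ n := by
    intro n
    rw [hr, ← Real.exp_nat_mul]
    congr 1; ring
  have h0 := hasSum_geometric_of_lt_one hr0.le hr1
  have h1 : HasSum (fun n : ℕ => Real.exp (-(x * |(((n : ℕ) : ℤ) : ℝ)|))) (1 - r)⁻¹ := by
    have : (fun n : ℕ => Real.exp (-(x * |(((n : ℕ) : ℤ) : ℝ)|))) = fun n : ℕ => r ^ n := by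
      funext n
      rw [Int.cast_natCast, abs_of_nonneg (by (clear * -; positivity)), hpow]
    rw [this]; exact h0
  have h2 : HasSum (fun n : ℕ => Real.exp (-(x * |((-((n : ℤ) + 1) : ℤ) : ℝ)|)))
      (r * (1 - r)⁻¹) := by
    have : (fun n : ℕ => Real.exp (-(x * |((-((n : ℤ) + 1) : ℤ) : ℝ)|))) =
        fun n : ℕ => r * r ^ n := by
      funext n
      have h3 : |((-((n : ℤ) + 1) : ℤ) : ℝ)| = ((n + 1 : ℕ) : ℝ) := by
        push_cast
        rw [abs_neg, abs_of_nonneg (by (clear * -; positivity))]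
      rw [h3, hpow, pow_succ]; ring
    rw [this]; exact h0.mul_left r
  have h3 : HasSum (fun n : ℤ => Real.exp (-(x * |(n : ℝ)|))) ((1 - r)⁻¹ + r * (1 - r)⁻¹) :=
    HasSum.of_nat_of_neg_add_one h1 h2
  refine ⟨(1 - r)⁻¹ + r * (1 - r)⁻¹, ?_, ?_⟩
  · have h4 := (Equiv.hasSum_iff (Equiv.subLeft q)).mpr h3
    have h5 : ((fun n : ℤ => Real.exp (-(x * |(n : ℝ)|))) ∘ ⇑(Equiv.subLeft q)) =
        fun n : ℤ => Real.exp (-(x * |(q : ℝ) - n|)) := by
      funext n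
      simp only [Equiv.subLeft, Equiv.coe_fn_mk, Function.comp_apply, Int.cast_sub]
    rw [h5] at h4
    exact h4
  · have h6 : x + 1 ≤ Real.exp x := Real.add_one_le_exp x
    have h7 : r * (1 + x) ≤ 1 := by
      have h8 : r * Real.exp x = 1 := by rw [hr, ← Real.exp_add]; simp
      linarith only [mul_nonneg (le_of_lt (sub_pos.2 hr0)) (sub_nonneg.2 h6), h8]
    have h9 : (1 - r)⁻¹ ≤ (1 + x) / x := by
      rw [inv_le_comm₀ (by linarith) (by positivity), inv_div, div_le_iff₀ (by linarith)]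
      linarith
    have h10 : 0 < (1 - r)⁻¹ := inv_pos.mpr (by linarith only [hr1])
    nlinarith only [h9, hr1, h10]

theorem rb_exp_sub_one (w : ℂ) : ‖exp w - 1‖ ≤ ‖w‖ * Real.exp ‖w‖ := by
  have := Complex.norm_exp_sub_sum_le_norm_mul_exp w 1
  simpa only [ge_iff_le, Finset.range_one, Finset.sum_singleton, pow_zero, Nat.factorial_zero, Nat.cast_one,     ne_eq, one_ne_zero, not_false_eq_true, div_self, pow_one] using this

theorem rb_norm_e (P : ℝ) (n : ℤ) (x : ℝ) :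
    ‖exp (-(2 * Real.pi * I * n * x / P))‖ = 1 := by
  have : -(2 * Real.pi * I * n * x / P) = ((-(2 * Real.pi * n * x / P) : ℝ) : ℂ) * I := by
    push_cast; ring
  rw [this, Complex.norm_exp_ofReal_mul_I]

theorem rb_norm_ex (P : ℝ) (n : ℤ) (x : ℝ) : ‖ex P n x‖ = 1 := by
  unfold ex
  have : (2 * Real.pi * I * n * x / P : ℂ) = ((2 * Real.pi * n * x / P : ℝ) : ℂ) * I := by
    push_cast; ring
  rw [this, Complex.norm_exp_ofReal_mul_I]

theorem rb_cont_e (P : ℝ) (n : ℤ) :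
    Continuous fun x : ℝ => exp (-(2 * Real.pi * I * n * x / P)) := by
  fun_prop

theorem rb_fc_const {P : ℝ} (hP : 0 < P) (a : ℂ) (n : ℤ) :
    fc P (fun _ => a) n = if n = 0 then a else 0 := by
  unfold fc
  have hPc : (P : ℂ) ≠ 0 := by exact_mod_cast hP.ne'
  rw [intervalIntegral.integral_const_mul]
  split_ifs with h
  · subst h
    simp only [Int.cast_zero, mul_zero, zero_mul, zero_div, neg_zero, exp_zero, intervalIntegral.integral_const, sub_zero, real_smul, mul_one]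
    field_simp
  · have hc : (-(2 * Real.pi * I * n / P) : ℂ) ≠ 0 := by
      have h1 : (n : ℂ) ≠ 0 := by exact_mod_cast h
      have h2 : (Real.pi : ℂ) ≠ 0 := by exact_mod_cast Real.pi_ne_zero
      rw [neg_ne_zero]
      exact div_ne_zero (by simp only [ne_eq, mul_eq_zero, OfNat.ofNat_ne_zero, h2, or_self, I_ne_zero, h1, not_false_eq_true]) hPc
    have h3 : (fun x : ℝ => exp (-(2 * Real.pi * I * n * x / P))) =
        fun x : ℝ => exp (-(2 * Real.pi * I * n / P) * x) := by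
      funext x; congr 1; ring
    rw [h3, integral_exp_mul_complex hc]
    have h4 : exp (-(2 * Real.pi * I * n / P) * P) = 1 := by
      have : -(2 * Real.pi * I * n / P) * P = ((-n : ℤ) : ℂ) * (2 * Real.pi * I) := by
        push_cast; field_simp
      rw [this, Complex.exp_int_mul_two_pi_mul_I]
    rw [h4]
    simp only [ofReal_zero, mul_zero, exp_zero, sub_self, zero_div]

theorem rb_fc_sub {P : ℝ} {F G : ℝ → ℂ} (hF : Continuous F) (hG : Continuous G) (n : ℤ) :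
    fc P (fun x => F x - G x) n = fc P F n - fc P G n := by
  unfold fc
  rw [← mul_sub, ← intervalIntegral.integral_sub]
  · congr 2; funext x; ring
  · exact (hF.mul (rb_cont_e P n)).intervalIntegrable _ _
  · exact (hG.mul (rb_cont_e P n)).intervalIntegrable _ _

theorem rb_fc_smul {P : ℝ} {F : ℝ → ℂ} (a : ℂ) (n : ℤ) :
    fc P (fun x => a * F x) n = a * fc P F n := by
  unfold fc
  have : (fun x : ℝ => a * F x * exp (-(2 * Real.pi * I * n * x / P))) =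
      fun x : ℝ => a * (F x * exp (-(2 * Real.pi * I * n * x / P))) := by
    funext x; ring
  rw [this, intervalIntegral.integral_const_mul]
  ring

theorem rb_fc_finsum {P : ℝ} {F : ℕ → ℝ → ℂ} (q : ℕ) (hF : ∀ j < q, Continuous (F j)) (n : ℤ) :
    fc P (fun x => ∑ j ∈ Finset.range q, F j x) n = ∑ j ∈ Finset.range q, fc P (F j) n := by
  unfold fc
  rw [← Finset.mul_sum, ← intervalIntegral.integral_finsetSum]
  · congr 2; funext x; rw [Finset.sum_mul]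
  · intro j hj
    exact ((hF j (Finset.mem_range.mp hj)).mul (rb_cont_e P n)).intervalIntegrable _ _

theorem rb_fc_norm {P B : ℝ} (hP : 0 < P) {F : ℝ → ℂ} (hB : ∀ x, ‖F x‖ ≤ B) (n : ℤ) :
    ‖fc P F n‖ ≤ B := by
  unfold fc
  have h1 : ‖∫ x in (0 : ℝ)..P, F x * exp (-(2 * Real.pi * I * n * x / P))‖ ≤ B * |P - 0| := by
    apply intervalIntegral.norm_integral_le_of_norm_le_const
    intro x _
    rw [norm_mul, rb_norm_e, mul_one]
    exact hB x
  rw [sub_zero, abs_of_pos hP] at h1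
  rw [norm_mul, norm_inv, Complex.norm_real, Real.norm_of_nonneg hP.le, inv_mul_le_iff₀ hP]
  linarith

theorem rb_real_mem {β : ℝ} (hβ : 0 < β) (x : ℝ) : (x : ℂ) ∈ strip β := by
  simp only [strip, Set.mem_ofPred_eq, ofReal_im, abs_zero, hβ]

theorem rb_cont {β : ℝ} (hβ : 0 < β) {L : ℂ → ℂ} (hL : DifferentiableOn ℂ L (strip β)) :
    Continuous fun x : ℝ => L x := by
  have h1 : ContinuousOn L (strip β) := hL.continuousOn
  exact h1.comp_continuous Complex.continuous_ofReal (rb_real_mem hβ)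

/-- the term of frequency `n` -/
theorem rb_term {P : ℝ} (hP : 0 < P) {q : ℕ} (hq : 1 ≤ q) (j : ℕ) (E k : ℝ → ℂ)
    (hE : ∀ x, (E x).im = 0) (c : ℂ) (n : ℤ) :
    (P : ℂ)⁻¹ * ∫ x in (0 : ℝ)..P, k x * (c * ex P n ((x + (j + 1 / 2) * (P / q) + (E x).re : ℝ)))
        * exp (-(2 * Real.pi * I * ((q : ℕ) : ℤ) * x / P)) =
      c * exp (2 * Real.pi * I * n * (j + 1 / 2) / q) *
        fc P (fun x => k x * exp (2 * Real.pi * I * n * E x / P)) (q - n) := by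
  have hPc : (P : ℂ) ≠ 0 := by exact_mod_cast hP.ne'
  have hqc : (q : ℂ) ≠ 0 := by exact_mod_cast (show q ≠ 0 by omega)
  unfold fc
  have h1 : ∀ x : ℝ, k x * (c * ex P n ((x + (j + 1 / 2) * (P / q) + (E x).re : ℝ)))
        * exp (-(2 * Real.pi * I * ((q : ℕ) : ℤ) * x / P)) =
      (c * exp (2 * Real.pi * I * n * (j + 1 / 2) / q)) *
        (k x * exp (2 * Real.pi * I * n * E x / P) *
          exp (-(2 * Real.pi * I * (((q : ℕ) : ℤ) - n : ℤ) * x / P))) := by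
    intro x
    have h2 : ((E x).re : ℂ) = E x := by
      apply Complex.ext
      · simp
      · simp [hE x]
    unfold ex
    have h3 : exp (2 * Real.pi * I * n * ((x + (j + 1 / 2) * (P / q) + (E x).re : ℝ) : ℂ) / P) *
        exp (-(2 * Real.pi * I * ((q : ℕ) : ℤ) * x / P)) =
        exp (2 * Real.pi * I * n * (j + 1 / 2) / q) * (exp (2 * Real.pi * I * n * E x / P) *
          exp (-(2 * Real.pi * I * (((q : ℕ) : ℤ) - n : ℤ) * x / P))) := by
      rw [← Complex.exp_add, ← Complex.exp_add, ← Complex.exp_add]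
      congr 1
      push_cast
      rw [h2]
      field_simp
      ring
    calc k x * (c * exp (2 * Real.pi * I * n *
            ((x + (j + 1 / 2) * (P / q) + (E x).re : ℝ) : ℂ) / P)) *
          exp (-(2 * Real.pi * I * ((q : ℕ) : ℤ) * x / P)) =
        k x * c * (exp (2 * Real.pi * I * n *
            ((x + (j + 1 / 2) * (P / q) + (E x).re : ℝ) : ℂ) / P) *
          exp (-(2 * Real.pi * I * ((q : ℕ) : ℤ) * x / P))) := by ring
      _ = _ := by rw [h3]; ring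
  rw [intervalIntegral.integral_congr (g := fun x : ℝ =>
      (c * exp (2 * Real.pi * I * n * (j + 1 / 2) / q)) *
        (k x * exp (2 * Real.pi * I * n * E x / P) *
          exp (-(2 * Real.pi * I * (((q : ℕ) : ℤ) - n : ℤ) * x / P)))) (fun x _ => h1 x)]
  rw [intervalIntegral.integral_const_mul]
  push_cast
  ring


/-- expansion of one term of the sum -/
theorem rb_hasSum {P : ℝ} (hP : 0 < P) {q : ℕ} (hq : 1 ≤ q) (j : ℕ) (E k : ℝ → ℂ)
    (hEc : Continuous E) (hkc : Continuous k) (hE : ∀ x, (E x).im = 0) {B : ℝ}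
    (hk : ∀ x, ‖k x‖ ≤ B) {F : ℝ → ℂ} (hF : Continuous F)
    (hper : ∀ x, F (x + P) = F x) (hs : Summable fun n : ℤ => ‖fc P F n‖) :
    HasSum (fun n : ℤ => fc P F n * exp (2 * Real.pi * I * n * (j + 1 / 2) / q) *
        fc P (fun x => k x * exp (2 * Real.pi * I * n * E x / P)) (q - n))
      (fc P (fun x => k x * F (x + (j + 1 / 2) * (P / q) + (E x).re)) q) := by
  have h1 : HasSum (fun n : ℤ => ∫ x in (0 : ℝ)..P,
      k x * (fc P F n * ex P n ((x + (j + 1 / 2) * (P / q) + (E x).re : ℝ)))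
        * exp (-(2 * Real.pi * I * ((q : ℕ) : ℤ) * x / P)))
      (∫ x in (0 : ℝ)..P, k x * F (x + (j + 1 / 2) * (P / q) + (E x).re)
        * exp (-(2 * Real.pi * I * ((q : ℕ) : ℤ) * x / P))) := by
    apply intervalIntegral.hasSum_integral_of_dominated_convergence
      (fun n _ => B * ‖fc P F n‖)
    · intro n
      apply Continuous.aestronglyMeasurable
      unfold ex
      (clear * - hkc hEc; fun_prop)
    · intro n
      refine Filter.Eventually.of_forall fun x _ => ?_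
      rw [norm_mul, norm_mul, norm_mul, rb_norm_ex, rb_norm_e, mul_one, mul_one]
      exact mul_le_mul_of_nonneg_right (hk x) (norm_nonneg _)
    · exact Filter.Eventually.of_forall fun x _ => hs.mul_left B
    · exact intervalIntegrable_const
    · refine Filter.Eventually.of_forall fun x _ => ?_
      have h2 := fc_sum hP hF hper hs (x + (j + 1 / 2) * (P / q) + (E x).re)
      exact (h2.mul_left (k x)).mul_right _
  have h3 := h1.mul_left ((P : ℂ)⁻¹)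
  have h4 : (fun n : ℤ => (P : ℂ)⁻¹ * ∫ x in (0 : ℝ)..P,
      k x * (fc P F n * ex P n ((x + (j + 1 / 2) * (P / q) + (E x).re : ℝ)))
        * exp (-(2 * Real.pi * I * ((q : ℕ) : ℤ) * x / P))) =
      fun n : ℤ => fc P F n * exp (2 * Real.pi * I * n * (j + 1 / 2) / q) *
        fc P (fun x => k x * exp (2 * Real.pi * I * n * E x / P)) (q - n) := by
    funext n
    exact rb_term hP hq j E k hE (fc P F n) n
  rw [h4] at h3
  exact h3

/-- the bound for the kernel -/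
theorem rb_kernel {M P β Λ γ ω : ℝ} (hM : 1 ≤ M) (hMP : 1 ≤ M * P) (hP0 : 0 < P)
    (hβ : 0 < β) {q : ℕ} (hq : 1 ≤ q) (hω : ω = P / q) (hω1 : ω ≤ 1)
    (hΛγ : Λ + γ ≤ 2 * Real.pi * β / P) (hγ : 8 * Real.pi * M ^ 2 * ω ≤ γ)
    {E k : ℂ → ℂ} (hE : DifferentiableOn ℂ E (strip β)) (hk : DifferentiableOn ℂ k (strip β))
    (hper : ∀ ζ ∈ strip β, E (ζ + P) = E ζ ∧ k (ζ + P) = k ζ)
    (hb : ∀ ζ ∈ strip β, ‖E ζ‖ ≤ M * ω ^ 2 ∧ ‖k ζ - 1‖ ≤ M * ω ^ 2) (n : ℤ) :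
    ‖fc P (fun x : ℝ => k x * exp (2 * Real.pi * I * n * E x / P) - 1) (q - n)‖ ≤
      (M + 2 * Real.pi * M + 1) * Real.exp (2 * Real.pi * M) * ω *
        Real.exp (-((Λ + γ / 2) * |(q : ℝ) - n|)) := by
  have hω0 : 0 < ω := by rw [hω]; (clear * - hP0 hq; positivity)
  have hpi := Real.pi_pos
  obtain ⟨d, hd⟩ : ∃ d : ℝ, d = |(q : ℝ) - n| := ⟨_, rfl⟩
  have hd0 : 0 ≤ d := by rw [hd]; exact abs_nonneg _
  have hqω : (q : ℝ) * ω = P := by
    rw [hω]; field_simp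
  obtain ⟨W, hW⟩ : ∃ W : ℝ, W = 2 * Real.pi * M * ω + 2 * Real.pi * M ^ 2 * ω ^ 2 * d := ⟨_, rfl⟩
  have hw : ∀ ζ ∈ strip β, ‖2 * Real.pi * I * n * E ζ / P‖ ≤ W := by
    intro ζ hζ
    have h1 : ‖(2 * Real.pi * I * n * E ζ / P : ℂ)‖ = 2 * Real.pi * |(n : ℝ)| * ‖E ζ‖ / P := by
      rw [norm_div, norm_mul, norm_mul, norm_mul, norm_mul, Complex.norm_I, Complex.norm_real,
        Complex.norm_real, Complex.norm_intCast, Real.norm_of_nonneg hP0.le,
        Real.norm_of_nonneg hpi.le]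
      norm_num
    rw [h1]
    have h2 : |(n : ℝ)| ≤ q + d := by
      rw [hd]
      calc |(n : ℝ)| = |(q : ℝ) - ((q : ℝ) - n)| := by congr 1; ring
        _ ≤ |(q : ℝ)| + |(q : ℝ) - n| := abs_sub _ _
        _ = q + |(q : ℝ) - n| := by rw [abs_of_nonneg (by positivity)]
    have h3 : 1 / P ≤ M := by rw [div_le_iff₀ hP0]; exact hMP
    have h4 : ‖E ζ‖ ≤ M * ω ^ 2 := (hb ζ hζ).1
    calc 2 * Real.pi * |(n : ℝ)| * ‖E ζ‖ / P ≤ 2 * Real.pi * (q + d) * (M * ω ^ 2) / P := by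
          (clear * - h2 h4 hq hd0 hP0; gcongr)
      _ = 2 * Real.pi * M * ω * (q * ω) / P + 2 * Real.pi * M * ω ^ 2 * d * (1 / P) := by ring
      _ = 2 * Real.pi * M * ω + 2 * Real.pi * M * ω ^ 2 * d * (1 / P) := by
          rw [hqω]; (clear * - hP0 hω0 hd0 hM; field_simp)
      _ ≤ 2 * Real.pi * M * ω + 2 * Real.pi * M * ω ^ 2 * d * M := by (clear * - h3 hM hω0 hd0; gcongr)
      _ = W := by rw [hW]; ring
  have hW0 : 0 ≤ W := by rw [hW]; (clear * - hM hω0 hd0; positivity)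
  have hB : ∀ ζ ∈ strip β, ‖k ζ * exp (2 * Real.pi * I * n * E ζ / P) - 1‖ ≤
      (M * ω ^ 2 + W) * Real.exp W := by
    intro ζ hζ
    obtain ⟨w, hwd⟩ : ∃ w : ℂ, w = 2 * Real.pi * I * n * E ζ / P := ⟨_, rfl⟩
    have hw1 : ‖w‖ ≤ W := by rw [hwd]; exact hw ζ hζ
    rw [← hwd]
    have h1 : k ζ * exp w - 1 = (k ζ - 1) * exp w + (exp w - 1) := by ring
    have h2 : ‖exp w‖ ≤ Real.exp W := by
      rw [Complex.norm_exp]
      exact Real.exp_le_exp.mpr ((Complex.re_le_norm w).trans hw1)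
    have h3 : ‖exp w - 1‖ ≤ W * Real.exp W := (rb_exp_sub_one w).trans
      (mul_le_mul hw1 (Real.exp_le_exp.mpr hw1) (Real.exp_pos _).le hW0)
    rw [h1]
    calc ‖(k ζ - 1) * exp w + (exp w - 1)‖ ≤ ‖k ζ - 1‖ * ‖exp w‖ + ‖exp w - 1‖ := by
          refine (norm_add_le _ _).trans ?_
          rw [norm_mul]
      _ ≤ M * ω ^ 2 * Real.exp W + W * Real.exp W :=
          add_le_add (mul_le_mul (hb ζ hζ).2 h2 (norm_nonneg _) (by positivity)) h3
      _ = _ := by ring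
  have hfs := fc_shift (L := fun ζ : ℂ => k ζ * exp (2 * Real.pi * I * n * E ζ / P) - 1)
    hP0 hβ (by
      apply DifferentiableOn.sub _ (differentiableOn_const _)
      apply hk.mul
      apply DifferentiableOn.cexp
      exact (hE.const_mul _).div_const _) (by
      intro ζ hζ
      rw [(hper ζ hζ).1, (hper ζ hζ).2]) hB (q - n)
  refine hfs.trans ?_
  have hcast : |(((q : ℤ) - n : ℤ) : ℝ)| = d := by rw [hd]; push_cast; rfl
  rw [hcast, ← hd]
  -- numerical part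
  have hWe : Real.exp W ≤ Real.exp (2 * Real.pi * M) * Real.exp (2 * Real.pi * M ^ 2 * ω * d) := by
    rw [← Real.exp_add]
    apply Real.exp_le_exp.mpr
    rw [hW]
    have h1 : 2 * Real.pi * M * ω ≤ 2 * Real.pi * M := by
      have : 0 ≤ 2 * Real.pi * M := by positivity
      linarith only [mul_nonneg (sub_nonneg.2 hω1) (sub_nonneg.2 this)]
    have h2 : 2 * Real.pi * M ^ 2 * ω ^ 2 * d ≤ 2 * Real.pi * M ^ 2 * ω * d := by
      have h3 : 0 ≤ 2 * Real.pi * M ^ 2 * ω * d := by (clear * - hM hω0 hd0; positivity)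
      have h4 : 2 * Real.pi * M ^ 2 * ω ^ 2 * d = 2 * Real.pi * M ^ 2 * ω * d * ω := by ring
      rw [h4]
      linarith only [mul_nonneg (sub_nonneg.2 hω1) (sub_nonneg.2 h3)]
    linarith only [h1, h2]
  have hWl : M * ω ^ 2 + W ≤ (M + 2 * Real.pi * M + 1) * ω *
      Real.exp (2 * Real.pi * M ^ 2 * ω * d) := by
    obtain ⟨y, hy⟩ : ∃ y : ℝ, y = 2 * Real.pi * M ^ 2 * ω * d := ⟨_, rfl⟩
    have hy0 : 0 ≤ y := by rw [hy]; (clear * - hM hω0 hd0; positivity)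
    have h1 : W = 2 * Real.pi * M * ω + y * ω := by rw [hW, hy]; ring
    have h2 : M * ω ^ 2 ≤ M * ω := by
      apply mul_le_mul_of_nonneg_left _ (by linarith only [hM])
      nlinarith only [hω1, hω0]
    have h3 : y + 1 ≤ Real.exp y := Real.add_one_le_exp y
    rw [← hy, h1]
    have h4 : M * ω + (2 * Real.pi * M * ω + y * ω) ≤ (M + 2 * Real.pi * M + 1) * ω * (y + 1) := by
      have h5 : 0 ≤ (M + 2 * Real.pi * M) * ω * y := by (clear * - hM hω0 hy0; positivity)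
      linarith only [h5, hω0]
    have h6 : (M + 2 * Real.pi * M + 1) * ω * (y + 1) ≤
        (M + 2 * Real.pi * M + 1) * ω * Real.exp y :=
      mul_le_mul_of_nonneg_left h3 (by positivity)
    linarith only [h2, h4, h6]
  have hexp : Real.exp (2 * Real.pi * M ^ 2 * ω * d) * Real.exp (2 * Real.pi * M ^ 2 * ω * d) *
      Real.exp (-(2 * Real.pi * d * β / P)) ≤ Real.exp (-((Λ + γ / 2) * d)) := by
    rw [← Real.exp_add, ← Real.exp_add]
    apply Real.exp_le_exp.mpr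
    have h1 : 2 * Real.pi * d * β / P = d * (2 * Real.pi * β / P) := by ring
    rw [h1]
    have h2 : d * (Λ + γ) ≤ d * (2 * Real.pi * β / P) := mul_le_mul_of_nonneg_left hΛγ hd0
    have h3 : d * (8 * Real.pi * M ^ 2 * ω) ≤ d * γ := mul_le_mul_of_nonneg_left hγ hd0
    linarith only [h3, h2]
  calc (M * ω ^ 2 + W) * Real.exp W * Real.exp (-(2 * Real.pi * d * β / P))
      ≤ ((M + 2 * Real.pi * M + 1) * ω * Real.exp (2 * Real.pi * M ^ 2 * ω * d)) *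
        (Real.exp (2 * Real.pi * M) * Real.exp (2 * Real.pi * M ^ 2 * ω * d)) *
        Real.exp (-(2 * Real.pi * d * β / P)) := by
        apply mul_le_mul_of_nonneg_right _ (Real.exp_pos _).le
        exact mul_le_mul hWl hWe (Real.exp_pos _).le (by positivity)
    _ = (M + 2 * Real.pi * M + 1) * Real.exp (2 * Real.pi * M) * ω *
        (Real.exp (2 * Real.pi * M ^ 2 * ω * d) * Real.exp (2 * Real.pi * M ^ 2 * ω * d) *
          Real.exp (-(2 * Real.pi * d * β / P))) := by ring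
    _ ≤ _ := mul_le_mul_of_nonneg_left hexp (by positivity)

/-- one term of the leaf relation, up to a small error, is minus the coefficient -/
theorem rb_one {M P β Λ γ ω S : ℝ} (hM : 1 ≤ M) (hMP : 1 ≤ M * P) (hP0 : 0 < P)
    (hβ : 0 < β) (hβ1 : β ≤ 1) (hΛ : 0 ≤ Λ) {q : ℕ} (hq : 1 ≤ q) (hω : ω = P / q) (hω1 : ω ≤ 1) (hγ0 : 0 < γ)
    (hΛγ : Λ + γ ≤ 2 * Real.pi * β / P) (hγ : 8 * Real.pi * M ^ 2 * ω ≤ γ) (hS : 0 ≤ S)
    {E k : ℂ → ℂ} (hE : DifferentiableOn ℂ E (strip β)) (hk : DifferentiableOn ℂ k (strip β))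
    (hper : ∀ ζ ∈ strip β, E (ζ + P) = E ζ ∧ k (ζ + P) = k ζ)
    (hb : ∀ ζ ∈ strip β, ‖E ζ‖ ≤ M * ω ^ 2 ∧ ‖k ζ - 1‖ ≤ M * ω ^ 2)
    (hEr : ∀ x : ℝ, (E x).im = 0) {F : ℝ → ℂ} (hF : Continuous F)
    (hperF : ∀ x, F (x + P) = F x) (hs : Summable fun n : ℤ => ‖fc P F n‖) {Wt : ℤ → ℝ}
    (hW0 : ∀ n, 0 < Wt n) (hW : ∀ n, Wt q ≤ Wt n * Real.exp (Λ * |(q : ℝ) - n|))
    (hFS : ∀ n, ‖fc P F n‖ * Wt n ≤ S) (j : ℕ) :
    ‖fc P (fun x => k x * F (x + (j + 1 / 2) * (P / q) + (E x).re)) q + fc P F q‖ * Wt q ≤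
      (M + 2 * Real.pi * M + 1) * Real.exp (2 * Real.pi * M) * (4 * (1 + Real.pi * M)) *
        (ω / γ) * S := by
  have hpi := Real.pi_pos
  have hω0 : 0 < ω := by rw [hω]; positivity
  have hqc : (q : ℂ) ≠ 0 := by exact_mod_cast (show q ≠ 0 by omega)
  have hEc := rb_cont hβ hE
  have hkc := rb_cont hβ hk
  have hkb : ∀ x : ℝ, ‖k x‖ ≤ 1 + M := by
    intro x
    have h1 := (hb x (rb_real_mem hβ x)).2
    have h2 : ‖k x‖ ≤ ‖k x - 1‖ + ‖(1 : ℂ)‖ := by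
      calc ‖k x‖ = ‖(k x - 1) + 1‖ := by congr 1; ring
        _ ≤ _ := norm_add_le _ _
    rw [norm_one] at h2
    have h3 : M * ω ^ 2 ≤ M * 1 := mul_le_mul_of_nonneg_left (by nlinarith only [hω1, hω0]) (by linarith only [hM])
    linarith only [h1, h2, h3]
  have h1 := rb_hasSum hP0 hq j (fun x => E x) (fun x => k x) hEc hkc hEr hkb hF hperF hs
  -- the main term
  have h2 : HasSum (fun n : ℤ => if n = (q : ℤ) then -fc P F q else 0) (-fc P F q) :=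
    hasSum_ite_eq (q : ℤ) (-fc P F q)
  have h3 := h1.sub h2
  have h4 : ∀ n : ℤ, fc P F n * exp (2 * Real.pi * I * n * (j + 1 / 2) / q) *
        fc P (fun x => k x * exp (2 * Real.pi * I * n * E x / P)) (q - n) -
        (if n = (q : ℤ) then -fc P F q else 0) =
      fc P F n * exp (2 * Real.pi * I * n * (j + 1 / 2) / q) *
        fc P (fun x : ℝ => k x * exp (2 * Real.pi * I * n * E x / P) - 1) (q - n) := by
    intro n
    have h5 : fc P (fun x : ℝ => k x * exp (2 * Real.pi * I * n * E x / P) - 1) (q - n) =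
        fc P (fun x : ℝ => k x * exp (2 * Real.pi * I * n * E x / P)) (q - n) -
          fc P (fun _ => 1) (q - n) :=
      rb_fc_sub (hkc.mul (Complex.continuous_exp.comp
        ((continuous_const.mul hEc).div_const _))) continuous_const _
    rw [h5, rb_fc_const hP0]
    split_ifs with h6 h7 h8
    · subst h6
      have h9 : exp (2 * Real.pi * I * ((q : ℕ) : ℤ) * (j + 1 / 2) / q) = -1 := by
        have : (2 * Real.pi * I * ((q : ℕ) : ℤ) * (j + 1 / 2) / q : ℂ) =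
            ((j : ℤ) : ℂ) * (2 * Real.pi * I) + Real.pi * I := by
          push_cast; (clear * - hqc; field_simp)
        rw [this, Complex.exp_add, Complex.exp_int_mul_two_pi_mul_I, Complex.exp_pi_mul_I]
        ring
      rw [h9]
      ring
    · exact absurd (by omega) h7
    · exact absurd (by omega) h6
    · ring
  have h5 : HasSum (fun n : ℤ => fc P F n * exp (2 * Real.pi * I * n * (j + 1 / 2) / q) *
        fc P (fun x : ℝ => k x * exp (2 * Real.pi * I * n * E x / P) - 1) (q - n))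
      (fc P (fun x : ℝ => k x * F (x + (j + 1 / 2) * (P / q) + (E x).re)) q - -fc P F q) := by
    have h6 := h3
    simp only [h4] at h6
    exact h6
  -- the majorant
  obtain ⟨G, hG, hG2⟩ := rb_geom (γ / 2) (by linarith only [hγ0]) (q : ℤ)
  obtain ⟨C1, hC1⟩ : ∃ C1 : ℝ, C1 = (M + 2 * Real.pi * M + 1) * Real.exp (2 * Real.pi * M) :=
    ⟨_, rfl⟩
  have hC10 : 0 < C1 := by rw [hC1]; positivity
  have h6 := hG.mul_left (C1 * ω * S / Wt q)
  have h7 : ∀ n : ℤ, ‖fc P F n * exp (2 * Real.pi * I * n * (j + 1 / 2) / q) *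
        fc P (fun x : ℝ => k x * exp (2 * Real.pi * I * n * E x / P) - 1) (q - n)‖ ≤
      C1 * ω * S / Wt q * Real.exp (-(γ / 2 * |(((q : ℕ) : ℤ) : ℝ) - n|)) := by
    intro n
    have h8 : ‖exp (2 * Real.pi * I * n * (j + 1 / 2) / q)‖ = 1 := by
      have : (2 * Real.pi * I * n * (j + 1 / 2) / q : ℂ) =
          ((2 * Real.pi * n * (j + 1 / 2) / q : ℝ) : ℂ) * I := by push_cast; ring
      rw [this, Complex.norm_exp_ofReal_mul_I]
    have h9 := rb_kernel hM hMP hP0 hβ hq hω hω1 hΛγ hγ hE hk hper hb n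
    rw [← hC1] at h9
    rw [norm_mul, norm_mul, h8, mul_one, Int.cast_natCast]
    have h10 : ‖fc P F n‖ ≤ S / Wt n := by
      rw [le_div_iff₀ (hW0 n)]; exact hFS n
    have h11 : S / Wt n ≤ S / Wt q * Real.exp (Λ * |(q : ℝ) - n|) := by
      rw [div_mul_eq_mul_div, div_le_div_iff₀ (hW0 n) (hW0 q)]
      calc S * Wt q ≤ S * (Wt n * Real.exp (Λ * |(q : ℝ) - n|)) :=
            mul_le_mul_of_nonneg_left (hW n) hS
        _ = _ := by ring
    have hWq := hW0 q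
    calc ‖fc P F n‖ * ‖fc P (fun x : ℝ => k x * exp (2 * Real.pi * I * n * E x / P) - 1) (q - n)‖
        ≤ (S / Wt q * Real.exp (Λ * |(q : ℝ) - n|)) *
          (C1 * ω * Real.exp (-((Λ + γ / 2) * |(q : ℝ) - n|))) :=
          mul_le_mul (h10.trans h11) h9 (norm_nonneg _) (by (clear * - hS hWq; positivity))
      _ = C1 * ω * S / Wt q * (Real.exp (Λ * |(q : ℝ) - n|) *
            Real.exp (-((Λ + γ / 2) * |(q : ℝ) - n|))) := by ring
      _ = _ := by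
          rw [← Real.exp_add]
          congr 2
          ring
  have h8 := HasSum.norm_le_of_bounded h5 h6 h7
  rw [sub_neg_eq_add] at h8
  have hWq := hW0 q
  have hPM : 1 / P ≤ M := by rw [div_le_iff₀ hP0]; exact hMP
  have hγM : γ / 2 ≤ Real.pi * M := by
    have h9 : 2 * Real.pi * β / P = 2 * Real.pi * β * (1 / P) := by ring
    have h10 : 2 * Real.pi * β * (1 / P) ≤ 2 * Real.pi * 1 * M := by (clear * - hβ1 hPM hP0; gcongr)
    linarith only [h10, h9, hΛγ, hΛ]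
  have hG3 : G ≤ 4 * (1 + Real.pi * M) / γ := by
    refine hG2.trans ?_
    have h9 : 2 * ((1 + γ / 2) / (γ / 2)) = 4 * (1 + γ / 2) / γ := by field_simp; ring
    rw [h9]
    (clear * - hγM hγ0; gcongr)
  rw [← hC1]
  calc ‖fc P (fun x : ℝ => k x * F (x + (j + 1 / 2) * (P / q) + (E x).re)) q + fc P F q‖ * Wt q
      ≤ (C1 * ω * S / Wt q * G) * Wt q := mul_le_mul_of_nonneg_right h8 hWq.le
    _ = C1 * ω * S * G := by (clear * - hWq hω0 hC10; field_simp)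
    _ ≤ C1 * ω * S * (4 * (1 + Real.pi * M) / γ) :=
        mul_le_mul_of_nonneg_left hG3 (by (clear * - hC10 hω0 hS; positivity))
    _ = C1 * (4 * (1 + Real.pi * M)) * (ω / γ) * S := by ring

theorem fourier_relation (M : ℝ) (hM : 1 ≤ M) : ∃ C : ℝ, 1 ≤ C ∧
    ∀ (P β Λ γ S η c0 : ℝ) (q : ℕ) (Ef κ : ℕ → ℂ → ℂ) (L : ℂ → ℂ) (F : ℝ → ℂ) (Wt : ℤ → ℝ),
      1 ≤ M * P → P ≤ M → 0 < β → β ≤ 1 → 1 ≤ q → P / q ≤ 1 → 0 ≤ Λ → 0 < γ →
      Λ + γ ≤ 2 * Real.pi * β / P → C * (P / q) ≤ γ → 0 ≤ S → 0 ≤ η →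
      (∀ j < q, DifferentiableOn ℂ (Ef j) (strip β)) →
      (∀ j < q, DifferentiableOn ℂ (κ j) (strip β)) →
      (∀ j < q, ∀ ζ ∈ strip β, Ef j (ζ + P) = Ef j ζ ∧ κ j (ζ + P) = κ j ζ) →
      (∀ j < q, ∀ ζ ∈ strip β, ‖Ef j ζ‖ ≤ M * (P / q) ^ 2 ∧ ‖κ j ζ - 1‖ ≤ M * (P / q) ^ 2) →
      (∀ j < q, ∀ x : ℝ, (Ef j x).im = 0) →
      DifferentiableOn ℂ L (strip β) → (∀ ζ ∈ strip β, L (ζ + P) = L ζ) →
      (∀ ζ ∈ strip β, ‖L ζ‖ ≤ M) →
      Continuous F → (∀ x, F (x + P) = F x) → (Summable fun n : ℤ => ‖fc P F n‖) →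
      (∀ n, 0 < Wt n) → (∀ n, Wt q ≤ Wt n * Real.exp (Λ * |(q : ℝ) - n|)) →
      (∀ n, ‖fc P F n‖ * Wt n ≤ S) →
      (∀ x : ℝ, ‖(c0 : ℂ) - L x - (P / q : ℝ) * ∑ j ∈ Finset.range q,
        κ j x * F (x + (j + 1 / 2) * (P / q) + (Ef j x).re)‖ ≤ η) →
      ‖fc P F q‖ * Wt q ≤ C * (P / q / γ) * S
        + C * Wt q * (Real.exp (-(2 * Real.pi * q * β / P)) + η) := by
  have hpi := Real.pi_pos
  have hM2 : 0 < M ^ 2 := by positivity
  have hM3 : 0 < Real.pi * M ^ 2 := by positivity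
  obtain ⟨C2, hC2⟩ : ∃ C2 : ℝ, C2 = (M + 2 * Real.pi * M + 1) * Real.exp (2 * Real.pi * M) *
    (4 * (1 + Real.pi * M)) := ⟨_, rfl⟩
  have hC20 : 0 < C2 := by rw [hC2]; positivity
  refine ⟨1 + 8 * Real.pi * M ^ 2 + M ^ 2 + C2, by linarith, ?_⟩
  intro P β Λ γ S η c0 q Ef κ L F Wt hMP hPM hβ hβ1 hq hPq hΛ hγ0 hΛγ hCγ hS hη hEf hκ hper hb
    hEr hL hLper hLb hF hFper hFs hWt hWt2 hFS hrel
  have hP0 : 0 < P := by
    by_contra h
    push Not at h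
    have : M * P ≤ 0 := mul_nonpos_of_nonneg_of_nonpos (by linarith only [hM]) h
    linarith only [hMP, this]
  have hω0 : 0 < P / q := by (clear * - hP0 hq; positivity)
  have hγ : 8 * Real.pi * M ^ 2 * (P / q) ≤ γ := by
    refine le_trans ?_ hCγ
    apply mul_le_mul_of_nonneg_right _ hω0.le
    linarith only [hM2, hC20]
  obtain ⟨R, hR⟩ : ∃ R : ℝ → ℂ, R = fun x : ℝ => (c0 : ℂ) - L x - (P / q : ℝ) *
    ∑ j ∈ Finset.range q, κ j x * F (x + (j + 1 / 2) * (P / q) + (Ef j x).re) := ⟨_, rfl⟩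
  have hRb : ‖fc P R q‖ ≤ η := rb_fc_norm hP0 (fun x => by rw [hR]; exact hrel x) _
  have hLc := rb_cont hβ hL
  have hLf : ‖fc P (fun x : ℝ => L x) q‖ ≤ M * Real.exp (-(2 * Real.pi * q * β / P)) := by
    have := fc_shift hP0 hβ hL hLper hLb q
    have h1 : |(((q : ℕ) : ℤ) : ℝ)| = q := by
      rw [Int.cast_natCast, abs_of_nonneg (by positivity)]
    rw [h1] at this
    exact this
  have hcont : ∀ j < q, Continuous fun x : ℝ =>
      κ j x * F (x + (j + 1 / 2) * (P / q) + (Ef j x).re) := by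
    intro j hj
    apply (rb_cont hβ (hκ j hj)).mul
    apply hF.comp
    exact (continuous_id.add continuous_const).add
      (Complex.continuous_re.comp (rb_cont hβ (hEf j hj)))
  have hsumc : Continuous fun x : ℝ => ∑ j ∈ Finset.range q,
      κ j x * F (x + (j + 1 / 2) * (P / q) + (Ef j x).re) :=
    continuous_finsetSum _ fun j hj => hcont j (Finset.mem_range.mp hj)
  have hRq : fc P R q = - fc P (fun x : ℝ => L x) q - (P / q : ℝ) * ∑ j ∈ Finset.range q,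
      fc P (fun x => κ j x * F (x + (j + 1 / 2) * (P / q) + (Ef j x).re)) q := by
    have e1 := rb_fc_sub (P := P) (F := fun x : ℝ => (c0 : ℂ) - L x)
      (G := fun x : ℝ => (P / q : ℝ) * ∑ j ∈ Finset.range q,
        κ j x * F (x + (j + 1 / 2) * (P / q) + (Ef j x).re))
      (continuous_const.sub hLc) (continuous_const.mul hsumc) q
    have e2 := rb_fc_sub (P := P) (F := fun _ : ℝ => (c0 : ℂ)) (G := fun x : ℝ => L x)
      continuous_const hLc q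
    rw [hR, e1, e2, rb_fc_const hP0, rb_fc_smul, rb_fc_finsum q hcont,
      if_neg (by omega), zero_sub]
  have hone : ∀ j ∈ Finset.range q,
      ‖fc P (fun x => κ j x * F (x + (j + 1 / 2) * (P / q) + (Ef j x).re)) q + fc P F q‖ ≤
        C2 * (P / q / γ) * S / Wt q := by
    intro j hj
    have hj' := Finset.mem_range.mp hj
    rw [le_div_iff₀ (hWt q), hC2]
    exact rb_one hM hMP hP0 hβ hβ1 hΛ hq rfl hPq hγ0 hΛγ hγ hS (hEf j hj') (hκ j hj')
      (hper j hj') (hb j hj') (hEr j hj') hF hFper hFs hWt hWt2 hFS j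
  -- assemble
  have hqc : (q : ℂ) ≠ 0 := by exact_mod_cast (show q ≠ 0 by omega)
  have hqr : (0 : ℝ) < q := by exact_mod_cast hq
  have hmain : (P : ℂ) * fc P F q = fc P R q + fc P (fun x : ℝ => L x) q +
      (P / q : ℝ) * ∑ j ∈ Finset.range q,
        (fc P (fun x => κ j x * F (x + (j + 1 / 2) * (P / q) + (Ef j x).re)) q + fc P F q) := by
    rw [hRq, Finset.sum_add_distrib, Finset.sum_const, Finset.card_range, nsmul_eq_mul]
    generalize (∑ j ∈ Finset.range q,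
      fc P (fun x => κ j x * F (x + (j + 1 / 2) * (P / q) + (Ef j x).re)) q) = Z
    push_cast
    field_simp
    ring
  have hnorm : P * ‖fc P F q‖ ≤ η + M * Real.exp (-(2 * Real.pi * q * β / P)) +
      P * (C2 * (P / q / γ) * S / Wt q) := by
    have h1 : P * ‖fc P F q‖ = ‖(P : ℂ) * fc P F q‖ := by
      rw [norm_mul, Complex.norm_real, Real.norm_of_nonneg hP0.le]
    rw [h1, hmain]
    refine (norm_add_le _ _).trans (add_le_add ((norm_add_le _ _).trans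
      (add_le_add hRb hLf)) ?_)
    rw [norm_mul, Complex.norm_real, Real.norm_of_nonneg hω0.le]
    have h2 := norm_sum_le_of_le _ hone
    rw [Finset.sum_const, Finset.card_range, nsmul_eq_mul] at h2
    calc P / q * ‖∑ j ∈ Finset.range q,
        (fc P (fun x => κ j x * F (x + (j + 1 / 2) * (P / q) + (Ef j x).re)) q + fc P F q)‖
        ≤ P / q * (q * (C2 * (P / q / γ) * S / Wt q)) :=
          mul_le_mul_of_nonneg_left h2 hω0.le
      _ = P * (C2 * (P / q / γ) * S / Wt q) := by (clear * - hγ0 hC20 hq hP0; field_simp)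
  have hPM' : 1 / P ≤ M := by rw [div_le_iff₀ hP0]; exact hMP
  obtain ⟨e, he⟩ : ∃ e : ℝ, e = Real.exp (-(2 * Real.pi * q * β / P)) := ⟨_, rfl⟩
  have he0 : 0 < e := by rw [he]; exact Real.exp_pos _
  rw [← he] at hnorm ⊢
  have hWq := hWt q
  have h3 : ‖fc P F q‖ * Wt q ≤ 1 / P * (η + M * e) * Wt q + C2 * (P / q / γ) * S := by
    have h4 : ‖fc P F q‖ ≤ 1 / P * (η + M * e) + C2 * (P / q / γ) * S / Wt q := by
      have h5 : ‖fc P F q‖ = 1 / P * (P * ‖fc P F q‖) := by (clear * - hP0; field_simp)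
      rw [h5]
      calc 1 / P * (P * ‖fc P F q‖) ≤
            1 / P * (η + M * e + P * (C2 * (P / q / γ) * S / Wt q)) :=
            mul_le_mul_of_nonneg_left hnorm (by (clear * - hP0; positivity))
        _ = _ := by (clear * - hWq hγ0 hq hη hM he0 hP0 hC20 hS; field_simp)
    calc ‖fc P F q‖ * Wt q ≤ (1 / P * (η + M * e) + C2 * (P / q / γ) * S / Wt q) * Wt q :=
          mul_le_mul_of_nonneg_right h4 hWq.le
      _ = _ := by (clear * - hWq hγ0 hq hη hM he0 hP0 hC20 hS; field_simp)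
  have h6 : 1 / P * (η + M * e) ≤ M ^ 2 * (e + η) := by
    calc 1 / P * (η + M * e) ≤ M * (η + M * e) :=
          mul_le_mul_of_nonneg_right hPM' (by (clear * - hη hM he0; positivity))
      _ ≤ M * (M * η + M * e) := by
          apply mul_le_mul_of_nonneg_left _ (by linarith only [hM])
          linarith only [mul_nonneg (sub_nonneg.2 hM) (sub_nonneg.2 hη)]
      _ = _ := by ring
  have h7 : M ^ 2 * (e + η) * Wt q ≤ (1 + 8 * Real.pi * M ^ 2 + M ^ 2 + C2) * Wt q * (e + η) := by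
    have h8 : 0 ≤ Wt q * (e + η) := by (clear * - hWq he0 hη; positivity)
    have h9 : 0 ≤ (1 + 8 * Real.pi * M ^ 2 + C2) * (Wt q * (e + η)) := by (clear * - hM hC20 hWq he0 hη; positivity)
    linarith only [h9]
  have h10 : C2 * (P / q / γ) * S ≤
      (1 + 8 * Real.pi * M ^ 2 + M ^ 2 + C2) * (P / q / γ) * S := by
    apply mul_le_mul_of_nonneg_right _ hS
    apply mul_le_mul_of_nonneg_right _ (by (clear * - hP0 hq hγ0; positivity))
    have : 0 ≤ 1 + 8 * Real.pi * M ^ 2 + M ^ 2 := by positivity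
    linarith only [hM2, hM3]
  have h11 := mul_le_mul_of_nonneg_right h6 hWq.le
  linarith only [h11, h10, h7, h3]

end Vale.Agent.P097.Reg
end

section

/-! Module R6, part B: subregions of a complexified table and Cauchy estimates. -/

namespace Vale.Agent.P097.Reg.U6

open Complex Set Filter Topology
open scoped ComplexConjugate

/-- the part of the domain of height less than `β - t` -/
def reg {M β P : ℝ} (T : CTab M β P) (t : ℝ) : Set ℂ := {ψ | ψ ∈ T.D ∧ |(T.X ψ).im| < β - t}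

variable {M β P : ℝ} (T : CTab M β P)

theorem contX : ContinuousOn T.X T.D := fun ψ hψ =>
  (T.dX ψ hψ).continuousAt.continuousWithinAt

theorem isOpen_reg (t : ℝ) : IsOpen (reg T t) := by
  have h1 : ContinuousOn (fun ψ => |(T.X ψ).im|) T.D :=
    (Complex.continuous_im.comp_continuousOn (contX T)).abs
  exact h1.isOpen_inter_preimage T.isOpen isOpen_Iio

theorem reg_mono {t t' : ℝ} (h : t ≤ t') : reg T t' ⊆ reg T t := fun _ hψ =>
  ⟨hψ.1, lt_of_lt_of_le hψ.2 (by linarith)⟩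

theorem reg_conj {t : ℝ} {ψ : ℂ} (h : ψ ∈ reg T t) : conj ψ ∈ reg T t := by
  refine ⟨T.cD ψ h.1, ?_⟩
  rw [T.cX ψ h.1, Complex.conj_im, abs_neg]
  exact h.2

theorem reg_add {t : ℝ} {ψ : ℂ} (h : ψ ∈ reg T t) : ψ + 2 * Real.pi ∈ reg T t := by
  refine ⟨T.pD ψ h.1, ?_⟩
  rw [T.pX ψ h.1, Complex.add_im, Complex.ofReal_im, add_zero]
  exact h.2

theorem reg_sub {t : ℝ} {ψ : ℂ} (h : ψ ∈ reg T t) : ψ - 2 * Real.pi ∈ reg T t := by
  have h1 := T.mD ψ h.1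
  refine ⟨h1, ?_⟩
  have h2 := T.pX _ h1
  rw [sub_add_cancel] at h2
  have h3 : (T.X ψ).im = (T.X (ψ - 2 * Real.pi)).im := by
    rw [h2, Complex.add_im, Complex.ofReal_im, add_zero]
  rw [← h3]
  exact h.2

theorem ball_reg {t t' : ℝ} (ht : 0 ≤ t) {φ ψ : ℂ} (hφ : φ ∈ reg T t')
    (h : M * ‖ψ - φ‖ < t' - t) : ψ ∈ reg T t := by
  have h1 : |(T.X φ).im| < β - t' := hφ.2
  obtain ⟨h2, h3⟩ := ball_subset T hφ.1 (ψ := ψ) (by linarith)
  refine ⟨h2, ?_⟩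
  have h4 : (T.X ψ).im = (T.X φ).im + (T.X ψ - T.X φ).im := by
    rw [Complex.sub_im]; ring
  have h5 := Complex.abs_im_le_norm (T.X ψ - T.X φ)
  have h6 := abs_add_le (T.X φ).im (T.X ψ - T.X φ).im
  rw [← h4] at h6
  linarith

theorem cauchy_reg {t t' B : ℝ} (ht : 0 ≤ t) (htt : t < t') {f : ℂ → ℂ}
    (hf : DifferentiableOn ℂ f (reg T t)) (hB : ∀ ψ ∈ reg T t, ‖f ψ‖ ≤ B) (n : ℕ) {ψ : ℂ}
    (hψ : ψ ∈ reg T t') :
    ‖iteratedDeriv n f ψ‖ ≤ n.factorial * B / ((t' - t) / (2 * M)) ^ n := by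
  have hM : 0 < M := lt_of_lt_of_le one_pos T.M1
  have hr : 0 < (t' - t) / (2 * M) := div_pos (by linarith) (by linarith)
  have hsub : Metric.closedBall ψ ((t' - t) / (2 * M)) ⊆ reg T t := by
    intro x hx
    apply ball_reg T ht hψ
    rw [Metric.mem_closedBall, dist_eq_norm] at hx
    calc M * ‖x - ψ‖ ≤ M * ((t' - t) / (2 * M)) := mul_le_mul_of_nonneg_left hx hM.le
      _ = (t' - t) / 2 := by field_simp
      _ < t' - t := by linarith only [htt]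
  apply Complex.norm_iteratedDeriv_le_of_forall_mem_sphere_norm_le n hr
  · exact hf.diffContOnCl_ball hsub
  · intro z hz
    exact hB z (hsub (Metric.sphere_subset_closedBall hz))

theorem deriv_per {f : ℂ → ℂ} {S : Set ℂ} (hS : IsOpen S)
    (h : ∀ ψ ∈ S, f (ψ + 2 * Real.pi) = f ψ) :
    ∀ ψ ∈ S, deriv f (ψ + 2 * Real.pi) = deriv f ψ := by
  intro ψ hψ
  have h1 : (fun x => f (x + 2 * Real.pi)) =ᶠ[𝓝 ψ] f := by
    filter_upwards [hS.mem_nhds hψ] with x hx using h x hx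
  rw [← h1.deriv_eq, deriv_comp_add_const]

theorem deriv_conj {f : ℂ → ℂ} {S : Set ℂ} (hS : IsOpen S)
    (h : ∀ ψ ∈ S, f (conj ψ) = conj (f ψ)) :
    ∀ ψ ∈ S, deriv f (conj ψ) = conj (deriv f ψ) := by
  intro ψ hψ
  have h1 : (conj ∘ f ∘ conj) =ᶠ[𝓝 ψ] f := by
    filter_upwards [hS.mem_nhds hψ] with x hx
    simp only [Function.comp_apply, h x hx, Complex.conj_conj]
  have h2 := h1.deriv_eq
  rw [_root_.deriv_conj_conj] at h2
  rw [← h2, Function.comp_apply, Complex.conj_conj]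
  rfl

theorem z_per {ζ : ℂ} (h : ζ ∈ strip β) : T.z (ζ + P) = T.z ζ + 2 * Real.pi := by
  have h1 := T.pX _ (T.zD ζ h)
  rw [T.Xz ζ h] at h1
  rw [← h1, T.zX _ (T.pD _ (T.zD ζ h))]

theorem z_conj {ζ : ℂ} (h : ζ ∈ strip β) : T.z (conj ζ) = conj (T.z ζ) := by
  have h1 := T.cX _ (T.zD ζ h)
  rw [T.Xz ζ h] at h1
  rw [← h1, T.zX _ (T.cD _ (T.zD ζ h))]

theorem lam_real (x : ℝ) : (T.lam x).im = 0 := by
  have h := T.clam x (T.rD x)
  rw [Complex.conj_ofReal] at h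
  exact Complex.conj_eq_iff_im.1 h.symm

theorem X_real (x : ℝ) : (T.X x).im = 0 := by
  have h := T.cX x (T.rD x)
  rw [Complex.conj_ofReal] at h
  exact Complex.conj_eq_iff_im.1 h.symm

theorem iter_add {f g : ℂ → ℂ} {S : Set ℂ} (hS : IsOpen S) (hf : DifferentiableOn ℂ f S)
    (hg : DifferentiableOn ℂ g S) (n : ℕ) {ψ : ℂ} (hψ : ψ ∈ S) :
    iteratedDeriv n (fun x => f x + g x) ψ = iteratedDeriv n f ψ + iteratedDeriv n g ψ := by
  have h1 : ContDiffAt ℂ n f ψ := (hf.analyticAt (hS.mem_nhds hψ)).contDiffAt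
  have h2 : ContDiffAt ℂ n g ψ := (hg.analyticAt (hS.mem_nhds hψ)).contDiffAt
  exact iteratedDeriv_add h1 h2

theorem iter1 (f : ℂ → ℂ) : iteratedDeriv 1 f = deriv f := iteratedDeriv_one

theorem iter2 (f : ℂ → ℂ) : iteratedDeriv 2 f = deriv (deriv f) := by
  rw [iteratedDeriv_succ, iteratedDeriv_one]

theorem iter3 (f : ℂ → ℂ) : iteratedDeriv 3 f = deriv (deriv (deriv f)) := by
  rw [iteratedDeriv_succ, iter2]

end Vale.Agent.P097.Reg.U6
end

section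

/-!
# P097, regularity theorem: approximation of smooth periodic functions
-/

namespace Vale.Agent.P097.Reg

open Complex MeasureTheory
open scoped ComplexConjugate ContDiff

namespace R4

/-- Fourier coefficient of a real function of period `2π`. -/
noncomputable def cf (f : ℝ → ℝ) (m : ℤ) : ℂ :=
  ((2 * Real.pi : ℝ) : ℂ)⁻¹ * ∫ x in (0:ℝ)..(2 * Real.pi), (f x : ℂ) * exp (-(I * m * x))

theorem exp_hasDerivAt (m : ℤ) (x : ℝ) : HasDerivAt (fun x : ℝ => exp (-(I * m * x)))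
    (exp (-(I * m * x)) * (-(I * m))) x := by
  have h1 : HasDerivAt (fun x : ℝ => -(I * m) * x) (-(I * m)) x := by
    simpa only [neg_mul, id_eq, ofReal_one, mul_one] using (hasDerivAt_id x).ofReal_comp.const_mul (-(I * m))
  have h2 : HasDerivAt (fun x : ℝ => -(I * m * x)) (-(I * m)) x := by
    convert h1 using 2 with y
    ring
  exact h2.cexp

theorem exp_cont (m : ℤ) : Continuous (fun x : ℝ => exp (-(I * m * x))) := by (clear * -; fun_prop)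

theorem exp_two_pi (m : ℤ) : exp (-(I * m * ((2 * Real.pi : ℝ) : ℂ))) = 1 := by
  rw [exp_neg]
  have : I * m * ((2 * Real.pi : ℝ) : ℂ) = m * (2 * Real.pi * I) := by push_cast; ring
  rw [this, exp_int_mul_two_pi_mul_I, inv_one]

theorem cf_deriv {f : ℝ → ℝ} (hf : ContDiff ℝ 1 f) (hp : ∀ x, f (x + 2 * Real.pi) = f x)
    (m : ℤ) : cf (deriv f) m = I * m * cf f m := by
  have hd : ∀ x, HasDerivAt (fun x : ℝ => (f x : ℂ)) ((deriv f x : ℝ) : ℂ) x := fun x =>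
    (hf.differentiable (by norm_num) x).hasDerivAt.ofReal_comp
  have hc : Continuous (fun x : ℝ => ((deriv f x : ℝ) : ℂ)) :=
    continuous_ofReal.comp (hf.continuous_deriv le_rfl)
  have key := intervalIntegral.integral_mul_deriv_eq_deriv_mul (a := 0) (b := 2 * Real.pi)
    (fun x _ => exp_hasDerivAt m x) (fun x _ => hd x)
    (((exp_cont m).mul continuous_const).intervalIntegrable _ _) (hc.intervalIntegrable _ _)
  have e0 : f (2 * Real.pi) = f 0 := by simpa using hp 0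
  unfold cf
  have h1 : ∫ x in (0:ℝ)..(2 * Real.pi), ((deriv f x : ℝ) : ℂ) * exp (-(I * m * x))
      = ∫ x in (0:ℝ)..(2 * Real.pi), exp (-(I * m * x)) * ((deriv f x : ℝ) : ℂ) := by
    congr 1; ext x; ring
  have h2 : ∫ x in (0:ℝ)..(2 * Real.pi), exp (-(I * m * x)) * (-(I * m)) * (f x : ℂ)
      = -(I * m) * ∫ x in (0:ℝ)..(2 * Real.pi), (f x : ℂ) * exp (-(I * m * x)) := by
    rw [← intervalIntegral.integral_const_mul]; congr 1; ext x; ring
  rw [h1, key, h2, exp_two_pi, e0]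
  simp only [ofReal_mul, ofReal_ofNat, mul_inv_rev, one_mul, ofReal_zero, mul_zero, neg_zero, exp_zero, sub_self, neg_mul, sub_neg_eq_add, zero_add]
  ring

theorem per_deriv {f : ℝ → ℝ} (hp : ∀ x, f (x + 2 * Real.pi) = f x) (x : ℝ) :
    deriv f (x + 2 * Real.pi) = deriv f x := by
  have := deriv_comp_add_const f (2 * Real.pi) x
  rw [← this]
  congr 1
  ext y; exact hp y

theorem per_iter {f : ℝ → ℝ} (hp : ∀ x, f (x + 2 * Real.pi) = f x) (k : ℕ) :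
    ∀ x, deriv^[k] f (x + 2 * Real.pi) = deriv^[k] f x := by
  induction k with
  | zero => simpa only [Function.iterate_zero, id_eq] using hp
  | succ k ih =>
    intro x
    rw [Function.iterate_succ_apply']
    exact per_deriv ih x

theorem cf_iter {f : ℝ → ℝ} (hf : ContDiff ℝ ∞ f) (hp : ∀ x, f (x + 2 * Real.pi) = f x)
    (m : ℤ) (k : ℕ) : cf (deriv^[k] f) m = (I * m) ^ k * cf f m := by
  induction k with
  | zero => simp
  | succ k ih =>
    rw [Function.iterate_succ_apply', cf_deriv ((hf.iterate_deriv k).of_le (by norm_cast))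
      (per_iter hp k), ih]
    ring

theorem norm_exp_int (m : ℤ) (x : ℝ) : ‖exp (-(I * m * x))‖ = 1 := by
  rw [norm_exp]
  simp only [neg_re, mul_re, I_re, intCast_re, zero_mul, I_im, intCast_im, mul_zero, sub_self, ofReal_re, mul_im, one_mul, zero_add, ofReal_im, neg_zero, Real.exp_zero]

theorem cf_le {f : ℝ → ℝ} {B : ℝ} (hB : ∀ x, |f x| ≤ B) (m : ℤ) : ‖cf f m‖ ≤ B := by
  unfold cf
  have hpi : (0:ℝ) < 2 * Real.pi := by positivity
  have h1 : ‖∫ x in (0:ℝ)..(2 * Real.pi), (f x : ℂ) * exp (-(I * m * x))‖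
      ≤ B * |2 * Real.pi - 0| := by
    apply intervalIntegral.norm_integral_le_of_norm_le_const
    intro x _
    rw [norm_mul, norm_exp_int, mul_one, norm_real]
    exact hB x
  rw [norm_mul, norm_inv, norm_real, Real.norm_of_nonneg hpi.le]
  rw [sub_zero, abs_of_pos hpi] at h1
  calc (2 * Real.pi)⁻¹ * _ ≤ (2 * Real.pi)⁻¹ * (B * (2 * Real.pi)) := by (clear * - h1; gcongr)
    _ = B := by (clear * -; field_simp)

theorem exists_bound {f : ℝ → ℝ} (hf : Continuous f) (hp : ∀ x, f (x + 2 * Real.pi) = f x) :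
    ∃ B : ℝ, 0 ≤ B ∧ ∀ x, |f x| ≤ B := by
  obtain ⟨C, hC⟩ := (isCompact_Icc (a := (0:ℝ)) (b := 2 * Real.pi)).exists_bound_of_continuousOn
    hf.continuousOn
  refine ⟨C, ?_, fun x => ?_⟩
  · exact (norm_nonneg _).trans (hC 0 ⟨le_rfl, by positivity⟩)
  · have hper : Function.Periodic f (2 * Real.pi) := hp
    obtain ⟨y, hy, hxy⟩ := hper.exists_mem_Ico₀ (by positivity : (0:ℝ) < 2 * Real.pi) x
    rw [hxy]
    exact hC y ⟨hy.1, hy.2.le⟩

theorem cf_conj (f : ℝ → ℝ) (m : ℤ) : cf f (-m) = conj (cf f m) := by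
  unfold cf
  rw [map_mul, map_inv₀, conj_ofReal]
  congr 1
  have : ∀ g : ℝ → ℂ, conj (∫ x in (0:ℝ)..(2 * Real.pi), g x)
      = ∫ x in (0:ℝ)..(2 * Real.pi), conj (g x) := fun g => by
    rw [intervalIntegral, intervalIntegral, map_sub, integral_conj, integral_conj]
  rw [this]
  congr 1
  ext x
  rw [map_mul, conj_ofReal, ← exp_conj]
  congr 2
  simp only [Int.cast_neg, mul_neg, neg_mul, neg_neg, map_neg, map_mul, conj_I, map_intCast, conj_ofReal]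

/-- Fourier inversion -/
theorem inversion {f : ℝ → ℝ} (hf : Continuous f) (hp : ∀ x, f (x + 2 * Real.pi) = f x)
    (hs : Summable fun m : ℤ => ‖cf f m‖) (x : ℝ) :
    HasSum (fun m : ℤ => cf f m * exp (I * m * x)) (f x) := by
  have : Fact (0 < 2 * Real.pi) := ⟨by positivity⟩
  have hper : Function.Periodic (fun x => (f x : ℂ)) (2 * Real.pi) := fun x => by
    simp only; rw [hp]
  let F : C(AddCircle (2 * Real.pi), ℂ) := ⟨hper.lift, by
    have : Continuous (fun x => (f x : ℂ)) := continuous_ofReal.comp hf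
    exact continuous_coinduced_dom.mpr this⟩
  have hF : ∀ x : ℝ, F (x : AddCircle (2 * Real.pi)) = f x := fun x => rfl
  have hpi : (2 * (Real.pi : ℂ)) ≠ 0 := by
    have := Real.pi_ne_zero
    norm_cast; simp
  have hco : ∀ m : ℤ, fourierCoeff F m = cf f m := by
    intro m
    rw [fourierCoeff_eq_intervalIntegral F m 0]
    unfold cf
    rw [real_smul, zero_add, one_div, ofReal_inv]
    congr 1
    apply intervalIntegral.integral_congr
    intro y _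
    simp only [smul_eq_mul]
    rw [fourier_coe_apply, hF, mul_comm]
    congr 2
    push_cast
    field_simp
  have hsum : Summable (fourierCoeff F) := by
    apply Summable.of_norm
    simpa [hco] using hs
  have := has_pointwise_sum_fourier_series_of_summable hsum (x : AddCircle (2 * Real.pi))
  rw [hF] at this
  convert this using 2 with m
  rw [hco, smul_eq_mul, fourier_coe_apply]
  congr 2
  push_cast
  (clear * -; field_simp)

/-- The trigonometric polynomial with the coefficients `c`. -/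
noncomputable def tp (c : ℤ → ℂ) (n : ℕ) (z : ℂ) : ℂ :=
  ∑ m ∈ Finset.Icc (-(n : ℤ)) n, c m * exp (I * m * z)

theorem tp_hasDerivAt (c : ℤ → ℂ) (n : ℕ) (z : ℂ) :
    HasDerivAt (tp c n) (tp (fun m => I * m * c m) n z) z := by
  unfold tp
  have h : ∀ m ∈ Finset.Icc (-(n : ℤ)) n,
      HasDerivAt (fun z : ℂ => c m * exp (I * m * z)) (I * m * c m * exp (I * m * z)) z := by
    intro m _
    have h1 : HasDerivAt (fun z : ℂ => I * m * z) (I * m) z := by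
      simpa using (hasDerivAt_id z).const_mul (I * m)
    exact (h1.cexp.const_mul (c m)).congr_deriv (by ring)
  exact HasDerivAt.fun_sum h

theorem tp_deriv (c : ℤ → ℂ) (n : ℕ) : deriv (tp c n) = tp (fun m => I * m * c m) n :=
  funext fun z => (tp_hasDerivAt c n z).deriv

theorem tp_iter (c : ℤ → ℂ) (n k : ℕ) :
    deriv^[k] (tp c n) = tp (fun m => (I * m) ^ k * c m) n := by
  induction k with
  | zero => simp
  | succ k ih =>
    rw [Function.iterate_succ_apply', ih, tp_deriv]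
    congr 1
    ext m
    rw [pow_succ']
    ring

theorem tp_norm {c : ℤ → ℂ} (hs : Summable fun m => ‖c m‖) {n : ℕ} (hn : 1 ≤ n) {z : ℂ}
    (hz : |z.im| ≤ 1 / n) : ‖tp c n z‖ ≤ Real.exp 1 * ∑' m, ‖c m‖ := by
  have hn0 : (0:ℝ) < n := by exact_mod_cast hn
  have h1 : ∀ m ∈ Finset.Icc (-(n : ℤ)) n, ‖c m * exp (I * m * z)‖ ≤ Real.exp 1 * ‖c m‖ := by
    intro m hm
    rw [Finset.mem_Icc] at hm
    have hm' : |(m : ℝ)| ≤ n := by
      rw [abs_le]
      exact ⟨by exact_mod_cast hm.1, by exact_mod_cast hm.2⟩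
    have h2 : ‖exp (I * m * z)‖ ≤ Real.exp 1 := by
      rw [norm_exp]
      apply Real.exp_le_exp.mpr
      have : (I * m * z).re = -(m * z.im) := by simp
      rw [this]
      calc -(m * z.im) ≤ |(m : ℝ) * z.im| := neg_le_abs _
        _ = |(m : ℝ)| * |z.im| := abs_mul _ _
        _ ≤ n * (1 / n) := by gcongr
        _ = 1 := by field_simp
    rw [norm_mul, mul_comm]
    gcongr
  calc ‖tp c n z‖ ≤ ∑ m ∈ Finset.Icc (-(n : ℤ)) n, Real.exp 1 * ‖c m‖ := norm_sum_le_of_le _ h1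
    _ = Real.exp 1 * ∑ m ∈ Finset.Icc (-(n : ℤ)) n, ‖c m‖ := by rw [Finset.mul_sum]
    _ ≤ Real.exp 1 * ∑' m, ‖c m‖ := by
      gcongr
      exact hs.sum_le_tsum _ (fun _ _ => norm_nonneg _)

theorem tp_conj {c : ℤ → ℂ} (hc : ∀ m, c (-m) = conj (c m)) (n : ℕ) (z : ℂ) :
    tp c n (conj z) = conj (tp c n z) := by
  unfold tp
  rw [map_sum]
  refine Finset.sum_equiv (Equiv.neg ℤ) (fun m => ?_) (fun m _ => ?_)
  · simp only [Finset.mem_Icc, Equiv.neg_apply]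
    omega
  · simp only [Equiv.neg_apply]
    rw [map_mul, hc, conj_conj, ← exp_conj]
    congr 2
    simp only [Int.cast_neg, mul_neg, neg_mul, map_neg, map_mul, conj_I, map_intCast, neg_neg]

theorem tp_per (c : ℤ → ℂ) (n : ℕ) (z : ℂ) : tp c n (z + 2 * Real.pi) = tp c n z := by
  unfold tp
  apply Finset.sum_congr rfl
  intro m _
  have : I * m * (z + 2 * Real.pi) = I * m * z + m * (2 * Real.pi * I) := by ring
  rw [this, exp_add, exp_int_mul_two_pi_mul_I, mul_one]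

theorem norm_cf_iter {f : ℝ → ℝ} (hf : ContDiff ℝ ∞ f) (hp : ∀ x, f (x + 2 * Real.pi) = f x)
    (m : ℤ) (i k : ℕ) : |(m : ℝ)| ^ k * ‖cf (deriv^[i] f) m‖ = ‖cf (deriv^[i + k] f) m‖ := by
  rw [cf_iter hf hp, cf_iter hf hp, norm_mul, norm_mul, norm_pow, norm_pow, pow_add]
  have : ‖I * (m : ℂ)‖ = |(m : ℝ)| := by
    rw [norm_mul, norm_I, one_mul, norm_intCast]
  rw [this]
  ring

theorem cf_decay {f : ℝ → ℝ} (hf : ContDiff ℝ ∞ f) (hp : ∀ x, f (x + 2 * Real.pi) = f x)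
    (i k : ℕ) : ∃ B : ℝ, 0 ≤ B ∧ ∀ m : ℤ, |(m : ℝ)| ^ k * ‖cf (deriv^[i] f) m‖ ≤ B := by
  obtain ⟨B, hB0, hB⟩ := exists_bound ((hf.iterate_deriv (i + k)).continuous)
    (per_iter hp (i + k))
  refine ⟨B, hB0, fun m => ?_⟩
  rw [norm_cf_iter hf hp]
  exact cf_le hB m

theorem summable_sq : Summable (fun m : ℤ => 1 / (m : ℝ) ^ 2) :=
  Real.summable_one_div_int_pow.mpr (by norm_num)

theorem cf_summable {f : ℝ → ℝ} (hf : ContDiff ℝ ∞ f) (hp : ∀ x, f (x + 2 * Real.pi) = f x)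
    (i : ℕ) : Summable fun m : ℤ => ‖cf (deriv^[i] f) m‖ := by
  obtain ⟨B, hB0, hB⟩ := cf_decay hf hp i 2
  refine Summable.of_norm_bounded_eventually (summable_sq.mul_left B) ?_
  have : ∀ᶠ m : ℤ in Filter.cofinite, m ≠ 0 := by
    rw [Filter.eventually_cofinite]
    simp
  filter_upwards [this] with m hm
  have hm' : (0:ℝ) < (m : ℝ) ^ 2 := by positivity
  rw [norm_norm, mul_one_div, le_div_iff₀ hm', mul_comm]
  have := hB m
  rwa [sq_abs] at this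

theorem tail {f : ℝ → ℝ} (hf : ContDiff ℝ ∞ f) (hp : ∀ x, f (x + 2 * Real.pi) = f x)
    (i N : ℕ) : ∃ C : ℝ, 0 ≤ C ∧ ∀ n : ℕ, 1 ≤ n → ∀ x : ℝ,
      |deriv^[i] f x - (deriv^[i] (tp (cf f) n) x).re| ≤ C / (n : ℝ) ^ N := by
  obtain ⟨B, hB0, hB⟩ := cf_decay hf hp i (N + 2)
  refine ⟨B * ∑' m : ℤ, 1 / (m : ℝ) ^ 2, ?_, fun n hn x => ?_⟩
  · exact mul_nonneg hB0 (tsum_nonneg fun m => by (clear * -; positivity))
  · have hn0 : (0:ℝ) < n := by exact_mod_cast hn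
    have hinv := inversion (hf.iterate_deriv i).continuous (per_iter hp i) (cf_summable hf hp i) x
    set s := Finset.Icc (-(n : ℤ)) n with hsdef
    have hG : deriv^[i] (tp (cf f) n) x
        = ∑ m ∈ s, cf (deriv^[i] f) m * exp (I * m * x) := by
      rw [tp_iter]
      unfold tp
      apply Finset.sum_congr rfl
      intro m _
      rw [cf_iter hf hp]
    have h1 : HasSum (fun m : ℤ => if m ∈ s then cf (deriv^[i] f) m * exp (I * m * x) else 0)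
        (∑ m ∈ s, cf (deriv^[i] f) m * exp (I * m * x)) := by
      have : HasSum (fun m : ℤ => if m ∈ s then cf (deriv^[i] f) m * exp (I * m * x) else 0)
          (∑ m ∈ s, if m ∈ s then cf (deriv^[i] f) m * exp (I * m * x) else 0) :=
        hasSum_sum_of_ne_finset_zero (fun m hm => by simp [hm])
      convert this using 1
      apply Finset.sum_congr rfl
      intro m hm
      simp [hm]
    have h2 := hinv.sub h1
    rw [← hG] at h2
    have h3 : ∀ m : ℤ, ‖cf (deriv^[i] f) m * exp (I * m * x)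
        - (if m ∈ s then cf (deriv^[i] f) m * exp (I * m * x) else 0)‖
        ≤ B / (n : ℝ) ^ N * (1 / (m : ℝ) ^ 2) := by
      intro m
      split_ifs with hm
      · rw [sub_self, norm_zero]
        (clear * - hB0 hn; positivity)
      · rw [sub_zero, norm_mul]
        have he : ‖exp (I * m * x)‖ = 1 := by
          rw [norm_exp]
          simp
        rw [he, mul_one]
        have hmn : (n : ℝ) ≤ |(m : ℝ)| := by
          have : (n : ℤ) ≤ |m| := by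
            by_contra hcon
            push Not at hcon
            apply hm
            rw [hsdef, Finset.mem_Icc]
            rw [abs_lt] at hcon
            omega
          exact_mod_cast this
        have hm0 : (0:ℝ) < |(m : ℝ)| := hn0.trans_le hmn
        have hb := hB m
        rw [pow_add, sq_abs] at hb
        have hm2 : (0:ℝ) < (m : ℝ) ^ 2 := by rw [← sq_abs]; (clear * - hm0; positivity)
        rw [div_mul_div_comm, mul_one, le_div_iff₀ (by (clear * - hn hm2; positivity))]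
        calc ‖cf (deriv^[i] f) m‖ * ((n : ℝ) ^ N * (m : ℝ) ^ 2)
            ≤ ‖cf (deriv^[i] f) m‖ * (|(m : ℝ)| ^ N * (m : ℝ) ^ 2) := by (clear * - hn hmn hm2; gcongr)
          _ ≤ B := by linarith only [hb]
    have h4 := tsum_of_norm_bounded ((summable_sq.mul_left (B / (n : ℝ) ^ N)).hasSum) h3
    rw [h2.tsum_eq, tsum_mul_left] at h4
    have h5 : |deriv^[i] f x - (deriv^[i] (tp (cf f) n) x).re|
        ≤ ‖((deriv^[i] f x : ℝ) : ℂ) - deriv^[i] (tp (cf f) n) x‖ := by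
      have := abs_re_le_norm (((deriv^[i] f x : ℝ) : ℂ) - deriv^[i] (tp (cf f) n) x)
      rwa [sub_re, ofReal_re] at this
    calc _ ≤ _ := h5
      _ ≤ _ := h4
      _ = _ := by ring

end R4

theorem exists_approx {h : ℝ → ℝ} (hs : ContDiff ℝ ∞ h)
    (hp : ∀ x, h (x + 2 * Real.pi) = h x) : ∃ C0 : ℝ, 1 ≤ C0 ∧ ∀ N : ℕ, ∃ CN : ℝ, 1 ≤ CN ∧
      ∀ n : ℕ, 1 ≤ n → ∃ G : ℂ → ℂ, Differentiable ℂ G ∧ (∀ z, G (conj z) = conj (G z)) ∧
        (∀ z, G (z + 2 * Real.pi) = G z) ∧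
        (∀ i ≤ 5, ∀ z : ℂ, |z.im| ≤ 1 / n → ‖deriv^[i] G z‖ ≤ C0) ∧
        (∀ i ≤ 2, ∀ x : ℝ, |deriv^[i] h x - (deriv^[i] G x).re| ≤ CN / (n : ℝ) ^ N) := by
  have hA : ∀ i : ℕ, 0 ≤ ∑' m : ℤ, ‖R4.cf (deriv^[i] h) m‖ := fun i =>
    tsum_nonneg fun m => norm_nonneg _
  refine ⟨1 + ∑ i ∈ Finset.range 6, Real.exp 1 * ∑' m : ℤ, ‖R4.cf (deriv^[i] h) m‖, ?_, ?_⟩
  · have : 0 ≤ ∑ i ∈ Finset.range 6, Real.exp 1 * ∑' m : ℤ, ‖R4.cf (deriv^[i] h) m‖ :=
      Finset.sum_nonneg fun i _ => mul_nonneg (Real.exp_pos _).le (hA i)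
    linarith only [this]
  · intro N
    choose C hC0 hC using fun i : ℕ => R4.tail hs hp i N
    refine ⟨1 + ∑ i ∈ Finset.range 3, C i, ?_, fun n hn => ?_⟩
    · have : 0 ≤ ∑ i ∈ Finset.range 3, C i := Finset.sum_nonneg fun i _ => hC0 i
      linarith
    · refine ⟨R4.tp (R4.cf h) n, fun z => (R4.tp_hasDerivAt _ n z).differentiableAt,
        R4.tp_conj (R4.cf_conj h) n, R4.tp_per _ n, ?_, ?_⟩
      · intro i hi z hz
        rw [R4.tp_iter]
        have e : (fun m : ℤ => (I * m) ^ i * R4.cf h m) = R4.cf (deriv^[i] h) := by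
          ext m; rw [R4.cf_iter hs hp]
        rw [e]
        have h1 := R4.tp_norm (R4.cf_summable hs hp i) hn hz
        have h2 := Finset.single_le_sum (s := Finset.range 6)
          (f := fun i => Real.exp 1 * ∑' m : ℤ, ‖R4.cf (deriv^[i] h) m‖)
          (fun j _ => mul_nonneg (Real.exp_pos _).le (hA j))
          (Finset.mem_range.mpr (by omega : i < 6))
        (clear * - h1 h2; linarith)
      · intro i hi x
        have h1 := hC i n hn x
        have h2 := Finset.single_le_sum (s := Finset.range 3) (f := C) (fun j _ => hC0 j)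
          (Finset.mem_range.mpr (by omega : i < 3))
        have hn0 : (0:ℝ) < n := by exact_mod_cast hn
        refine h1.trans ?_
        gcongr
        linarith only [h2]

end Vale.Agent.P097.Reg
end

section

/-!
# P097, regularity theorem: size of the Fourier coefficients of high frequency
-/

namespace Vale.Agent.P097.Reg

open Complex
open scoped ComplexConjugate ContDiff

theorem R8.real_mem {β : ℝ} (hβ : 0 < β) (x : ℝ) : (x : ℂ) ∈ strip β := by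
  simp only [strip, Set.mem_ofPred_eq, ofReal_im, abs_zero, hβ]

theorem R8.z_real {M β P : ℝ} (T : CTab M β P) (x : ℝ) : T.z x = ((T.z x).re : ℂ) := by
  have hx : (x : ℂ) ∈ strip β := R8.real_mem T.β0 x
  have hD : T.z x ∈ T.D := T.zD _ hx
  have h1 : T.X (conj (T.z x)) = x := by
    rw [T.cX _ hD, T.Xz _ hx, conj_ofReal]
  have h2 : T.z x = conj (T.z x) := by
    conv_lhs => rw [← h1]
    exact T.zX _ (T.cD _ hD)
  exact (Complex.conj_eq_iff_re.1 h2.symm).symm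

theorem R8.z_per {M β P : ℝ} (T : CTab M β P) {ζ : ℂ} (hζ : ζ ∈ strip β) :
    T.z (ζ + P) = T.z ζ + 2 * Real.pi := by
  have hD : T.z ζ ∈ T.D := T.zD _ hζ
  have h1 : T.X (T.z ζ + 2 * Real.pi) = ζ + P := by rw [T.pX _ hD, T.Xz _ hζ]
  rw [← h1]
  exact T.zX _ (T.pD _ hD)

theorem R8.inv_lam_le {M β P : ℝ} (T : CTab M β P) {ψ : ℂ} (hψ : ψ ∈ T.D) :
    T.lam ψ ≠ 0 ∧ ‖(T.lam ψ)⁻¹‖ ≤ M := by
  have h1 := T.bl ψ hψ
  have hne : T.lam ψ ≠ 0 := by
    intro h0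
    rw [h0] at h1
    simp only [norm_zero, mul_zero] at h1
    linarith only [h1]
  refine ⟨hne, ?_⟩
  rw [norm_inv]
  have hpos : 0 < ‖T.lam ψ‖ := norm_pos_iff.2 hne
  rw [inv_le_iff_one_le_mul₀ hpos]
  linarith only [h1]

theorem R8.im_z {M β P : ℝ} (T : CTab M β P) {ζ : ℂ} (hζ : ζ ∈ strip β) :
    |(T.z ζ).im| ≤ M * |ζ.im| := by
  have hconv : Convex ℝ (strip β) := by
    have : strip β = Complex.imCLM ⁻¹' (Set.Ioo (-β) β) := by
      ext w; simp only [strip, abs_lt, Set.mem_ofPred_eq, Set.mem_preimage, imCLM_apply, Set.mem_Ioo]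
    rw [this]
    exact (convex_Ioo _ _).linear_preimage Complex.imCLM.toLinearMap
  have hre : ((ζ.re : ℝ) : ℂ) ∈ strip β := R8.real_mem T.β0 _
  have h1 : ‖T.z ζ - T.z (ζ.re : ℝ)‖ ≤ M * ‖ζ - (ζ.re : ℝ)‖ := by
    refine hconv.norm_image_sub_le_of_norm_hasDerivWithin_le
      (f' := fun w => (T.lam (T.z w))⁻¹) (fun w hw => (T.dz w hw).hasDerivWithinAt) ?_ hre hζ
    intro w hw
    exact (R8.inv_lam_le T (T.zD w hw)).2
  have h2 : ζ - (ζ.re : ℝ) = (ζ.im : ℂ) * I := by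
    apply Complex.ext <;> simp
  have h3 : ‖ζ - (ζ.re : ℝ)‖ = |ζ.im| := by
    rw [h2]; simp
  have h4 : (T.z ζ - T.z (ζ.re : ℝ)).im = (T.z ζ).im := by
    rw [R8.z_real T ζ.re]; simp
  calc |(T.z ζ).im| = |(T.z ζ - T.z (ζ.re : ℝ)).im| := by rw [h4]
    _ ≤ ‖T.z ζ - T.z (ζ.re : ℝ)‖ := Complex.abs_im_le_norm _
    _ ≤ M * |ζ.im| := by rw [← h3]; exact h1

theorem R8.P_le {M β P : ℝ} (T : CTab M β P) : P ≤ 2 * Real.pi * M := by
  have h1 : ‖T.X ((2 * Real.pi : ℝ) : ℂ) - T.X ((0 : ℝ) : ℂ)‖ ≤ M * ‖(2 * Real.pi : ℝ) - (0 : ℝ)‖ := by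
    refine (convex_univ (𝕜 := ℝ) (E := ℝ)).norm_image_sub_le_of_norm_hasDerivWithin_le
      (f := fun x : ℝ => T.X (x : ℂ)) (f' := fun x : ℝ => T.lam (x : ℂ))
      (fun x _ => ((T.dX _ (T.rD x)).comp_ofReal).hasDerivWithinAt) ?_ (Set.mem_univ _)
      (Set.mem_univ _)
    intro x _
    exact T.b0 _ (T.rD x)
  have h2 : T.X ((2 * Real.pi : ℝ) : ℂ) = T.X ((0 : ℝ) : ℂ) + P := by
    have := T.pX _ (T.rD 0)
    rw [← this]
    push_cast
    rw [zero_add]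
  rw [h2, add_sub_cancel_left] at h1
  have h3 : ‖(P : ℂ)‖ = P := by
    rw [Complex.norm_real]; exact abs_of_pos T.P0
  rw [h3, sub_zero, Real.norm_of_nonneg (by positivity)] at h1
  linarith only [h1]

theorem R8.fc_le {P R : ℝ} (hP : 0 < P) {F : ℝ → ℂ} (hF : ∀ x, ‖F x‖ ≤ R) (n : ℤ) :
    ‖fc P F n‖ ≤ R := by
  unfold fc
  have h1 : ‖∫ x in (0 : ℝ)..P, F x * exp (-(2 * Real.pi * I * n * x / P))‖ ≤ R * |P - 0| := by
    apply intervalIntegral.norm_integral_le_of_norm_le_const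
    intro x _
    rw [norm_mul, Complex.norm_exp]
    have : (-(2 * Real.pi * I * n * x / P) : ℂ).re = 0 := by
      have : (-(2 * Real.pi * I * n * x / P) : ℂ) = ((-(2 * Real.pi * n * x / P) : ℝ) : ℂ) * I := by
        push_cast; ring
      rw [this]; simp only [ofReal_neg, ofReal_div, ofReal_mul, ofReal_ofNat, ofReal_intCast, neg_mul, neg_re, mul_re, div_ofReal_re, re_ofNat, ofReal_re, im_ofNat, ofReal_im, mul_zero, sub_zero, intCast_re, mul_im, zero_mul, add_zero, intCast_im, I_re, div_ofReal_im, zero_div, I_im, mul_one, sub_self, neg_zero]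
    rw [this, Real.exp_zero, mul_one]
    exact hF x
  rw [sub_zero, abs_of_pos hP] at h1
  rw [norm_mul, norm_inv, Complex.norm_real, Real.norm_of_nonneg hP.le]
  rw [inv_mul_le_iff₀ hP]
  linarith only [h1]

theorem R8.fc_add {P : ℝ} {F G : ℝ → ℂ} (hF : Continuous F) (hG : Continuous G) (n : ℤ) :
    fc P (fun x => F x + G x) n = fc P F n + fc P G n := by
  unfold fc
  rw [← mul_add, ← intervalIntegral.integral_add]
  · congr 1
    apply intervalIntegral.integral_congr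
    intro x _
    simp only
    ring
  · apply Continuous.intervalIntegrable
    fun_prop
  · apply Continuous.intervalIntegrable
    fun_prop

theorem coef_tail {h : ℝ → ℝ} (hs : ContDiff ℝ ∞ h) (hp : ∀ x, h (x + 2 * Real.pi) = h x)
    (M0 : ℝ) (N : ℕ) : ∃ C : ℝ, 1 ≤ C ∧ ∀ (M β P : ℝ) (T : CTab M β P), M ≤ M0 →
      ∀ n : ℤ, C ≤ β ^ 2 * |(n : ℝ)| → ‖fc P (wd T h) n‖ ≤ C / |(n : ℝ)| ^ N := by
  obtain ⟨C0, hC0, happ⟩ := exists_approx hs hp
  obtain ⟨CN, hCN, happ⟩ := happ (2 * N)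
  set K : ℝ := max M0 1 with hK
  have hK1 : 1 ≤ K := le_max_right _ _
  have hK0 : 0 < K := by linarith
  set B : ℝ := K * (C0 + K) with hB
  have hB0 : 0 ≤ B := by (clear * - hC0; positivity)
  set A1 : ℝ := B * ((2 * N).factorial * K ^ (4 * N)) with hA1
  set A2 : ℝ := K * CN * 4 ^ N with hA2
  have hA1' : 0 ≤ A1 := by (clear * - hC0; positivity)
  have hA2' : 0 ≤ A2 := by positivity
  refine ⟨4 + A1 + A2, by linarith only [hA1', hA2'], ?_⟩
  intro M β P T hM n hn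
  have hMK : M ≤ K := hM.trans (le_max_left _ _)
  have hM0 : 0 < M := by linarith only [T.M1]
  have hβ0 := T.β0
  have hβ1 := T.β1
  have hP0 := T.P0
  set a : ℝ := |(n : ℝ)| with ha
  have ha0 : 0 ≤ a := abs_nonneg _
  have ha4 : 4 ≤ β ^ 2 * a := by linarith only [hA1', hA2', hn]
  have hβ2 : β ^ 2 ≤ 1 := by nlinarith only [hβ1, hβ0]
  have ha1 : 4 ≤ a := by nlinarith only [hA1', hA2', hn, ha0, hβ2]
  -- the square root
  set r : ℝ := Real.sqrt a with hr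
  have hr2 : r ^ 2 = a := Real.sq_sqrt ha0
  have hr0 : 0 ≤ r := Real.sqrt_nonneg _
  have hr_ge : 2 ≤ r := by
    by_contra hlt
    rw [not_le] at hlt
    nlinarith only [hr2, hlt, ha1, hr0]
  have hβr : 2 ≤ β * r := by
    by_contra hlt
    rw [not_le] at hlt
    have : (β * r) ^ 2 < 2 ^ 2 := by
      apply pow_lt_pow_left₀ hlt (by (clear * - hβ0 ha1; positivity)) (by norm_num)
    rw [mul_pow, hr2] at this
    linarith only [hA1', hA2', hn, this]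
  set m : ℕ := ⌊r⌋₊ with hm
  have hm_le : (m : ℝ) ≤ r := Nat.floor_le hr0
  have hm_lt : r < m + 1 := Nat.lt_floor_add_one r
  have hm1 : 1 ≤ m := by
    apply Nat.one_le_iff_ne_zero.2
    intro h0
    rw [h0] at hm_lt
    norm_num at hm_lt
    linarith only [hr_ge, hm_lt]
  have hm1' : (1 : ℝ) ≤ m := by exact_mod_cast hm1
  have hm0 : (0 : ℝ) < m := by linarith only [hr_ge, hm_lt]
  have hr2m : r ≤ 2 * m := by linarith only [hr_ge, hm_lt]
  have hβm : 1 ≤ β * m := by nlinarith only [hβ1, hβr, hβ0, hm_lt]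
  obtain ⟨G, hGd, hGc, hGp, hGb, hGa⟩ := happ m hm1
  -- the narrow strip
  set b : ℝ := 1 / (K * m) with hb
  have hb0 : 0 < b := by (clear * - hm1; positivity)
  have hbβ : b ≤ β := by
    rw [hb, div_le_iff₀ (by (clear * - hm1; positivity))]
    linarith only [mul_nonneg (sub_nonneg.2 hK1) (sub_nonneg.2 hβm), hβm, hK1]
  have hsub : strip b ⊆ strip β := by
    intro ζ hζ
    exact lt_of_lt_of_le hζ hbβ
  -- the analytic part
  set L : ℂ → ℂ := fun ζ => (G (T.z ζ) - T.G (T.z ζ)) * (T.lam (T.z ζ))⁻¹ with hL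
  have hzd : DifferentiableOn ℂ T.z (strip β) := fun ζ hζ =>
    (T.dz ζ hζ).differentiableAt.differentiableWithinAt
  have hzm : Set.MapsTo T.z (strip β) T.D := fun ζ hζ => T.zD ζ hζ
  have hlamd : DifferentiableOn ℂ (fun ζ => (T.lam (T.z ζ))⁻¹) (strip β) := by
    apply DifferentiableOn.inv (T.dlam.comp hzd hzm)
    intro ζ hζ
    exact (R8.inv_lam_le T (T.zD ζ hζ)).1
  have hLd : DifferentiableOn ℂ L (strip β) := by
    apply DifferentiableOn.mul _ hlamd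
    apply DifferentiableOn.sub
    · exact hGd.comp_differentiableOn hzd
    · exact T.dG.comp hzd hzm
  have hLp : ∀ ζ ∈ strip b, L (ζ + P) = L ζ := by
    intro ζ hζ
    simp only [hL]
    have hD := T.zD ζ (hsub hζ)
    rw [R8.z_per T (hsub hζ), hGp, T.pG _ hD, T.plam _ hD]
  have hLb : ∀ ζ ∈ strip b, ‖L ζ‖ ≤ B := by
    intro ζ hζ
    have hD := T.zD ζ (hsub hζ)
    have him : |(T.z ζ).im| ≤ 1 / m := by
      have h1 := R8.im_z T (hsub hζ)
      have h2 : |ζ.im| ≤ b := le_of_lt hζ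
      calc |(T.z ζ).im| ≤ M * |ζ.im| := h1
        _ ≤ K * b := by
          apply mul_le_mul hMK h2 (abs_nonneg _) hK0.le
        _ = 1 / m := by rw [hb]; (clear * - hK1 hm1; field_simp)
    have h1 : ‖G (T.z ζ)‖ ≤ C0 := by
      have := hGb 0 (by norm_num) (T.z ζ) him
      simpa only [ge_iff_le, Function.iterate_zero, id_eq] using this
    have h2 : ‖T.G (T.z ζ)‖ ≤ K := (T.bG _ hD).trans hMK
    have h3 : ‖(T.lam (T.z ζ))⁻¹‖ ≤ K := (R8.inv_lam_le T hD).2.trans hMK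
    simp only [hL]
    rw [norm_mul]
    calc ‖G (T.z ζ) - T.G (T.z ζ)‖ * ‖(T.lam (T.z ζ))⁻¹‖ ≤ (C0 + K) * K := by
          apply mul_le_mul _ h3 (norm_nonneg _) (by linarith only [hC0, hK1])
          exact (norm_sub_le _ _).trans (add_le_add h1 h2)
      _ = B := by rw [hB]; ring
  -- continuity on the reals
  have hcz : Continuous fun x : ℝ => T.z (x : ℂ) := by
    rw [continuous_iff_continuousAt]
    intro x
    have := (T.dz _ (R8.real_mem hβ0 x)).continuousAt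
    exact ContinuousAt.comp (f := fun y : ℝ => (y : ℂ)) this Complex.continuous_ofReal.continuousAt
  have hcl : Continuous fun x : ℝ => (T.lam (T.z (x : ℂ)))⁻¹ := by
    rw [continuous_iff_continuousAt]
    intro x
    have h1 : ContinuousAt (fun ζ => (T.lam (T.z ζ))⁻¹) (x : ℂ) := by
      apply (hlamd.differentiableAt _).continuousAt
      have hopen : IsOpen (strip β) := by
        have : strip β = (fun w : ℂ => |w.im|) ⁻¹' (Set.Iio β) := rfl
        rw [this]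
        exact isOpen_Iio.preimage (by fun_prop)
      exact hopen.mem_nhds (R8.real_mem hβ0 x)
    exact ContinuousAt.comp (f := fun y : ℝ => (y : ℂ)) h1 Complex.continuous_ofReal.continuousAt
  have hcL : Continuous fun x : ℝ => L (x : ℂ) := by
    rw [continuous_iff_continuousAt]
    intro x
    have h1 : ContinuousAt L (x : ℂ) := by
      apply (hLd.differentiableAt _).continuousAt
      have hopen : IsOpen (strip β) := by
        have : strip β = (fun w : ℂ => |w.im|) ⁻¹' (Set.Iio β) := rfl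
        rw [this]
        exact isOpen_Iio.preimage (by fun_prop)
      exact hopen.mem_nhds (R8.real_mem hβ0 x)
    exact ContinuousAt.comp (f := fun y : ℝ => (y : ℂ)) h1 Complex.continuous_ofReal.continuousAt
  -- the remainder
  set Rm : ℝ → ℂ := fun x => ((h (T.z x).re - (G (T.z x)).re : ℝ) : ℂ) * (T.lam (T.z x))⁻¹ with hRm
  have hcR : Continuous Rm := by
    have h1 : Continuous fun x : ℝ => h (T.z (x : ℂ)).re :=
      hs.continuous.comp (Complex.continuous_re.comp hcz)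
    have h2 : Continuous fun x : ℝ => (G (T.z (x : ℂ))).re :=
      Complex.continuous_re.comp (hGd.continuous.comp hcz)
    exact (Complex.continuous_ofReal.comp (h1.sub h2)).mul hcl
  have hdec : wd T h = fun x : ℝ => L (x : ℂ) + Rm x := by
    funext x
    have hz := R8.z_real T x
    have hD := T.zD _ (R8.real_mem hβ0 x)
    have hGre : G (T.z x) = ((G (T.z x)).re : ℂ) := by
      have h1 := hGc (T.z x)
      have h2 : conj (T.z x) = T.z x := by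
        rw [hz]; simp
      rw [h2] at h1
      exact (Complex.conj_eq_iff_re.1 h1.symm).symm
    have hTre : T.G (T.z x) = ((T.G (T.z x)).re : ℂ) := by
      have h1 := T.cG _ hD
      have h2 : conj (T.z x) = T.z x := by
        rw [hz]; simp
      rw [h2] at h1
      exact (Complex.conj_eq_iff_re.1 h1.symm).symm
    simp only [wd, df, hL, hRm]
    rw [div_eq_mul_inv, ← add_mul]
    congr 1
    have hz' : T.G (((T.z x).re : ℝ) : ℂ) = T.G (T.z x) := by rw [← hz]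
    rw [hz']
    conv_rhs => rw [hGre, hTre]
    simp only [Complex.ofReal_re]
    push_cast
    ring
  have hRb : ∀ x, ‖Rm x‖ ≤ K * (CN / (m : ℝ) ^ (2 * N)) := by
    intro x
    have hz := R8.z_real T x
    have hD := T.zD _ (R8.real_mem hβ0 x)
    have h1 := hGa 0 (by norm_num) (T.z x).re
    simp only [Function.iterate_zero, id] at h1
    rw [← hz] at h1
    simp only [hRm]
    rw [norm_mul, Complex.norm_real, mul_comm]
    apply mul_le_mul ((R8.inv_lam_le T hD).2.trans hMK) h1 (abs_nonneg _) hK0.le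
  rw [hdec, R8.fc_add hcL hcR]
  have e1 : ‖fc P (fun x : ℝ => L (x : ℂ)) n‖ ≤ A1 / a ^ N := by
    refine (fc_shift hP0 hb0 (hLd.mono hsub) hLp hLb n).trans ?_
    have hPK : P ≤ 2 * Real.pi * K := by
      have := R8.P_le T
      have hpi := Real.pi_pos
      linarith only [mul_nonneg (sub_nonneg.2 hMK) (le_of_lt (sub_pos.2 hpi)), this]
    have ht : r / K ^ 2 ≤ 2 * Real.pi * |(n : ℝ)| * b / P := by
      rw [← ha, hb, ← hr2]
      rw [div_le_div_iff₀ (by (clear * -; positivity)) hP0]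
      have hpi := Real.pi_pos
      have h1 : 2 * Real.pi * r ^ 2 * (1 / (K * m)) * K ^ 2 = 2 * Real.pi * r ^ 2 * K / m := by
        (clear * - hm1 hK1 hr_ge; field_simp)
      rw [h1, le_div_iff₀ hm0]
      calc r * P * m ≤ r * (2 * Real.pi * K) * r := by
            apply mul_le_mul _ hm_le hm0.le (by (clear * - ha1; positivity))
            exact mul_le_mul_of_nonneg_left hPK hr0
        _ = 2 * Real.pi * r ^ 2 * K := by ring
    have hexp : Real.exp (-(2 * Real.pi * |(n : ℝ)| * b / P)) ≤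
        (2 * N).factorial * K ^ (4 * N) / a ^ N := by
      have h1 : Real.exp (-(2 * Real.pi * |(n : ℝ)| * b / P)) ≤ Real.exp (-(r / K ^ 2)) := by
        apply Real.exp_le_exp.2
        linarith only [ht]
      refine h1.trans ?_
      have h2 := Real.pow_div_factorial_le_exp (r / K ^ 2) (by (clear * - ha1; positivity)) (2 * N)
      rw [Real.exp_neg, inv_le_comm₀ (Real.exp_pos _) (by (clear * - ha1; positivity))]
      refine le_trans (le_of_eq ?_) h2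
      rw [div_pow, inv_div, ← hr2]
      have : K ^ (4 * N) = (K ^ 2) ^ (2 * N) := by
        rw [← pow_mul]; congr 1; ring
      rw [this, ← pow_mul]
      have hfac : ((2 * N).factorial : ℝ) ≠ 0 := by positivity
      (clear * - hK1 hfac hr_ge; field_simp)
    calc B * Real.exp (-(2 * Real.pi * |(n : ℝ)| * b / P))
        ≤ B * ((2 * N).factorial * K ^ (4 * N) / a ^ N) := mul_le_mul_of_nonneg_left hexp hB0
      _ = A1 / a ^ N := by rw [hA1]; ring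
  have e2 : ‖fc P Rm n‖ ≤ A2 / a ^ N := by
    refine (R8.fc_le hP0 hRb n).trans ?_
    have h1 : a ^ N ≤ 4 ^ N * (m : ℝ) ^ (2 * N) := by
      rw [pow_mul, ← mul_pow]
      apply pow_le_pow_left₀ ha0
      rw [← hr2]
      nlinarith only [hm_lt, hr_ge]
    rw [hA2, ← mul_div_assoc, div_le_div_iff₀ (by (clear * - hm1; positivity)) (by (clear * - ha1; positivity))]
    calc K * CN * a ^ N ≤ K * CN * (4 ^ N * (m : ℝ) ^ (2 * N)) := by
          apply mul_le_mul_of_nonneg_left h1 (by (clear * - hCN; positivity))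
      _ = K * CN * 4 ^ N * (m : ℝ) ^ (2 * N) := by ring
  calc ‖fc P (fun x : ℝ => L (x : ℂ)) n + fc P Rm n‖ ≤ A1 / a ^ N + A2 / a ^ N :=
        (norm_add_le _ _).trans (add_le_add e1 e2)
    _ = (A1 + A2) / a ^ N := by ring
    _ ≤ (4 + A1 + A2) / a ^ N := by
        apply div_le_div_of_nonneg_right _ (by (clear * - ha1; positivity))
        linarith only []

end Vale.Agent.P097.Reg
end

section

/-!
# P097, regularity theorem, R9: the correction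
-/

namespace Vale.Agent.P097.Reg

open Complex
open scoped ComplexConjugate ContDiff

variable {M β P : ℝ}

theorem r9_real_strip (T : CTab M β P) (x : ℝ) : (x : ℂ) ∈ strip β := by
  have := T.β0
  simpa only [strip, Set.mem_ofPred_eq, ofReal_im, abs_zero, gt_iff_lt] using this

theorem r9_conj_of_real {w : ℂ} (h : conj w = w) : ((w.re : ℝ) : ℂ) = w :=
  Complex.conj_eq_iff_re.mp h

theorem r9_z_real (T : CTab M β P) (x : ℝ) : conj (T.z x) = T.z x := by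
  have hx := r9_real_strip T x
  have hD := T.zD _ hx
  have h1 : T.X (conj (T.z x)) = x := by
    rw [T.cX _ hD, T.Xz _ hx, Complex.conj_ofReal]
  have h2 := T.zX _ (T.cD _ hD)
  rw [h1] at h2
  exact h2.symm

theorem r9_X_real (T : CTab M β P) (x : ℝ) : conj (T.X x) = T.X x := by
  rw [← T.cX _ (T.rD x), Complex.conj_ofReal]

theorem r9_lam_real (T : CTab M β P) (x : ℝ) : conj (T.lam x) = T.lam x := by
  rw [← T.clam _ (T.rD x), Complex.conj_ofReal]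

theorem r9_lam_ne (T : CTab M β P) {ψ : ℂ} (h : ψ ∈ T.D) : T.lam ψ ≠ 0 := by
  intro h0
  have := T.bl ψ h
  rw [h0, norm_zero, mul_zero] at this
  linarith only [this]

theorem r9_z_add (T : CTab M β P) (x : ℝ) : T.z ((x + P : ℝ) : ℂ) = T.z x + 2 * Real.pi := by
  have hx := r9_real_strip T x
  have hD := T.zD _ hx
  have h1 : T.X (T.z x + 2 * Real.pi) = ((x + P : ℝ) : ℂ) := by
    rw [T.pX _ hD, T.Xz _ hx]
    push_cast
    ring
  have h2 := T.zX _ (T.pD _ hD)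
  rw [h1] at h2
  exact h2

theorem r9_wd_real (T : CTab M β P) (h : ℝ → ℝ) (x : ℝ) : conj (wd T h x) = wd T h x := by
  have hx := r9_real_strip T x
  have hD := T.zD _ hx
  have h1 : conj (T.lam (T.z x)) = T.lam (T.z x) := by
    rw [← T.clam _ hD, r9_z_real T x]
  unfold wd
  rw [map_div₀, Complex.conj_ofReal, h1]

theorem r9_wd_per (T : CTab M β P) (h : ℝ → ℝ) (hp : ∀ x, h (x + 2 * Real.pi) = h x) (x : ℝ) :
    wd T h (x + P) = wd T h x := by
  have hx := r9_real_strip T x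
  have hD := T.zD _ hx
  unfold wd
  rw [r9_z_add T x, T.plam _ hD]
  have h1 : (T.z (x : ℂ) + 2 * Real.pi).re = (T.z x).re + 2 * Real.pi := by
    simp
  rw [h1]
  congr 2
  unfold df
  rw [hp]
  have h2 := T.pG _ (T.rD (T.z x).re)
  have h3 : (((T.z x).re + 2 * Real.pi : ℝ) : ℂ) = ((T.z x).re : ℂ) + 2 * Real.pi := by
    push_cast
    ring
  rw [h3, h2]

theorem r9_df_eq (T : CTab M β P) (h : ℝ → ℝ) (x : ℝ) :
    ((df T h x : ℝ) : ℂ) = T.lam x * wd T h (T.X x).re := by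
  have h1 : (((T.X x).re : ℝ) : ℂ) = T.X x := r9_conj_of_real (r9_X_real T x)
  unfold wd
  rw [h1, T.zX _ (T.rD x), Complex.ofReal_re]
  (clear * -; field_simp [r9_lam_ne T (T.rD x)])

theorem r9_wd_cont (T : CTab M β P) (h : ℝ → ℝ) (hs : Continuous h) : Continuous (wd T h) := by
  have hG : Continuous fun x : ℝ => T.G x := by
    rw [continuous_iff_continuousAt]
    intro x
    have := ((T.dG x (T.rD x)).differentiableAt (T.isOpen.mem_nhds (T.rD x))).continuousAt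
    exact ContinuousAt.comp (f := fun y : ℝ => (y : ℂ)) this Complex.continuous_ofReal.continuousAt
  have hz : Continuous fun x : ℝ => T.z x := by
    rw [continuous_iff_continuousAt]
    intro x
    have := (T.dz x (r9_real_strip T x)).continuousAt
    exact ContinuousAt.comp (f := fun y : ℝ => (y : ℂ)) this Complex.continuous_ofReal.continuousAt
  have hl : Continuous fun x : ℝ => T.lam (T.z x) := by
    rw [continuous_iff_continuousAt]
    intro x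
    have hD := T.zD _ (r9_real_strip T x)
    have := ((T.dlam _ hD).differentiableAt (T.isOpen.mem_nhds hD)).continuousAt
    exact ContinuousAt.comp (f := fun y : ℝ => T.z y) this hz.continuousAt
  have hd : Continuous (df T h) := by
    unfold df
    exact hs.sub (Complex.continuous_re.comp hG)
  unfold wd
  refine Continuous.div ?_ hl fun x => r9_lam_ne T (T.zD _ (r9_real_strip T x))
  exact Complex.continuous_ofReal.comp (hd.comp (Complex.continuous_re.comp hz))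

theorem r9_fc_neg (T : CTab M β P) (h : ℝ → ℝ) (n : ℤ) :
    fc P (wd T h) (-n) = conj (fc P (wd T h) n) := by
  unfold fc
  rw [map_mul, map_inv₀, Complex.conj_ofReal, ← intervalIntegral.intervalIntegral_conj]
  congr 1
  apply intervalIntegral.integral_congr
  intro x _
  simp only [map_mul]
  rw [r9_wd_real, ← Complex.exp_conj]
  congr 2
  simp only [map_neg, map_div₀, map_mul, Complex.conj_ofReal, Complex.conj_I, map_intCast,
    map_ofNat]
  push_cast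
  ring

theorem r9_ex_conj (n : ℤ) (ζ : ℂ) : ex P n (conj ζ) = conj (ex P (-n) ζ) := by
  unfold ex
  rw [← Complex.exp_conj]
  congr 1
  simp only [map_div₀, map_mul, map_ofNat, conj_ofReal, conj_I, map_intCast]
  push_cast
  ring

theorem r9_ex_add (hP : P ≠ 0) (n : ℤ) (ζ : ℂ) : ex P n (ζ + P) = ex P n ζ := by
  unfold ex
  have hPc : (P : ℂ) ≠ 0 := by exact_mod_cast hP
  have : 2 * Real.pi * I * n * (ζ + P) / P = 2 * Real.pi * I * n * ζ / P + n * (2 * Real.pi * I) := by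
    (clear * - hPc; field_simp)
  rw [this, Complex.exp_periodic.int_mul n]

theorem r9_ex_norm (n : ℤ) (ζ : ℂ) :
    ‖ex P n ζ‖ = Real.exp (-(2 * Real.pi * n * ζ.im / P)) := by
  unfold ex
  rw [Complex.norm_exp]
  congr 1
  have : 2 * Real.pi * I * n * ζ / P = ((2 * Real.pi * n / P : ℝ) : ℂ) * (I * ζ) := by
    push_cast
    ring
  rw [this, Complex.re_ofReal_mul]
  simp only [mul_re, I_re, zero_mul, I_im, one_mul, zero_sub, mul_neg, neg_inj]
  ring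

theorem r9_ex_le (hP : 0 < P) (n : ℤ) (ζ : ℂ) :
    ‖ex P n ζ‖ ≤ Real.exp (2 * Real.pi * |(n : ℝ)| * |ζ.im| / P) := by
  rw [r9_ex_norm]
  apply Real.exp_le_exp.mpr
  have h1 : -(n * ζ.im) ≤ |(n : ℝ)| * |ζ.im| := by
    rw [← abs_mul]
    exact neg_le_abs _
  have h2 : -(2 * Real.pi * n * ζ.im / P) = (2 * Real.pi / P) * (-(n * ζ.im)) := by ring
  have h3 : 2 * Real.pi * |(n : ℝ)| * |ζ.im| / P = (2 * Real.pi / P) * (|(n : ℝ)| * |ζ.im|) := by
    ring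
  rw [h2, h3]
  exact mul_le_mul_of_nonneg_left h1 (by have := Real.pi_pos; positivity)

theorem corr_props {M β P : ℝ} (T : CTab M β P) (h : ℝ → ℝ) (hs : ContDiff ℝ ∞ h)
    (hp : ∀ x, h (x + 2 * Real.pi) = h x) (N : ℕ) :
    DifferentiableOn ℂ (corr T h N) T.D ∧
    (∀ ψ ∈ T.D, corr T h N (conj ψ) = conj (corr T h N ψ) ∧
      corr T h N (ψ + 2 * Real.pi) = corr T h N ψ) ∧
    (∀ ψ ∈ T.D, ‖corr T h N ψ‖ ≤ M * ∑ n ∈ Finset.Icc (-(N : ℤ)) N,
      ‖fc P (wd T h) n‖ * Real.exp (2 * Real.pi * |(n : ℝ)| * |(T.X ψ).im| / P)) := by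
  have _ := hs
  have _ := hp
  refine ⟨?_, ?_, ?_⟩
  · intro ψ hψ
    have hX : DifferentiableWithinAt ℂ T.X T.D ψ := (T.dX ψ hψ).differentiableAt.differentiableWithinAt
    have hl := T.dlam ψ hψ
    unfold corr
    refine hl.mul ?_
    apply DifferentiableWithinAt.fun_sum
    intro n _
    unfold ex
    exact (((hX.const_mul _).div_const _).cexp).const_mul _
  · intro ψ hψ
    constructor
    · unfold corr
      rw [T.clam ψ hψ, T.cX ψ hψ, map_mul, map_sum]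
      congr 1
      have hneg : ∑ n ∈ Finset.Icc (-(N : ℤ)) N, conj (fc P (wd T h) n * ex P n (T.X ψ))
          = ∑ n ∈ Finset.Icc (-(N : ℤ)) N, conj (fc P (wd T h) (-n) * ex P (-n) (T.X ψ)) := by
        refine Finset.sum_bij' (fun n _ => -n) (fun n _ => -n) ?_ ?_ ?_ ?_ ?_
        · intro n hn
          rw [Finset.mem_Icc] at *
          omega
        · intro n hn
          rw [Finset.mem_Icc] at *
          omega
        · intro n _
          simp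
        · intro n _
          simp
        · intro n _
          simp only [map_mul, neg_neg]
      rw [hneg]
      apply Finset.sum_congr rfl
      intro n _
      rw [r9_fc_neg, map_mul, r9_ex_conj, Complex.conj_conj]
    · unfold corr
      rw [T.plam ψ hψ, T.pX ψ hψ]
      congr 1
      apply Finset.sum_congr rfl
      intro n _
      rw [r9_ex_add T.P0.ne']
  · intro ψ hψ
    unfold corr
    rw [norm_mul]
    apply mul_le_mul (T.b0 ψ hψ) _ (norm_nonneg _) (by linarith [T.M1])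
    refine (norm_sum_le _ _).trans (Finset.sum_le_sum fun n _ => ?_)
    rw [norm_mul]
    exact mul_le_mul_of_nonneg_left (r9_ex_le T.P0 n _) (norm_nonneg _)

theorem r9_period (T : CTab M β P) : 2 * Real.pi ≤ M * P := by
  have hM : 0 < M := lt_of_lt_of_le one_pos T.M1
  have hd : ∀ x : ℝ, HasDerivAt (fun x : ℝ => (T.X x).re) (T.lam x).re x := fun x =>
    Complex.reCLM.hasFDerivAt.comp_hasDerivAt x (T.dX x (T.rD x)).comp_ofReal
  have hl : ∀ x : ℝ, M⁻¹ ≤ (T.lam x).re := by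
    intro x
    have h1 := T.bl x (T.rD x)
    have h2 : ‖T.lam x‖ = (T.lam x).re := by
      conv_lhs => rw [← r9_conj_of_real (r9_lam_real T x)]
      rw [Complex.norm_real, Real.norm_eq_abs, abs_of_pos (T.rpos x)]
    rw [h2] at h1
    rw [inv_eq_one_div, div_le_iff₀ hM]
    linarith only [h1]
  have h3 := Convex.mul_sub_le_image_sub_of_le_deriv (convex_univ (E := ℝ))
    (f := fun x : ℝ => (T.X x).re) (fun x _ => (hd x).continuousAt.continuousWithinAt)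
    (fun x _ => (hd x).differentiableAt.differentiableWithinAt)
    (C := M⁻¹) (fun x _ => by rw [(hd x).deriv]; exact hl x) 0 (Set.mem_univ _) (2 * Real.pi)
    (Set.mem_univ _) (by have := Real.pi_pos; positivity)
  have h4 := T.pX _ (T.rD 0)
  have h5 : (((2 * Real.pi : ℝ)) : ℂ) = ((0 : ℝ) : ℂ) + 2 * Real.pi := by
    push_cast
    ring
  rw [h5, h4] at h3
  simp only [Complex.add_re, Complex.ofReal_re] at h3
  have h6 : M⁻¹ * (2 * Real.pi) ≤ P := by linarith only [h3]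
  rw [inv_mul_le_iff₀ hM] at h6
  exact h6

/-- the Fourier coefficients of frequency larger than `N` -/
noncomputable def r9t (T : CTab M β P) (h : ℝ → ℝ) (N : ℕ) (n : ℤ) : ℂ :=
  if |n| ≤ N then 0 else fc P (wd T h) n

/-- the factor of the derivative of `ex` -/
noncomputable def r9a (P : ℝ) (n : ℤ) : ℂ := 2 * Real.pi * I * n / P

/-- a term of the tail -/
noncomputable def r9g0 (T : CTab M β P) (h : ℝ → ℝ) (N : ℕ) (n : ℤ) (x : ℝ) : ℂ :=
  r9t T h N n * (ex P n (T.X x) * T.lam x)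

/-- its first derivative -/
noncomputable def r9g1 (T : CTab M β P) (h : ℝ → ℝ) (N : ℕ) (n : ℤ) (x : ℝ) : ℂ :=
  r9t T h N n * (ex P n (T.X x) * (deriv T.lam x + r9a P n * T.lam x ^ 2))

/-- its second derivative -/
noncomputable def r9g2 (T : CTab M β P) (h : ℝ → ℝ) (N : ℕ) (n : ℤ) (x : ℝ) : ℂ :=
  r9t T h N n * (ex P n (T.X x) * (deriv (deriv T.lam) x + 3 * r9a P n * T.lam x * deriv T.lam x
    + r9a P n ^ 2 * T.lam x ^ 3))

theorem r9_lam_deriv (T : CTab M β P) (x : ℝ) :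
    HasDerivAt (fun x : ℝ => T.lam x) (deriv T.lam x) x :=
  (((T.dlam x (T.rD x)).differentiableAt
    (T.isOpen.mem_nhds (T.rD x))).hasDerivAt).comp_ofReal

theorem r9_lam_deriv2 (T : CTab M β P) (x : ℝ) :
    HasDerivAt (fun x : ℝ => deriv T.lam x) (deriv (deriv T.lam) x) x :=
  ((((T.dlam.deriv T.isOpen) x (T.rD x)).differentiableAt
    (T.isOpen.mem_nhds (T.rD x))).hasDerivAt).comp_ofReal

theorem r9_ex_deriv (T : CTab M β P) (n : ℤ) (x : ℝ) :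
    HasDerivAt (fun x : ℝ => ex P n (T.X x)) (ex P n (T.X x) * (r9a P n * T.lam x)) x := by
  have h1 : HasDerivAt (fun ζ : ℂ => ex P n (T.X ζ)) (ex P n (T.X x) * (r9a P n * T.lam x)) x := by
    unfold ex
    refine (((T.dX x (T.rD x)).const_mul (2 * Real.pi * I * n : ℂ)).div_const
      (P : ℂ)).cexp.congr_deriv ?_
    unfold r9a
    ring
  exact h1.comp_ofReal

theorem r9_g0_deriv (T : CTab M β P) (h : ℝ → ℝ) (N : ℕ) (n : ℤ) (x : ℝ) :
    HasDerivAt (r9g0 T h N n) (r9g1 T h N n x) x := by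
  refine (((r9_ex_deriv T n x).mul (r9_lam_deriv T x)).const_mul (r9t T h N n)).congr_deriv ?_
  unfold r9g1
  ring

theorem r9_g1_deriv (T : CTab M β P) (h : ℝ → ℝ) (N : ℕ) (n : ℤ) (x : ℝ) :
    HasDerivAt (r9g1 T h N n) (r9g2 T h N n x) x := by
  refine (((r9_ex_deriv T n x).mul ((r9_lam_deriv2 T x).add
    (((r9_lam_deriv T x).pow 2).const_mul (r9a P n)))).const_mul (r9t T h N n)).congr_deriv ?_
  have e : ((fun x : ℝ => deriv T.lam x) + fun y => r9a P n * ((fun x : ℝ => T.lam x) ^ 2) y) x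
      = deriv T.lam x + r9a P n * T.lam x ^ 2 := rfl
  rw [e]
  unfold r9g2
  push_cast
  ring

theorem r9_ex_norm_real (T : CTab M β P) (n : ℤ) (x : ℝ) : ‖ex P n (T.X x)‖ = 1 := by
  rw [r9_ex_norm]
  have : (T.X x).im = 0 := by
    rw [← r9_conj_of_real (r9_X_real T x), Complex.ofReal_im]
  rw [this]
  simp

theorem r9_a_norm (T : CTab M β P) (n : ℤ) : ‖r9a P n‖ ≤ M * |(n : ℝ)| := by
  unfold r9a
  have hP := T.P0
  have h1 : ‖(2 * Real.pi * I * n / P : ℂ)‖ = 2 * Real.pi / P * |(n : ℝ)| := by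
    have : (2 * Real.pi * I * n / P : ℂ) = ((2 * Real.pi / P * n : ℝ) : ℂ) * I := by
      push_cast
      ring
    rw [this, norm_mul, Complex.norm_I, mul_one, Complex.norm_real, Real.norm_eq_abs, abs_mul,
      abs_of_nonneg (by have := Real.pi_pos; positivity)]
  rw [h1]
  apply mul_le_mul_of_nonneg_right _ (abs_nonneg _)
  rw [div_le_iff₀ hP]
  exact r9_period T

/-- the weight of a term -/
noncomputable def r9w (T : CTab M β P) (h : ℝ → ℝ) (N : ℕ) (n : ℤ) : ℝ :=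
  if |n| ≤ N then 0 else (1 + |(n : ℝ)|) ^ 2 * ‖fc P (wd T h) n‖

theorem r9w_eq (T : CTab M β P) (h : ℝ → ℝ) (N : ℕ) (n : ℤ) :
    r9w T h N n = ‖r9t T h N n‖ * (1 + |(n : ℝ)|) ^ 2 := by
  unfold r9w r9t
  split_ifs
  · simp
  · ring

theorem r9_pow_le (hM : 1 ≤ M) (k : ℕ) (hk : k ≤ 5) : M ^ k ≤ M ^ 5 :=
  pow_le_pow_right₀ hM hk

theorem r9_g0_le (T : CTab M β P) (h : ℝ → ℝ) (N : ℕ) (n : ℤ) (x : ℝ) :
    ‖r9g0 T h N n x‖ ≤ 2 * M ^ 5 * r9w T h N n := by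
  have hM := T.M1
  have hn := abs_nonneg (n : ℝ)
  unfold r9g0
  rw [r9w_eq, norm_mul, norm_mul, r9_ex_norm_real, one_mul]
  have h1 := T.b0 x (T.rD x)
  have h2 : ‖T.lam x‖ ≤ 2 * M ^ 5 * (1 + |(n : ℝ)|) ^ 2 := by
    have h3 := r9_pow_le hM 1 (by norm_num)
    have h4 : (0 : ℝ) ≤ M ^ 5 := by (clear * - hM; positivity)
    nlinarith only [h1, h3, h4, hn, mul_nonneg h4 (sq_nonneg |(n : ℝ)|)]
  calc ‖r9t T h N n‖ * ‖T.lam x‖ ≤ ‖r9t T h N n‖ * (2 * M ^ 5 * (1 + |(n : ℝ)|) ^ 2) :=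
        mul_le_mul_of_nonneg_left h2 (norm_nonneg _)
    _ = _ := by ring

theorem r9_g1_le (T : CTab M β P) (h : ℝ → ℝ) (N : ℕ) (n : ℤ) (x : ℝ) :
    ‖r9g1 T h N n x‖ ≤ 2 * M ^ 5 * r9w T h N n := by
  have hM := T.M1
  have hn := abs_nonneg (n : ℝ)
  unfold r9g1
  rw [r9w_eq, norm_mul, norm_mul, r9_ex_norm_real, one_mul]
  have h1 := T.b0 x (T.rD x)
  have h1' := T.b1 x (T.rD x)
  have ha := r9_a_norm T n
  have h2 : ‖deriv T.lam x + r9a P n * T.lam x ^ 2‖ ≤ 2 * M ^ 5 * (1 + |(n : ℝ)|) ^ 2 := by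
    have h3 : ‖deriv T.lam x + r9a P n * T.lam x ^ 2‖ ≤ M + (M * |(n : ℝ)|) * M ^ 2 := by
      refine (norm_add_le _ _).trans (add_le_add h1' ?_)
      rw [norm_mul, norm_pow]
      (clear * - ha h1 hM; gcongr)
    have h4 := r9_pow_le hM 1 (by norm_num)
    have h5 := r9_pow_le hM 3 (by norm_num)
    have h6 := mul_le_mul_of_nonneg_right h5 hn
    have h7 : (0 : ℝ) ≤ M ^ 5 := by positivity
    nlinarith only [h3, h4, h6, h7, hn, mul_nonneg h7 (sq_nonneg |(n : ℝ)|)]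
  calc _ ≤ ‖r9t T h N n‖ * (2 * M ^ 5 * (1 + |(n : ℝ)|) ^ 2) :=
        mul_le_mul_of_nonneg_left h2 (norm_nonneg _)
    _ = _ := by ring

theorem r9_g2_le (T : CTab M β P) (h : ℝ → ℝ) (N : ℕ) (n : ℤ) (x : ℝ) :
    ‖r9g2 T h N n x‖ ≤ 2 * M ^ 5 * r9w T h N n := by
  have hM := T.M1
  have hn := abs_nonneg (n : ℝ)
  unfold r9g2
  rw [r9w_eq, norm_mul, norm_mul, r9_ex_norm_real, one_mul]
  have h1 := T.b0 x (T.rD x)
  have h1' := T.b1 x (T.rD x)
  have h1'' := T.b2 x (T.rD x)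
  have ha := r9_a_norm T n
  have h2 : ‖deriv (deriv T.lam) x + 3 * r9a P n * T.lam x * deriv T.lam x
      + r9a P n ^ 2 * T.lam x ^ 3‖ ≤ 2 * M ^ 5 * (1 + |(n : ℝ)|) ^ 2 := by
    have h3 : ‖deriv (deriv T.lam) x + 3 * r9a P n * T.lam x * deriv T.lam x
        + r9a P n ^ 2 * T.lam x ^ 3‖
        ≤ M + 3 * (M * |(n : ℝ)|) * M * M + (M * |(n : ℝ)|) ^ 2 * M ^ 3 := by
      refine (norm_add₃_le).trans (add_le_add (add_le_add h1'' ?_) ?_)
      · rw [norm_mul, norm_mul, norm_mul]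
        have : ‖(3 : ℂ)‖ = 3 := by norm_num
        rw [this]
        (clear * - ha h1 hM h1'; gcongr)
      · rw [norm_mul, norm_pow, norm_pow]
        (clear * - ha h1; gcongr)
    have h4 := r9_pow_le hM 1 (by norm_num)
    have h5 := r9_pow_le hM 3 (by norm_num)
    have h6 := mul_le_mul_of_nonneg_right h5 hn
    have h7 : (0 : ℝ) ≤ M ^ 5 := by positivity
    linarith only [mul_nonneg (sub_nonneg.2 hn) (sub_nonneg.2 hn), mul_nonneg (sub_nonneg.2 h6) (sub_nonneg.2 hn), mul_nonneg (sq_nonneg (1 + |↑n| : ℝ)) (sub_nonneg.2 h4), mul_nonneg (sq_nonneg (1 + |↑n| : ℝ)) (sub_nonneg.2 hM), mul_nonneg (sq_nonneg (M * |↑n| : ℝ)) (sub_nonneg.2 hM), hn, h6, h4, h3, hM, sq_nonneg (M * |↑n| : ℝ)]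
  calc _ ≤ ‖r9t T h N n‖ * (2 * M ^ 5 * (1 + |(n : ℝ)|) ^ 2) :=
        mul_le_mul_of_nonneg_left h2 (norm_nonneg _)
    _ = _ := by ring

theorem r9_tail (T : CTab M β P) {h : ℝ → ℝ} (hs : Continuous h)
    (hp : ∀ x, h (x + 2 * Real.pi) = h x) (N : ℕ)
    (hsum : Summable fun n : ℤ => ‖fc P (wd T h) n‖) (x : ℝ) :
    df T h x - (corr T h N x).re = (∑' n, r9g0 T h N n x).re := by
  have h1 := fc_sum T.P0 (r9_wd_cont T h hs) (r9_wd_per T h hp) hsum (T.X x).re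
  rw [r9_conj_of_real (r9_X_real T x)] at h1
  have h2 : HasSum (fun n : ℤ => if |n| ≤ (N : ℤ) then fc P (wd T h) n * ex P n (T.X x) else 0)
      (∑ n ∈ Finset.Icc (-(N : ℤ)) N, fc P (wd T h) n * ex P n (T.X x)) := by
    have h3 : ∑ n ∈ Finset.Icc (-(N : ℤ)) N, fc P (wd T h) n * ex P n (T.X x)
        = ∑ n ∈ Finset.Icc (-(N : ℤ)) N,
          (if |n| ≤ (N : ℤ) then fc P (wd T h) n * ex P n (T.X x) else 0) := by
      apply Finset.sum_congr rfl
      intro n hn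
      rw [if_pos (abs_le.mpr (Finset.mem_Icc.mp hn))]
    rw [h3]
    apply hasSum_sum_of_ne_finset_zero
    intro n hn
    rw [if_neg]
    intro h
    exact hn (Finset.mem_Icc.mpr (abs_le.mp h))
  have h4 := ((h1.sub h2).mul_right (T.lam x))
  have h5 : HasSum (fun n => r9g0 T h N n x) ((df T h x : ℂ) - corr T h N x) := by
    have e1 : (fun n => r9g0 T h N n x) = fun i : ℤ => (fc P (wd T h) i * ex P i (T.X x)
        - if |i| ≤ (N : ℤ) then fc P (wd T h) i * ex P i (T.X x) else 0) * T.lam x := by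
      ext n
      unfold r9g0 r9t
      split_ifs
      · ring
      · ring
    have e2 : (df T h x : ℂ) - corr T h N x = (wd T h (T.X x).re
        - ∑ n ∈ Finset.Icc (-(N : ℤ)) N, fc P (wd T h) n * ex P n (T.X x)) * T.lam x := by
      rw [r9_df_eq]
      unfold corr
      ring
    rw [e1, e2]
    exact h4
  rw [h5.tsum_eq, Complex.sub_re, Complex.ofReal_re]

theorem corr_close (M0 : ℝ) : ∃ C : ℝ, 1 ≤ C ∧ ∀ (M β P : ℝ) (T : CTab M β P), M ≤ M0 →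
    ∀ (h : ℝ → ℝ), ContDiff ℝ ∞ h → (∀ x, h (x + 2 * Real.pi) = h x) → ∀ (N : ℕ) (R : ℝ),
      (Summable fun n : ℤ => (1 + |(n : ℝ)|) ^ 2 * ‖fc P (wd T h) n‖) →
      (∑' n : ℤ, (if |n| ≤ N then 0 else (1 + |(n : ℝ)|) ^ 2 * ‖fc P (wd T h) n‖) ≤ R) →
      ∀ x : ℝ, ∀ i ≤ 2, |deriv^[i] (fun x : ℝ => df T h x - (corr T h N x).re) x| ≤ C * R := by
  refine ⟨2 * max M0 1 ^ 5, ?_, ?_⟩
  · have : (1 : ℝ) ≤ max M0 1 ^ 5 := one_le_pow₀ (le_max_right _ _)
    linarith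
  intro M β P T hM h hs hp N R hsum hR x i hi
  have hM1 := T.M1
  have hw0 : ∀ n, 0 ≤ r9w T h N n := by
    intro n
    rw [r9w_eq]
    (clear * -; positivity)
  have hw : Summable (r9w T h N) := by
    refine Summable.of_nonneg_of_le hw0 (fun n => ?_) hsum
    unfold r9w
    split_ifs
    · (clear * -; positivity)
    · exact le_rfl
  have hc : Summable fun n : ℤ => ‖fc P (wd T h) n‖ := by
    refine Summable.of_nonneg_of_le (fun n => norm_nonneg _) (fun n => ?_) hsum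
    have : (1 : ℝ) ≤ (1 + |(n : ℝ)|) ^ 2 := one_le_pow₀ (by linarith only [abs_nonneg (n : ℝ)])
    linarith only [mul_nonneg (sub_nonneg.2 this) (sub_nonneg.2 (norm_nonneg (fc P (wd T h) n)))]
  have hu : Summable fun n => 2 * M ^ 5 * r9w T h N n := hw.mul_left _
  have hbound : ∀ g : ℤ → ℂ, (∀ n, ‖g n‖ ≤ 2 * M ^ 5 * r9w T h N n) →
      |(∑' n, g n).re| ≤ 2 * max M0 1 ^ 5 * R := by
    intro g hg
    calc |(∑' n, g n).re| ≤ ‖∑' n, g n‖ := Complex.abs_re_le_norm _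
      _ ≤ ∑' n, 2 * M ^ 5 * r9w T h N n := tsum_of_norm_bounded hu.hasSum hg
      _ = 2 * M ^ 5 * ∑' n, r9w T h N n := tsum_mul_left
      _ ≤ 2 * max M0 1 ^ 5 * R := by
        have h1 : M ^ 5 ≤ max M0 1 ^ 5 := by
          have : M ≤ max M0 1 := hM.trans (le_max_left _ _)
          (clear * - hM1 this; gcongr)
        have h2 : 0 ≤ ∑' n, r9w T h N n := tsum_nonneg hw0
        have h3 : ∑' n, r9w T h N n ≤ R := hR
        have h4 : (0 : ℝ) ≤ max M0 1 ^ 5 := by positivity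
        have h5 : M ^ 5 * ∑' n, r9w T h N n ≤ max M0 1 ^ 5 * R := mul_le_mul h1 h3 h2 h4
        linarith only [h5]
  have e0 : (fun x : ℝ => df T h x - (corr T h N x).re)
      = fun x => (∑' n, r9g0 T h N n x).re := by
    ext x
    exact r9_tail T hs.continuous hp N hc x
  have hs0 : ∀ y, Summable fun n => r9g0 T h N n y := fun y =>
    Summable.of_norm_bounded hu fun n => r9_g0_le T h N n y
  have hs1 : ∀ y, Summable fun n => r9g1 T h N n y := fun y =>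
    Summable.of_norm_bounded hu fun n => r9_g1_le T h N n y
  have e1 : deriv (fun x => (∑' n, r9g0 T h N n x).re) = fun x => (∑' n, r9g1 T h N n x).re := by
    ext y
    have h1 := hasDerivAt_tsum hu (fun n y => r9_g0_deriv T h N n y)
      (fun n y => r9_g1_le T h N n y) (hs0 0) y
    exact (Complex.reCLM.hasFDerivAt.comp_hasDerivAt y h1).deriv
  have e2 : deriv (fun x => (∑' n, r9g1 T h N n x).re) = fun x => (∑' n, r9g2 T h N n x).re := by
    ext y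
    have h1 := hasDerivAt_tsum hu (fun n y => r9_g1_deriv T h N n y)
      (fun n y => r9_g2_le T h N n y) (hs1 0) y
    exact (Complex.reCLM.hasFDerivAt.comp_hasDerivAt y h1).deriv
  rw [e0]
  interval_cases i
  · rw [Function.iterate_zero_apply]
    exact hbound _ fun n => r9_g0_le T h N n x
  · rw [Function.iterate_one, e1]
    exact hbound _ fun n => r9_g1_le T h N n x
  · rw [Function.iterate_succ_apply, Function.iterate_one, e1, e2]
    exact hbound _ fun n => r9_g2_le T h N n x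

end Vale.Agent.P097.Reg
end

section

/-!
# P097, regularity theorem, R5: the initial complexified table
-/

namespace Vale.Agent.P097.Reg

open Complex
open scoped ComplexConjugate

namespace R5

theorem isOpen_strip (b : ℝ) : IsOpen (strip b) :=
  isOpen_lt (continuous_abs.comp Complex.continuous_im) continuous_const

theorem convex_strip (b : ℝ) : Convex ℝ (strip b) := by
  have h : strip b = Complex.imLm ⁻¹' (Set.Ioo (-b) b) := by
    ext ζ
    simp only [strip, abs_lt, Set.mem_ofPred_eq, imLm_coe, Set.mem_preimage, Set.mem_Ioo]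
  rw [h]
  exact (convex_Ioo _ _).linear_preimage _

theorem conj_mem {b : ℝ} {ψ : ℂ} (h : ψ ∈ strip b) : conj ψ ∈ strip b := by
  simpa only [strip, Set.mem_ofPred_eq, conj_im, abs_neg] using h

theorem add_mem {b : ℝ} {ψ : ℂ} (h : ψ ∈ strip b) (r : ℝ) : ψ + r ∈ strip b := by
  simpa [strip] using h

theorem real_mem {b : ℝ} (hb : 0 < b) (x : ℝ) : (x : ℂ) ∈ strip b := by
  simpa [strip] using hb

/-- the primitive of `lam` on the strip -/
theorem exists_prim {b L c : ℝ} (hb : 0 < b) (hc : 0 < c) {lam : ℂ → ℂ}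
    (hl : DifferentiableOn ℂ lam (strip b))
    (hn : ∀ ψ ∈ strip b, ‖lam ψ - L‖ ≤ L - c)
    (hconj : ∀ ψ ∈ strip b, lam (conj ψ) = conj (lam ψ))
    (hper : ∀ ψ ∈ strip b, lam (ψ + 2 * Real.pi) = lam ψ) :
    ∃ X : ℂ → ℂ, (∀ ψ ∈ strip b, HasDerivAt X (lam ψ) ψ) ∧
      (∀ ψ ∈ strip b, X (conj ψ) = conj (X ψ)) ∧
      (∃ P : ℝ, 0 < P ∧ ∀ ψ ∈ strip b, X (ψ + 2 * Real.pi) = X ψ + P) ∧
      (∀ ψ ∈ strip b, ∀ φ ∈ strip b, ‖X ψ - X φ - L * (ψ - φ)‖ ≤ (L - c) * ‖ψ - φ‖) := by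
  obtain ⟨g, hg⟩ := (convex_strip b).exists_forall_hasDerivWithinAt hl
  have hg' : ∀ ψ ∈ strip b, HasDerivAt g (lam ψ) ψ := fun ψ hψ =>
    (hg ψ hψ).hasDerivAt ((isOpen_strip b).mem_nhds hψ)
  set X : ℂ → ℂ := fun ψ => g ψ - g 0 with hX
  have hXd : ∀ ψ ∈ strip b, HasDerivAt X (lam ψ) ψ := fun ψ hψ => (hg' ψ hψ).sub_const _
  have h0 : (0 : ℂ) ∈ strip b := by simpa using real_mem hb 0
  have hconn : IsPreconnected (strip b) := (convex_strip b).isPreconnected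
  have hXdiff : DifferentiableOn ℂ X (strip b) :=
    fun ψ hψ => (hXd ψ hψ).differentiableAt.differentiableWithinAt
  have hcX : ∀ ψ ∈ strip b, X (conj ψ) = conj (X ψ) := by
    have hYd : ∀ ψ ∈ strip b, HasDerivAt (conj ∘ X ∘ conj) (lam ψ) ψ := by
      intro ψ hψ
      have h := (hXd (conj ψ) (conj_mem hψ)).conj_conj
      rw [Complex.conj_conj, hconj ψ hψ, Complex.conj_conj] at h
      exact h
    have heq := (isOpen_strip b).eqOn_of_deriv_eq hconn hXdiff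
      (fun ψ hψ => (hYd ψ hψ).differentiableAt.differentiableWithinAt)
      (fun ψ hψ => by rw [(hXd ψ hψ).deriv, (hYd ψ hψ).deriv]) h0 (by simp only [hX, sub_self, Function.comp_apply, map_zero])
    intro ψ hψ
    have := heq (conj_mem hψ)
    simpa only [Function.comp_apply, RingHomCompTriple.comp_apply, RingHom.id_apply] using this
  have hlin : ∀ ψ ∈ strip b, ∀ φ ∈ strip b, ‖X ψ - X φ - L * (ψ - φ)‖ ≤ (L - c) * ‖ψ - φ‖ := by
    intro ψ hψ φ hφ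
    have hd : ∀ x ∈ strip b, HasDerivWithinAt (fun u => X u - L * u) (lam x - L) (strip b) x := by
      intro x hx
      have h1 : HasDerivAt (fun u => X u - L * u) (lam x - L * 1) x :=
        (hXd x hx).sub ((hasDerivAt_id x).const_mul (L : ℂ))
      rw [mul_one] at h1
      exact h1.hasDerivWithinAt
    have := (convex_strip b).norm_image_sub_le_of_norm_hasDerivWithin_le hd hn hφ hψ
    calc ‖X ψ - X φ - L * (ψ - φ)‖ = ‖X ψ - L * ψ - (X φ - L * φ)‖ := by ring_nf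
      _ ≤ _ := this
  refine ⟨X, hXd, hcX, ?_, hlin⟩
  -- period
  have h2pi : (2 * Real.pi : ℂ) ∈ strip b := by
    have := real_mem hb (2 * Real.pi)
    push_cast at this
    exact this
  have hreal : (X (2 * Real.pi)).im = 0 := by
    have h := hcX _ h2pi
    have h3 : conj (2 * Real.pi : ℂ) = 2 * Real.pi := by
      apply Complex.ext <;> simp
    rw [h3] at h
    exact Complex.conj_eq_iff_im.mp h.symm
  refine ⟨(X (2 * Real.pi)).re, ?_, ?_⟩
  · have h := hlin _ h2pi _ h0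
    have hX0 : X 0 = 0 := by simp [hX]
    rw [hX0, sub_zero, sub_zero] at h
    have hre := (Complex.abs_re_le_norm _).trans h
    have hpi := Real.pi_pos
    have hn2 : ‖(2 * Real.pi : ℂ)‖ = 2 * Real.pi := by
      rw [norm_mul, Complex.norm_real, Real.norm_of_nonneg hpi.le]; simp
    rw [hn2] at hre
    have e1 : (X (2 * Real.pi) - L * (2 * Real.pi)).re = (X (2 * Real.pi)).re - L * (2 * Real.pi) := by
      simp
    rw [e1] at hre
    have := (abs_le.mp hre).1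
    linarith only [mul_pos (sub_pos.2 hc) (sub_pos.2 hpi), this]
  · have e : ((X (2 * Real.pi)).re : ℂ) = X (2 * Real.pi) := by
      apply Complex.ext <;> simp [hreal]
    rw [e]
    have hsh : ∀ ψ ∈ strip b, ψ + 2 * Real.pi ∈ strip b := by
      intro ψ hψ
      have := add_mem hψ (2 * Real.pi)
      push_cast at this
      exact this
    have hYd : ∀ ψ ∈ strip b, HasDerivAt (fun u => X (u + 2 * Real.pi)) (lam ψ) ψ := by
      intro ψ hψ
      have h := (hXd _ (hsh ψ hψ)).comp_add_const ψ (2 * Real.pi)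
      rw [hper ψ hψ] at h
      exact h
    have hZd : ∀ ψ ∈ strip b, HasDerivAt (fun u => X u + X (2 * Real.pi)) (lam ψ) ψ := by
      intro ψ hψ
      exact (hXd ψ hψ).add_const _
    have heq := (isOpen_strip b).eqOn_of_deriv_eq hconn
      (fun ψ hψ => (hYd ψ hψ).differentiableAt.differentiableWithinAt)
      (fun ψ hψ => (hZd ψ hψ).differentiableAt.differentiableWithinAt)
      (fun ψ hψ => by rw [(hYd ψ hψ).deriv, (hZd ψ hψ).deriv]) h0 (by simp [hX])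
    intro ψ hψ
    exact heq hψ

/-- inversion of the primitive -/
theorem exists_inv {b L c : ℝ} (hb : 0 < b) (hc : 0 < c) (hcL : c ≤ L) {lam X : ℂ → ℂ}
    (hn : ∀ ψ ∈ strip b, ‖lam ψ - L‖ ≤ L - c)
    (hX : ∀ ψ ∈ strip b, HasDerivAt X (lam ψ) ψ)
    (hcX : ∀ ψ ∈ strip b, X (conj ψ) = conj (X ψ))
    (hlin : ∀ ψ ∈ strip b, ∀ φ ∈ strip b,
      ‖X ψ - X φ - L * (ψ - φ)‖ ≤ (L - c) * ‖ψ - φ‖) :
    ∃ z : ℂ → ℂ, (∀ ζ ∈ strip (c / 2 * b), z ζ ∈ strip b ∧ X (z ζ) = ζ ∧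
      HasDerivAt z (lam (z ζ))⁻¹ ζ) ∧
      ∀ ψ ∈ strip b, X ψ ∈ strip (c / 2 * b) → z (X ψ) = ψ := by
  have hL : 0 < L := by linarith only [hc, hcL]
  have hinj : ∀ ψ ∈ strip b, ∀ φ ∈ strip b, c * ‖ψ - φ‖ ≤ ‖X ψ - X φ‖ := by
    intro ψ hψ φ hφ
    have h := hlin ψ hψ φ hφ
    have h2 : ‖(L : ℂ) * (ψ - φ)‖ = L * ‖ψ - φ‖ := by
      rw [norm_mul, Complex.norm_real, Real.norm_of_nonneg hL.le]
    have h3 : ‖(L : ℂ) * (ψ - φ)‖ ≤ ‖X ψ - X φ‖ + ‖X ψ - X φ - L * (ψ - φ)‖ := by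
      have := norm_sub_le (X ψ - X φ) (X ψ - X φ - L * (ψ - φ))
      rwa [sub_sub_cancel] at this
    linarith
  have hlne : ∀ ψ ∈ strip b, lam ψ ≠ 0 := by
    intro ψ hψ h0
    have h := hn ψ hψ
    rw [h0, zero_sub, norm_neg, Complex.norm_real, Real.norm_of_nonneg hL.le] at h
    linarith only [hc, h]
  have hreal : ∀ x : ℝ, (X x).im = 0 := by
    intro x
    have h := hcX x (real_mem hb x)
    rw [Complex.conj_ofReal] at h
    exact Complex.conj_eq_iff_im.mp h.symm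
  -- real surjectivity
  have hsr : ∀ t : ℝ, ∃ x : ℝ, X x = t := by
    intro t
    have hcont : Continuous fun x : ℝ => (X x).re := by
      refine Complex.continuous_re.comp ?_
      rw [continuous_iff_continuousAt]
      intro x
      exact (hX x (real_mem hb x)).continuousAt.comp Complex.continuous_ofReal.continuousAt
    have hgr : ∀ x : ℝ, |(X x).re - (X 0).re - L * x| ≤ (L - c) * |x| := by
      intro x
      have h := hlin x (real_mem hb x) (0 : ℝ) (real_mem hb 0)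
      have h2 := (Complex.abs_re_le_norm _).trans h
      simpa only [ge_iff_le, ofReal_zero, sub_zero, sub_re, mul_re, ofReal_re, ofReal_im, mul_zero, norm_real,     Real.norm_eq_abs] using h2
    have hr : t ∈ Set.range fun x : ℝ => (X x).re := by
      refine mem_range_of_exists_le_of_exists_ge hcont
        ⟨-(|t - (X 0).re| / c), ?_⟩ ⟨|t - (X 0).re| / c, ?_⟩
      · have h := hgr (-(|t - (X 0).re| / c))
        have h1 := (abs_le.mp h).2
        rw [abs_neg, abs_of_nonneg (show 0 ≤ |t - (X 0).re| / c by (clear * - hc; positivity))] at h1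
        have h3 : c * (|t - (X 0).re| / c) = |t - (X 0).re| := by field_simp
        have h4 := neg_abs_le (t - (X 0).re)
        linarith only [h4, h3, h1]
      · have h := hgr (|t - (X 0).re| / c)
        have h1 := (abs_le.mp h).1
        rw [abs_of_nonneg (show 0 ≤ |t - (X 0).re| / c by (clear * - hc; positivity))] at h1
        have h3 : c * (|t - (X 0).re| / c) = |t - (X 0).re| := by (clear * - hc; field_simp)
        have h4 := le_abs_self (t - (X 0).re)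
        linarith only [h4, h3, h1]
    obtain ⟨x, hx⟩ := hr
    refine ⟨x, ?_⟩
    apply Complex.ext
    · simpa using hx
    · simpa using hreal x
  -- complex surjectivity
  have hsurj : ∀ ζ ∈ strip (c / 2 * b), ∃ u ∈ strip b, X u = ζ := by
    intro ζ hζ
    obtain ⟨x0, hx0⟩ := hsr ζ.re
    have hball : ∀ u : ℂ, ‖u - x0‖ ≤ b / 2 → u ∈ strip b := by
      intro u hu
      have h1 : |(u - x0).im| ≤ ‖u - x0‖ := Complex.abs_im_le_norm _
      simp only [Complex.sub_im, Complex.ofReal_im, sub_zero] at h1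
      show |u.im| < b
      linarith
    have hLc : (L : ℂ) ≠ 0 := by exact_mod_cast hL.ne'
    let f : ℂ → ℂ := fun u => u - (X u - ζ) / L
    have hf : ∀ u v : ℂ, u ∈ strip b → v ∈ strip b → ‖f u - f v‖ ≤ (1 - c / L) * ‖u - v‖ := by
      intro u v hu hv
      have e : f u - f v = -((X u - X v - L * (u - v)) / L) := by
        simp only [f]
        field_simp
        ring
      rw [e, norm_neg, norm_div, Complex.norm_real, Real.norm_of_nonneg hL.le,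
        div_le_iff₀ hL]
      calc ‖X u - X v - L * (u - v)‖ ≤ (L - c) * ‖u - v‖ := hlin u hu v hv
        _ = (1 - c / L) * ‖u - v‖ * L := by (clear * - hL; field_simp)
    have hk0 : 0 ≤ 1 - c / L := by
      rw [sub_nonneg, div_le_one hL]
      exact hcL
    have hx0s : (x0 : ℂ) ∈ strip b := real_mem hb x0
    have hfx0 : ‖f x0 - x0‖ ≤ c / L * (b / 2) := by
      have e : f x0 - x0 = -((X x0 - ζ) / L) := by simp only [f]; ring
      rw [e, norm_neg, norm_div, Complex.norm_real, Real.norm_of_nonneg hL.le,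
        div_le_iff₀ hL, hx0]
      have e2 : ((ζ.re : ℂ) - ζ) = -(ζ.im * I) := by
        apply Complex.ext <;> simp
      rw [e2, norm_neg, norm_mul, Complex.norm_I, mul_one, Complex.norm_real, Real.norm_eq_abs]
      have h3 : |ζ.im| < c / 2 * b := hζ
      have h4 : c / L * (b / 2) * L = c / 2 * b := by (clear * - hL hb hc; field_simp)
      rw [h4]
      exact h3.le
    have hmaps : Set.MapsTo f (Metric.closedBall (x0 : ℂ) (b / 2))
        (Metric.closedBall (x0 : ℂ) (b / 2)) := by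
      intro u hu
      rw [Metric.mem_closedBall, dist_eq_norm] at hu ⊢
      have h1 := hf u x0 (hball u hu) hx0s
      have h2 : ‖f u - x0‖ ≤ ‖f u - f x0‖ + ‖f x0 - x0‖ := by
        have := norm_add_le (f u - f x0) (f x0 - x0)
        rwa [sub_add_sub_cancel] at this
      have h3 : (1 - c / L) * ‖u - x0‖ ≤ (1 - c / L) * (b / 2) :=
        mul_le_mul_of_nonneg_left hu hk0
      linarith only [hfx0, h1, h2, h3]
    have hk1 : 1 - c / L < 1 := by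
      have : 0 < c / L := by positivity
      linarith only [this]
    have hcontr : ContractingWith ⟨1 - c / L, hk0⟩
        (hmaps.restrict f (Metric.closedBall (x0 : ℂ) (b / 2))
          (Metric.closedBall (x0 : ℂ) (b / 2))) := by
      refine ⟨by exact_mod_cast hk1, ?_⟩
      refine LipschitzWith.of_dist_le_mul ?_
      rintro ⟨u, hu⟩ ⟨v, hv⟩
      rw [Metric.mem_closedBall, dist_eq_norm] at hu hv
      have := hf u v (hball u hu) (hball v hv)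
      rw [Subtype.dist_eq, Subtype.dist_eq, dist_eq_norm, dist_eq_norm]
      exact this
    obtain ⟨y, hy, hfix, -⟩ := hcontr.exists_fixedPoint'
      Metric.isClosed_closedBall.isComplete hmaps
      (Metric.mem_closedBall_self (by positivity : (0 : ℝ) ≤ b / 2)) (edist_ne_top _ _)
    rw [Metric.mem_closedBall, dist_eq_norm] at hy
    refine ⟨y, hball y hy, ?_⟩
    have h5 : y - (X y - ζ) / L = y := hfix
    have h6 : (X y - ζ) / L = 0 := by
      have := sub_eq_self.mp h5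
      exact this
    rcases div_eq_zero_iff.mp h6 with h7 | h7
    · exact sub_eq_zero.mp h7
    · exact absurd h7 hLc
  choose! z hz1 hz2 using hsurj
  have hzX : ∀ ψ ∈ strip b, X ψ ∈ strip (c / 2 * b) → z (X ψ) = ψ := by
    intro ψ hψ hXψ
    have h1 := hinj (z (X ψ)) (hz1 _ hXψ) ψ hψ
    rw [hz2 _ hXψ, sub_self, norm_zero] at h1
    have h2 : ‖z (X ψ) - ψ‖ ≤ 0 := by
      by_contra hh
      push Not at hh
      linarith only [mul_pos (sub_pos.2 hc) (sub_pos.2 hh), h1]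
    exact sub_eq_zero.mp (norm_le_zero_iff.mp h2)
  refine ⟨z, fun ζ hζ => ⟨hz1 ζ hζ, hz2 ζ hζ, ?_⟩, hzX⟩
  have hcz : ContinuousAt z ζ := by
    rw [Metric.continuousAt_iff]
    intro ε hε
    have hO := (isOpen_strip (c / 2 * b)).mem_nhds hζ
    obtain ⟨δ, hδ, hδs⟩ := Metric.mem_nhds_iff.mp hO
    refine ⟨min δ (c * ε), by (clear * - hδ hc hε; positivity), ?_⟩
    intro w hw
    have hw1 : w ∈ strip (c / 2 * b) := hδs (lt_of_lt_of_le hw (min_le_left _ _))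
    have hw2 : ‖w - ζ‖ < c * ε := by
      rw [← dist_eq_norm]
      exact lt_of_lt_of_le hw (min_le_right _ _)
    have h1 := hinj (z w) (hz1 w hw1) (z ζ) (hz1 ζ hζ)
    rw [hz2 w hw1, hz2 ζ hζ] at h1
    rw [dist_eq_norm]
    exact lt_of_mul_lt_mul_left (h1.trans_lt hw2) hc.le
  refine HasDerivAt.of_local_left_inverse hcz (hX _ (hz1 ζ hζ)) (hlne _ (hz1 ζ hζ)) ?_
  filter_upwards [(isOpen_strip (c / 2 * b)).mem_nhds hζ] with w hw
  exact hz2 w hw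

/-- cube root -/
noncomputable def cr (w : ℂ) : ℂ := w ^ (((3 : ℕ) : ℂ)⁻¹)

theorem cr_pow (w : ℂ) : cr w ^ 3 = w := Complex.cpow_nat_inv_pow w (by norm_num)

theorem cr_conj {w : ℂ} (hw : 0 < w.re) : cr (conj w) = conj (cr w) := by
  have harg : w.arg ≠ Real.pi := by
    intro h
    have := Complex.arg_eq_pi_iff.mp h
    linarith only [hw, this]
  unfold cr
  have h3 : conj (((3 : ℕ) : ℂ)⁻¹) = ((3 : ℕ) : ℂ)⁻¹ := by
    rw [map_inv₀, Complex.conj_natCast]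
  rw [Complex.conj_cpow w _ harg, h3]

theorem cr_real {x : ℝ} (hx : 0 < x) : ∃ y : ℝ, 0 < y ∧ cr x = y ∧ y ^ 3 = x := by
  refine ⟨x ^ (((3 : ℕ) : ℝ)⁻¹), by positivity, ?_, Real.rpow_inv_natCast_pow hx.le (by norm_num)⟩
  unfold cr
  rw [Complex.ofReal_cpow hx.le]
  push_cast
  rfl

theorem differentiableAt_cr {w : ℂ} (hw : 0 < w.re) : DifferentiableAt ℂ cr w := by
  unfold cr
  exact (differentiableAt_id.cpow_const (Or.inl hw))

theorem deriv_conj {F : ℂ → ℂ} (hF : ∀ z, F (conj z) = conj (F z)) (hd : Differentiable ℂ F)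
    (z : ℂ) : deriv F (conj z) = conj (deriv F z) := by
  have h := (hd z).hasDerivAt.conj_conj
  have e : conj ∘ F ∘ conj = F := by
    ext w
    simp [hF]
  rw [e] at h
  exact h.deriv

theorem norm_le_aux {l0 l s : ℂ} {a S : ℝ} (ha : 0 < a) (h0 : a ≤ ‖l0‖) (h : 3 * l0 ^ 2 * l = s)
    (hS : ‖s‖ ≤ S) : ‖l‖ ≤ S / (3 * a ^ 2) := by
  rw [le_div_iff₀ (by positivity)]
  have h1 : ‖s‖ = 3 * ‖l0‖ ^ 2 * ‖l‖ := by
    rw [← h, norm_mul, norm_mul, norm_pow]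
    simp
  have h2 : a ^ 2 ≤ ‖l0‖ ^ 2 := by (clear * - ha h0; gcongr)
  linarith only [mul_nonneg (sub_nonneg.2 h2) (sub_nonneg.2 (norm_nonneg l)), h1, hS]

/-- the constants -/
theorem deriv_bounds {b a C0 : ℝ} (ha : 0 < a) (hC0 : 0 ≤ C0) {lam r0 r1 r2 r3 : ℂ → ℂ}
    (hl : DifferentiableOn ℂ lam (strip b)) (hcub : ∀ ψ ∈ strip b, lam ψ ^ 3 = r0 ψ)
    (hr0 : ∀ ψ ∈ strip b, HasDerivAt r0 (r1 ψ) ψ) (hr1 : ∀ ψ ∈ strip b, HasDerivAt r1 (r2 ψ) ψ)
    (hr2 : ∀ ψ ∈ strip b, HasDerivAt r2 (r3 ψ) ψ)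
    (h1 : ∀ ψ ∈ strip b, ‖r1 ψ‖ ≤ 2 * C0) (h2 : ∀ ψ ∈ strip b, ‖r2 ψ‖ ≤ 2 * C0)
    (h3 : ∀ ψ ∈ strip b, ‖r3 ψ‖ ≤ 2 * C0) (hla : ∀ ψ ∈ strip b, a ≤ ‖lam ψ‖)
    (hlC : ∀ ψ ∈ strip b, ‖lam ψ‖ ≤ 2 * C0) {A1 A2 A3 : ℝ}
    (hA1 : A1 = 2 * C0 / (3 * a ^ 2)) (hA2 : A2 = (2 * C0 + 6 * (2 * C0) * A1 ^ 2) / (3 * a ^ 2))
    (hA3 : A3 = (2 * C0 + 6 * A1 ^ 3 + 18 * (2 * C0) * A1 * A2) / (3 * a ^ 2)) :
    ∀ ψ ∈ strip b, ‖deriv lam ψ‖ ≤ A1 ∧ ‖deriv (deriv lam) ψ‖ ≤ A2 ∧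
      ‖deriv (deriv (deriv lam)) ψ‖ ≤ A3 := by
  have hO := isOpen_strip b
  have hl1 := hl.deriv hO
  have hl2 := hl1.deriv hO
  have d0 : ∀ ψ ∈ strip b, HasDerivAt lam (deriv lam ψ) ψ := fun ψ hψ =>
    (hl.differentiableAt (hO.mem_nhds hψ)).hasDerivAt
  have d1 : ∀ ψ ∈ strip b, HasDerivAt (deriv lam) (deriv (deriv lam) ψ) ψ := fun ψ hψ =>
    (hl1.differentiableAt (hO.mem_nhds hψ)).hasDerivAt
  have d2 : ∀ ψ ∈ strip b,
      HasDerivAt (deriv (deriv lam)) (deriv (deriv (deriv lam)) ψ) ψ := fun ψ hψ =>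
    (hl2.differentiableAt (hO.mem_nhds hψ)).hasDerivAt
  have key : ∀ (f g : ℂ → ℂ) (u v ψ : ℂ), ψ ∈ strip b → (∀ φ ∈ strip b, f φ = g φ) →
      HasDerivAt f u ψ → HasDerivAt g v ψ → u = v := by
    intro f g u v ψ hψ hfg hf hg
    have he : f =ᶠ[nhds ψ] g := by
      filter_upwards [hO.mem_nhds hψ] with φ hφ using hfg φ hφ
    exact (hf.congr_of_eventuallyEq he.symm).unique hg
  have e1 : ∀ ψ ∈ strip b, 3 * lam ψ ^ 2 * deriv lam ψ = r1 ψ := by
    intro ψ hψ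
    have hf : HasDerivAt (fun φ => lam φ ^ 3) (3 * lam ψ ^ 2 * deriv lam ψ) ψ := by
      have := (d0 ψ hψ).fun_pow 3
      simpa only [Nat.cast_ofNat, Nat.add_one_sub_one] using this
    exact key _ _ _ _ ψ hψ hcub hf (hr0 ψ hψ)
  have e2 : ∀ ψ ∈ strip b,
      3 * lam ψ ^ 2 * deriv (deriv lam) ψ = r2 ψ - 6 * lam ψ * deriv lam ψ ^ 2 := by
    intro ψ hψ
    have hf : HasDerivAt (fun φ => 3 * lam φ ^ 2 * deriv lam φ)
        (3 * (2 * lam ψ * deriv lam ψ) * deriv lam ψ + 3 * lam ψ ^ 2 * deriv (deriv lam) ψ) ψ := by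
      have h := (((d0 ψ hψ).fun_pow 2).const_mul 3).fun_mul (d1 ψ hψ)
      simpa only [Nat.cast_ofNat, Nat.add_one_sub_one, pow_one] using h
    have h := key _ _ _ _ ψ hψ e1 hf (hr1 ψ hψ)
    rw [← h]
    ring
  have e3 : ∀ ψ ∈ strip b, 3 * lam ψ ^ 2 * deriv (deriv (deriv lam)) ψ =
      r3 ψ - 6 * deriv lam ψ ^ 3 - 18 * lam ψ * deriv lam ψ * deriv (deriv lam) ψ := by
    intro ψ hψ
    have hf : HasDerivAt (fun φ => 3 * lam φ ^ 2 * deriv (deriv lam) φ)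
        (3 * (2 * lam ψ * deriv lam ψ) * deriv (deriv lam) ψ +
          3 * lam ψ ^ 2 * deriv (deriv (deriv lam)) ψ) ψ := by
      have h := (((d0 ψ hψ).fun_pow 2).const_mul 3).fun_mul (d2 ψ hψ)
      simpa only [Nat.cast_ofNat, Nat.add_one_sub_one, pow_one] using h
    have hg : HasDerivAt (fun φ => r2 φ - 6 * lam φ * deriv lam φ ^ 2)
        (r3 ψ - (6 * deriv lam ψ * deriv lam ψ ^ 2 +
          6 * lam ψ * (2 * deriv lam ψ * deriv (deriv lam) ψ))) ψ := by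
      have h := (hr2 ψ hψ).fun_sub
        (((d0 ψ hψ).const_mul 6).fun_mul ((d1 ψ hψ).fun_pow 2))
      simpa only [Nat.cast_ofNat, Nat.add_one_sub_one, pow_one] using h
    have h := key _ _ _ _ ψ hψ e2 hf hg
    linear_combination h
  intro ψ hψ
  have hp : 0 < 3 * a ^ 2 := by positivity
  have b1 : ‖deriv lam ψ‖ ≤ A1 := by
    rw [hA1]
    exact norm_le_aux ha (hla ψ hψ) (e1 ψ hψ) (h1 ψ hψ)
  have hA1' : 0 ≤ A1 := (norm_nonneg _).trans b1
  have b2 : ‖deriv (deriv lam) ψ‖ ≤ A2 := by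
    rw [hA2]
    refine norm_le_aux ha (hla ψ hψ) (e2 ψ hψ) ?_
    refine (norm_sub_le _ _).trans (add_le_add (h2 ψ hψ) ?_)
    rw [norm_mul, norm_mul, norm_pow]
    have : ‖(6 : ℂ)‖ = 6 := by simp
    rw [this]
    have := hlC ψ hψ
    (clear * - this b1 hC0; gcongr)
  have hA2' : 0 ≤ A2 := (norm_nonneg _).trans b2
  refine ⟨b1, b2, ?_⟩
  rw [hA3]
  refine norm_le_aux ha (hla ψ hψ) (e3 ψ hψ) ?_
  refine (norm_sub_le _ _).trans (add_le_add ((norm_sub_le _ _).trans (add_le_add (h3 ψ hψ) ?_)) ?_)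
  · rw [norm_mul, norm_pow]
    have : ‖(6 : ℂ)‖ = 6 := by simp
    rw [this]
    (clear * - b1; gcongr)
  · rw [norm_mul, norm_mul, norm_mul]
    have : ‖(18 : ℂ)‖ = 18 := by simp
    rw [this]
    have := hlC ψ hψ
    (clear * - this b1 hC0 b2 hA1'; gcongr)

theorem diff_iter {G : ℂ → ℂ} (hG : Differentiable ℂ G) (i : ℕ) :
    Differentiable ℂ (deriv^[i] G) := by
  induction i with
  | zero => simpa using hG
  | succ i ih =>
    rw [Function.iterate_succ_apply', ← differentiableOn_univ]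
    exact (differentiableOn_univ.mpr ih).deriv isOpen_univ

/-- radius of curvature and its derivatives -/
noncomputable def rr (G : ℂ → ℂ) (i : ℕ) (z : ℂ) : ℂ := deriv^[i] G z + deriv^[i + 2] G z

theorem rr_hasDerivAt {G : ℂ → ℂ} (hG : Differentiable ℂ G) (i : ℕ) (z : ℂ) :
    HasDerivAt (rr G i) (rr G (i + 1) z) z := by
  have h1 : ∀ j, HasDerivAt (deriv^[j] G) (deriv^[j + 1] G z) z := by
    intro j
    rw [Function.iterate_succ_apply']
    exact (diff_iter hG j z).hasDerivAt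
  have h := (h1 i).add (h1 (i + 2))
  exact h

theorem rr_bound {G : ℂ → ℂ} {b C0 : ℝ}
    (hb : ∀ i ≤ 5, ∀ z : ℂ, |z.im| ≤ b → ‖deriv^[i] G z‖ ≤ C0) {i : ℕ} (hi : i ≤ 3) {z : ℂ}
    (hz : z ∈ strip b) : ‖rr G i z‖ ≤ 2 * C0 := by
  have h1 := hb i (by omega) z (le_of_lt hz)
  have h2 := hb (i + 2) (by omega) z (le_of_lt hz)
  unfold rr
  refine (norm_add_le _ _).trans ?_
  linarith only [h1, h2]

theorem rr_conj {G : ℂ → ℂ} (hG : Differentiable ℂ G) (hc : ∀ z, G (conj z) = conj (G z))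
    (z : ℂ) : rr G 0 (conj z) = conj (rr G 0 z) := by
  have h1 := deriv_conj hc hG
  have hd : Differentiable ℂ (deriv G) := by simpa using diff_iter hG 1
  have h2 := deriv_conj h1 hd
  simp only [rr, Function.iterate_zero, id, Function.iterate_succ, Function.comp, zero_add,
    map_add, hc z, h2 z]

theorem rr_per {G : ℂ → ℂ} (hp : ∀ z, G (z + 2 * Real.pi) = G z) (z : ℂ) :
    rr G 0 (z + 2 * Real.pi) = rr G 0 z := by
  have key : ∀ F : ℂ → ℂ, (∀ z, F (z + 2 * Real.pi) = F z) →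
      ∀ z, deriv F (z + 2 * Real.pi) = deriv F z := by
    intro F hF z
    have h := deriv_comp_add_const F (2 * Real.pi : ℂ) z
    rw [← h]
    congr 1
    ext w
    exact hF w
  have h1 := key _ hp
  have h2 := key _ h1
  simp only [rr, Function.iterate_zero, id, Function.iterate_succ, Function.comp, zero_add,
    hp z, h2 z]

theorem _root_.Vale.Agent.P097.Reg.exists_base (C0 c0 : ℝ) (hC : 1 ≤ C0) (hc : 0 < c0) :
    ∃ M : ℝ, 1 ≤ M ∧ ∃ κ > 0, ∃ b0 > 0, ∀ b, 0 < b → b ≤ b0 → ∀ G : ℂ → ℂ,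
      Differentiable ℂ G → (∀ z, G (conj z) = conj (G z)) →
      (∀ z, G (z + 2 * Real.pi) = G z) →
      (∀ i ≤ 5, ∀ z : ℂ, |z.im| ≤ b → ‖deriv^[i] G z‖ ≤ C0) →
      (∀ x : ℝ, c0 ≤ (G x + deriv (deriv G) x).re) →
      ∃ (P : ℝ) (T : CTab M (κ * b) P), T.G = G ∧ ∀ ψ ∈ T.D, |ψ.im| < b := by
  have hC00 : 0 ≤ C0 := by linarith
  obtain ⟨a, ha⟩ : ∃ a : ℝ, a = min 1 c0 / 2 := ⟨_, rfl⟩
  have ha0 : 0 < a := by rw [ha]; positivity
  have ha1 : a ≤ 1 / 2 := by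
    rw [ha]
    have := min_le_left 1 c0
    linarith only [this]
  have hac : 2 * a ≤ c0 := by
    rw [ha]
    have := min_le_right 1 c0
    linarith only [this]
  obtain ⟨A1, hA1⟩ : ∃ A1 : ℝ, A1 = 2 * C0 / (3 * a ^ 2) := ⟨_, rfl⟩
  obtain ⟨A2, hA2⟩ : ∃ A2 : ℝ, A2 = (2 * C0 + 6 * (2 * C0) * A1 ^ 2) / (3 * a ^ 2) := ⟨_, rfl⟩
  obtain ⟨A3, hA3⟩ : ∃ A3 : ℝ, A3 = (2 * C0 + 6 * A1 ^ 3 + 18 * (2 * C0) * A1 * A2) / (3 * a ^ 2) :=
    ⟨_, rfl⟩
  have hA10 : 0 < A1 := by rw [hA1]; positivity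
  have hA20 : 0 < A2 := by rw [hA2]; positivity
  have hA30 : 0 < A3 := by rw [hA3]; positivity
  obtain ⟨M, hM⟩ : ∃ M : ℝ, M = 1 + a⁻¹ + 2 * C0 + A1 + A2 + A3 := ⟨_, rfl⟩
  have hai : 0 < a⁻¹ := by positivity
  refine ⟨M, by linarith only [hC, hA10, hA20, hA30, hM, hai], a / 2, by positivity,
    min 1 (min (c0 / (4 * C0)) (a / A1)), by positivity, ?_⟩
  intro b hb hb0 G hG hGc hGp hGb hGr
  have hb1 : b ≤ 1 := hb0.trans (min_le_left _ _)
  have hb2 : 2 * C0 * b ≤ c0 / 2 := by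
    have h := hb0.trans ((min_le_right _ _).trans (min_le_left _ _))
    rw [le_div_iff₀ (by positivity)] at h
    linarith only [h]
  have hb3 : A1 * b ≤ a := by
    have h := hb0.trans ((min_le_right _ _).trans (min_le_right _ _))
    rw [le_div_iff₀ hA10] at h
    linarith only [h]
  have hO := isOpen_strip b
  have hr0re : ∀ x : ℝ, c0 ≤ (rr G 0 x).re := by
    intro x
    simpa only [rr, Function.iterate_zero, id_eq, zero_add, Function.iterate_succ, Function.iterate_one,     Function.comp_apply, add_re] using hGr x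
  have hrre : ∀ ψ ∈ strip b, c0 / 2 ≤ (rr G 0 ψ).re := by
    intro ψ hψ
    have h := (convex_strip b).norm_image_sub_le_of_norm_hasDerivWithin_le
      (fun x _ => (rr_hasDerivAt hG 0 x).hasDerivWithinAt)
      (fun x hx => rr_bound hGb (by norm_num : 0 + 1 ≤ 3) hx) (real_mem hb ψ.re) hψ
    have e : ψ - (ψ.re : ℂ) = ψ.im * I := by
      apply Complex.ext <;> simp
    rw [e, norm_mul, Complex.norm_I, mul_one, Complex.norm_real, Real.norm_eq_abs] at h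
    have h2 := (Complex.abs_re_le_norm _).trans h
    rw [Complex.sub_re] at h2
    have h3 := (abs_le.mp h2).1
    have h4 := hr0re ψ.re
    have h5 : |ψ.im| < b := hψ
    linarith only [mul_nonneg (le_of_lt (sub_pos.2 h5)) (sub_nonneg.2 hC), h5, h4, h3, hb2]
  have hrpos : ∀ ψ ∈ strip b, 0 < (rr G 0 ψ).re := fun ψ hψ => by
    have := hrre ψ hψ
    linarith only [ha0, hac, this]
  obtain ⟨lam, hlam⟩ : ∃ lam : ℂ → ℂ, lam = fun ψ => cr (rr G 0 ψ) := ⟨_, rfl⟩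
  have hcub : ∀ ψ, lam ψ ^ 3 = rr G 0 ψ := fun ψ => by rw [hlam]; exact cr_pow _
  have hldiff : DifferentiableOn ℂ lam (strip b) := by
    intro ψ hψ
    rw [hlam]
    exact ((differentiableAt_cr (hrpos ψ hψ)).comp ψ
      (rr_hasDerivAt hG 0 ψ).differentiableAt).differentiableWithinAt
  have hn3 : ∀ ψ, ‖lam ψ‖ ^ 3 = ‖rr G 0 ψ‖ := fun ψ => by rw [← hcub, norm_pow]
  have hla : ∀ ψ ∈ strip b, a ≤ ‖lam ψ‖ := by
    intro ψ hψ
    by_contra hh
    push Not at hh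
    have h1 : c0 / 2 ≤ ‖lam ψ‖ ^ 3 := by
      rw [hn3]
      exact (hrre ψ hψ).trans (Complex.re_le_norm _)
    have h2 : ‖lam ψ‖ ^ 3 ≤ ‖lam ψ‖ ^ 1 :=
      pow_le_pow_of_le_one (norm_nonneg _) (by linarith only [hh, ha1]) (by norm_num)
    rw [pow_one] at h2
    linarith only [hac, hh, h1, h2]
  have hlC : ∀ ψ ∈ strip b, ‖lam ψ‖ ≤ 2 * C0 := by
    intro ψ hψ
    by_contra hh
    push Not at hh
    have h1 : ‖lam ψ‖ ^ 3 ≤ 2 * C0 := by
      rw [hn3]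
      exact rr_bound hGb (by norm_num) hψ
    have h2 : ‖lam ψ‖ ^ 1 ≤ ‖lam ψ‖ ^ 3 :=
      pow_le_pow_right₀ (by linarith only [hC, hh]) (by norm_num)
    rw [pow_one] at h2
    linarith only [hh, h1, h2]
  have hder := deriv_bounds (b := b) ha0 hC00 hldiff (fun ψ _ => hcub ψ)
    (fun ψ _ => rr_hasDerivAt hG 0 ψ) (fun ψ _ => rr_hasDerivAt hG 1 ψ)
    (fun ψ _ => rr_hasDerivAt hG 2 ψ) (fun ψ hψ => rr_bound hGb (by norm_num) hψ)
    (fun ψ hψ => rr_bound hGb (by norm_num) hψ) (fun ψ hψ => rr_bound hGb (by norm_num) hψ)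
    hla hlC hA1 hA2 hA3
  have hlreal : ∀ x : ℝ, ∃ y : ℝ, lam x = y ∧ 2 * a ≤ y ∧ y ≤ 2 * C0 := by
    intro x
    have him : (rr G 0 x).im = 0 := by
      have h := rr_conj hG hGc x
      rw [Complex.conj_ofReal] at h
      exact Complex.conj_eq_iff_im.mp h.symm
    have hre : rr G 0 x = ((rr G 0 x).re : ℂ) := by
      apply Complex.ext <;> simp [him]
    have hp : 0 < (rr G 0 x).re := hrpos x (real_mem hb x)
    obtain ⟨y, hy, hy1, hy2⟩ := cr_real hp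
    refine ⟨y, ?_, ?_, ?_⟩
    · rw [hlam]
      show cr (rr G 0 x) = y
      rw [hre]
      exact hy1
    · by_contra hh
      push Not at hh
      have h1 : y ^ 3 ≤ y ^ 1 := pow_le_pow_of_le_one hy.le (by linarith only [ha1, hh]) (by norm_num)
      rw [pow_one] at h1
      have := hr0re x
      linarith only [hac, hy2, hh, h1, this]
    · have h := hlC x (real_mem hb x)
      have h2 : lam x = y := by
        rw [hlam]
        show cr (rr G 0 x) = y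
        rw [hre]
        exact hy1
      rw [h2, Complex.norm_real, Real.norm_of_nonneg hy.le] at h
      exact h
  have hdisc : ∀ ψ ∈ strip b, ‖lam ψ - ((2 * C0 : ℝ) : ℂ)‖ ≤ 2 * C0 - a := by
    intro ψ hψ
    obtain ⟨y, hy1, hy2, hy3⟩ := hlreal ψ.re
    have h := (convex_strip b).norm_image_sub_le_of_norm_hasDerivWithin_le
      (fun x hx => (hldiff.differentiableAt (hO.mem_nhds hx)).hasDerivAt.hasDerivWithinAt)
      (fun x hx => (hder x hx).1) (real_mem hb ψ.re) hψ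
    have e : ψ - (ψ.re : ℂ) = ψ.im * I := by
      apply Complex.ext <;> simp
    rw [e, norm_mul, Complex.norm_I, mul_one, Complex.norm_real, Real.norm_eq_abs, hy1] at h
    have h5 : |ψ.im| < b := hψ
    have h6 : ‖((y : ℝ) : ℂ) - ((2 * C0 : ℝ) : ℂ)‖ ≤ 2 * C0 - 2 * a := by
      rw [← Complex.ofReal_sub, Complex.norm_real, Real.norm_eq_abs, abs_le]
      constructor <;> linarith only [hC, ha1, hy3, hy2]
    have h7 : ‖lam ψ - ((2 * C0 : ℝ) : ℂ)‖ ≤ ‖lam ψ - y‖ + ‖((y : ℝ) : ℂ) - ((2 * C0 : ℝ) : ℂ)‖ := by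
      have := norm_add_le (lam ψ - y) (y - ((2 * C0 : ℝ) : ℂ))
      rwa [sub_add_sub_cancel] at this
    have h8 : A1 * |ψ.im| ≤ A1 * b := mul_le_mul_of_nonneg_left h5.le hA10.le
    linarith only [hb3, h, h6, h7, h8]
  have hlconj : ∀ ψ ∈ strip b, lam (conj ψ) = conj (lam ψ) := by
    intro ψ hψ
    rw [hlam]
    show cr (rr G 0 (conj ψ)) = conj (cr (rr G 0 ψ))
    rw [rr_conj hG hGc, cr_conj (hrpos ψ hψ)]
  have hlper : ∀ ψ ∈ strip b, lam (ψ + 2 * Real.pi) = lam ψ := by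
    intro ψ hψ
    rw [hlam]
    show cr (rr G 0 (ψ + 2 * Real.pi)) = cr (rr G 0 ψ)
    rw [rr_per hGp]
  obtain ⟨X, hX, hXc, ⟨P, hP, hXp⟩, hXl⟩ :=
    exists_prim hb ha0 hldiff hdisc hlconj hlper
  obtain ⟨z, hz, hzX⟩ := exists_inv hb ha0 (by linarith only [hC, ha1]) hdisc hX hXc hXl
  have hXcont : ContinuousOn X (strip b) := fun ψ hψ => (hX ψ hψ).continuousAt.continuousWithinAt
  have hXreal : ∀ x : ℝ, (X x).im = 0 := by
    intro x
    have h := hXc x (real_mem hb x)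
    rw [Complex.conj_ofReal] at h
    exact Complex.conj_eq_iff_im.mp h.symm
  have hshift : ∀ ψ ∈ strip b, ψ + 2 * Real.pi ∈ strip b := by
    intro ψ hψ
    have := add_mem hψ (2 * Real.pi)
    push_cast at this
    exact this
  have hshift' : ∀ ψ ∈ strip b, ψ - 2 * Real.pi ∈ strip b := by
    intro ψ hψ
    have := add_mem hψ (-(2 * Real.pi))
    push_cast at this
    rwa [← sub_eq_add_neg] at this
  refine ⟨P, ?_⟩
  let T : CTab M (a / 2 * b) P :=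
    { D := {ψ | ψ ∈ strip b ∧ X ψ ∈ strip (a / 2 * b)}
      G := G
      lam := lam
      X := X
      z := z
      M1 := by linarith only [hC, hA10, hA20, hA30, hM, hai]
      β0 := by positivity
      β1 := by nlinarith only [ha1, ha0, hb1]
      P0 := hP
      isOpen := hXcont.isOpen_inter_preimage hO (isOpen_strip _)
      dG := hG.differentiableOn
      dlam := hldiff.mono fun ψ hψ => hψ.1
      dX := fun ψ hψ => hX ψ hψ.1
      dz := fun ζ hζ => (hz ζ hζ).2.2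
      XD := fun ψ hψ => hψ.2
      zD := fun ζ hζ => ⟨(hz ζ hζ).1, by rw [(hz ζ hζ).2.1]; exact hζ⟩
      zX := fun ψ hψ => hzX ψ hψ.1 hψ.2
      Xz := fun ζ hζ => (hz ζ hζ).2.1
      rho := fun ψ hψ => by
        rw [hcub]
        simp [rr]
      bG := fun ψ hψ => by
        have h := hGb 0 (by norm_num) ψ (le_of_lt hψ.1)
        simp only [Function.iterate_zero, id] at h
        linarith only [hC, hA10, hA20, hA30, hM, hai, h]
      b0 := fun ψ hψ => by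
        have := hlC ψ hψ.1
        linarith only [hA10, hA20, hA30, hM, hai, this]
      b1 := fun ψ hψ => by
        have := (hder ψ hψ.1).1
        linarith only [hC, hA20, hA30, hM, hai, this]
      b2 := fun ψ hψ => by
        have := (hder ψ hψ.1).2.1
        linarith only [hC, hA10, hA30, hM, hai, this]
      b3 := fun ψ hψ => by
        have := (hder ψ hψ.1).2.2
        linarith only [hC, hA10, hA20, hM, hai, this]
      bl := fun ψ hψ => by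
        have h1 := hla ψ hψ.1
        have h2 : a⁻¹ ≤ M := by linarith only [hC, hA10, hA20, hA30, hM]
        have h3 : 0 ≤ M := hai.le.trans h2
        calc (1 : ℝ) = a⁻¹ * a := by field_simp
          _ ≤ M * ‖lam ψ‖ := by (clear * - h2 h1 ha0 h3; gcongr)
      cD := fun ψ hψ => ⟨conj_mem hψ.1, by rw [hXc ψ hψ.1]; exact conj_mem hψ.2⟩
      cG := fun ψ _ => hGc ψ
      clam := fun ψ hψ => hlconj ψ hψ.1
      cX := fun ψ hψ => hXc ψ hψ.1
      rD := fun x => ⟨real_mem hb x, by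
        show |(X x).im| < a / 2 * b
        rw [hXreal x, abs_zero]
        (clear * - ha0 hb; positivity)⟩
      rpos := fun x => by
        obtain ⟨y, hy1, hy2, hy3⟩ := hlreal x
        rw [hy1, Complex.ofReal_re]
        linarith only [ha0, hy2]
      pD := fun ψ hψ => ⟨hshift ψ hψ.1, by rw [hXp ψ hψ.1]; exact add_mem hψ.2 P⟩
      mD := fun ψ hψ => ⟨hshift' ψ hψ.1, by
        have h := hXp _ (hshift' ψ hψ.1)
        rw [sub_add_cancel] at h
        have h2 : X (ψ - 2 * Real.pi) = X ψ + ((-P : ℝ) : ℂ) := by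
          rw [h]
          push_cast
          ring
        rw [h2]
        exact add_mem hψ.2 (-P)⟩
      pG := fun ψ _ => hGp ψ
      plam := fun ψ hψ => hlper ψ hψ.1
      pX := fun ψ hψ => hXp ψ hψ.1 }
  exact ⟨T, rfl, fun ψ hψ => hψ.1⟩

end R5

end Vale.Agent.P097.Reg
end

section

namespace Vale.Agent.P097.Cusp

open Complex
open scoped ComplexConjugate

/-- The complexified radius of curvature `h + h''`. -/
noncomputable def rho (h : ℂ → ℂ) (z : ℂ) : ℂ := h z + deriv (deriv h) z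

/-- An even `2 H`-periodic table whose complexified radius of curvature has a simple zero `Y * I`
and is dominated by the imaginary axis: on every horizontal line at height between `0` and `Y`
the real part of `rho` attains its smallest value exactly at the points of `2 H ℤ`. -/
structure DomTable (h : ℂ → ℂ) (H Y : ℝ) : Prop where
  ent : Differentiable ℂ h
  real : ∀ z, h (conj z) = conj (h z)
  even : ∀ z, h (-z) = h z
  per : ∀ z, h (z + 2 * H) = h z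
  Hpos : 0 < H
  Ypos : 0 < Y
  posI : ∀ y : ℝ, 0 ≤ y → y < Y → 0 < (rho h (y * I)).re
  zero : rho h (Y * I) = 0
  simple : deriv (rho h) (Y * I) ≠ 0
  dom : ∀ x y : ℝ, 0 < x → x < 2 * H → 0 ≤ y → y ≤ Y →
    (rho h (y * I)).re < (rho h (x + y * I)).re

/-- A table with the symmetry of a regular polygon whose nearest complex cusp is `Y * I`. -/
structure CuspTable (h : ℂ → ℂ) (H Y τ : ℝ) : Prop where
  ent : Differentiable ℂ h
  real : ∀ z, h (conj z) = conj (h z)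
  even : ∀ z, h (-z) = h z
  per : ∀ z, h (z + 2 * H) = h z
  Hpos : 0 < H
  Ypos : 0 < Y
  τpos : 0 < τ
  pos : ∀ x : ℝ, 0 < (rho h x).re
  posI : ∀ y : ℝ, 0 ≤ y → y < Y → 0 < (rho h (y * I)).re
  zero : rho h (Y * I) = 0
  simple : deriv (rho h) (Y * I) ≠ 0
  imp : ∀ s y : ℝ, 0 < s → s < H → 0 < y → y < Y + τ → 0 < (rho h (s + y * I)).im
  ne : ∀ y : ℝ, 0 ≤ y → y < Y + τ → rho h (H + y * I) ≠ 0

end Vale.Agent.P097.Cusp
end

section

namespace Vale.Agent.P097.Cusp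

open Complex Filter Topology

/-- `lp h φ x` is the signed distance from the origin of the line through the boundary point
with normal angle `φ + x`, whose normal angle is `φ`. -/
noncomputable def lp (h : ℂ → ℂ) (φ x : ℂ) : ℂ :=
  h (φ + x) * cos x - deriv h (φ + x) * sin x

/-- The sagitta function `h φ - lp h φ x = ∫_0^x rho (φ + s) sin s ds`. -/
noncomputable def W (h : ℂ → ℂ) (φ x : ℂ) : ℂ := h φ - lp h φ x

theorem differentiable_deriv {h : ℂ → ℂ} (hh : Differentiable ℂ h) :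
    Differentiable ℂ (deriv h) := by
  intro z
  have h1 : DifferentiableOn ℂ (deriv h) Set.univ :=
    (hh.differentiableOn (s := Set.univ)).deriv isOpen_univ
  exact (h1 z (Set.mem_univ z)).differentiableAt Filter.univ_mem

theorem differentiable_rho {h : ℂ → ℂ} (hh : Differentiable ℂ h) :
    Differentiable ℂ (rho h) :=
  hh.add (differentiable_deriv (differentiable_deriv hh))

theorem hasDerivAt_lp {h : ℂ → ℂ} (hh : Differentiable ℂ h) (φ x : ℂ) :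
    HasDerivAt (fun x => lp h φ x) (-(rho h (φ + x) * sin x)) x := by
  have h1 : HasDerivAt (fun x => h (φ + x)) (deriv h (φ + x)) x := by
    simpa using (hh (φ + x)).hasDerivAt.comp_const_add φ x
  have h2 : HasDerivAt (fun x => deriv h (φ + x)) (deriv (deriv h) (φ + x)) x := by
    simpa using (differentiable_deriv hh (φ + x)).hasDerivAt.comp_const_add φ x
  have h3 := (h1.mul (Complex.hasDerivAt_cos x)).sub (h2.mul (Complex.hasDerivAt_sin x))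
  refine h3.congr_deriv ?_
  simp only [rho]
  ring

theorem hasDerivAt_W {h : ℂ → ℂ} (hh : Differentiable ℂ h) (φ x : ℂ) :
    HasDerivAt (fun x => W h φ x) (rho h (φ + x) * sin x) x := by
  have h1 := (hasDerivAt_lp hh φ x).const_sub (h φ)
  refine h1.congr_deriv ?_
  ring

/-- Uniform bounds of `rho` and its first two derivatives on a ball. -/
theorem exists_bound {h : ℂ → ℂ} (hh : Differentiable ℂ h) (B : ℝ) :
    ∃ M : ℝ, 1 ≤ M ∧ ∀ z : ℂ, ‖z‖ ≤ B →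
      ‖rho h z‖ ≤ M ∧ ‖deriv (rho h) z‖ ≤ M ∧ ‖deriv (deriv (rho h)) z‖ ≤ M := by
  have hc := isCompact_closedBall (0 : ℂ) B
  have c0 := (differentiable_rho hh).continuous
  have c1 := (differentiable_deriv (differentiable_rho hh)).continuous
  have c2 := (differentiable_deriv (differentiable_deriv (differentiable_rho hh))).continuous
  obtain ⟨M0, hM0⟩ := hc.exists_bound_of_continuousOn c0.continuousOn
  obtain ⟨M1, hM1⟩ := hc.exists_bound_of_continuousOn c1.continuousOn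
  obtain ⟨M2, hM2⟩ := hc.exists_bound_of_continuousOn c2.continuousOn
  refine ⟨max 1 (max M0 (max M1 M2)), le_max_left _ _, ?_⟩
  intro z hz
  have hz' : z ∈ Metric.closedBall (0 : ℂ) B := by simpa only [Metric.mem_closedBall, dist_zero_right] using hz
  refine ⟨(hM0 z hz').trans ?_, (hM1 z hz').trans ?_, (hM2 z hz').trans ?_⟩
  · exact le_trans (le_max_left _ _) (le_max_right _ _)
  · exact le_trans (le_trans (le_max_left _ _) (le_max_right _ _)) (le_max_right _ _)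
  · exact le_trans (le_trans (le_max_right _ _) (le_max_right _ _)) (le_max_right _ _)

/-- Mean value inequality on a ball centred at the origin. -/
theorem mvt_ball {f f' : ℂ → ℂ} {r C : ℝ} (hf : ∀ x, HasDerivAt f (f' x) x)
    (hb : ∀ x, ‖x‖ ≤ r → ‖f' x‖ ≤ C) {x y : ℂ} (hx : ‖x‖ ≤ r) (hy : ‖y‖ ≤ r) :
    ‖f y - f x‖ ≤ C * ‖y - x‖ := by
  refine (convex_closedBall (0 : ℂ) r).norm_image_sub_le_of_norm_hasDerivWithin_le
    (f := f) (f' := f') (C := C) (fun z _ => (hf z).hasDerivWithinAt) (fun z hz => ?_) ?_ ?_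
  · exact hb z (by simpa only [Metric.mem_closedBall, dist_zero_right] using hz)
  · simpa only [Metric.mem_closedBall, dist_zero_right] using hx
  · simpa only [Metric.mem_closedBall, dist_zero_right] using hy

section Taylor

variable {f : ℂ → ℂ} {B M : ℝ}

/-- first order Taylor estimate -/
theorem taylor0 (hf : Differentiable ℂ f) (h1 : ∀ z : ℂ, ‖z‖ ≤ B → ‖deriv f z‖ ≤ M)
    {φ x : ℂ} (hφ : ‖φ‖ + ‖x‖ ≤ B) : ‖f (φ + x) - f φ‖ ≤ M * ‖x‖ := by
  have := mvt_ball (f := fun x => f (φ + x)) (f' := fun x => deriv f (φ + x)) (r := ‖x‖) (C := M)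
    (fun y => by simpa only using (hf (φ + y)).hasDerivAt.comp_const_add φ y)
    (fun y hy => h1 _ (by linarith [norm_add_le φ y])) (x := 0) (y := x) (by simp) le_rfl
  simpa only [ge_iff_le, add_zero, sub_zero] using this

/-- second order Taylor estimate -/
theorem taylor1 (hf : Differentiable ℂ f)
    (h2 : ∀ z : ℂ, ‖z‖ ≤ B → ‖deriv (deriv f) z‖ ≤ M)
    {φ x : ℂ} (hφ : ‖φ‖ + ‖x‖ ≤ B) : ‖f (φ + x) - f φ - deriv f φ * x‖ ≤ M * ‖x‖ ^ 2 := by
  have hd := differentiable_deriv hf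
  have := mvt_ball (f := fun x => f (φ + x) - deriv f φ * x)
    (f' := fun x => deriv f (φ + x) - deriv f φ) (r := ‖x‖) (C := M * ‖x‖)
    (fun y => by
      have e1 : HasDerivAt (fun x => f (φ + x)) (deriv f (φ + y)) y := by
        simpa using (hf (φ + y)).hasDerivAt.comp_const_add φ y
      exact (e1.sub ((hasDerivAt_id y).const_mul (deriv f φ))).congr_deriv (by simp))
    (fun y hy => by
      have := taylor0 hd h2 (φ := φ) (x := y) (by linarith only [hφ, hy])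
      have hM : 0 ≤ M := le_trans (norm_nonneg _) (h2 φ (by linarith only [hφ, norm_nonneg x]))
      exact this.trans (by (clear * - hy hM; gcongr))) (x := 0) (y := x) (by simp only [norm_zero, norm_nonneg]) le_rfl
  have e : (f (φ + x) - deriv f φ * x) - (f (φ + 0) - deriv f φ * 0)
      = f (φ + x) - f φ - deriv f φ * x := by simp; ring
  rw [← e]
  refine this.trans (le_of_eq ?_)
  simp; ring

end Taylor

theorem norm_sin_sub_le {x : ℂ} (hx : ‖x‖ ≤ 1) : ‖sin x - x‖ ≤ ‖x‖ ^ 3 := by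
  have h1 := Complex.sin_bound hx
  have e : sin x - x = (sin x - (x - x ^ 3 / 6)) + (-(x ^ 3 / 6)) := by ring
  rw [e]
  refine (norm_add_le _ _).trans ?_
  have h2 : ‖-(x ^ 3 / 6)‖ = ‖x‖ ^ 3 / 6 := by
    rw [norm_neg, norm_div, norm_pow]; norm_num
  rw [h2]
  have h3 : ‖x‖ ^ 5 ≤ ‖x‖ ^ 3 := pow_le_pow_of_le_one (norm_nonneg _) hx (by norm_num)
  linarith only [pow_nonneg (norm_nonneg x) 3, h3, h1]

/-- remainder of the sagitta function -/
noncomputable def Wrem (h : ℂ → ℂ) (φ x : ℂ) : ℂ :=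
  W h φ x - rho h φ * x ^ 2 / 2 - deriv (rho h) φ * x ^ 3 / 3

theorem Wrem_bound {h : ℂ → ℂ} (hh : Differentiable ℂ h) {B M : ℝ} (hM1 : 1 ≤ M)
    (hM : ∀ z : ℂ, ‖z‖ ≤ B →
      ‖rho h z‖ ≤ M ∧ ‖deriv (rho h) z‖ ≤ M ∧ ‖deriv (deriv (rho h)) z‖ ≤ M)
    {φ x y : ℂ} {r : ℝ} (hr : r ≤ 1) (hφ : ‖φ‖ + r ≤ B) (hx : ‖x‖ ≤ r) (hy : ‖y‖ ≤ r) :
    ‖Wrem h φ y - Wrem h φ x‖ ≤ 4 * M * r ^ 3 * ‖y - x‖ := by
  have hr0 : 0 ≤ r := le_trans (norm_nonneg _) hx
  refine mvt_ball (f := fun x => Wrem h φ x)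
    (f' := fun x => rho h (φ + x) * sin x - rho h φ * x - deriv (rho h) φ * x ^ 2) (r := r)
    (fun z => ?_) (fun z hz => ?_) hx hy
  · have h1 := hasDerivAt_W hh φ z
    have h2 := (((hasDerivAt_pow 2 z).const_mul (rho h φ)).div_const 2)
    have h3 := (((hasDerivAt_pow 3 z).const_mul (deriv (rho h) φ)).div_const 3)
    refine ((h1.sub h2).sub h3).congr_deriv ?_
    simp only [Nat.cast_ofNat]
    ring
  · have hz1 : ‖z‖ ≤ 1 := hz.trans hr
    set r2 := rho h (φ + z) - rho h φ - deriv (rho h) φ * z with hr2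
    set s3 := sin z - z with hs3
    have b2 : ‖r2‖ ≤ M * ‖z‖ ^ 2 :=
      taylor1 (differentiable_rho hh) (fun w hw => (hM w hw).2.2) (φ := φ) (x := z) (by linarith only [hφ, hz])
    have b3 : ‖s3‖ ≤ ‖z‖ ^ 3 := norm_sin_sub_le hz1
    have b4 : ‖rho h (φ + z)‖ ≤ M := (hM _ (by linarith only [hφ, hz, norm_add_le φ z])).1
    have e : rho h (φ + z) * sin z - rho h φ * z - deriv (rho h) φ * z ^ 2
        = r2 * z + rho h (φ + z) * s3 := by rw [hr2, hs3]; ring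
    rw [e]
    refine (norm_add_le _ _).trans ?_
    rw [norm_mul, norm_mul]
    have hz0 := norm_nonneg z
    have : ‖z‖ ^ 3 ≤ r ^ 3 := by (clear * - hz; gcongr)
    calc ‖r2‖ * ‖z‖ + ‖rho h (φ + z)‖ * ‖s3‖ ≤ (M * ‖z‖ ^ 2) * ‖z‖ + M * ‖z‖ ^ 3 := by
          (clear * - b2 b4 b3 hM1; gcongr)
      _ = 2 * M * ‖z‖ ^ 3 := by ring
      _ ≤ 4 * M * r ^ 3 := by linarith only [mul_nonneg (sub_nonneg.2 hM1) (sub_nonneg.2 (pow_nonneg hz0 3)), mul_nonneg (sub_nonneg.2 this) (sub_nonneg.2 hM1), pow_nonneg hz0 3, this]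

end Vale.Agent.P097.Cusp
end

section

namespace Vale.Agent.P097.Cusp

open Complex Filter Topology

/-- Uniform bounds on the ball of radius `B`. -/
def Bnd (h : ℂ → ℂ) (B M : ℝ) : Prop :=
  1 ≤ M ∧ ∀ z : ℂ, ‖z‖ ≤ B →
      ‖rho h z‖ ≤ M ∧ ‖deriv (rho h) z‖ ≤ M ∧ ‖deriv (deriv (rho h)) z‖ ≤ M

/-- The domain of the one step lemma. -/
def Adm (h : ℂ → ℂ) (B M : ℝ) (ψ δ : ℂ) : Prop :=
  ‖ψ‖ + 3 ≤ B ∧ δ ≠ 0 ∧ 400 * M ^ 2 * ‖δ‖ ≤ ‖rho h ψ‖

section
variable {h : ℂ → ℂ} {B M : ℝ} {ψ δ : ℂ}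

/-- The map whose fixed point gives the next half step. -/
noncomputable def gmap (h : ℂ → ℂ) (ψ δ u : ℂ) : ℂ :=
  u - (W h (ψ + δ) (δ * (1 + u)) - W h (ψ + δ) (-δ)) / (rho h (ψ + δ) * δ ^ 2)

structure Est (h : ℂ → ℂ) (M : ℝ) (ψ δ : ℂ) : Prop where
  Rpos : 0 < ‖rho h ψ‖
  RleM : ‖rho h ψ‖ ≤ M
  dpos : 0 < ‖δ‖
  dsmall : ‖δ‖ ≤ 1 / 400
  Mε : 400 * (M * (‖δ‖ / ‖rho h ψ‖)) ≤ 1
  φlow : (9 / 10) * ‖rho h ψ‖ ≤ ‖rho h (ψ + δ)‖
  k : ‖deriv (rho h) (ψ + δ) * δ / rho h (ψ + δ)‖ ≤ 2 * (M * (‖δ‖ / ‖rho h ψ‖))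

theorem est (hh : Differentiable ℂ h) (hB : Bnd h B M) (hA : Adm h B M ψ δ) :
    Est h M ψ δ := by
  obtain ⟨hM1, hM⟩ := hB
  obtain ⟨h1, h2, h3⟩ := hA
  have hd : 0 < ‖δ‖ := norm_pos_iff.2 h2
  have hM0 : 0 < M := by linarith
  have hR : 0 < ‖rho h ψ‖ := lt_of_lt_of_le (by (clear * - hM1 h2; positivity)) h3
  have hRM : ‖rho h ψ‖ ≤ M := (hM ψ (by linarith only [h1])).1
  have hds : ‖δ‖ ≤ 1 / 400 := by
    have : 400 * M ^ 2 * ‖δ‖ ≤ M := h3.trans hRM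
    have h4 : 400 * M * ‖δ‖ ≤ 1 := by
      have : M * (400 * M * ‖δ‖) ≤ M * 1 := by linarith
      exact le_of_mul_le_mul_left this hM0
    (by_contra nlg; linarith only [nlg, mul_nonneg (le_of_lt (sub_pos.2 (not_le.1 nlg))) (sub_nonneg.2 hM1), mul_nonneg (mul_self_nonneg (1 : ℝ)) (sub_nonneg.2 hM1), mul_nonneg (mul_self_nonneg (1 : ℝ)) (sub_nonneg.2 h4)])
  have hMe : 400 * (M * (‖δ‖ / ‖rho h ψ‖)) ≤ 1 := by
    rw [show 400 * (M * (‖δ‖ / ‖rho h ψ‖)) = (400 * M * ‖δ‖) / ‖rho h ψ‖ by ring,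
      div_le_one hR]
    nlinarith only [h3, hM1, hR]
  have hφ : (9 / 10) * ‖rho h ψ‖ ≤ ‖rho h (ψ + δ)‖ := by
    have h5 := taylor0 (differentiable_rho hh) (fun z hz => (hM z hz).2.1) (φ := ψ) (x := δ)
      (by linarith)
    have h6 : ‖rho h ψ‖ - ‖rho h (ψ + δ)‖ ≤ M * ‖δ‖ := by
      refine le_trans ?_ h5
      rw [norm_sub_rev]
      exact norm_sub_norm_le _ _
    have h7 : 400 * (M * ‖δ‖) ≤ ‖rho h ψ‖ := by nlinarith only [h3, hM1, hR]
    linarith only [hR, h6, h7]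
  refine ⟨hR, hRM, hd, hds, hMe, hφ, ?_⟩
  have h8 : ‖ψ + δ‖ ≤ B := by linarith only [norm_add_le ψ δ, hds, hd, h1]
  have h9 : 0 < ‖rho h (ψ + δ)‖ := lt_of_lt_of_le (by positivity) hφ
  rw [norm_div, norm_mul, div_le_iff₀ h9]
  have h10 := (hM _ h8).2.1
  calc ‖deriv (rho h) (ψ + δ)‖ * ‖δ‖ ≤ M * ‖δ‖ := by gcongr
    _ ≤ 2 * (M * (‖δ‖ / ‖rho h ψ‖)) * ((9 / 10) * ‖rho h ψ‖) := by
        rw [show 2 * (M * (‖δ‖ / ‖rho h ψ‖)) * ((9 / 10) * ‖rho h ψ‖)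
          = (9 / 5) * (M * ‖δ‖) * (‖rho h ψ‖ / ‖rho h ψ‖) by ring, div_self hR.ne']
        nlinarith only [hM0, hd]
    _ ≤ 2 * (M * (‖δ‖ / ‖rho h ψ‖)) * ‖rho h (ψ + δ)‖ := by gcongr

/-- remainder in the equation -/
noncomputable def rem (h : ℂ → ℂ) (ψ δ u : ℂ) : ℂ :=
  (Wrem h (ψ + δ) (δ * (1 + u)) - Wrem h (ψ + δ) (-δ)) / (rho h (ψ + δ) * δ ^ 2)

theorem rem_bound (hh : Differentiable ℂ h) (hB : Bnd h B M) (hA : Adm h B M ψ δ) {u v : ℂ}
    (hu : ‖u‖ ≤ 1 / 4) (hv : ‖v‖ ≤ 1 / 4) :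
    ‖rem h ψ δ u‖ ≤ 20 * (M * (‖δ‖ / ‖rho h ψ‖)) ^ 2 ∧
      ‖rem h ψ δ u - rem h ψ δ v‖ ≤ 9 * (M * (‖δ‖ / ‖rho h ψ‖)) ^ 2 * ‖u - v‖ := by
  have hE := est hh hB hA
  obtain ⟨hM1, hM⟩ := hB
  obtain ⟨h1, h2, h3⟩ := hA
  have hR := hE.Rpos
  have hd := hE.dpos
  have hM0 : 0 < M := by linarith only [hM1]
  set R := ‖rho h ψ‖ with hRdef
  set ε := ‖δ‖ / R with hε
  have hεR : ‖δ‖ = ε * R := by rw [hε]; (clear * - hR h2; field_simp)
  have hε0 : 0 < ε := div_pos hd hR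
  have hφp : 0 < ‖rho h (ψ + δ)‖ := lt_of_lt_of_le (by (clear * - hR; positivity)) hE.φlow
  have hds := hE.dsmall
  have hr1 : (5 / 4) * ‖δ‖ ≤ 1 := by linarith only [hds]
  have hφB : ‖ψ + δ‖ + (5 / 4) * ‖δ‖ ≤ B := by linarith only [h1, hds, norm_add_le ψ δ]
  have bu : ∀ u : ℂ, ‖u‖ ≤ 1 / 4 → ‖δ * (1 + u)‖ ≤ (5 / 4) * ‖δ‖ := by
    intro u hu
    rw [norm_mul, mul_comm]
    have : ‖1 + u‖ ≤ 5 / 4 := by
      have := norm_add_le (1 : ℂ) u
      simp only [norm_one] at this; linarith only [hu, this]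
    gcongr
  have bm : ‖-δ‖ ≤ (5 / 4) * ‖δ‖ := by rw [norm_neg]; linarith only [hd]
  have hden : ‖rho h (ψ + δ) * δ ^ 2‖ = ‖rho h (ψ + δ)‖ * ‖δ‖ ^ 2 := by
    rw [norm_mul, norm_pow]
  have hdenp : 0 < ‖rho h (ψ + δ)‖ * ‖δ‖ ^ 2 := by positivity
  have hφl := hE.φlow
  have hRM := hE.RleM
  constructor
  · rw [rem, norm_div, hden, div_le_iff₀ hdenp]
    refine (Wrem_bound hh hM1 hM hr1 hφB bm (bu u hu)).trans ?_
    have e1 : δ * (1 + u) - -δ = δ * (2 + u) := by ring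
    have e2 : ‖δ * (1 + u) - -δ‖ ≤ (9 / 4) * ‖δ‖ := by
      rw [e1, norm_mul, mul_comm]
      have : ‖2 + u‖ ≤ 9 / 4 := by
        have := norm_add_le (2 : ℂ) u
        simp only [norm_ofNat] at this; linarith only [this, hu]
      (clear * - this h2; gcongr)
    calc 4 * M * (5 / 4 * ‖δ‖) ^ 3 * ‖δ * (1 + u) - -δ‖
        ≤ 4 * M * (5 / 4 * ‖δ‖) ^ 3 * ((9 / 4) * ‖δ‖) := by (clear * - e2 hM1 h2; gcongr)
      _ = (1125 / 64) * M * ‖δ‖ ^ 2 * ‖δ‖ ^ 2 := by ring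
      _ ≤ 20 * (M * ε) ^ 2 * ((9 / 10 * R) * ‖δ‖ ^ 2) := by
          have : (1125 / 64) * M * ‖δ‖ ^ 2 ≤ 20 * (M * ε) ^ 2 * (9 / 10 * R) := by
            rw [hεR]
            have t1 : (1125 / 64) * M * (ε * R) ^ 2 = (1125 / 64) * (M * ε ^ 2 * R) * R := by ring
            have t2 : 20 * (M * ε) ^ 2 * (9 / 10 * R) = 18 * (M * ε ^ 2 * R) * M := by ring
            rw [t1, t2]
            have t3 : 0 ≤ M * ε ^ 2 * R := by positivity
            linarith only [mul_nonneg (sub_nonneg.2 hRM) (sub_nonneg.2 t3), mul_nonneg (sub_nonneg.2 hM1) (sub_nonneg.2 t3), t3]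
          nlinarith only [this]
      _ ≤ 20 * (M * ε) ^ 2 * (‖rho h (ψ + δ)‖ * ‖δ‖ ^ 2) := by (clear * - hφl h2 hM1 hR; gcongr)
  · have e0 : rem h ψ δ u - rem h ψ δ v
        = (Wrem h (ψ + δ) (δ * (1 + u)) - Wrem h (ψ + δ) (δ * (1 + v)))
          / (rho h (ψ + δ) * δ ^ 2) := by
      rw [rem, rem]; ring
    rw [e0, norm_div, hden, div_le_iff₀ hdenp]
    refine (Wrem_bound hh hM1 hM hr1 hφB (bu v hv) (bu u hu)).trans ?_
    have e1 : δ * (1 + u) - δ * (1 + v) = δ * (u - v) := by ring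
    rw [e1, norm_mul]
    calc 4 * M * (5 / 4 * ‖δ‖) ^ 3 * (‖δ‖ * ‖u - v‖)
        = (125 / 16) * M * ‖δ‖ ^ 2 * ‖δ‖ ^ 2 * ‖u - v‖ := by ring
      _ ≤ 9 * (M * ε) ^ 2 * ‖u - v‖ * ((9 / 10 * R) * ‖δ‖ ^ 2) := by
          have : (125 / 16) * M * ‖δ‖ ^ 2 ≤ 9 * (M * ε) ^ 2 * (9 / 10 * R) := by
            rw [hεR]
            have t1 : (125 / 16) * M * (ε * R) ^ 2 = (125 / 16) * (M * ε ^ 2 * R) * R := by ring
            have t2 : 9 * (M * ε) ^ 2 * (9 / 10 * R) = (81 / 10) * (M * ε ^ 2 * R) * M := by ring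
            rw [t1, t2]
            have t3 : 0 ≤ M * ε ^ 2 * R := by (clear * - hM1 h2 hR; positivity)
            nlinarith only [hM1, t3, hRM]
          have t4 : 0 ≤ ‖δ‖ ^ 2 * ‖u - v‖ := by (clear * - h2; positivity)
          linarith only [mul_nonneg (sub_nonneg.2 this) (sub_nonneg.2 t4)]
      _ ≤ 9 * (M * ε) ^ 2 * ‖u - v‖ * (‖rho h (ψ + δ)‖ * ‖δ‖ ^ 2) := by (clear * - hφl h2 hM1 hR; gcongr)

/-- the explicit form of the equation -/
theorem gmap_eq (hh : Differentiable ℂ h) (hB : Bnd h B M) (hA : Adm h B M ψ δ) (u : ℂ) :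
    gmap h ψ δ u = -(u ^ 2 / 2)
      - (deriv (rho h) (ψ + δ) * δ / rho h (ψ + δ)) / 3 * ((1 + u) ^ 3 + 1)
      - rem h ψ δ u := by
  have hE := est hh hB hA
  have hφp : rho h (ψ + δ) ≠ 0 := by
    have : 0 < ‖rho h (ψ + δ)‖ := lt_of_lt_of_le (by have := hE.Rpos; (clear * - this; positivity)) hE.φlow
    exact norm_pos_iff.1 this
  have hδ : δ ≠ 0 := hA.2.1
  simp only [gmap, rem, Wrem]
  field_simp
  ring

theorem gmap_maps (hh : Differentiable ℂ h) (hB : Bnd h B M) (hA : Adm h B M ψ δ) {u : ℂ}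
    (hu : ‖u‖ ≤ 1 / 4) : ‖gmap h ψ δ u‖ ≤ 1 / 4 := by
  have hE := est hh hB hA
  have hr := (rem_bound hh hB hA hu hu).1
  rw [gmap_eq hh hB hA]
  set k := deriv (rho h) (ψ + δ) * δ / rho h (ψ + δ) with hk
  set x := M * (‖δ‖ / ‖rho h ψ‖) with hx
  have hkb : ‖k‖ ≤ 2 * x := hE.k
  have hx1 : 400 * x ≤ 1 := hE.Mε
  have hx0 : 0 ≤ x := by
    have := hB.1
    have := hE.dpos; have := hE.Rpos
    (clear u hu k hk hr hx hkb hx1; positivity)
  have a1 : ‖u ^ 2 / 2‖ ≤ 1 / 32 := by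
    rw [norm_div, norm_pow]
    have : ‖(2 : ℂ)‖ = 2 := by norm_num
    rw [this]
    (clear * - hu; nlinarith [norm_nonneg u])
  have a2 : ‖(1 + u) ^ 3 + 1‖ ≤ 3 := by
    have b1 : ‖1 + u‖ ≤ 5 / 4 := by
      have := norm_add_le (1 : ℂ) u
      simp only [norm_one] at this; linarith only [hu, this]
    have b2 : ‖(1 + u) ^ 3‖ ≤ (5 / 4) ^ 3 := by
      rw [norm_pow]; (clear * - b1; gcongr)
    have b3 := norm_add_le ((1 + u) ^ 3) (1 : ℂ)
    rw [norm_one] at b3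
    linarith only [b2, b3]
  have a3 : ‖k / 3 * ((1 + u) ^ 3 + 1)‖ ≤ 2 * x := by
    rw [norm_mul, norm_div]
    have : ‖(3 : ℂ)‖ = 3 := by norm_num
    rw [this]
    calc ‖k‖ / 3 * ‖(1 + u) ^ 3 + 1‖ ≤ (2 * x) / 3 * 3 := by (clear * - hkb a2 hx0; gcongr)
      _ = 2 * x := by ring
  calc ‖-(u ^ 2 / 2) - k / 3 * ((1 + u) ^ 3 + 1) - rem h ψ δ u‖
      ≤ ‖-(u ^ 2 / 2) - k / 3 * ((1 + u) ^ 3 + 1)‖ + ‖rem h ψ δ u‖ := norm_sub_le _ _
    _ ≤ ‖-(u ^ 2 / 2)‖ + ‖k / 3 * ((1 + u) ^ 3 + 1)‖ + ‖rem h ψ δ u‖ := by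
        gcongr; exact norm_sub_le _ _
    _ ≤ 1 / 32 + 2 * x + 20 * x ^ 2 := by rw [norm_neg]; (clear * - a1 a3 hr; gcongr)
    _ ≤ 1 / 4 := by nlinarith only [hx1, hx0]

theorem gmap_lip (hh : Differentiable ℂ h) (hB : Bnd h B M) (hA : Adm h B M ψ δ) {u v : ℂ}
    (hu : ‖u‖ ≤ 1 / 4) (hv : ‖v‖ ≤ 1 / 4) :
    ‖gmap h ψ δ u - gmap h ψ δ v‖ ≤ 1 / 2 * ‖u - v‖ := by
  have hE := est hh hB hA
  have hr := (rem_bound hh hB hA hu hv).2
  rw [gmap_eq hh hB hA, gmap_eq hh hB hA]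
  set k := deriv (rho h) (ψ + δ) * δ / rho h (ψ + δ) with hk
  set x := M * (‖δ‖ / ‖rho h ψ‖) with hx
  have hkb : ‖k‖ ≤ 2 * x := hE.k
  have hx1 : 400 * x ≤ 1 := hE.Mε
  have hx0 : 0 ≤ x := by
    have := hB.1
    have := hE.dpos; have := hE.Rpos
    (clear u v hu hv k hk hr hx hkb hx1; positivity)
  have e : (-(u ^ 2 / 2) - k / 3 * ((1 + u) ^ 3 + 1) - rem h ψ δ u)
      - (-(v ^ 2 / 2) - k / 3 * ((1 + v) ^ 3 + 1) - rem h ψ δ v)
      = (-((u + v) / 2) - k / 3 * ((1 + u) ^ 2 + (1 + u) * (1 + v) + (1 + v) ^ 2)) * (u - v)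
        - (rem h ψ δ u - rem h ψ δ v) := by ring
  rw [e]
  have a1 : ‖(u + v) / 2‖ ≤ 1 / 4 := by
    rw [norm_div]
    have : ‖(2 : ℂ)‖ = 2 := by norm_num
    rw [this]
    have := norm_add_le u v
    linarith only [this, hv, hu]
  have b1 : ‖1 + u‖ ≤ 5 / 4 := by
    have := norm_add_le (1 : ℂ) u
    simp only [norm_one] at this; linarith only [this, hu]
  have b2 : ‖1 + v‖ ≤ 5 / 4 := by
    have := norm_add_le (1 : ℂ) v
    simp only [norm_one] at this; linarith only [hv, this]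
  have a2 : ‖(1 + u) ^ 2 + (1 + u) * (1 + v) + (1 + v) ^ 2‖ ≤ 75 / 16 := by
    calc _ ≤ ‖(1 + u) ^ 2 + (1 + u) * (1 + v)‖ + ‖(1 + v) ^ 2‖ := norm_add_le _ _
      _ ≤ ‖(1 + u) ^ 2‖ + ‖(1 + u) * (1 + v)‖ + ‖(1 + v) ^ 2‖ := by gcongr; exact norm_add_le _ _
      _ = ‖1 + u‖ ^ 2 + ‖1 + u‖ * ‖1 + v‖ + ‖1 + v‖ ^ 2 := by rw [norm_pow, norm_mul, norm_pow]
      _ ≤ (5 / 4) ^ 2 + (5 / 4) * (5 / 4) + (5 / 4) ^ 2 := by (clear * - b1 b2; gcongr)
      _ = 75 / 16 := by norm_num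
  have a3 : ‖k / 3 * ((1 + u) ^ 2 + (1 + u) * (1 + v) + (1 + v) ^ 2)‖ ≤ 4 * x := by
    rw [norm_mul, norm_div]
    have : ‖(3 : ℂ)‖ = 3 := by norm_num
    rw [this]
    calc ‖k‖ / 3 * ‖(1 + u) ^ 2 + (1 + u) * (1 + v) + (1 + v) ^ 2‖
        ≤ (2 * x) / 3 * (75 / 16) := by (clear * - hkb a2 hx0; gcongr)
      _ ≤ 4 * x := by linarith only [hx0]
  calc _ ≤ ‖(-((u + v) / 2) - k / 3 * ((1 + u) ^ 2 + (1 + u) * (1 + v) + (1 + v) ^ 2)) * (u - v)‖
        + ‖rem h ψ δ u - rem h ψ δ v‖ := norm_sub_le _ _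
    _ = ‖-((u + v) / 2) - k / 3 * ((1 + u) ^ 2 + (1 + u) * (1 + v) + (1 + v) ^ 2)‖ * ‖u - v‖
        + ‖rem h ψ δ u - rem h ψ δ v‖ := by rw [norm_mul]
    _ ≤ (‖(u + v) / 2‖ + ‖k / 3 * ((1 + u) ^ 2 + (1 + u) * (1 + v) + (1 + v) ^ 2)‖) * ‖u - v‖
        + ‖rem h ψ δ u - rem h ψ δ v‖ := by
        gcongr
        refine (norm_sub_le _ _).trans ?_
        rw [norm_neg]
    _ ≤ (1 / 4 + 4 * x) * ‖u - v‖ + 9 * x ^ 2 * ‖u - v‖ := by (clear * - a1 a3 hr; gcongr)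
    _ = (1 / 4 + 4 * x + 9 * x ^ 2) * ‖u - v‖ := by ring
    _ ≤ 1 / 2 * ‖u - v‖ := by
        have : 1 / 4 + 4 * x + 9 * x ^ 2 ≤ 1 / 2 := by nlinarith only [hx1, hx0]
        (clear * - this; gcongr)

theorem gmap_fixed_iff (hh : Differentiable ℂ h) (hB : Bnd h B M) (hA : Adm h B M ψ δ) (u : ℂ) :
    gmap h ψ δ u = u ↔ lp h (ψ + δ) (δ * (1 + u)) = lp h (ψ + δ) (-δ) := by
  have hE := est hh hB hA
  have hφp : rho h (ψ + δ) ≠ 0 := by
    have : 0 < ‖rho h (ψ + δ)‖ := lt_of_lt_of_le (by have := hE.Rpos; (clear * - this; positivity)) hE.φlow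
    exact norm_pos_iff.1 this
  have hδ : δ ≠ 0 := hA.2.1
  have hne : rho h (ψ + δ) * δ ^ 2 ≠ 0 := mul_ne_zero hφp (pow_ne_zero _ hδ)
  simp only [gmap, W]
  rw [sub_eq_self, div_eq_zero_iff]
  constructor
  · rintro (h1 | h1)
    · linear_combination -h1
    · exact absurd h1 hne
  · intro h1
    left
    linear_combination -h1

end

end Vale.Agent.P097.Cusp
end

section

namespace Vale.Agent.P097.Cusp

open Complex Filter Topology

section
variable {h : ℂ → ℂ} {B M : ℝ} {ψ δ : ℂ}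

/-- one-parameter family version of the step lemma -/
theorem step_family (hh : Differentiable ℂ h) (hB : Bnd h B M) {U : Set ℂ} (hU : IsOpen U)
    {ψ δ : ℂ → ℂ} (hψ : DifferentiableOn ℂ ψ U) (hδ : DifferentiableOn ℂ δ U)
    (hA : ∀ z ∈ U, Adm h B M (ψ z) (δ z)) :
    ∃ u : ℂ → ℂ, DifferentiableOn ℂ u U ∧ ∀ z ∈ U, ‖u z‖ ≤ 1 / 4 ∧
      lp h (ψ z + δ z) (δ z * (1 + u z)) = lp h (ψ z + δ z) (-δ z) ∧
      ∀ v, ‖v‖ ≤ 1 / 4 → lp h (ψ z + δ z) (δ z * (1 + v)) = lp h (ψ z + δ z) (-δ z) → v = u z := by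
  obtain ⟨u, hu1, hu2⟩ := holFix (E := ℂ) hU (1 / 4) (by norm_num)
    (fun z u => gmap h (ψ z) (δ z) u) (1 / 2) (by norm_num) (by norm_num)
    (fun z hz u hu => gmap_maps hh hB (hA z hz) hu)
    (fun z hz u v hu hv => gmap_lip hh hB (hA z hz) hu hv)
    (by
      intro u hu hub
      have hne : ∀ z ∈ U, rho h (ψ z + δ z) * (δ z) ^ 2 ≠ 0 := by
        intro z hz
        have hE := est hh hB (hA z hz)
        have hφp : rho h (ψ z + δ z) ≠ 0 := by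
          have : 0 < ‖rho h (ψ z + δ z)‖ :=
            lt_of_lt_of_le (by have := hE.Rpos; (clear * - this; positivity)) hE.φlow
          exact norm_pos_iff.1 this
        exact mul_ne_zero hφp (pow_ne_zero _ (hA z hz).2.1)
      have hh' := differentiable_deriv hh
      have hr := differentiable_rho hh
      have c1 : DifferentiableOn ℂ (fun z => ψ z + δ z) U := hψ.add hδ
      have c2 : DifferentiableOn ℂ (fun z => δ z * (1 + u z)) U :=
        hδ.mul (hu.const_add 1)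
      have c3 : DifferentiableOn ℂ (fun z => -δ z) U := hδ.neg
      have cW : ∀ x : ℂ → ℂ, DifferentiableOn ℂ x U →
          DifferentiableOn ℂ (fun z => W h (ψ z + δ z) (x z)) U := by
        intro x hx
        simp only [W, lp]
        have d1 : DifferentiableOn ℂ (fun z => h (ψ z + δ z)) U := hh.comp_differentiableOn c1
        have d2 : DifferentiableOn ℂ (fun z => h (ψ z + δ z + x z)) U :=
          hh.comp_differentiableOn (c1.add hx)
        have d3 : DifferentiableOn ℂ (fun z => deriv h (ψ z + δ z + x z)) U :=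
          hh'.comp_differentiableOn (c1.add hx)
        have d4 : DifferentiableOn ℂ (fun z => cos (x z)) U :=
          Complex.differentiable_cos.comp_differentiableOn hx
        have d5 : DifferentiableOn ℂ (fun z => sin (x z)) U :=
          Complex.differentiable_sin.comp_differentiableOn hx
        exact d1.sub ((d2.mul d4).sub (d3.mul d5))
      have cr : DifferentiableOn ℂ (fun z => rho h (ψ z + δ z)) U := hr.comp_differentiableOn c1
      simp only [gmap]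
      exact hu.sub (((cW _ c2).sub (cW _ c3)).div (cr.mul (hδ.pow 2)) hne))
  refine ⟨u, hu1, fun z hz => ?_⟩
  obtain ⟨a1, a2, a3⟩ := hu2 z hz
  refine ⟨a1, (gmap_fixed_iff hh hB (hA z hz) _).1 a2, fun v hv hv2 => ?_⟩
  exact a3 v hv ((gmap_fixed_iff hh hB (hA z hz) _).2 hv2)

open Classical in
/-- the relative increment of the next half step -/
noncomputable def nextU (h : ℂ → ℂ) (ψ δ : ℂ) : ℂ :=
  if hex : ∃ u : ℂ, ‖u‖ ≤ 1 / 4 ∧ lp h (ψ + δ) (δ * (1 + u)) = lp h (ψ + δ) (-δ)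
  then Classical.choose hex else 0

/-- the next half step -/
noncomputable def nextD (h : ℂ → ℂ) (ψ δ : ℂ) : ℂ := δ * (1 + nextU h ψ δ)

/-- the next impact point -/
noncomputable def nextP (h : ℂ → ℂ) (ψ δ : ℂ) : ℂ := ψ + δ + nextD h ψ δ

theorem exists_step (hh : Differentiable ℂ h) (hB : Bnd h B M) (hA : Adm h B M ψ δ) :
    ∃ u : ℂ, ‖u‖ ≤ 1 / 4 ∧ lp h (ψ + δ) (δ * (1 + u)) = lp h (ψ + δ) (-δ) ∧
      ∀ v, ‖v‖ ≤ 1 / 4 → lp h (ψ + δ) (δ * (1 + v)) = lp h (ψ + δ) (-δ) → v = u := by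
  obtain ⟨u, _, hu⟩ := step_family hh hB (U := Set.univ) isOpen_univ (ψ := fun _ => ψ)
    (δ := fun _ => δ) (differentiableOn_const _) (differentiableOn_const _) (fun _ _ => hA)
  exact ⟨u 0, hu 0 (Set.mem_univ _)⟩

theorem nextU_spec (hh : Differentiable ℂ h) (hB : Bnd h B M) (hA : Adm h B M ψ δ) :
    ‖nextU h ψ δ‖ ≤ 1 / 4 ∧ lp h (ψ + δ) (nextD h ψ δ) = lp h (ψ + δ) (-δ) := by
  obtain ⟨u, hu1, hu2, _⟩ := exists_step hh hB hA
  have hex : ∃ u : ℂ, ‖u‖ ≤ 1 / 4 ∧ lp h (ψ + δ) (δ * (1 + u)) = lp h (ψ + δ) (-δ) :=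
    ⟨u, hu1, hu2⟩
  have e : nextU h ψ δ = Classical.choose hex := by rw [nextU, dif_pos hex]
  have hs := Classical.choose_spec hex
  rw [nextD, e]
  exact hs

theorem nextU_unique (hh : Differentiable ℂ h) (hB : Bnd h B M) (hA : Adm h B M ψ δ) {v : ℂ}
    (hv : ‖v‖ ≤ 1 / 4) (hv2 : lp h (ψ + δ) (δ * (1 + v)) = lp h (ψ + δ) (-δ)) :
    v = nextU h ψ δ := by
  obtain ⟨u, _, _, hu3⟩ := exists_step hh hB hA
  have h1 := nextU_spec hh hB hA
  rw [hu3 v hv hv2, ← hu3 (nextU h ψ δ) h1.1 (by rw [← nextD]; exact h1.2)]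

theorem nextU_differentiableOn (hh : Differentiable ℂ h) (hB : Bnd h B M) {U : Set ℂ}
    (hU : IsOpen U) {ψ δ : ℂ → ℂ} (hψ : DifferentiableOn ℂ ψ U) (hδ : DifferentiableOn ℂ δ U)
    (hA : ∀ z ∈ U, Adm h B M (ψ z) (δ z)) :
    DifferentiableOn ℂ (fun z => nextU h (ψ z) (δ z)) U := by
  obtain ⟨u, hu1, hu2⟩ := step_family hh hB hU hψ hδ hA
  refine hu1.congr (fun z hz => ?_)
  obtain ⟨a1, a2, a3⟩ := hu2 z hz
  exact (nextU_unique hh hB (hA z hz) a1 a2).symm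

theorem nextD_differentiableOn (hh : Differentiable ℂ h) (hB : Bnd h B M) {U : Set ℂ}
    (hU : IsOpen U) {ψ δ : ℂ → ℂ} (hψ : DifferentiableOn ℂ ψ U) (hδ : DifferentiableOn ℂ δ U)
    (hA : ∀ z ∈ U, Adm h B M (ψ z) (δ z)) :
    DifferentiableOn ℂ (fun z => nextD h (ψ z) (δ z)) U :=
  hδ.mul ((nextU_differentiableOn hh hB hU hψ hδ hA).const_add 1)

theorem nextP_differentiableOn (hh : Differentiable ℂ h) (hB : Bnd h B M) {U : Set ℂ}
    (hU : IsOpen U) {ψ δ : ℂ → ℂ} (hψ : DifferentiableOn ℂ ψ U) (hδ : DifferentiableOn ℂ δ U)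
    (hA : ∀ z ∈ U, Adm h B M (ψ z) (δ z)) :
    DifferentiableOn ℂ (fun z => nextP h (ψ z) (δ z)) U :=
  (hψ.add hδ).add (nextD_differentiableOn hh hB hU hψ hδ hA)

/-- quantitative estimates for the step; `x = M * ‖δ‖ / ‖rho h ψ‖` -/
theorem step_est (hh : Differentiable ℂ h) (hB : Bnd h B M) (hA : Adm h B M ψ δ) :
    ‖nextU h ψ δ‖ ≤ 3 * (M * (‖δ‖ / ‖rho h ψ‖)) ∧
    ‖nextU h ψ δ + 2 / 3 * (deriv (rho h) (ψ + δ) * δ / rho h (ψ + δ))‖
      ≤ 33 * (M * (‖δ‖ / ‖rho h ψ‖)) ^ 2 := by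
  have hE := est hh hB hA
  obtain ⟨hu, hu2⟩ := nextU_spec hh hB hA
  have hfix := (gmap_fixed_iff hh hB hA _).2 hu2
  rw [gmap_eq hh hB hA] at hfix
  have hr := (rem_bound hh hB hA hu hu).1
  set u := nextU h ψ δ with hudef
  set k := deriv (rho h) (ψ + δ) * δ / rho h (ψ + δ) with hk
  set x := M * (‖δ‖ / ‖rho h ψ‖) with hx
  have hkb : ‖k‖ ≤ 2 * x := hE.k
  have hx1 : 400 * x ≤ 1 := hE.Mε
  have hx0 : 0 ≤ x := by
    have := hB.1
    have := hE.dpos; have := hE.Rpos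
    (clear hu2 u hu hudef k hfix hk hr hx hkb hx1; positivity)
  have n2 : ‖(2 : ℂ)‖ = 2 := by norm_num
  have n3 : ‖(3 : ℂ)‖ = 3 := by norm_num
  have a2 : ‖(1 + u) ^ 3 + 1‖ ≤ 3 := by
    have b1 : ‖1 + u‖ ≤ 5 / 4 := by
      have := norm_add_le (1 : ℂ) u
      simp only [norm_one] at this; linarith only [hu, this]
    have b2 : ‖(1 + u) ^ 3‖ ≤ (5 / 4) ^ 3 := by
      rw [norm_pow]; (clear * - b1; gcongr)
    have b3 := norm_add_le ((1 + u) ^ 3) (1 : ℂ)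
    rw [norm_one] at b3
    linarith only [b3, b2]
  have a3 : ‖k / 3 * ((1 + u) ^ 3 + 1)‖ ≤ 2 * x := by
    rw [norm_mul, norm_div, n3]
    calc ‖k‖ / 3 * ‖(1 + u) ^ 3 + 1‖ ≤ (2 * x) / 3 * 3 := by (clear * - hkb a2 hx0; gcongr)
      _ = 2 * x := by ring
  have hu0 := norm_nonneg u
  have a1 : ‖u ^ 2 / 2‖ ≤ ‖u‖ / 8 := by
    rw [norm_div, norm_pow, n2]
    linarith only [mul_nonneg (sub_nonneg.2 hu) (sub_nonneg.2 hu0)]
  have hu3 : ‖u‖ ≤ 3 * x := by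
    have : ‖u‖ ≤ ‖u‖ / 8 + 2 * x + 20 * x ^ 2 := by
      calc ‖u‖ = ‖-(u ^ 2 / 2) - k / 3 * ((1 + u) ^ 3 + 1) - rem h ψ δ u‖ := by rw [hfix]
        _ ≤ ‖-(u ^ 2 / 2) - k / 3 * ((1 + u) ^ 3 + 1)‖ + ‖rem h ψ δ u‖ := norm_sub_le _ _
        _ ≤ ‖-(u ^ 2 / 2)‖ + ‖k / 3 * ((1 + u) ^ 3 + 1)‖ + ‖rem h ψ δ u‖ := by
            gcongr; exact norm_sub_le _ _
        _ ≤ ‖u‖ / 8 + 2 * x + 20 * x ^ 2 := by rw [norm_neg]; (clear * - a1 a3 hr; gcongr)
    nlinarith only [hx0, this, hx1]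
  refine ⟨hu3, ?_⟩
  have e : u + 2 / 3 * k = -(u ^ 2 / 2) - k / 3 * (3 * u + 3 * u ^ 2 + u ^ 3) - rem h ψ δ u := by
    have : u = -(u ^ 2 / 2) - k / 3 * ((1 + u) ^ 3 + 1) - rem h ψ δ u := hfix.symm
    linear_combination this
  rw [e]
  have b1 : ‖u ^ 2 / 2‖ ≤ 9 / 2 * x ^ 2 := by
    rw [norm_div, norm_pow, n2]
    linarith only [mul_nonneg (sub_nonneg.2 hu3) (sub_nonneg.2 hu0), mul_nonneg (sub_nonneg.2 hu3) (sub_nonneg.2 hu3)]
  have b2 : ‖3 * u + 3 * u ^ 2 + u ^ 3‖ ≤ 12 * x := by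
    have e2 : 3 * u + 3 * u ^ 2 + u ^ 3 = u * (3 + 3 * u + u ^ 2) := by ring
    rw [e2, norm_mul]
    have : ‖3 + 3 * u + u ^ 2‖ ≤ 4 := by
      calc ‖3 + 3 * u + u ^ 2‖ ≤ ‖3 + 3 * u‖ + ‖u ^ 2‖ := norm_add_le _ _
        _ ≤ ‖(3 : ℂ)‖ + ‖3 * u‖ + ‖u ^ 2‖ := by gcongr; exact norm_add_le _ _
        _ = 3 + 3 * ‖u‖ + ‖u‖ ^ 2 := by rw [norm_mul, norm_pow, n3]
        _ ≤ 4 := by nlinarith only [hu, hu0]
    calc ‖u‖ * ‖3 + 3 * u + u ^ 2‖ ≤ (3 * x) * 4 := by (clear * - hu3 this hx0; gcongr)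
      _ = 12 * x := by ring
  have b3 : ‖k / 3 * (3 * u + 3 * u ^ 2 + u ^ 3)‖ ≤ 8 * x ^ 2 := by
    rw [norm_mul, norm_div, n3]
    calc ‖k‖ / 3 * ‖3 * u + 3 * u ^ 2 + u ^ 3‖ ≤ (2 * x) / 3 * (12 * x) := by (clear * - hkb b2 hx0; gcongr)
      _ = 8 * x ^ 2 := by ring
  calc ‖-(u ^ 2 / 2) - k / 3 * (3 * u + 3 * u ^ 2 + u ^ 3) - rem h ψ δ u‖
      ≤ ‖-(u ^ 2 / 2) - k / 3 * (3 * u + 3 * u ^ 2 + u ^ 3)‖ + ‖rem h ψ δ u‖ := norm_sub_le _ _
    _ ≤ ‖-(u ^ 2 / 2)‖ + ‖k / 3 * (3 * u + 3 * u ^ 2 + u ^ 3)‖ + ‖rem h ψ δ u‖ := by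
        gcongr; exact norm_sub_le _ _
    _ ≤ 9 / 2 * x ^ 2 + 8 * x ^ 2 + 20 * x ^ 2 := by rw [norm_neg]; (clear * - b1 b3 hr; gcongr)
    _ ≤ 33 * x ^ 2 := by nlinarith only []

theorem ratio_aux {k u a2 b2 : ℂ} {x : ℝ} (hx0 : 0 ≤ x) (hx1 : 400 * x ≤ 1)
    (hkb : ‖k‖ ≤ 2 * x) (hu3 : ‖u‖ ≤ 3 * x) (ba2 : ‖a2‖ ≤ 8 * x ^ 2)
    (bb2 : ‖b2‖ ≤ 10 / 9 * x ^ 2) (bg2 : ‖u + 2 / 3 * k‖ ≤ 33 * x ^ 2) :
    1 - k + b2 ≠ 0 ∧ ‖(1 + k + a2) * (1 + u) ^ 3 / (1 - k + b2) - 1‖ ≤ 200 * x ^ 2 := by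
  have n2 : ‖(2 : ℂ)‖ = 2 := by norm_num
  have n3 : ‖(3 : ℂ)‖ = 3 := by norm_num
  obtain ⟨g2, hg2def⟩ : ∃ g2, g2 = u + 2 / 3 * k := ⟨_, rfl⟩
  rw [← hg2def] at bg2
  obtain ⟨T, hT⟩ : ∃ T, T = 3 * g2 + 3 * u ^ 2 + u ^ 3 := ⟨_, rfl⟩
  have eg : (1 + u) ^ 3 = 1 - 2 * k + T := by rw [hT, hg2def]; ring
  have bT : ‖T‖ ≤ 127 * x ^ 2 := by
    rw [hT]
    calc ‖3 * g2 + 3 * u ^ 2 + u ^ 3‖ ≤ ‖3 * g2 + 3 * u ^ 2‖ + ‖u ^ 3‖ := norm_add_le _ _
      _ ≤ ‖3 * g2‖ + ‖3 * u ^ 2‖ + ‖u ^ 3‖ := by gcongr; exact norm_add_le _ _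
      _ = 3 * ‖g2‖ + 3 * ‖u‖ ^ 2 + ‖u‖ ^ 3 := by rw [norm_mul, norm_mul, norm_pow, norm_pow, n3]
      _ ≤ 3 * (33 * x ^ 2) + 3 * (3 * x) ^ 2 + (3 * x) ^ 3 := by (clear * - bg2 hu3; gcongr)
      _ ≤ 127 * x ^ 2 := by nlinarith only [hx1]
  have hk0 := norm_nonneg k
  have hden : 98 / 100 ≤ ‖1 - k + b2‖ := by
    have t1 : ‖(1 : ℂ)‖ - ‖k - b2‖ ≤ ‖1 - (k - b2)‖ := norm_sub_norm_le _ _
    have t2 : ‖k - b2‖ ≤ ‖k‖ + ‖b2‖ := norm_sub_le _ _
    have t3 : (1 : ℂ) - (k - b2) = 1 - k + b2 := by ring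
    rw [t3, norm_one] at t1
    nlinarith only [hx1, hkb, bb2, t1, t2, hx0]
  have hbne : 1 - k + b2 ≠ 0 := by
    intro h0; rw [h0, norm_zero] at hden; linarith only [hden]
  refine ⟨hbne, ?_⟩
  have e : (1 + k + a2) * (1 + u) ^ 3 / (1 - k + b2) - 1
      = (T - 2 * k ^ 2 + k * T + a2 * (1 - 2 * k + T) - b2) / (1 - k + b2) := by
    rw [eg, eq_div_iff hbne, sub_mul, div_mul_cancel₀ _ hbne]
    ring
  rw [e, norm_div]
  rw [div_le_iff₀ (by linarith only [hden])]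
  have bnum : ‖T - 2 * k ^ 2 + k * T + a2 * (1 - 2 * k + T) - b2‖ ≤ 196 * x ^ 2 := by
    have c1 : ‖2 * k ^ 2‖ ≤ 8 * x ^ 2 := by
      rw [norm_mul, norm_pow, n2]
      calc 2 * ‖k‖ ^ 2 ≤ 2 * (2 * x) ^ 2 := by (clear * - hkb; gcongr)
        _ = 8 * x ^ 2 := by ring
    have c2 : ‖k * T‖ ≤ x ^ 2 := by
      rw [norm_mul]
      calc ‖k‖ * ‖T‖ ≤ (2 * x) * (127 * x ^ 2) := by (clear * - hkb bT hx0; gcongr)
        _ ≤ x ^ 2 := by nlinarith only [hx1]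
    have c3 : ‖1 - 2 * k + T‖ ≤ 2 := by
      calc ‖1 - 2 * k + T‖ ≤ ‖1 - 2 * k‖ + ‖T‖ := norm_add_le _ _
        _ ≤ ‖(1 : ℂ)‖ + ‖2 * k‖ + ‖T‖ := by gcongr; exact norm_sub_le _ _
        _ = 1 + 2 * ‖k‖ + ‖T‖ := by rw [norm_one, norm_mul, n2]
        _ ≤ 1 + 2 * (2 * x) + 127 * x ^ 2 := by (clear * - hkb bT; gcongr)
        _ ≤ 2 := by nlinarith only [hx1, hx0]
    have c4 : ‖a2 * (1 - 2 * k + T)‖ ≤ 16 * x ^ 2 := by
      rw [norm_mul]
      calc ‖a2‖ * ‖1 - 2 * k + T‖ ≤ (8 * x ^ 2) * 2 := by (clear * - ba2 c3; gcongr)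
        _ = 16 * x ^ 2 := by ring
    calc ‖T - 2 * k ^ 2 + k * T + a2 * (1 - 2 * k + T) - b2‖
        ≤ ‖T - 2 * k ^ 2 + k * T + a2 * (1 - 2 * k + T)‖ + ‖b2‖ := norm_sub_le _ _
      _ ≤ ‖T - 2 * k ^ 2 + k * T‖ + ‖a2 * (1 - 2 * k + T)‖ + ‖b2‖ := by
          gcongr; exact norm_add_le _ _
      _ ≤ ‖T - 2 * k ^ 2‖ + ‖k * T‖ + ‖a2 * (1 - 2 * k + T)‖ + ‖b2‖ := by
          gcongr; exact norm_add_le _ _
      _ ≤ ‖T‖ + ‖2 * k ^ 2‖ + ‖k * T‖ + ‖a2 * (1 - 2 * k + T)‖ + ‖b2‖ := by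
          gcongr; exact norm_sub_le _ _
      _ ≤ 127 * x ^ 2 + 8 * x ^ 2 + x ^ 2 + 16 * x ^ 2 + 10 / 9 * x ^ 2 := by (clear * - bT c1 c2 c4 bb2; gcongr)
      _ ≤ 196 * x ^ 2 := by nlinarith only []
  calc ‖T - 2 * k ^ 2 + k * T + a2 * (1 - 2 * k + T) - b2‖ ≤ 196 * x ^ 2 := bnum
    _ = 200 * x ^ 2 * (98 / 100) := by ring
    _ ≤ 200 * x ^ 2 * ‖1 - k + b2‖ := by (clear * - hden; gcongr)

/-- Taylor data of `rho` at the two ends of the chord seen from its middle. -/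
theorem rho_ends (hh : Differentiable ℂ h) (hB : Bnd h B M) (hA : Adm h B M ψ δ) :
    ∃ a2 b2 : ℂ,
      rho h (nextP h ψ δ) = rho h (ψ + δ)
        * (1 + deriv (rho h) (ψ + δ) * δ / rho h (ψ + δ) + a2) ∧
      rho h ψ = rho h (ψ + δ) * (1 - deriv (rho h) (ψ + δ) * δ / rho h (ψ + δ) + b2) ∧
      ‖a2‖ ≤ 8 * (M * (‖δ‖ / ‖rho h ψ‖)) ^ 2 ∧
      ‖b2‖ ≤ 10 / 9 * (M * (‖δ‖ / ‖rho h ψ‖)) ^ 2 := by
  have hE := est hh hB hA
  obtain ⟨hu3, -⟩ := step_est hh hB hA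
  obtain ⟨hu, hu2⟩ := nextU_spec hh hB hA
  obtain ⟨hM1, hM⟩ := hB
  have hM0 : 0 < M := by linarith only [hM1]
  have hR := hE.Rpos
  have hd := hE.dpos
  have hδ : δ ≠ 0 := hA.2.1
  have hψB : ‖ψ‖ + 3 ≤ B := hA.1
  have hds := hE.dsmall
  have hφl := hE.φlow
  have hφpos : 0 < ‖rho h (ψ + δ)‖ := lt_of_lt_of_le (by (clear * - hR; positivity)) hφl
  have hφp : rho h (ψ + δ) ≠ 0 := norm_pos_iff.1 hφpos
  have hkb := hE.k
  have hx1 := hE.Mε
  have hRM := hE.RleM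
  have hrd := differentiable_rho hh
  rw [nextP, nextD]
  clear hE hA
  generalize nextU h ψ δ = u at *
  clear hu2
  have hφB : ‖ψ + δ‖ ≤ ‖ψ‖ + ‖δ‖ := norm_add_le ψ δ
  have hψφ : ψ = (ψ + δ) + -δ := by ring
  generalize ψ + δ = φ at *
  have h1u : ‖1 + u‖ ≤ 5 / 4 := by
    have := norm_add_le (1 : ℂ) u
    rw [norm_one] at this; linarith only [hx1, hu3, this]
  obtain ⟨y, hy⟩ : ∃ y, y = δ * (1 + u) := ⟨_, rfl⟩
  have hyb : ‖y‖ ≤ (5 / 4) * ‖δ‖ := by rw [hy, norm_mul, mul_comm]; (clear * - h1u hδ; gcongr)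
  have bta := taylor1 hrd (fun z hz => (hM z hz).2.2) (φ := φ) (x := y) (by linarith only [hyb, hφB, hds, hψB])
  have btb := taylor1 hrd (fun z hz => (hM z hz).2.2) (φ := φ) (x := -δ)
    (by rw [norm_neg]; linarith only [hψB, hds, hφB])
  rw [← hψφ] at btb
  rw [← hy]
  have hx0 : 0 ≤ M * (‖δ‖ / ‖rho h ψ‖) := by positivity
  have hxR : M * ‖δ‖ = M * (‖δ‖ / ‖rho h ψ‖) * ‖rho h ψ‖ := by (clear * - hR hδ hM1; field_simp)
  generalize M * (‖δ‖ / ‖rho h ψ‖) = x at *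
  obtain ⟨s0, hs0⟩ : ∃ s0, s0 = rho h ψ := ⟨_, rfl⟩
  rw [← hs0] at btb hR hφl hRM hxR
  rw [← hs0]
  generalize ‖s0‖ = R at *
  have hq : M * ‖δ‖ ^ 2 ≤ 10 / 9 * x ^ 2 * ‖rho h φ‖ := by
    have t1 : M * (M * ‖δ‖ ^ 2) = (x * R) ^ 2 := by rw [← hxR]; ring
    have t2 : (x * R) ^ 2 ≤ x ^ 2 * R * M := by
      have : (x * R) ^ 2 = x ^ 2 * R * R := by ring
      rw [this]; (clear * - hRM hR; gcongr)
    have t3 : M * (M * ‖δ‖ ^ 2) ≤ M * (x ^ 2 * R) := by rw [t1]; linarith only [t2]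
    have t4 : M * ‖δ‖ ^ 2 ≤ x ^ 2 * R := le_of_mul_le_mul_left t3 hM0
    have : x ^ 2 * R ≤ x ^ 2 * (10 / 9 * ‖rho h φ‖) := by
      gcongr; linarith only [hφl]
    (clear * - t4 this; linarith)
  generalize rho h φ = r0 at *
  generalize deriv (rho h) φ = r1 at *
  obtain ⟨k, hk⟩ : ∃ k, k = r1 * δ / r0 := ⟨_, rfl⟩
  rw [← hk] at hkb
  rw [← hk]
  obtain ⟨ta, hta⟩ : ∃ ta, ta = rho h (φ + y) - r0 - r1 * y := ⟨_, rfl⟩
  obtain ⟨tb, htb⟩ : ∃ tb, tb = s0 - r0 - r1 * -δ := ⟨_, rfl⟩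
  rw [← hta] at bta
  rw [← htb] at btb
  rw [norm_neg] at btb
  refine ⟨k * u + ta / r0, tb / r0, ?_, ?_, ?_, ?_⟩
  · rw [hk, hta, hy]; field_simp; ring
  · rw [hk, htb]; field_simp; ring
  · calc ‖k * u + ta / r0‖ ≤ ‖k * u‖ + ‖ta / r0‖ := norm_add_le _ _
      _ ≤ (2 * x) * (3 * x) + 16 / 9 * x ^ 2 := by
          have c1 : ‖k * u‖ ≤ (2 * x) * (3 * x) := by rw [norm_mul]; (clear * - hkb hu3 hx0; gcongr)
          have c2 : ‖ta / r0‖ ≤ 16 / 9 * x ^ 2 := by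
            rw [norm_div, div_le_iff₀ hφpos]
            calc ‖ta‖ ≤ M * ‖y‖ ^ 2 := bta
              _ ≤ M * ((5 / 4) * ‖δ‖) ^ 2 := by (clear * - hyb hM1; gcongr)
              _ = 25 / 16 * (M * ‖δ‖ ^ 2) := by ring
              _ ≤ 25 / 16 * (10 / 9 * x ^ 2 * ‖r0‖) := by (clear * - hq; gcongr)
              _ ≤ 16 / 9 * x ^ 2 * ‖r0‖ := by nlinarith only [hφpos]
          exact add_le_add c1 c2
      _ ≤ 8 * x ^ 2 := by nlinarith only []
  · rw [norm_div, div_le_iff₀ hφpos]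
    linarith only [hq, btb]

/-- The adiabatic invariant `P = rho * δ ^ 3`. -/
theorem step_P (hh : Differentiable ℂ h) (hB : Bnd h B M) (hA : Adm h B M ψ δ) :
    ‖rho h (nextP h ψ δ) * nextD h ψ δ ^ 3 / (rho h ψ * δ ^ 3) - 1‖
      ≤ 200 * (M * (‖δ‖ / ‖rho h ψ‖)) ^ 2 := by
  have hE := est hh hB hA
  obtain ⟨hu3, hg2⟩ := step_est hh hB hA
  obtain ⟨a2, b2, ea, eb, ba, bb⟩ := rho_ends hh hB hA
  have hx0 : 0 ≤ M * (‖δ‖ / ‖rho h ψ‖) := by
    have := hB.1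
    have := hE.dpos; have := hE.Rpos
    (clear hu3 hg2 a2 b2 ea eb ba bb; positivity)
  have hkb := hE.k
  have hx1 := hE.Mε
  have hφpos : 0 < ‖rho h (ψ + δ)‖ := lt_of_lt_of_le (by have := hE.Rpos; (clear * - this; positivity)) hE.φlow
  have hφp : rho h (ψ + δ) ≠ 0 := norm_pos_iff.1 hφpos
  have hδ : δ ≠ 0 := hA.2.1
  obtain ⟨hne, hfin⟩ := ratio_aux hx0 hx1 hkb hu3 ba bb hg2
  rw [nextD, ea]
  have e : rho h (ψ + δ) * (1 + deriv (rho h) (ψ + δ) * δ / rho h (ψ + δ) + a2)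
        * (δ * (1 + nextU h ψ δ)) ^ 3 / (rho h ψ * δ ^ 3)
      = (1 + deriv (rho h) (ψ + δ) * δ / rho h (ψ + δ) + a2) * (1 + nextU h ψ δ) ^ 3
        / (1 - deriv (rho h) (ψ + δ) * δ / rho h (ψ + δ) + b2) := by
    rw [eb]
    generalize deriv (rho h) (ψ + δ) * δ / rho h (ψ + δ) = k at *
    rw [div_eq_div_iff (mul_ne_zero (mul_ne_zero hφp hne) (pow_ne_zero _ hδ)) hne]
    ring
  rw [e]
  exact hfin

end

end Vale.Agent.P097.Cusp
end

section

namespace Vale.Agent.P097.Cusp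

open Complex

/-- the ratio `v' / v` of the homogeneous cusp map as a function of `ξ = (3/2) (ε / v)`;
it satisfies `(2 r + 1) (r - 1) = 2 (1 + r) ξ` -/
noncomputable def rr (ξ : ℂ) : ℂ :=
  (((ξ + 1 / 2) ^ (1 / 2 : ℂ) + (ξ + 9 / 2) ^ (1 / 2 : ℂ)) / 2) ^ 2 - 1

/-- the homogeneous cusp map in the variable `ξ` -/
noncomputable def MM (ξ : ℂ) : ℂ := (rr ξ - 1) * (rr ξ + 2) / (2 * rr ξ * (rr ξ + 1))

/-- the adiabatic invariant after `n` steps -/
noncomputable def PPi (n : ℕ) (ξ : ℂ) : ℂ :=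
  (∏ j ∈ Finset.range n, rr (MM^[j] ξ)) ^ 4 * (MM^[n] ξ) ^ 3

end Vale.Agent.P097.Cusp
end

section

namespace Vale.Agent.P097.Cusp

open Complex Filter Topology

/-- the variable `rr + 1` -/
noncomputable def ZZ (ξ : ℂ) : ℂ :=
  (((ξ + 1 / 2) ^ (1 / 2 : ℂ) + (ξ + 9 / 2) ^ (1 / 2 : ℂ)) / 2) ^ 2

theorem rr_eq (ξ : ℂ) : rr ξ = ZZ ξ - 1 := rfl

theorem half_sq (z : ℂ) : (z ^ (1 / 2 : ℂ)) ^ 2 = z := by
  have := Complex.cpow_nat_inv_pow z (n := 2) (by norm_num)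
  rw [show (1 / 2 : ℂ) = ((2 : ℕ) : ℂ)⁻¹ by norm_num]
  exact this

theorem ZZ_mul (ξ : ℂ) :
    ZZ ξ * (((ξ + 9 / 2) ^ (1 / 2 : ℂ) - (ξ + 1 / 2) ^ (1 / 2 : ℂ)) / 2) ^ 2 = 1 := by
  rw [ZZ]
  have h1 := half_sq (ξ + 1 / 2)
  have h2 := half_sq (ξ + 9 / 2)
  generalize (ξ + 1 / 2) ^ (1 / 2 : ℂ) = A at *
  generalize (ξ + 9 / 2) ^ (1 / 2 : ℂ) = B at *
  have e : ((A + B) / 2) ^ 2 * ((B - A) / 2) ^ 2 = ((B ^ 2 - A ^ 2) / 4) ^ 2 := by ring
  rw [e, h1, h2]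
  ring

theorem ZZ_ne (ξ : ℂ) : ZZ ξ ≠ 0 := by
  intro h
  have := ZZ_mul ξ
  rw [h, zero_mul] at this
  exact zero_ne_one this

theorem ZZ_add (ξ : ℂ) : ZZ ξ + (ZZ ξ)⁻¹ = ξ + 5 / 2 := by
  have h0 := ZZ_mul ξ
  have h3 : (ZZ ξ)⁻¹ = (((ξ + 9 / 2) ^ (1 / 2 : ℂ) - (ξ + 1 / 2) ^ (1 / 2 : ℂ)) / 2) ^ 2 :=
    inv_eq_of_mul_eq_one_right h0
  rw [h3, ZZ]
  have h1 := half_sq (ξ + 1 / 2)
  have h2 := half_sq (ξ + 9 / 2)
  generalize (ξ + 1 / 2) ^ (1 / 2 : ℂ) = A at *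
  generalize (ξ + 9 / 2) ^ (1 / 2 : ℂ) = B at *
  linear_combination (1 / 2) * h1 + (1 / 2) * h2

theorem ZZ_quad (ξ : ℂ) : ZZ ξ ^ 2 + 1 = ZZ ξ * (ξ + 5 / 2) := by
  rw [← ZZ_add]
  have := ZZ_ne ξ
  (clear * - this; field_simp)

/-- the defining relation -/
theorem rr_rel (ξ : ℂ) : (2 * rr ξ + 1) * (rr ξ - 1) = 2 * (1 + rr ξ) * ξ := by
  rw [rr_eq]
  have := ZZ_quad ξ
  linear_combination 2 * this

theorem re_half {z : ℂ} {m : ℝ} (hm : 0 ≤ m) (h : m ^ 2 ≤ z.re) : m ≤ (z ^ (1 / 2 : ℂ)).re := by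
  have h1 := half_sq z
  have h2 := congrArg Complex.re h1
  have h3 : 0 ≤ (z ^ (1 / 2 : ℂ)).re := by
    rcases eq_or_ne z 0 with h0 | h0
    · rw [h0, Complex.zero_cpow (by norm_num)]; simp
    · have e1 : z ^ (1 / 2 : ℂ) = exp (log z / 2) := by
        rw [Complex.cpow_def_of_ne_zero h0]; congr 1; ring
      have e3 : (log z / 2).im = arg z / 2 := by
        have := Complex.div_ofNat_im (log z) 2
        rw [← Complex.log_im]
        simpa using this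
      rw [e1, Complex.exp_re, e3]
      have h4 := Complex.abs_arg_le_pi z
      have h5 := abs_le.1 h4
      have : 0 ≤ Real.cos (arg z / 2) :=
        Real.cos_nonneg_of_neg_pi_div_two_le_of_le (by linarith only [h5]) (by linarith only [h5])
      (clear * - this; positivity)
  rw [pow_two, Complex.mul_re] at h2
  have h4 : m ^ 2 ≤ (z ^ (1 / 2 : ℂ)).re ^ 2 := by nlinarith only [h, h2]
  exact le_of_sq_le_sq h4 h3

theorem ZZ_norm {ξ : ℂ} (h : 0 ≤ ξ.re) : 2 ≤ ‖ZZ ξ‖ := by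
  have h1 : Real.sqrt 2 / 2 ≤ ((ξ + 1 / 2) ^ (1 / 2 : ℂ)).re := by
    apply re_half (by positivity)
    rw [div_pow, Real.sq_sqrt (by norm_num)]
    simp only [one_div, add_re, inv_re, re_ofNat, normSq_ofNat, div_self_mul_self']; linarith
  have h2 : 3 * (Real.sqrt 2 / 2) ≤ ((ξ + 9 / 2) ^ (1 / 2 : ℂ)).re := by
    apply re_half (by positivity)
    rw [mul_pow, div_pow, Real.sq_sqrt (by norm_num)]
    simp only [add_re, div_ofNat_re, re_ofNat]; linarith only [h]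
  have h3 : Real.sqrt 2 ≤ ‖((ξ + 1 / 2) ^ (1 / 2 : ℂ) + (ξ + 9 / 2) ^ (1 / 2 : ℂ)) / 2‖ := by
    refine le_trans ?_ ((le_abs_self _).trans (Complex.abs_re_le_norm _))
    have : (((ξ + 1 / 2) ^ (1 / 2 : ℂ) + (ξ + 9 / 2) ^ (1 / 2 : ℂ)) / 2).re
        = (((ξ + 1 / 2) ^ (1 / 2 : ℂ)).re + ((ξ + 9 / 2) ^ (1 / 2 : ℂ)).re) / 2 := by
      rw [Complex.div_ofNat_re, Complex.add_re]
    rw [this]
    linarith only [h1, h2]
  rw [ZZ, norm_pow]
  calc (2 : ℝ) = Real.sqrt 2 ^ 2 := (Real.sq_sqrt (by norm_num)).symm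
    _ ≤ _ := by gcongr

theorem rr_re {ξ : ℂ} (h : 0 ≤ ξ.re) : 1 ≤ (rr ξ).re := by
  have h1 := ZZ_norm h
  have h2 := congrArg Complex.re (ZZ_add ξ)
  have h3 : ‖(ZZ ξ)⁻¹‖ ≤ 1 / 2 := by
    rw [norm_inv, inv_le_comm₀ (by (clear * - h1; linarith)) (by norm_num)]
    norm_num; exact h1
  have h4 := (le_abs_self _).trans ((Complex.abs_re_le_norm (ZZ ξ)⁻¹).trans h3)
  rw [rr_eq, Complex.sub_re, Complex.one_re]
  rw [Complex.add_re, Complex.add_re] at h2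
  have e : (5 / 2 : ℂ).re = 5 / 2 := by norm_num
  rw [e] at h2
  linarith only [h4, h2, h]

section
variable {r : ℂ} (hr : 1 ≤ r.re)
include hr

theorem aux1 : ‖1 + r‖ * 3 ≤ 2 * ‖2 * r + 1‖ := by
  have h1 : (‖1 + r‖ * 3) ^ 2 ≤ (2 * ‖2 * r + 1‖) ^ 2 := by
    rw [mul_pow, mul_pow, ← Complex.normSq_eq_norm_sq, ← Complex.normSq_eq_norm_sq,
      Complex.normSq_apply, Complex.normSq_apply]
    simp only [add_re, one_re, add_im, one_im, zero_add, mul_re, re_ofNat, im_ofNat, zero_mul, sub_zero, mul_im, add_zero]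
    nlinarith only [hr]
  exact le_of_sq_le_sq h1 (by positivity)

theorem aux_norm : 1 ≤ ‖r‖ ∧ 2 ≤ ‖r + 1‖ ∧ 3 ≤ ‖2 * r + 1‖ ∧ 3 ≤ ‖r + 2‖ := by
  have h1 := (le_abs_self _).trans (Complex.abs_re_le_norm r)
  have h2 := (le_abs_self _).trans (Complex.abs_re_le_norm (r + 1))
  have h3 := (le_abs_self _).trans (Complex.abs_re_le_norm (2 * r + 1))
  have h4 := (le_abs_self _).trans (Complex.abs_re_le_norm (r + 2))
  simp only [add_re, one_re, mul_re, re_ofNat, im_ofNat, zero_mul, sub_zero] at h2 h3 h4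
  refine ⟨by linarith, by linarith, by linarith only [hr, h3], by linarith⟩

theorem aux_ne : r ≠ 0 ∧ r + 1 ≠ 0 ∧ 2 * r + 1 ≠ 0 ∧ r + 2 ≠ 0 := by
  obtain ⟨h1, h2, h3, h4⟩ := aux_norm hr
  refine ⟨?_, ?_, ?_, ?_⟩ <;> intro h0
  · rw [h0, norm_zero] at h1; linarith only [h1]
  · rw [h0, norm_zero] at h2; linarith only [h2]
  · rw [h0, norm_zero] at h3; linarith
  · rw [h0, norm_zero] at h4; linarith only [h4]

theorem aux_re : 12 / 7 ≤ (4 * (1 + r) ^ 2 / ((r + 2) * (2 * r + 1))).re := by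
  obtain ⟨n1, n2, n3, n4⟩ := aux_ne hr
  have e : 4 * (1 + r) ^ 2 / ((r + 2) * (2 * r + 1)) = 2 - 2 * (2 * r + 5 + 2 * r⁻¹)⁻¹ := by
    have h5 : 2 * r + 5 + 2 * r⁻¹ = (r + 2) * (2 * r + 1) / r := by field_simp; ring
    have hd : (r + 2) * (2 * r + 1) ≠ 0 := mul_ne_zero n4 n3
    rw [h5, inv_div, eq_sub_iff_add_eq, ← mul_div_assoc, ← add_div, div_eq_iff hd]
    ring
  rw [e]
  have h1 : 7 ≤ ‖2 * r + 5 + 2 * r⁻¹‖ := by
    refine le_trans ?_ ((le_abs_self _).trans (Complex.abs_re_le_norm _))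
    have h2 : 0 ≤ (r⁻¹).re := by
      rw [Complex.inv_re]
      exact div_nonneg (by linarith only [hr]) (Complex.normSq_nonneg _)
    have h3 : (2 * r + 5 + 2 * r⁻¹).re = 2 * r.re + 5 + 2 * (r⁻¹).re := by simp only [add_re, mul_re, re_ofNat, im_ofNat, zero_mul, sub_zero, inv_re, inv_im]
    rw [h3]; linarith only [hr, h2]
  have h2 : ‖(2 * r + 5 + 2 * r⁻¹)⁻¹‖ ≤ 1 / 7 := by
    rw [norm_inv, inv_le_comm₀ (by linarith only [h1]) (by norm_num)]
    norm_num; exact h1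
  have h3 := (le_abs_self _).trans ((Complex.abs_re_le_norm _).trans h2)
  have h4 : (2 - 2 * (2 * r + 5 + 2 * r⁻¹)⁻¹ : ℂ).re = 2 - 2 * ((2 * r + 5 + 2 * r⁻¹)⁻¹).re := by
    simp only [sub_re, re_ofNat, mul_re, inv_re, add_re, im_ofNat, zero_mul, sub_zero, inv_im, add_im, mul_im, add_zero, neg_add_rev]
  rw [h4]; linarith only [h3]

end

theorem xi_eq {ξ : ℂ} (h : 0 ≤ ξ.re) : ξ = (2 * rr ξ + 1) * (rr ξ - 1) / (2 * (1 + rr ξ)) := by
  obtain ⟨n1, n2, n3, n4⟩ := aux_ne (rr_re h)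
  have := rr_rel ξ
  rw [this]
  have n2' : 1 + rr ξ ≠ 0 := by rw [add_comm]; exact n2
  field_simp

theorem rr_sub {ξ : ℂ} (h : 0 ≤ ξ.re) : ‖rr ξ - 1‖ ≤ 4 / 3 * ‖ξ‖ := by
  have hr := rr_re h
  obtain ⟨m1, m2, m3, m4⟩ := aux_norm hr
  have h1 := congrArg norm (rr_rel ξ)
  rw [norm_mul, norm_mul, norm_mul] at h1
  have n2 : ‖(2 : ℂ)‖ = 2 := by norm_num
  rw [n2] at h1
  have h2 := aux1 hr
  have h3 : ‖2 * rr ξ + 1‖ * ‖rr ξ - 1‖ ≤ ‖2 * rr ξ + 1‖ * (4 / 3 * ‖ξ‖) := by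
    rw [h1]
    have := norm_nonneg ξ
    linarith only [mul_nonneg (sub_nonneg.2 h2) (sub_nonneg.2 this)]
  exact le_of_mul_le_mul_left h3 (by linarith only [m3])

theorem rr_ne_one {ξ : ℂ} (h : 0 ≤ ξ.re) (h0 : ξ ≠ 0) : rr ξ - 1 ≠ 0 := by
  intro h1
  apply h0
  rw [xi_eq h, h1, mul_zero, zero_div]

theorem MM_half {ξ : ℂ} (h : 0 ≤ ξ.re) : MM ξ - 1 / 2 = -(rr ξ * (rr ξ + 1))⁻¹ := by
  obtain ⟨n1, n2, n3, n4⟩ := aux_ne (rr_re h)
  rw [MM]
  field_simp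
  ring

theorem MM_half_norm {ξ : ℂ} (h : 0 ≤ ξ.re) : ‖MM ξ - 1 / 2‖ ≤ 1 / 2 := by
  obtain ⟨m1, m2, m3, m4⟩ := aux_norm (rr_re h)
  rw [MM_half h, norm_neg, norm_inv, norm_mul]
  rw [inv_le_comm₀ (by positivity) (by norm_num)]
  norm_num
  linarith only [mul_nonneg (sub_nonneg.2 m1) (sub_nonneg.2 m2), m2, m1]

theorem MM_norm {ξ : ℂ} (h : 0 ≤ ξ.re) : ‖MM ξ‖ ≤ 1 := by
  have h1 := MM_half_norm h
  have h2 := norm_le_insert' (MM ξ) (1 / 2 : ℂ)
  have h3 : ‖(1 / 2 : ℂ)‖ = 1 / 2 := by norm_num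
  linarith only [h3, h2, h1]

theorem MM_ne {ξ : ℂ} (h : 0 ≤ ξ.re) (h0 : ξ ≠ 0) : MM ξ ≠ 0 := by
  obtain ⟨n1, n2, n3, n4⟩ := aux_ne (rr_re h)
  rw [MM]
  exact div_ne_zero (mul_ne_zero (rr_ne_one h h0) n4)
    (mul_ne_zero (mul_ne_zero two_ne_zero n1) n2)

theorem MM_inv {ξ : ℂ} (h : 0 ≤ ξ.re) (h0 : ξ ≠ 0) :
    ξ⁻¹.re + 12 / 7 ≤ (MM ξ)⁻¹.re := by
  obtain ⟨n1, n2, n3, n4⟩ := aux_ne (rr_re h)
  have n5 := rr_ne_one h h0
  have n2' : 1 + rr ξ ≠ 0 := by rw [add_comm]; exact n2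
  have e : (MM ξ)⁻¹ = ξ⁻¹ + 4 * (1 + rr ξ) ^ 2 / ((rr ξ + 2) * (2 * rr ξ + 1)) := by
    have h1 : ξ⁻¹ = 2 * (1 + rr ξ) / ((2 * rr ξ + 1) * (rr ξ - 1)) := by
      rw [← inv_div]
      exact congrArg Inv.inv (xi_eq h)
    rw [h1, MM, inv_div, div_add_div _ _ (mul_ne_zero n3 n5) (mul_ne_zero n4 n3),
      div_eq_div_iff (mul_ne_zero n5 n4)
        (mul_ne_zero (mul_ne_zero n3 n5) (mul_ne_zero n4 n3))]
    ring
  rw [e, Complex.add_re]
  have := aux_re (rr_re h)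
  linarith only [this]

theorem inv_re_nonneg {ξ : ℂ} (h : 0 ≤ ξ.re) : 0 ≤ ξ⁻¹.re := by
  rw [Complex.inv_re]
  exact div_nonneg h (Complex.normSq_nonneg _)

theorem MM_re_pos {ξ : ℂ} (h : 0 ≤ ξ.re) (h0 : ξ ≠ 0) : 0 < (MM ξ).re := by
  have h1 := MM_inv h h0
  have h2 := inv_re_nonneg h
  have h3 := MM_ne h h0
  have h4 : 0 < (MM ξ)⁻¹.re := by linarith
  rw [Complex.inv_re] at h4
  exact (div_pos_iff_of_pos_right (Complex.normSq_pos.2 h3)).1 h4

theorem iter {ξ : ℂ} (h : 0 ≤ ξ.re) (h0 : ξ ≠ 0) (n : ℕ) :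
    0 ≤ (MM^[n] ξ).re ∧ MM^[n] ξ ≠ 0 ∧ 12 / 7 * (n : ℝ) ≤ (MM^[n] ξ)⁻¹.re := by
  induction n with
  | zero =>
    refine ⟨h, h0, ?_⟩
    simpa only [CharP.cast_eq_zero, mul_zero, Function.iterate_zero, id_eq, inv_re] using inv_re_nonneg h
  | succ n ih =>
    obtain ⟨i1, i2, i3⟩ := ih
    rw [Function.iterate_succ_apply']
    refine ⟨(MM_re_pos i1 i2).le, MM_ne i1 i2, ?_⟩
    have := MM_inv i1 i2
    push_cast
    linarith

theorem iter_norm {ξ : ℂ} (h : 0 ≤ ξ.re) (h0 : ξ ≠ 0) {n : ℕ} (hn : 0 < n) :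
    ‖MM^[n] ξ‖ ≤ 7 / 12 / n := by
  obtain ⟨i1, i2, i3⟩ := iter h h0 n
  have h1 := i3.trans ((le_abs_self _).trans (Complex.abs_re_le_norm _))
  rw [norm_inv] at h1
  have hn' : (0 : ℝ) < n := by exact_mod_cast hn
  have h2 : 0 < ‖MM^[n] ξ‖ := norm_pos_iff.2 i2
  rw [le_inv_comm₀ (by (clear * - hn; positivity)) h2] at h1
  refine h1.trans (le_of_eq ?_)
  field_simp

theorem PPi_succ (n : ℕ) (ξ : ℂ) : PPi (n + 1) ξ = rr ξ ^ 4 * PPi n (MM ξ) := by
  simp only [PPi]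
  rw [Finset.prod_range_succ', Function.iterate_succ_apply]
  simp only [Function.iterate_succ_apply, Function.iterate_zero, id_eq]
  ring

theorem ratio_id {ξ : ℂ} (h : 0 ≤ ξ.re) :
    rr ξ ^ 4 * MM ξ ^ 3
      = ξ ^ 3 * (1 + (rr ξ - 1) ^ 3 * (rr ξ + 1) / (2 * rr ξ + 1) ^ 3) := by
  obtain ⟨n1, n2, n3, n4⟩ := aux_ne (rr_re h)
  have n2' : 1 + rr ξ ≠ 0 := by rw [add_comm]; exact n2
  have h1 := xi_eq h
  obtain ⟨r, hr⟩ : ∃ r, r = rr ξ := ⟨_, rfl⟩
  have h2 : MM ξ = (r - 1) * (r + 2) / (2 * r * (r + 1)) := by rw [hr, MM]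
  rw [← hr] at h1 n1 n2 n3 n4 n2' ⊢
  have h3 : 1 + (r - 1) ^ 3 * (r + 1) / (2 * r + 1) ^ 3 = r * (r + 2) ^ 3 / (2 * r + 1) ^ 3 := by
    rw [eq_div_iff (pow_ne_zero 3 n3), add_mul, one_mul, div_mul_cancel₀ _ (pow_ne_zero 3 n3)]
    ring
  rw [h3, h2, h1, div_pow, div_pow, div_mul_div_comm, ← mul_div_assoc,
    div_eq_div_iff (pow_ne_zero 3 (mul_ne_zero (mul_ne_zero two_ne_zero n1) n2))
      (mul_ne_zero (pow_ne_zero 3 (mul_ne_zero two_ne_zero n2')) (pow_ne_zero 3 n3))]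
  ring

theorem PPi_ratio {ξ : ℂ} (h : 0 ≤ ξ.re) (h0 : ξ ≠ 0) (n : ℕ) :
    PPi (n + 1) ξ = PPi n ξ * (1 + (rr (MM^[n] ξ) - 1) ^ 3 * (rr (MM^[n] ξ) + 1)
      / (2 * rr (MM^[n] ξ) + 1) ^ 3) := by
  have h1 := ratio_id (iter h h0 n).1
  simp only [PPi]
  rw [Finset.prod_range_succ, Function.iterate_succ_apply', mul_pow, mul_assoc, h1]
  ring

theorem PPi_diff {ξ : ℂ} (h : 0 < ξ.re) (hb : ‖ξ‖ < 2) (n : ℕ) :
    ‖PPi (n + 1) ξ - PPi n ξ‖ ≤ ‖PPi n ξ‖ * (2 / ((n : ℝ) + 1) ^ 2) := by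
  have h0 : ξ ≠ 0 := by intro h0; rw [h0] at h; simp at h
  rw [PPi_ratio h.le h0 n]
  have hi := (iter h.le h0 n).1
  have hr := rr_re hi
  have hs := rr_sub hi
  obtain ⟨m1, m2, m3, m4⟩ := aux_norm hr
  have h1 := aux1 hr
  have hn : ‖MM^[n] ξ‖ ^ 3 ≤ 9 / ((n : ℝ) + 1) ^ 2 := by
    rcases Nat.eq_zero_or_pos n with h2 | h2
    · rw [h2]
      simp only [Function.iterate_zero, id_eq, Nat.cast_zero, zero_add, one_pow, div_one]
      have : ‖ξ‖ ^ 3 ≤ 2 ^ 3 := by gcongr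
      (clear * - this; linarith)
    · have h3 := iter_norm h.le h0 h2
      have hn' : (1 : ℝ) ≤ n := by exact_mod_cast h2
      have h4 : ‖MM^[n] ξ‖ ^ 3 ≤ (7 / 12 / n) ^ 3 := by gcongr
      refine h4.trans ?_
      rw [div_pow, div_pow, div_div, div_le_div_iff₀ (by positivity) (by positivity)]
      have h5 : ((n : ℝ) + 1) ^ 2 ≤ (2 * n) ^ 2 := by gcongr; linarith only [hn']
      have h6 : (n : ℝ) ^ 2 ≤ (n : ℝ) ^ 3 := pow_le_pow_right₀ hn' (by norm_num)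
      nlinarith only [h5, h6]
  have e : PPi n ξ * (1 + (rr (MM^[n] ξ) - 1) ^ 3 * (rr (MM^[n] ξ) + 1)
      / (2 * rr (MM^[n] ξ) + 1) ^ 3) - PPi n ξ = PPi n ξ * ((rr (MM^[n] ξ) - 1) ^ 3 *
      (rr (MM^[n] ξ) + 1) / (2 * rr (MM^[n] ξ) + 1) ^ 3) := by ring
  rw [e, norm_mul]
  gcongr
  rw [norm_div, norm_mul, norm_pow, norm_pow]
  generalize rr (MM^[n] ξ) = r at *
  generalize ‖MM^[n] ξ‖ = y at *
  rw [div_le_iff₀ (by positivity)]
  have h1' : ‖r + 1‖ ≤ 2 / 3 * ‖2 * r + 1‖ := by rw [add_comm]; linarith only [h1]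
  have h2 : 9 * ‖2 * r + 1‖ ≤ ‖2 * r + 1‖ ^ 3 := by linarith only [mul_nonneg (sub_nonneg.2 m3) (sq_nonneg ‖2 * r + 1‖), mul_nonneg (sub_nonneg.2 m3) (sub_nonneg.2 m3), m3]
  have hy0 : 0 ≤ y := by linarith only [hs, norm_nonneg (r - 1)]
  have hy : 0 ≤ y ^ 3 := by positivity
  calc ‖r - 1‖ ^ 3 * ‖r + 1‖ ≤ (4 / 3 * y) ^ 3 * (2 / 3 * ‖2 * r + 1‖) := by (clear * - hs h1' m2 hy0; gcongr)
    _ = (128 / 81) * y ^ 3 * ‖2 * r + 1‖ := by ring
    _ ≤ (128 / 81) * (9 / ((n : ℝ) + 1) ^ 2) * ‖2 * r + 1‖ := by (clear * - hn m3; gcongr)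
    _ ≤ 2 / ((n : ℝ) + 1) ^ 2 * (9 * ‖2 * r + 1‖) := by
        have : 0 ≤ 1 / ((n : ℝ) + 1) ^ 2 * ‖2 * r + 1‖ := by (clear * - m3; positivity)
        have e1 : (128 / 81) * (9 / ((n : ℝ) + 1) ^ 2) * ‖2 * r + 1‖
          = (128 / 9) * (1 / ((n : ℝ) + 1) ^ 2 * ‖2 * r + 1‖) := by ring
        have e2 : 2 / ((n : ℝ) + 1) ^ 2 * (9 * ‖2 * r + 1‖)
          = 18 * (1 / ((n : ℝ) + 1) ^ 2 * ‖2 * r + 1‖) := by ring
        rw [e1, e2]
        linarith only [this]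
    _ ≤ 2 / ((n : ℝ) + 1) ^ 2 * ‖2 * r + 1‖ ^ 3 := by (clear * - h2; gcongr)

end Vale.Agent.P097.Cusp
end

section

namespace Vale.Agent.P097.Cusp

open Complex Filter Topology

theorem diff_half {c ξ : ℂ} (h : 0 < (ξ + c).re) :
    DifferentiableAt ℂ (fun ξ : ℂ => (ξ + c) ^ (1 / 2 : ℂ)) ξ := by
  have h1 : HasDerivAt (fun ξ : ℂ => ξ + c) 1 ξ := (hasDerivAt_id ξ).add_const c
  exact (h1.cpow_const (c := (1 / 2 : ℂ)) (Or.inl h)).differentiableAt

theorem diff_rr {ξ : ℂ} (h : -(1 / 2) < ξ.re) : DifferentiableAt ℂ rr ξ := by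
  have h1 : DifferentiableAt ℂ (fun ξ : ℂ => (ξ + 1 / 2) ^ (1 / 2 : ℂ)) ξ :=
    diff_half (by
      have : (ξ + 1 / 2 : ℂ).re = ξ.re + 1 / 2 := by simp only [one_div, add_re, inv_re, re_ofNat, normSq_ofNat, div_self_mul_self']
      rw [this]; linarith only [h])
  have h2 : DifferentiableAt ℂ (fun ξ : ℂ => (ξ + 9 / 2) ^ (1 / 2 : ℂ)) ξ :=
    diff_half (by
      have : (ξ + 9 / 2 : ℂ).re = ξ.re + 9 / 2 := by simp
      rw [this]; linarith only [h])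
  unfold rr
  exact (((h1.add h2).div_const 2).pow 2).sub_const 1

theorem rr_ne_zero {ξ : ℂ} (h : -(1 / 2) < ξ.re) : rr ξ ≠ 0 := by
  intro h0
  have h1 : ZZ ξ = 1 := by rw [rr_eq] at h0; linear_combination h0
  have h2 := ZZ_add ξ
  rw [h1, inv_one] at h2
  have h3 : ξ = -(1 / 2) := by linear_combination -h2
  rw [h3] at h
  norm_num at h

theorem diff_MM {ξ : ℂ} (h : -(1 / 2) < ξ.re) : DifferentiableAt ℂ MM ξ := by
  have h1 := diff_rr h
  have h2 := rr_ne_zero h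
  have h3 : rr ξ + 1 ≠ 0 := by
    have : rr ξ + 1 = ZZ ξ := by rw [rr_eq]; ring
    rw [this]; exact ZZ_ne ξ
  unfold MM
  exact ((h1.sub_const 1).mul (h1.add_const 2)).div ((h1.const_mul 2).mul (h1.add_const 1))
    (mul_ne_zero (mul_ne_zero two_ne_zero h2) h3)

theorem diff_PPi (n : ℕ) : DifferentiableOn ℂ (PPi n) {ξ : ℂ | 0 < ξ.re} := by
  induction n with
  | zero =>
    have : PPi 0 = fun ξ => ξ ^ 3 := by
      funext ξ; simp [PPi]
    rw [this]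
    exact (differentiable_pow 3).differentiableOn
  | succ n ih =>
    have e : PPi (n + 1) = fun ξ => rr ξ ^ 4 * PPi n (MM ξ) := by
      funext ξ; exact PPi_succ n ξ
    rw [e]
    intro ξ hξ
    have hξ' : 0 < ξ.re := hξ
    have h0 : ξ ≠ 0 := by intro h0; rw [h0] at hξ'; simp at hξ'
    have h1 := (diff_rr (ξ := ξ) (by linarith only [hξ'])).pow 4
    have h2 := diff_MM (ξ := ξ) (by linarith)
    have h3 : DifferentiableAt ℂ (PPi n) (MM ξ) :=
      (ih (MM ξ) (MM_re_pos hξ'.le h0)).differentiableAt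
        ((isOpen_lt continuous_const Complex.continuous_re).mem_nhds (MM_re_pos hξ'.le h0))
    exact (h1.mul (h3.comp ξ h2)).differentiableWithinAt

/-- the bounded part of the right half plane -/
def UU : Set ℂ := {ξ : ℂ | 0 < ξ.re} ∩ {ξ | ‖ξ‖ < 2}

theorem UU_open : IsOpen UU :=
  (isOpen_lt continuous_const Complex.continuous_re).inter
    (isOpen_lt continuous_norm continuous_const)

theorem summ : Summable (fun n : ℕ => 2 / ((n : ℝ) + 1) ^ 2) := by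
  have h1 : Summable (fun n : ℕ => 1 / ((n : ℝ)) ^ 2) :=
    Real.summable_one_div_nat_pow.2 (by norm_num)
  have h2 := (summable_nat_add_iff 1).2 h1
  have h3 := h2.mul_left 2
  refine h3.congr (fun n => ?_)
  push_cast
  ring

/-- bound for the products -/
noncomputable def CC : ℝ := 8 * Real.exp (∑' n : ℕ, 2 / ((n : ℝ) + 1) ^ 2)

theorem PPi_bound {ξ : ℂ} (h : ξ ∈ UU) (n : ℕ) : ‖PPi n ξ‖ ≤ CC := by
  have key : ‖PPi n ξ‖ ≤ 8 * Real.exp (∑ j ∈ Finset.range n, 2 / ((j : ℝ) + 1) ^ 2) := by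
    induction n with
    | zero =>
      have : PPi 0 ξ = ξ ^ 3 := by simp only [PPi, Finset.range_zero, Finset.prod_empty, one_pow, Function.iterate_zero, id_eq, one_mul]
      rw [this, norm_pow]
      simp only [Finset.range_zero, Finset.sum_empty, Real.exp_zero, mul_one]
      have h2 : ‖ξ‖ < 2 := h.2
      have : ‖ξ‖ ^ 3 ≤ 2 ^ 3 := by (clear * - h2; gcongr)
      linarith
    | succ n ih =>
      have h1 := PPi_diff h.1 h.2 n
      have h2 := norm_le_insert' (PPi (n + 1) ξ) (PPi n ξ)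
      rw [Finset.sum_range_succ, Real.exp_add]
      have h3 := Real.add_one_le_exp (2 / ((n : ℝ) + 1) ^ 2)
      have h4 : 0 ≤ 2 / ((n : ℝ) + 1) ^ 2 := by positivity
      calc ‖PPi (n + 1) ξ‖ ≤ ‖PPi n ξ‖ * (2 / ((n : ℝ) + 1) ^ 2 + 1) := by linarith only [h1, h2]
        _ ≤ (8 * Real.exp (∑ j ∈ Finset.range n, 2 / ((j : ℝ) + 1) ^ 2))
            * Real.exp (2 / ((n : ℝ) + 1) ^ 2) := by
            gcongr
        _ = _ := by ring
  refine key.trans ?_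
  rw [CC]
  gcongr
  exact summ.sum_le_tsum _ (fun i _ => by (clear * -; positivity))

/-- the limit of the adiabatic invariant -/
noncomputable def TT (ξ : ℂ) : ℂ := PPi 0 ξ + ∑' n : ℕ, (PPi (n + 1) ξ - PPi n ξ)

theorem term_bound {ξ : ℂ} (h : ξ ∈ UU) (n : ℕ) :
    ‖PPi (n + 1) ξ - PPi n ξ‖ ≤ CC * (2 / ((n : ℝ) + 1) ^ 2) := by
  refine (PPi_diff h.1 h.2 n).trans ?_
  gcongr
  exact PPi_bound h n

theorem TT_lim {ξ : ℂ} (h : ξ ∈ UU) : Tendsto (fun n => PPi n ξ) atTop (𝓝 (TT ξ)) := by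
  have hs : Summable (fun n : ℕ => PPi (n + 1) ξ - PPi n ξ) :=
    Summable.of_norm_bounded (summ.mul_left CC) (term_bound h)
  have h1 := hs.hasSum.tendsto_sum_nat
  have h2 : ∀ n, ∑ i ∈ Finset.range n, (PPi (i + 1) ξ - PPi i ξ) = PPi n ξ - PPi 0 ξ :=
    fun n => Finset.sum_range_sub (fun n => PPi n ξ) n
  simp only [h2] at h1
  have h3 := h1.const_add (PPi 0 ξ)
  simpa only [TT, add_sub_cancel] using h3

theorem TT_diff : DifferentiableOn ℂ TT UU := by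
  have h1 : DifferentiableOn ℂ (fun ξ => ∑' n : ℕ, (PPi (n + 1) ξ - PPi n ξ)) UU :=
    differentiableOn_tsum_of_summable_norm (u := fun n => CC * (2 / ((n : ℝ) + 1) ^ 2))
      (summ.mul_left CC)
      (fun n => ((diff_PPi (n + 1)).mono Set.inter_subset_left).sub
        ((diff_PPi n).mono Set.inter_subset_left)) UU_open
      (fun n ξ hξ => term_bound hξ n)
  exact ((diff_PPi 0).mono Set.inter_subset_left).add h1

theorem real_rr {x : ℝ} (hx : 0 < x) : ∃ r : ℝ, 1 < r ∧ rr (x : ℂ) = r := by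
  have e1 : ((x : ℂ) + 1 / 2) ^ (1 / 2 : ℂ) = (((x + 1 / 2) ^ (1 / 2 : ℝ) : ℝ) : ℂ) := by
    rw [Complex.ofReal_cpow (by linarith)]
    push_cast; rfl
  have e2 : ((x : ℂ) + 9 / 2) ^ (1 / 2 : ℂ) = (((x + 9 / 2) ^ (1 / 2 : ℝ) : ℝ) : ℂ) := by
    rw [Complex.ofReal_cpow (by linarith only [hx])]
    push_cast; rfl
  obtain ⟨r, hr⟩ : ∃ r : ℝ, rr (x : ℂ) = r := by
    refine ⟨(((x + 1 / 2) ^ (1 / 2 : ℝ) + (x + 9 / 2) ^ (1 / 2 : ℝ)) / 2) ^ 2 - 1, ?_⟩
    rw [rr, e1, e2]; push_cast; rfl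
  refine ⟨r, ?_, hr⟩
  have h1 := rr_re (ξ := (x : ℂ)) (by simpa only [ofReal_re] using hx.le)
  rw [hr, Complex.ofReal_re] at h1
  have h2 := rr_rel (x : ℂ)
  rw [hr] at h2
  have h3 : (2 * r + 1) * (r - 1) = 2 * (1 + r) * x := by exact_mod_cast h2
  have h4 : 0 < 2 * (1 + r) * x := by (clear * - h1 hx; positivity)
  rw [← h3] at h4
  have := (pos_iff_pos_of_mul_pos h4).1 (by linarith only [h1])
  linarith only [this]

theorem real_MM {x : ℝ} (hx : 0 < x) : ∃ y : ℝ, 0 < y ∧ MM (x : ℂ) = y := by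
  obtain ⟨r, hr, hr2⟩ := real_rr hx
  refine ⟨(r - 1) * (r + 2) / (2 * r * (r + 1)), ?_, ?_⟩
  · have : 0 < r - 1 := by linarith
    positivity
  · rw [MM, hr2]; push_cast; rfl

theorem real_iter {x : ℝ} (hx : 0 < x) (n : ℕ) : ∃ y : ℝ, 0 < y ∧ MM^[n] (x : ℂ) = y := by
  induction n with
  | zero => exact ⟨x, hx, rfl⟩
  | succ n ih =>
    obtain ⟨y, hy, hy2⟩ := ih
    rw [Function.iterate_succ_apply', hy2]
    exact real_MM hy

theorem real_PPi (n : ℕ) : ∃ P : ℝ, 1 / 8 ≤ P ∧ PPi n (1 / 2) = P := by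
  have e : (1 / 2 : ℂ) = ((1 / 2 : ℝ) : ℂ) := by push_cast; rfl
  induction n with
  | zero => exact ⟨1 / 8, le_rfl, by simp [PPi]; norm_num⟩
  | succ n ih =>
    obtain ⟨P, hP, hP2⟩ := ih
    obtain ⟨y, hy, hy2⟩ := real_iter (x := 1 / 2) (by norm_num) n
    obtain ⟨r, hr, hr2⟩ := real_rr hy
    have h1 := PPi_ratio (ξ := (1 / 2 : ℂ)) (by norm_num) (by norm_num) n
    rw [← e] at hy2
    rw [hy2, hr2, hP2] at h1
    refine ⟨P * (1 + (r - 1) ^ 3 * (r + 1) / (2 * r + 1) ^ 3), ?_, ?_⟩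
    · have h2 : 0 < r - 1 := by linarith only [hr]
      have h3 : 0 ≤ (r - 1) ^ 3 * (r + 1) / (2 * r + 1) ^ 3 := by (clear * - hr; positivity)
      nlinarith only [hP, h3]
    · rw [h1]; push_cast; rfl

theorem half_mem : (1 / 2 : ℂ) ∈ UU := by
  constructor
  · show (0 : ℝ) < (1 / 2 : ℂ).re
    norm_num
  · show ‖(1 / 2 : ℂ)‖ < 2
    norm_num

theorem TT_half : 1 / 8 ≤ (TT (1 / 2)).re := by
  have h1 := TT_lim half_mem
  have h2 := (Complex.continuous_re.tendsto _).comp h1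
  refine ge_of_tendsto h2 (Eventually.of_forall fun n => ?_)
  obtain ⟨P, hP, hP2⟩ := real_PPi n
  simp only [Function.comp_apply]
  rw [hP2, Complex.ofReal_re]
  exact hP

/-- the limit on the imaginary axis -/
noncomputable def GG (ξ : ℂ) : ℂ := rr ξ ^ 4 * TT (MM ξ)

theorem MM_mem {ξ : ℂ} (h : 0 ≤ ξ.re) (h0 : ξ ≠ 0) : MM ξ ∈ UU :=
  ⟨MM_re_pos h h0, lt_of_le_of_lt (MM_norm h) (by norm_num)⟩

theorem GG_analytic {η : ℝ} (hη : 0 < η) : AnalyticAt ℂ GG ((η : ℂ) * I) := by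
  have hne : (η : ℂ) * I ≠ 0 := mul_ne_zero (by exact_mod_cast hη.ne') I_ne_zero
  have hre : ((η : ℂ) * I).re = 0 := by simp
  rw [Complex.analyticAt_iff_eventually_differentiableAt]
  have h1 : ∀ᶠ z in 𝓝 ((η : ℂ) * I), -(1 / 2) < z.re :=
    Complex.continuous_re.continuousAt.eventually (lt_mem_nhds (by rw [hre]; norm_num))
  have h2 : ∀ᶠ z in 𝓝 ((η : ℂ) * I), MM z ∈ UU :=
    (diff_MM (ξ := (η : ℂ) * I) (by rw [hre]; norm_num)).continuousAt.eventually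
      (UU_open.mem_nhds (MM_mem hre.ge hne))
  filter_upwards [h1, h2] with z hz1 hz2
  have h3 : DifferentiableAt ℂ TT (MM z) :=
    (TT_diff (MM z) hz2).differentiableAt (UU_open.mem_nhds hz2)
  exact ((diff_rr hz1).pow 4).mul (h3.comp z (diff_MM hz1))

theorem GG_lim {ξ : ℂ} (h : 0 ≤ ξ.re) (h0 : ξ ≠ 0) :
    Tendsto (fun n => PPi (n + 1) ξ) atTop (𝓝 (GG ξ)) := by
  have h1 := (TT_lim (MM_mem h h0)).const_mul (rr ξ ^ 4)
  refine h1.congr (fun n => ?_)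
  rw [PPi_succ]

theorem rr_asym : Tendsto (fun η : ℝ => rr ((η : ℂ) * I) / ((η : ℂ) * I)) atTop (𝓝 1) := by
  have h0 : ∀ᶠ η : ℝ in atTop, 0 < η := eventually_gt_atTop 0
  rw [tendsto_iff_norm_sub_tendsto_zero]
  have h1 : Tendsto (fun η : ℝ => 2 / η) atTop (𝓝 0) := tendsto_const_nhds.div_atTop tendsto_id
  refine squeeze_zero' (Eventually.of_forall fun η => norm_nonneg _) ?_ h1
  filter_upwards [h0] with η hη
  have hre : ((η : ℂ) * I).re = 0 := by simp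
  have hne : (η : ℂ) * I ≠ 0 := mul_ne_zero (by exact_mod_cast hη.ne') I_ne_zero
  have hn : ‖(η : ℂ) * I‖ = η := by
    rw [norm_mul, Complex.norm_I, mul_one, Complex.norm_real, Real.norm_eq_abs, abs_of_pos hη]
  have h2 := ZZ_add ((η : ℂ) * I)
  have h3 := ZZ_norm hre.ge
  have h4 : ‖(ZZ ((η : ℂ) * I))⁻¹‖ ≤ 1 / 2 := by
    rw [norm_inv, inv_le_comm₀ (by linarith only [h3]) (by norm_num)]
    norm_num; exact h3
  have e : rr ((η : ℂ) * I) / ((η : ℂ) * I) - 1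
      = (3 / 2 - (ZZ ((η : ℂ) * I))⁻¹) / ((η : ℂ) * I) := by
    rw [div_sub_one hne, rr_eq]
    congr 1
    linear_combination h2
  rw [e, norm_div, hn]
  gcongr
  have h5 := norm_sub_le (3 / 2 : ℂ) (ZZ ((η : ℂ) * I))⁻¹
  have h6 : ‖(3 / 2 : ℂ)‖ = 3 / 2 := by norm_num
  linarith only [h6, h5, h4]

theorem MM_asym : Tendsto (fun η : ℝ => MM ((η : ℂ) * I)) atTop (𝓝 (1 / 2)) := by
  have h0 : ∀ᶠ η : ℝ in atTop, 0 < η := eventually_gt_atTop 0
  rw [tendsto_iff_norm_sub_tendsto_zero]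
  have h1 : Tendsto (fun η : ℝ => 3 / (η : ℝ)) atTop (𝓝 0) :=
    tendsto_const_nhds.div_atTop tendsto_id
  refine squeeze_zero' (Eventually.of_forall fun η => norm_nonneg _) ?_ h1
  filter_upwards [h0, eventually_gt_atTop (6 : ℝ)] with η hη hη6
  have hre : ((η : ℂ) * I).re = 0 := by simp
  have hn : ‖(η : ℂ) * I‖ = η := by
    rw [norm_mul, Complex.norm_I, mul_one, Complex.norm_real, Real.norm_eq_abs, abs_of_pos hη]
  obtain ⟨m1, m2, m3, m4⟩ := aux_norm (rr_re hre.ge)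
  rw [MM_half hre.ge, norm_neg, norm_inv, norm_mul]
  have h2 := ZZ_add ((η : ℂ) * I)
  have h3 := ZZ_norm hre.ge
  have h4 : ‖(ZZ ((η : ℂ) * I))⁻¹‖ ≤ 1 / 2 := by
    rw [norm_inv, inv_le_comm₀ (by linarith only [h3]) (by norm_num)]
    norm_num; exact h3
  have h5 : η - 2 ≤ ‖rr ((η : ℂ) * I)‖ := by
    have e : (η : ℂ) * I = rr ((η : ℂ) * I) + ((ZZ ((η : ℂ) * I))⁻¹ - 3 / 2) := by
      rw [rr_eq]; linear_combination -h2
    have h6 := norm_add_le (rr ((η : ℂ) * I)) ((ZZ ((η : ℂ) * I))⁻¹ - 3 / 2)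
    rw [← e, hn] at h6
    have h7 := norm_sub_le (ZZ ((η : ℂ) * I))⁻¹ (3 / 2 : ℂ)
    have h8 : ‖(3 / 2 : ℂ)‖ = 3 / 2 := by norm_num
    linarith only [h8, h7, h6, h4]
  rw [inv_le_comm₀ (by positivity) (by (clear * - hη; positivity)), inv_div]
  linarith only [mul_nonneg (sub_nonneg.2 m2) (sub_nonneg.2 m1), m1, h5, m2]

theorem inner_false (C η₁ : ℝ) (h1 : 0 < η₁) (hyp : ∀ η : ℝ, 0 < η → η < η₁ → ∀ n : ℕ,
    |(PPi n (η * I)).re| ≤ C * ‖MM^[n] (η * I)‖ * ‖PPi n (η * I)‖) : False := by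
  -- vanishing for small parameters
  have hsmall : ∀ η : ℝ, 0 < η → η < η₁ → (GG ((η : ℂ) * I)).re = 0 := by
    intro η hη hη1
    have hne : (η : ℂ) * I ≠ 0 := mul_ne_zero (by exact_mod_cast hη.ne') I_ne_zero
    have hre : ((η : ℂ) * I).re = 0 := by simp
    have hl := GG_lim hre.ge hne
    have hl1 : Tendsto (fun n => |(PPi (n + 1) ((η : ℂ) * I)).re|) atTop
        (𝓝 |(GG ((η : ℂ) * I)).re|) :=
      ((continuous_abs.comp Complex.continuous_re).tendsto _).comp hl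
    have hl2 : Tendsto (fun n : ℕ => C * ‖MM^[n + 1] ((η : ℂ) * I)‖ * ‖PPi (n + 1) ((η : ℂ) * I)‖)
        atTop (𝓝 (C * 0 * ‖GG ((η : ℂ) * I)‖)) := by
      refine Tendsto.mul (Tendsto.const_mul _ ?_) hl.norm
      have h2 : Tendsto (fun n : ℕ => 7 / 12 / ((n : ℝ) + 1)) atTop (𝓝 0) :=
        tendsto_const_div_atTop_nhds_zero_nat (7 / 12) |>.comp (tendsto_add_atTop_nat 1) |>.congr
          (fun n => by simp only [Function.comp_apply, Nat.cast_add, Nat.cast_one])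
      refine squeeze_zero (fun n => norm_nonneg _) (fun n => ?_) h2
      have := iter_norm hre.ge hne (Nat.succ_pos n)
      push_cast at this
      exact this
    have h3 := le_of_tendsto_of_tendsto' hl1 hl2 (fun n => hyp η hη hη1 (n + 1))
    rw [mul_zero, zero_mul] at h3
    exact abs_eq_zero.1 (le_antisymm h3 (abs_nonneg _))
  -- analytic continuation
  have hall : ∀ η : ℝ, 0 < η → (GG ((η : ℂ) * I)).re = 0 := by
    have han : AnalyticOnNhd ℝ (fun η : ℝ => (GG ((η : ℂ) * I)).re) (Set.Ioi 0) := by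
      intro η hη
      have a1 : AnalyticAt ℝ GG ((η : ℂ) * I) := (GG_analytic hη).restrictScalars
      have a2 : AnalyticAt ℝ (fun η : ℝ => (η : ℂ) * I) η :=
        (Complex.ofRealCLM.analyticAt η).mul analyticAt_const
      have a3 : AnalyticAt ℝ (fun η : ℝ => GG ((η : ℂ) * I)) η :=
        AnalyticAt.comp (g := GG) (f := fun η : ℝ => (η : ℂ) * I) a1 a2
      exact (Complex.reCLM.analyticAt _).comp a3
    have hz : (fun η : ℝ => (GG ((η : ℂ) * I)).re) =ᶠ[𝓝 (η₁ / 2)] 0 := by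
      filter_upwards [Ioo_mem_nhds (by linarith : 0 < η₁ / 2) (by linarith : η₁ / 2 < η₁)]
        with η hη
      exact hsmall η hη.1 hη.2
    have := han.eqOn_zero_of_preconnected_of_eventuallyEq_zero isPreconnected_Ioi
      (show η₁ / 2 ∈ Set.Ioi (0 : ℝ) by simpa only [Set.mem_Ioi, Nat.ofNat_pos, div_pos_iff_of_pos_right] using h1) hz
    intro η hη
    exact this hη
  -- behaviour at infinity
  have hinf : Tendsto (fun η : ℝ => (GG ((η : ℂ) * I) / (η : ℂ) ^ 4).re) atTop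
      (𝓝 (TT (1 / 2)).re) := by
    have t1 := (rr_asym.pow 4)
    have t2 : Tendsto (fun η : ℝ => TT (MM ((η : ℂ) * I))) atTop (𝓝 (TT (1 / 2))) :=
      ((TT_diff _ half_mem).differentiableAt
        (UU_open.mem_nhds half_mem)).continuousAt.tendsto.comp MM_asym
    have t3 := t1.mul t2
    rw [one_pow, one_mul] at t3
    have t4 := (Complex.continuous_re.tendsto _).comp t3
    refine t4.congr' ?_
    filter_upwards [eventually_gt_atTop (0 : ℝ)] with η hη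
    simp only [Function.comp_apply]
    congr 1
    rw [GG, div_pow, mul_pow, Complex.I_pow_four, mul_one]
    ring
  have hzero : ∀ᶠ η : ℝ in atTop, (GG ((η : ℂ) * I) / (η : ℂ) ^ 4).re = 0 := by
    filter_upwards [eventually_gt_atTop (0 : ℝ)] with η hη
    have e : (η : ℂ) ^ 4 = ((η ^ 4 : ℝ) : ℂ) := by push_cast; rfl
    rw [e, Complex.div_ofReal_re, hall η hη, zero_div]
  have h5 := tendsto_nhds_unique (hinf.congr' hzero) tendsto_const_nhds
  have h6 := TT_half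
  rw [h5] at h6
  norm_num at h6

end Vale.Agent.P097.Cusp
end

section

namespace Vale.Agent.P097.Cusp

open Complex Filter Topology
open scoped ComplexConjugate

theorem rem_small {h : ℂ → ℂ} {B M : ℝ} (hh : Differentiable ℂ h) (hB : Bnd h B M)
    {ψ δ : ℂ} (hA : Adm h B M ψ δ) {u : ℂ} (hu : ‖u‖ ≤ 1 / 4) : ‖rem h ψ δ u‖ ≤ ‖δ‖ := by
  have hE := est hh hB hA
  obtain ⟨hM1, hM⟩ := hB
  obtain ⟨h1, h2, h3⟩ := hA
  have hR := hE.Rpos
  have hd := hE.dpos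
  have hM0 : 0 < M := by linarith only [hM1]
  have hφp : 0 < ‖rho h (ψ + δ)‖ := lt_of_lt_of_le (by (clear * - hR; positivity)) hE.φlow
  have hds := hE.dsmall
  have hr1 : (5 / 4) * ‖δ‖ ≤ 1 := by linarith only [hds]
  have hφB : ‖ψ + δ‖ + (5 / 4) * ‖δ‖ ≤ B := by linarith only [h1, hds, norm_add_le ψ δ]
  have bu : ‖δ * (1 + u)‖ ≤ (5 / 4) * ‖δ‖ := by
    rw [norm_mul, mul_comm]
    have : ‖1 + u‖ ≤ 5 / 4 := by
      have := norm_add_le (1 : ℂ) u
      rw [norm_one] at this; linarith only [hu, this]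
    gcongr
  have bm : ‖-δ‖ ≤ (5 / 4) * ‖δ‖ := by rw [norm_neg]; linarith only [hd]
  have hden : ‖rho h (ψ + δ) * δ ^ 2‖ = ‖rho h (ψ + δ)‖ * ‖δ‖ ^ 2 := by
    rw [norm_mul, norm_pow]
  have hdenp : 0 < ‖rho h (ψ + δ)‖ * ‖δ‖ ^ 2 := by (clear * - hφp h2; positivity)
  have hφl := hE.φlow
  rw [rem, norm_div, hden, div_le_iff₀ hdenp]
  refine (Wrem_bound hh hM1 hM hr1 hφB bm bu).trans ?_
  have e1 : δ * (1 + u) - -δ = δ * (2 + u) := by ring
  have e2 : ‖δ * (1 + u) - -δ‖ ≤ (9 / 4) * ‖δ‖ := by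
    rw [e1, norm_mul, mul_comm]
    have : ‖2 + u‖ ≤ 9 / 4 := by
      have h4 := norm_add_le (2 : ℂ) u
      have h5 : ‖(2 : ℂ)‖ = 2 := by norm_num
      linarith only [hu, h4, h5]
    (clear * - this h2; gcongr)
  have h4 : 400 * (M * ‖δ‖) ≤ ‖rho h ψ‖ := by nlinarith only [h3, hM1, hR]
  calc 4 * M * (5 / 4 * ‖δ‖) ^ 3 * ‖δ * (1 + u) - -δ‖
      ≤ 4 * M * (5 / 4 * ‖δ‖) ^ 3 * ((9 / 4) * ‖δ‖) := by (clear * - e2 hM1 h2; gcongr)
    _ = (1125 / 64) * (M * ‖δ‖) * (‖δ‖ * ‖δ‖ ^ 2) := by ring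
    _ ≤ ‖rho h (ψ + δ)‖ * (‖δ‖ * ‖δ‖ ^ 2) := by
        gcongr
        linarith only [h4, hφl, hφp]
    _ = ‖δ‖ * (‖rho h (ψ + δ)‖ * ‖δ‖ ^ 2) := by ring

/-- stability of the fixed point equation -/
theorem u_stab {u us κ κs e : ℂ} (hu : ‖u‖ ≤ 1 / 4) (hus : ‖us‖ ≤ 1 / 4) (hκ : ‖κ‖ ≤ 1 / 200)
    (h1 : u = -(u ^ 2 / 2) - κ / 3 * ((1 + u) ^ 3 + 1) - e)
    (h2 : us = -(us ^ 2 / 2) - κs / 3 * ((1 + us) ^ 3 + 1)) :
    ‖u - us‖ ≤ 2 * (‖κ - κs‖ + ‖e‖) := by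
  have n2 : ‖(2 : ℂ)‖ = 2 := by norm_num
  have n3 : ‖(3 : ℂ)‖ = 3 := by norm_num
  have e1 : u - us = -((u + us) / 2) * (u - us)
      - κ / 3 * ((1 + u) ^ 2 + (1 + u) * (1 + us) + (1 + us) ^ 2) * (u - us)
      - (κ - κs) / 3 * ((1 + us) ^ 3 + 1) - e := by
    linear_combination h1 - h2
  have b1 : ‖1 + u‖ ≤ 5 / 4 := by
    have := norm_add_le (1 : ℂ) u
    rw [norm_one] at this; linarith only [this, hu]
  have b2 : ‖1 + us‖ ≤ 5 / 4 := by
    have := norm_add_le (1 : ℂ) us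
    rw [norm_one] at this; linarith only [hus, this]
  have a1 : ‖-((u + us) / 2)‖ ≤ 1 / 4 := by
    rw [norm_neg, norm_div, n2]
    have := norm_add_le u us
    linarith only [hu, hus, this]
  have a2 : ‖(1 + u) ^ 2 + (1 + u) * (1 + us) + (1 + us) ^ 2‖ ≤ 75 / 16 := by
    calc _ ≤ ‖(1 + u) ^ 2 + (1 + u) * (1 + us)‖ + ‖(1 + us) ^ 2‖ := norm_add_le _ _
      _ ≤ ‖(1 + u) ^ 2‖ + ‖(1 + u) * (1 + us)‖ + ‖(1 + us) ^ 2‖ := by
          gcongr; exact norm_add_le _ _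
      _ = ‖1 + u‖ ^ 2 + ‖1 + u‖ * ‖1 + us‖ + ‖1 + us‖ ^ 2 := by rw [norm_pow, norm_mul, norm_pow]
      _ ≤ (5 / 4) ^ 2 + (5 / 4) * (5 / 4) + (5 / 4) ^ 2 := by (clear * - b1 b2; gcongr)
      _ = 75 / 16 := by norm_num
  have a3 : ‖κ / 3 * ((1 + u) ^ 2 + (1 + u) * (1 + us) + (1 + us) ^ 2)‖ ≤ 1 / 100 := by
    rw [norm_mul, norm_div, n3]
    calc ‖κ‖ / 3 * ‖(1 + u) ^ 2 + (1 + u) * (1 + us) + (1 + us) ^ 2‖
        ≤ (1 / 200) / 3 * (75 / 16) := by (clear * - hκ a2; gcongr)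
      _ ≤ 1 / 100 := by norm_num
  have a4 : ‖(1 + us) ^ 3 + 1‖ ≤ 3 := by
    have b3 := norm_add_le ((1 + us) ^ 3) (1 : ℂ)
    rw [norm_pow, norm_one] at b3
    have : ‖1 + us‖ ^ 3 ≤ (5 / 4) ^ 3 := by (clear * - b2; gcongr)
    linarith only [b3, this]
  have a5 : ‖(κ - κs) / 3 * ((1 + us) ^ 3 + 1)‖ ≤ ‖κ - κs‖ := by
    rw [norm_mul, norm_div, n3]
    calc ‖κ - κs‖ / 3 * ‖(1 + us) ^ 3 + 1‖ ≤ ‖κ - κs‖ / 3 * 3 := by (clear * - a4; gcongr)
      _ = ‖κ - κs‖ := by ring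
  have hfin : ‖u - us‖ ≤ 1 / 4 * ‖u - us‖ + 1 / 100 * ‖u - us‖ + ‖κ - κs‖ + ‖e‖ := by
    calc ‖u - us‖ = ‖-((u + us) / 2) * (u - us)
          - κ / 3 * ((1 + u) ^ 2 + (1 + u) * (1 + us) + (1 + us) ^ 2) * (u - us)
          - (κ - κs) / 3 * ((1 + us) ^ 3 + 1) - e‖ := congrArg norm e1
      _ ≤ ‖-((u + us) / 2) * (u - us)
          - κ / 3 * ((1 + u) ^ 2 + (1 + u) * (1 + us) + (1 + us) ^ 2) * (u - us)
          - (κ - κs) / 3 * ((1 + us) ^ 3 + 1)‖ + ‖e‖ := norm_sub_le _ _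
      _ ≤ ‖-((u + us) / 2) * (u - us)
          - κ / 3 * ((1 + u) ^ 2 + (1 + u) * (1 + us) + (1 + us) ^ 2) * (u - us)‖
          + ‖(κ - κs) / 3 * ((1 + us) ^ 3 + 1)‖ + ‖e‖ := by gcongr; exact norm_sub_le _ _
      _ ≤ ‖-((u + us) / 2) * (u - us)‖
          + ‖κ / 3 * ((1 + u) ^ 2 + (1 + u) * (1 + us) + (1 + us) ^ 2) * (u - us)‖
          + ‖(κ - κs) / 3 * ((1 + us) ^ 3 + 1)‖ + ‖e‖ := by gcongr; exact norm_sub_le _ _
      _ ≤ 1 / 4 * ‖u - us‖ + 1 / 100 * ‖u - us‖ + ‖κ - κs‖ + ‖e‖ := by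
          rw [norm_mul (-((u + us) / 2)),
            norm_mul (κ / 3 * ((1 + u) ^ 2 + (1 + u) * (1 + us) + (1 + us) ^ 2))]
          (clear * - a1 a3 a5; gcongr)
  have := norm_nonneg (u - us)
  have := norm_nonneg e
  have := norm_nonneg (κ - κs)
  linarith

section algebra

variable {r : ℂ} (hr : 1 ≤ r.re)
include hr

theorem sq_ne : r ^ 2 + r + 1 ≠ 0 := by
  intro h0
  have h1 := congrArg Complex.re h0
  have h2 := congrArg Complex.im h0
  simp only [pow_two, add_re, mul_re, one_re, zero_re, add_im, mul_im, one_im, add_zero, zero_im] at h1 h2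
  have h3 : r.im * (2 * r.re + 1) = 0 := by linarith only [h2]
  have h4 : r.im = 0 := by
    rcases mul_eq_zero.1 h3 with h5 | h5
    · exact h5
    · linarith only [hr, h5]
  rw [h4] at h1
  nlinarith only [h1]

/-- the limiting fixed point -/
theorem us_eq : (1 - r) / (2 * r + 1) = -(((1 - r) / (2 * r + 1)) ^ 2 / 2)
    - ((2 * r + 1) * (r - 1) / (2 * (r ^ 2 + r + 1))) / 3
      * ((1 + (1 - r) / (2 * r + 1)) ^ 3 + 1) := by
  obtain ⟨n1, n2, n3, n4⟩ := aux_ne hr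
  have n5 := sq_ne hr
  have e1 : (1 - r) / (2 * r + 1) = 3 / 2 / (2 * r + 1) - 1 / 2 := by
    rw [eq_sub_iff_add_eq, div_add_div _ _ n3 two_ne_zero, div_eq_div_iff
      (mul_ne_zero n3 two_ne_zero) n3]
    ring
  obtain ⟨s, hs⟩ : ∃ s, s = 2 * r + 1 := ⟨_, rfl⟩
  have hr' : r = (s - 1) / 2 := by rw [hs]; ring
  rw [← hs] at n3
  have n5' : s ^ 2 + 3 ≠ 0 := by
    intro h0; apply n5; rw [hr']; linear_combination (1 / 4) * h0
  rw [hr']
  have e2 : 2 * ((s - 1) / 2) + 1 = s := by ring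
  have e3 : ((s - 1) / 2) ^ 2 + (s - 1) / 2 + 1 = (s ^ 2 + 3) / 4 := by ring
  rw [e2, e3]
  field_simp
  ring

theorem us_norm (hκ : ‖(2 * r + 1) * (r - 1) / (2 * (r ^ 2 + r + 1))‖ ≤ 1 / 200) :
    ‖(1 - r) / (2 * r + 1)‖ ≤ 1 / 4 := by
  obtain ⟨n1, n2, n3, n4⟩ := aux_ne hr
  have n5 := sq_ne hr
  obtain ⟨m1, m2, m3, m4⟩ := aux_norm hr
  have e : (1 - r) / (2 * r + 1) = -((2 * r + 1) * (r - 1) / (2 * (r ^ 2 + r + 1)))
      * (2 * (r ^ 2 + r + 1) / (2 * r + 1) ^ 2) := by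
    obtain ⟨s, hs⟩ : ∃ s, s = 2 * r + 1 := ⟨_, rfl⟩
    obtain ⟨w, hw⟩ : ∃ w, w = r ^ 2 + r + 1 := ⟨_, rfl⟩
    rw [← hs] at n3 ⊢
    rw [← hw] at n5 ⊢
    field_simp
    ring
  have h1 : ‖2 * (r ^ 2 + r + 1) / (2 * r + 1) ^ 2‖ ≤ 1 := by
    have e2 : 2 * (r ^ 2 + r + 1) = ((2 * r + 1) ^ 2 + 3) / 2 := by ring
    rw [norm_div, norm_pow, div_le_one (by positivity), e2, norm_div]
    have n2' : ‖(2 : ℂ)‖ = 2 := by norm_num
    have h3 := norm_add_le ((2 * r + 1) ^ 2) (3 : ℂ)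
    have h4 : ‖(3 : ℂ)‖ = 3 := by norm_num
    rw [norm_pow, h4] at h3
    rw [n2']
    nlinarith only [m3, h3]
  rw [e, norm_mul, norm_neg]
  calc ‖(2 * r + 1) * (r - 1) / (2 * (r ^ 2 + r + 1))‖
        * ‖2 * (r ^ 2 + r + 1) / (2 * r + 1) ^ 2‖ ≤ (1 / 200) * 1 := by (clear * - hκ h1; gcongr)
    _ ≤ 1 / 4 := by (clear * -; norm_num)

end algebra

end Vale.Agent.P097.Cusp
end
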