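import Mathlib
import Vale.Agent.P097.Defs

attribute [-instance] ProperSMul.toContinuousSMul IsTopologicalTorsor.toContinuousSMul IdemSemiring.toCanonicallyOrderedAdd IdemSemiring.toMulLeftMono IdemSemiring.toMulRightMono AddQuantale.instAddLeftMono AddQuantale.instAddRightMono Quantale.instMulLeftMono Quantale.instMulRightMono FiniteDimensional.rclike_to_real IsScalarTower.complexToReal FiniteDimensional.complexToReal

set_option linter.all false

section

/-!
# P097: line coordinates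

`K h φ ψ` is the value of the linear functional with direction `exp (φ I)` at the boundary point
with normal angle `ψ`, `T h φ ψ` is its `φ`-derivative and `S h a b` is the generating function of
the billiard in terms of the normal directions `a`, `b` of two consecutive chords.
-/

namespace Vale.Agent.P097

open Real Set

/-- radius of curvature -/
noncomputable def rad (h : ℝ → ℝ) (x : ℝ) : ℝ := h x + deriv (deriv h) x

noncomputable def K (h : ℝ → ℝ) (φ ψ : ℝ) : ℝ := h ψ * cos (ψ - φ) - deriv h ψ * sin (ψ - φ)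

noncomputable def T (h : ℝ → ℝ) (φ ψ : ℝ) : ℝ := h ψ * sin (ψ - φ) + deriv h ψ * cos (ψ - φ)

noncomputable def S (h : ℝ → ℝ) (a b : ℝ) : ℝ := 2 * h ((a + b) / 2) * sin ((b - a) / 2)

/-- Smooth enough: `h` is real-analytic at every point. -/
def An (h : ℝ → ℝ) : Prop := ∀ x, AnalyticAt ℝ h x

theorem An.deriv {h : ℝ → ℝ} (H : An h) : An (deriv h) := fun x => (H x).deriv

theorem An.hasDerivAt {h : ℝ → ℝ} (H : An h) (x : ℝ) : HasDerivAt h (_root_.deriv h x) x :=
  (H x).differentiableAt.hasDerivAt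

theorem An.continuous {h : ℝ → ℝ} (H : An h) : Continuous h :=
  continuous_iff_continuousAt.2 fun x => (H x).continuousAt

theorem An.rad {h : ℝ → ℝ} (H : An h) : An (rad h) := fun x =>
  (H x).add (H.deriv.deriv x)

theorem K_self (h : ℝ → ℝ) (φ : ℝ) : K h φ φ = h φ := by
  simp [K]

theorem hasDerivAt_K_snd {h : ℝ → ℝ} (H : An h) (φ ψ : ℝ) :
    HasDerivAt (fun x => K h φ x) (-(rad h ψ * sin (ψ - φ))) ψ := by
  have h1 := H.hasDerivAt ψ
  have h2 := H.deriv.hasDerivAt ψ
  have h3 : HasDerivAt (fun x : ℝ => x - φ) 1 ψ := (hasDerivAt_id ψ).sub_const φ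
  have h4 := (h1.mul h3.cos).sub (h2.mul h3.sin)
  refine h4.congr_deriv ?_
  simp only [rad]
  ring

theorem hasDerivAt_T_snd {h : ℝ → ℝ} (H : An h) (φ ψ : ℝ) :
    HasDerivAt (fun x => T h φ x) (rad h ψ * cos (ψ - φ)) ψ := by
  have h1 := H.hasDerivAt ψ
  have h2 := H.deriv.hasDerivAt ψ
  have h3 : HasDerivAt (fun x : ℝ => x - φ) 1 ψ := (hasDerivAt_id ψ).sub_const φ
  have h4 := (h1.mul h3.sin).add (h2.mul h3.cos)
  refine h4.congr_deriv ?_
  simp only [rad]
  ring

/-- total derivative of `K` along a curve -/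
theorem hasDerivAt_K {h : ℝ → ℝ} (H : An h) {φ ψ : ℝ → ℝ} {φ' ψ' t : ℝ}
    (hφ : HasDerivAt φ φ' t) (hψ : HasDerivAt ψ ψ' t) :
    HasDerivAt (fun x => K h (φ x) (ψ x))
      (T h (φ t) (ψ t) * φ' - rad h (ψ t) * sin (ψ t - φ t) * ψ') t := by
  have h1 := (H.hasDerivAt (ψ t)).comp t hψ
  have h2 := (H.deriv.hasDerivAt (ψ t)).comp t hψ
  have h3 := hψ.sub hφ
  have h4 := (h1.mul h3.cos).sub (h2.mul h3.sin)
  refine h4.congr_deriv ?_
  simp only [rad, T, Function.comp, Pi.sub_apply]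
  ring

/-- total derivative of `S` along a curve -/
theorem hasDerivAt_S {h : ℝ → ℝ} (H : An h) {a b : ℝ → ℝ} {a' b' t : ℝ}
    (ha : HasDerivAt a a' t) (hb : HasDerivAt b b' t) :
    HasDerivAt (fun x => S h (a x) (b x))
      (K h (b t) ((a t + b t) / 2) * b' - K h (a t) ((a t + b t) / 2) * a') t := by
  have h0 : HasDerivAt (fun x => (a x + b x) / 2) ((a' + b') / 2) t := (ha.add hb).div_const 2
  have h1 : HasDerivAt (fun x => h ((a x + b x) / 2))
      (deriv h ((a t + b t) / 2) * ((a' + b') / 2)) t :=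
    (H.hasDerivAt ((a t + b t) / 2)).comp t h0
  have h3 : HasDerivAt (fun x => (b x - a x) / 2) ((b' - a') / 2) t := (hb.sub ha).div_const 2
  have h4 := (h1.const_mul 2).mul h3.sin
  refine h4.congr_deriv ?_
  simp only [K]
  have e1 : (a t + b t) / 2 - b t = -((b t - a t) / 2) := by ring
  have e2 : (a t + b t) / 2 - a t = (b t - a t) / 2 := by ring
  rw [e1, e2, cos_neg, sin_neg]
  ring

theorem continuous_K {h : ℝ → ℝ} (H : An h) : Continuous (fun p : ℝ × ℝ => K h p.1 p.2) := by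
  have h1 := H.continuous
  have h2 := H.deriv.continuous
  unfold K
  fun_prop

/-- The radius of curvature is nonnegative, and positive somewhere in each interval. -/
structure Adm (h : ℝ → ℝ) : Prop where
  an : An h
  per : ∀ x, h (x + 2 * π) = h x
  nonneg : ∀ x, 0 ≤ rad h x
  dense : ∀ a b, a < b → ∃ x ∈ Ioo a b, 0 < rad h x

theorem IsTable.adm {h : ℝ → ℝ} (H : IsTable h) : Adm h where
  an := H.1
  per := H.2.1
  nonneg := fun x => (H.2.2 x).le
  dense := fun a b hab => ⟨(a + b) / 2, ⟨by linarith only [hab], by linarith⟩, H.2.2 _⟩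

theorem deriv_per {h : ℝ → ℝ} {c : ℝ} (hp : ∀ x, h (x + c) = h x) (x : ℝ) :
    deriv h (x + c) = deriv h x := by
  have : h = fun x => h (x + c) := by
    funext x; exact (hp x).symm
  conv_rhs => rw [this]
  rw [deriv_comp_add_const]

theorem rad_per {h : ℝ → ℝ} {c : ℝ} (hp : ∀ x, h (x + c) = h x) (x : ℝ) :
    rad h (x + c) = rad h x := by
  unfold rad
  rw [hp, deriv_per (deriv_per hp)]

theorem K_per {h : ℝ → ℝ} (hp : ∀ x, h (x + 2 * π) = h x) (φ ψ : ℝ) :
    K h (φ + 2 * π) (ψ + 2 * π) = K h φ ψ := by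
  unfold K
  rw [hp, deriv_per hp]
  have : ψ + 2 * π - (φ + 2 * π) = ψ - φ := by ring
  rw [this]

theorem T_per {h : ℝ → ℝ} (hp : ∀ x, h (x + 2 * π) = h x) (φ ψ : ℝ) :
    T h (φ + 2 * π) (ψ + 2 * π) = T h φ ψ := by
  unfold T
  rw [hp, deriv_per hp]
  have : ψ + 2 * π - (φ + 2 * π) = ψ - φ := by ring
  rw [this]

theorem S_per {h : ℝ → ℝ} (hp : ∀ x, h (x + 2 * π) = h x) (a b : ℝ) :
    S h (a + 2 * π) (b + 2 * π) = S h a b := by
  unfold S
  have e1 : (a + 2 * π + (b + 2 * π)) / 2 = (a + b) / 2 + 2 * π := by ring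
  have e2 : (b + 2 * π - (a + 2 * π)) / 2 = (b - a) / 2 := by ring
  rw [e1, e2, hp]

/-- `K h φ` strictly decreases on `[φ, φ + π]`. -/
theorem K_strictAnti {h : ℝ → ℝ} (H : Adm h) (φ : ℝ) :
    StrictAntiOn (fun ψ => K h φ ψ) (Icc φ (φ + π)) := by
  have hanti : AntitoneOn (fun ψ => K h φ ψ) (Icc φ (φ + π)) := by
    apply antitoneOn_of_deriv_nonpos (convex_Icc _ _)
    · exact fun x _ => (hasDerivAt_K_snd H.an φ x).continuousAt.continuousWithinAt
    · exact fun x _ => (hasDerivAt_K_snd H.an φ x).differentiableAt.differentiableWithinAt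
    · intro x hx
      rw [interior_Icc] at hx
      rw [(hasDerivAt_K_snd H.an φ x).deriv]
      have : 0 ≤ sin (x - φ) := sin_nonneg_of_nonneg_of_le_pi (by linarith [hx.1]) (by linarith [hx.2])
      have := mul_nonneg (H.nonneg x) this
      linarith
  intro x hx y hy hxy
  refine lt_of_le_of_ne (hanti hx hy hxy.le) ?_
  intro heq
  obtain ⟨z, hz, hpos⟩ := H.dense x y hxy
  have hz2 : z ∈ Ioo φ (φ + π) := ⟨lt_of_le_of_lt hx.1 hz.1, lt_of_lt_of_le hz.2 hy.2⟩
  have hconst : ∀ w ∈ Ioo x y, K h φ w = K h φ x := by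
    intro w hw
    have hw' : w ∈ Icc φ (φ + π) := ⟨hx.1.trans hw.1.le, hw.2.le.trans hy.2⟩
    have h1 := hanti hx hw' hw.1.le
    have h2 := hanti hw' hy hw.2.le
    simp only at heq h1 h2
    linarith
  have hd : HasDerivAt (fun ψ => K h φ ψ) 0 z := by
    have h1 : (fun ψ => K h φ ψ) =ᶠ[nhds z] fun _ => K h φ x := by
      filter_upwards [Ioo_mem_nhds hz.1 hz.2] with w hw
      exact hconst w hw
    exact (hasDerivAt_const z (K h φ x)).congr_of_eventuallyEq h1
  have h2 := hd.unique (hasDerivAt_K_snd H.an φ z)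
  have h3 : 0 < sin (z - φ) := sin_pos_of_pos_of_lt_pi (by linarith [hz2.1]) (by linarith [hz2.2])
  have := mul_pos hpos h3
  linarith

/-- `K h φ` strictly increases on `[φ - π, φ]`. -/
theorem K_strictMono {h : ℝ → ℝ} (H : Adm h) (φ : ℝ) :
    StrictMonoOn (fun ψ => K h φ ψ) (Icc (φ - π) φ) := by
  have hmono : MonotoneOn (fun ψ => K h φ ψ) (Icc (φ - π) φ) := by
    apply monotoneOn_of_deriv_nonneg (convex_Icc _ _)
    · exact fun x _ => (hasDerivAt_K_snd H.an φ x).continuousAt.continuousWithinAt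
    · exact fun x _ => (hasDerivAt_K_snd H.an φ x).differentiableAt.differentiableWithinAt
    · intro x hx
      rw [interior_Icc] at hx
      rw [(hasDerivAt_K_snd H.an φ x).deriv]
      have : sin (x - φ) ≤ 0 :=
        sin_nonpos_of_nonpos_of_neg_pi_le (by linarith [hx.2]) (by linarith [hx.1])
      have := mul_nonpos_of_nonneg_of_nonpos (H.nonneg x) this
      linarith
  intro x hx y hy hxy
  refine lt_of_le_of_ne (hmono hx hy hxy.le) ?_
  intro heq
  obtain ⟨z, hz, hpos⟩ := H.dense x y hxy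
  have hz2 : z ∈ Ioo (φ - π) φ := ⟨lt_of_le_of_lt hx.1 hz.1, lt_of_lt_of_le hz.2 hy.2⟩
  have hconst : ∀ w ∈ Ioo x y, K h φ w = K h φ x := by
    intro w hw
    have hw' : w ∈ Icc (φ - π) φ := ⟨hx.1.trans hw.1.le, hw.2.le.trans hy.2⟩
    have h1 := hmono hx hw' hw.1.le
    have h2 := hmono hw' hy hw.2.le
    simp only at heq h1 h2
    linarith
  have hd : HasDerivAt (fun ψ => K h φ ψ) 0 z := by
    have h1 : (fun ψ => K h φ ψ) =ᶠ[nhds z] fun _ => K h φ x := by
      filter_upwards [Ioo_mem_nhds hz.1 hz.2] with w hw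
      exact hconst w hw
    exact (hasDerivAt_const z (K h φ x)).congr_of_eventuallyEq h1
  have h2 := hd.unique (hasDerivAt_K_snd H.an φ z)
  have h3 : sin (z - φ) < 0 := sin_neg_of_neg_of_neg_pi_lt (by linarith [hz2.2]) (by linarith [hz2.1])
  have := mul_neg_of_pos_of_neg hpos h3
  linarith

/-- Increasing differences (supermodularity) of the generating function. -/
theorem S_super {h : ℝ → ℝ} (H : Adm h) {a a' b' b : ℝ} (h1 : a ≤ a') (h2 : a' ≤ b') (h3 : b' ≤ b)
    (h4 : b ≤ a + 2 * π) : S h a b + S h a' b' ≤ S h a' b + S h a b' := by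
  have hd : ∀ x, HasDerivAt (fun x => S h a' x - S h a x)
      (K h x ((a' + x) / 2) - K h x ((a + x) / 2)) x := by
    intro x
    have e1 := hasDerivAt_S H.an (hasDerivAt_const x a') (hasDerivAt_id x)
    have e2 := hasDerivAt_S H.an (hasDerivAt_const x a) (hasDerivAt_id x)
    refine (e1.sub e2).congr_deriv ?_
    simp
  have hmono : MonotoneOn (fun x => S h a' x - S h a x) (Icc b' b) := by
    apply monotoneOn_of_deriv_nonneg (convex_Icc _ _)
    · exact fun x _ => (hd x).continuousAt.continuousWithinAt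
    · exact fun x _ => (hd x).differentiableAt.differentiableWithinAt
    · intro x hx
      rw [interior_Icc] at hx
      rw [(hd x).deriv]
      have := (K_strictMono H x).monotoneOn (a := (a + x) / 2) (b := (a' + x) / 2)
        ⟨by linarith [hx.1, hx.2], by linarith [hx.1, hx.2]⟩
        ⟨by linarith [hx.1, hx.2], by linarith [hx.1, hx.2]⟩ (by linarith)
      linarith
  have := hmono (left_mem_Icc.2 h3) (right_mem_Icc.2 h3) h3
  simp only at this
  linarith

theorem S_self (h : ℝ → ℝ) (a : ℝ) : S h a a = 0 := by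
  simp [S]

/-- Inserting a suitable line strictly increases the functional. -/
theorem exists_gain {h : ℝ → ℝ} (H : Adm h) {a b : ℝ} (hab : a < b) (hb : b ≤ a + 2 * π) :
    ∃ z ∈ Ioo a b, S h a b < S h a z + S h z b := by
  have hd : HasDerivAt (fun z => S h a z + S h z b) (h a - K h a ((a + b) / 2)) a := by
    have e1 := hasDerivAt_S H.an (hasDerivAt_const a a) (hasDerivAt_id a)
    have e2 := hasDerivAt_S H.an (hasDerivAt_id a) (hasDerivAt_const a b)
    refine (e1.add e2).congr_deriv ?_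
    simp only [id]
    have : (a + a) / 2 = a := by ring
    rw [this, K_self]
    ring
  have hpos : 0 < h a - K h a ((a + b) / 2) := by
    have := K_strictAnti H a (a := a) (b := (a + b) / 2)
      ⟨le_refl _, by linarith [pi_pos]⟩ ⟨by linarith, by linarith⟩ (by linarith)
    simp only [K_self] at this
    linarith
  have h1 := (hasDerivAt_iff_tendsto_slope.1 hd)
  have h2 : ∀ᶠ z in nhdsWithin a (Ioi a), 0 < slope (fun z => S h a z + S h z b) a z := by
    have h3 := (h1.eventually (lt_mem_nhds hpos))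
    exact h3.filter_mono (nhdsWithin_mono _ (fun z hz => (ne_of_gt hz : z ≠ a)))
  have h3 : ∀ᶠ z in nhdsWithin a (Ioi a), z ∈ Ioo a b := Ioo_mem_nhdsGT hab
  obtain ⟨z, hz1, hz2⟩ := (h2.and h3).exists
  refine ⟨z, hz2, ?_⟩
  rw [slope_def_field] at hz1
  have h4 : 0 < z - a := by linarith [hz2.1]
  have h5 := (div_pos_iff_of_pos_right h4).1 hz1
  simp only [S_self] at h5
  linarith

/-- Geometry of a bounce: the two impact points lie on one line. -/
theorem Step.K_eq {h : ℝ → ℝ} {ψ δ ψ' δ' : ℝ} (H : Step h ψ δ ψ' δ') :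
    K h (ψ + δ) ψ = K h (ψ + δ) ψ' := by
  obtain ⟨_, _, _, _, _, ℓ, _, he⟩ := H
  have key : ∀ x φ : ℝ, ((starRingEnd ℂ) (Complex.exp ((φ : ℂ) * Complex.I)) * bdry h x).re
      = K h φ x := by
    intro x φ
    have e1 : (starRingEnd ℂ) (Complex.exp ((φ : ℂ) * Complex.I))
        = Complex.exp (((-φ : ℝ) : ℂ) * Complex.I) := by
      rw [← Complex.exp_conj]
      simp
    have e2 : Complex.exp (((-φ : ℝ) : ℂ) * Complex.I) * Complex.exp ((x : ℂ) * Complex.I)
        = Complex.exp (((x - φ : ℝ) : ℂ) * Complex.I) := by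
      rw [← Complex.exp_add]
      congr 1
      push_cast
      ring
    rw [e1, bdry, mul_comm, mul_assoc, mul_comm (Complex.exp ((x : ℂ) * Complex.I)), e2]
    simp only [Complex.mul_re, Complex.add_re, Complex.add_im, Complex.ofReal_re,
      Complex.ofReal_im, Complex.mul_im, Complex.I_re, Complex.I_im, Complex.exp_ofReal_mul_I_re,
      Complex.exp_ofReal_mul_I_im, K]
    ring
  have h1 := congrArg
    (fun w => ((starRingEnd ℂ) (Complex.exp (((ψ + δ : ℝ) : ℂ) * Complex.I)) * w).re) he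
  simp only [mul_add, Complex.add_re] at h1
  have e3 : (starRingEnd ℂ) (Complex.exp (((ψ + δ : ℝ) : ℂ) * Complex.I)) *
      ((ℓ : ℂ) * (Complex.I * Complex.exp (((ψ + δ : ℝ) : ℂ) * Complex.I)))
      = (ℓ : ℂ) * Complex.I := by
    have e4 : (starRingEnd ℂ) (Complex.exp (((ψ + δ : ℝ) : ℂ) * Complex.I)) *
        Complex.exp (((ψ + δ : ℝ) : ℂ) * Complex.I) = 1 := by
      rw [← Complex.exp_conj, ← Complex.exp_add]
      simp
    calc _ = (ℓ : ℂ) * Complex.I * ((starRingEnd ℂ) (Complex.exp (((ψ + δ : ℝ) : ℂ) * Complex.I)) *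
        Complex.exp (((ψ + δ : ℝ) : ℂ) * Complex.I)) := by ring
      _ = _ := by rw [e4, mul_one]
  rw [e3] at h1
  rw [key, key] at h1
  simp at h1
  exact h1.symm

end Vale.Agent.P097
end

section

/-!
# P097: orbits on an invariant graph
-/

namespace Vale.Agent.P097

open Real Set Filter Topology

theorem next_unique {h : ℝ → ℝ} (H : Adm h) {φ x y : ℝ} (hx : x ∈ Icc φ (φ + π))
    (hy : y ∈ Icc φ (φ + π)) (he : K h φ x = K h φ y) : x = y :=
  (K_strictAnti H φ).injOn hx hy he

theorem prev_unique {h : ℝ → ℝ} (H : Adm h) {φ x y : ℝ} (hx : x ∈ Icc (φ - π) φ)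
    (hy : y ∈ Icc (φ - π) φ) (he : K h φ x = K h φ y) : x = y :=
  (K_strictMono H φ).injOn hx hy he

theorem surjective_of_shift {F : ℝ → ℝ} (hcont : Continuous F)
    (hFp : ∀ x, F (x + 2 * π) = F x + 2 * π) : Function.Surjective F := by
  have hup : ∀ n : ℕ, F (0 + n * (2 * π)) = F 0 + n * (2 * π) := by
    intro n
    induction n with
    | zero => simp only [CharP.cast_eq_zero, zero_mul, add_zero]
    | succ k ih =>
      have : (0 : ℝ) + ((k + 1 : ℕ) : ℝ) * (2 * π) = (0 + k * (2 * π)) + 2 * π := by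
        push_cast; ring
      rw [this, hFp, ih]
      push_cast; ring
  have hdown : ∀ n : ℕ, F (0 - n * (2 * π)) = F 0 - n * (2 * π) := by
    intro n
    induction n with
    | zero => simp
    | succ k ih =>
      have h1 := hFp (0 - ((k + 1 : ℕ) : ℝ) * (2 * π))
      have : (0 : ℝ) - ((k + 1 : ℕ) : ℝ) * (2 * π) + 2 * π = 0 - k * (2 * π) := by
        push_cast; ring
      rw [this, ih] at h1
      push_cast at h1 ⊢
      linarith only [h1]
  intro y
  obtain ⟨n, hn⟩ := exists_nat_gt ((|y| + |F 0|) / (2 * π))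
  have h2π : (0 : ℝ) < 2 * π := by positivity
  rw [div_lt_iff₀ h2π] at hn
  have h1 := abs_le.1 (le_refl |y|)
  have h2 := abs_le.1 (le_refl |F 0|)
  have := intermediate_value_Icc (a := 0 - n * (2 * π)) (b := 0 + n * (2 * π))
    (by have : (0 : ℝ) ≤ n * (2 * π) := by (clear * -; positivity)
        linarith only [hn, h1, h2]) hcont.continuousOn
  rw [hup, hdown] at this
  obtain ⟨x, _, hx⟩ := this (show y ∈ Icc _ _ from ⟨by linarith only [hn, h1, h2],
    by linarith [h1.1, h1.2, h2.1, h2.2]⟩)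
  exact ⟨x, hx⟩

theorem strictMono_of_shift {F : ℝ → ℝ} (hcont : Continuous F)
    (hFp : ∀ x, F (x + 2 * π) = F x + 2 * π) (hinj : Function.Injective F) : StrictMono F := by
  rcases hcont.strictMono_of_inj hinj with hm | hm
  · exact hm
  · exfalso
    have := hm (show (0 : ℝ) < 0 + 2 * π by linarith only [pi_pos])
    rw [hFp] at this
    linarith only [this, pi_pos]

theorem InvGraph.exists_F' {h f : ℝ → ℝ} (H : Adm h) (G : InvGraph h f) :
    ∃ F : ℝ → ℝ, (∀ ψ, Step h ψ (f ψ) (F ψ) (f (F ψ))) ∧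
      (∀ ψ, F ψ = ψ + f ψ + f (F ψ)) ∧ (∀ ψ, K h (ψ + f ψ) ψ = K h (ψ + f ψ) (F ψ)) ∧
      StrictMono F ∧ Function.Surjective F := by
  obtain ⟨hfc, hfp, hf, hstep⟩ := G
  choose F hF using hstep
  have hF1 : ∀ ψ, F ψ = ψ + f ψ + f (F ψ) := fun ψ => (hF ψ).2.2.2.2.1
  have hK : ∀ ψ, K h (ψ + f ψ) ψ = K h (ψ + f ψ) (F ψ) := fun ψ => (hF ψ).K_eq
  have hcK := continuous_K H.an
  have hinj : Function.Injective F := by
    intro x y hxy
    have e1 : x + f x = y + f y := by
      have := hF1 x; have := hF1 y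
      rw [hxy] at *
      (clear h H hfc hfp hf hF hF1 hK hcK hxy; linarith)
    apply prev_unique H (φ := x + f x) ⟨by linarith only [(hf x).2], by linarith [(hf x).1]⟩
    · rw [e1]
      exact ⟨by linarith [(hf y).2], by linarith [(hf y).1]⟩
    · rw [hK x, hxy, e1, hK y]
  have hlow : ∀ ψ, ψ + f ψ < F ψ := fun ψ => by linarith [hF1 ψ, (hf (F ψ)).1]
  have hhigh : ∀ ψ, F ψ < ψ + f ψ + π := fun ψ => by linarith [hF1 ψ, (hf (F ψ)).2]
  have hcont : Continuous F := by
    rw [continuous_iff_continuousAt]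
    intro x
    refine tendsto_order.2 ⟨fun a ha => ?_, fun a ha => ?_⟩
    · obtain ⟨a', h1, h2⟩ := exists_between (max_lt ha (hlow x))
      have h3 : x + f x < a' := lt_of_le_of_lt (le_max_right _ _) h1
      have h4 : a < a' := lt_of_le_of_lt (le_max_left _ _) h1
      have h5 : K h (x + f x) x < K h (x + f x) a' := by
        rw [hK x]
        exact K_strictAnti H _ ⟨h3.le, by linarith only [h2, hhigh x]⟩ ⟨(hlow x).le, (hhigh x).le⟩ h2
      have c1 : Continuous fun y => K h (y + f y) y :=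
        hcK.comp ((continuous_id.add hfc).prodMk continuous_id)
      have c2 : Continuous fun y => K h (y + f y) a' :=
        hcK.comp ((continuous_id.add hfc).prodMk continuous_const)
      have e1 : ∀ᶠ y in 𝓝 x, K h (y + f y) y < K h (y + f y) a' :=
        (c1.continuousAt (x := x)).eventually_lt c2.continuousAt h5
      have e2 : ∀ᶠ y in 𝓝 x, y + f y < a' :=
        ((continuous_id.add hfc).continuousAt (x := x)).eventually_lt continuousAt_const h3
      have e3 : ∀ᶠ y in 𝓝 x, a' < y + f y + π :=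
        continuousAt_const.eventually_lt
          (((continuous_id.add hfc).add continuous_const).continuousAt (x := x))
          (show a' < x + f x + π by linarith only [h2, hhigh x])
      filter_upwards [e1, e2, e3] with y h6 h7 h8
      refine h4.trans ?_
      by_contra hcon
      push Not at hcon
      have := (K_strictAnti H (y + f y)).antitoneOn ⟨(hlow y).le, (hhigh y).le⟩
        ⟨h7.le, h8.le⟩ hcon
      linarith only [h6, this, hK y]
    · obtain ⟨a', h1, h2⟩ := exists_between (lt_min ha (hhigh x))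
      have h3 : a' < x + f x + π := lt_of_lt_of_le h2 (min_le_right _ _)
      have h4 : a' < a := lt_of_lt_of_le h2 (min_le_left _ _)
      have h5 : K h (x + f x) a' < K h (x + f x) x := by
        rw [hK x]
        exact K_strictAnti H _ ⟨(hlow x).le, (hhigh x).le⟩ ⟨by linarith [hlow x], h3.le⟩ h1
      have c1 : Continuous fun y => K h (y + f y) y :=
        hcK.comp ((continuous_id.add hfc).prodMk continuous_id)
      have c2 : Continuous fun y => K h (y + f y) a' :=
        hcK.comp ((continuous_id.add hfc).prodMk continuous_const)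
      have e1 : ∀ᶠ y in 𝓝 x, K h (y + f y) a' < K h (y + f y) y :=
        (c2.continuousAt (x := x)).eventually_lt c1.continuousAt h5
      have e2 : ∀ᶠ y in 𝓝 x, y + f y < a' :=
        ((continuous_id.add hfc).continuousAt (x := x)).eventually_lt continuousAt_const
          (show x + f x < a' by linarith [hlow x])
      have e3 : ∀ᶠ y in 𝓝 x, a' < y + f y + π :=
        continuousAt_const.eventually_lt
          (((continuous_id.add hfc).add continuous_const).continuousAt (x := x))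
          (show a' < x + f x + π by linarith)
      filter_upwards [e1, e2, e3] with y h6 h7 h8
      refine lt_trans ?_ h4
      by_contra hcon
      push Not at hcon
      have := (K_strictAnti H (y + f y)).antitoneOn ⟨h7.le, h8.le⟩
        ⟨(hlow y).le, (hhigh y).le⟩ hcon
      linarith only [h6, this, hK y]
  have hFp : ∀ x, F (x + 2 * π) = F x + 2 * π := by
    intro x
    apply next_unique H (φ := x + 2 * π + f (x + 2 * π))
      ⟨(hlow _).le, (hhigh _).le⟩
    · rw [hfp]
      exact ⟨by linarith only [hlow x], by linarith [hhigh x]⟩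
    · rw [← hK (x + 2 * π), hfp]
      have e1 : x + 2 * π + f x = (x + f x) + 2 * π := by ring
      rw [e1, K_per H.per, K_per H.per, hK x]
  exact ⟨F, hF, hF1, hK, strictMono_of_shift hcont hFp hinj, surjective_of_shift hcont hFp⟩

theorem InvGraph.exists_F {h f : ℝ → ℝ} (H : Adm h) (G : InvGraph h f) :
    ∃ F : ℝ → ℝ, (∀ ψ, F ψ = ψ + f ψ + f (F ψ)) ∧ (∀ ψ, K h (ψ + f ψ) ψ = K h (ψ + f ψ) (F ψ)) ∧
      StrictMono F ∧ Function.Surjective F := by
  obtain ⟨F, _, h⟩ := G.exists_F' H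
  exact ⟨F, h⟩

/-- Forward propagation along an invariant graph. -/
theorem InvGraph.forward {h f : ℝ → ℝ} (H : Adm h) (G : InvGraph h f) {z x y : ℝ}
    (hx : f x = z - x) (hy : y ∈ Icc z (z + π)) (hK : K h z x = K h z y) : f y = y - z := by
  obtain ⟨F, h1, h2, _, _⟩ := G.exists_F H
  have hz : x + f x = z := by linarith only [hx]
  have hF := h1 x
  have hFK := h2 x
  rw [hz] at hF hFK
  have hf := G.2.2.1
  have : F x = y := next_unique H (φ := z) ⟨by linarith only [hF, (hf (F x)).1], by linarith only [hF, (hf (F x)).2]⟩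
    hy (by rw [← hFK, hK])
  rw [this] at hF
  linarith only [hF]

/-- Backward propagation along an invariant graph. -/
theorem InvGraph.backward {h f : ℝ → ℝ} (H : Adm h) (G : InvGraph h f) {z x y : ℝ}
    (hy : f y = y - z) (hx : x ∈ Icc (z - π) z) (hK : K h z x = K h z y) : f x = z - x := by
  obtain ⟨F, h1, h2, _, hs⟩ := G.exists_F H
  obtain ⟨w, hw⟩ := hs y
  have hF := h1 w
  have hFK := h2 w
  have hz : w + f w = z := by rw [hw] at hF; linarith only [hy, hF]
  rw [hz, hw] at hFK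
  have hf := G.2.2.1
  have : w = x := prev_unique H (φ := z) ⟨by linarith only [hz, (hf w).2], by linarith only [hz, (hf w).1]⟩
    hx (by rw [hFK, hK])
  rw [this] at hz
  linarith only [hz]

/-- The incoming direction determines the point of an invariant graph. -/
theorem InvGraph.inj {h f : ℝ → ℝ} (H : Adm h) (G : InvGraph h f) {z x y : ℝ}
    (hx : f x = x - z) (hy : f y = y - z) : x = y := by
  obtain ⟨F, h1, h2, hm, hs⟩ := G.exists_F H
  have hf := G.2.2.1
  have main : ∀ x y : ℝ, f x = x - z → f y = y - z → ¬ x < y := by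
    intro x y hx hy hxy
    obtain ⟨x', hx'⟩ := hs x
    obtain ⟨y', hy'⟩ := hs y
    have a1 := h1 x'
    have a2 := h2 x'
    have b1 := h1 y'
    have b2 := h2 y'
    have zx : x' + f x' = z := by rw [hx'] at a1; linarith only [hx, a1]
    have zy : y' + f y' = z := by rw [hy'] at b1; linarith only [hy, b1]
    rw [zx, hx'] at a2
    rw [zy, hy'] at b2
    have c1 : K h z y < K h z x := K_strictAnti H z
      ⟨by linarith only [hx, (hf x).1], by linarith only [hx, (hf x).2]⟩
      ⟨by linarith only [hy, (hf y).1], by linarith only [hy, (hf y).2]⟩ hxy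
    have c2 : y' < x' := by
      by_contra hcon
      push Not at hcon
      have := (K_strictMono H z).monotoneOn
        (⟨by linarith only [zx, (hf x').2], by linarith only [zx, (hf x').1]⟩ : x' ∈ Icc (z - π) z)
        (⟨by linarith only [zy, (hf y').2], by linarith only [zy, (hf y').1]⟩ : y' ∈ Icc (z - π) z) hcon
      linarith only [a2, b2, c1, this]
    have := hm c2
    rw [hx', hy'] at this
    linarith only [hxy, this]
  rcases lt_trichotomy x y with hlt | heq | hgt
  · exact absurd hlt (main x y hx hy)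
  · exact heq
  · exact absurd hgt (main y x hy hx)

/-- Closing: if the incoming line of `x` is `z` and the outgoing line of `y` is `z + 2π`, then
all fits together. -/
theorem InvGraph.closing {h f : ℝ → ℝ} (H : Adm h) (G : InvGraph h f) {z x y : ℝ}
    (hx : f x = x - z) (hy : f y = z + 2 * π - y) : K h (z + 2 * π) y = K h z x := by
  obtain ⟨F, h1, h2, hm, hs⟩ := G.exists_F H
  have hf := G.2.2.1
  have a1 := h1 y
  have a2 := h2 y
  have zy : y + f y = z + 2 * π := by linarith only [hy]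
  rw [zy] at a1 a2
  have hFy : F y = x + 2 * π := by
    apply G.inj H (z := z + 2 * π)
    · linarith only [a1]
    · rw [G.2.1, hx]; ring
  rw [a2, hFy, K_per H.per]

end Vale.Agent.P097
end

section

/-!
# P097: polygons of lines, maximal configurations
-/

namespace Vale.Agent.P097

open Real Set Filter Topology

/-- The functional of a chain of lines. -/
noncomputable def L (h : ℝ → ℝ) (n : ℕ) (Z : ℕ → ℝ) : ℝ :=
  ∑ j ∈ Finset.range (n + 1), S h (Z j) (Z (j + 1))

def Cfg (n : ℕ) (θ : ℝ) (Z : ℕ → ℝ) : Prop :=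
  Z 0 = θ ∧ Z (n + 1) = θ + 2 * π ∧ ∀ j ≤ n, Z j ≤ Z (j + 1)

def IsMaxC (h : ℝ → ℝ) (n : ℕ) (θ : ℝ) (Z : ℕ → ℝ) : Prop :=
  Cfg n θ Z ∧ ∀ Z', Cfg n θ Z' → L h n Z' ≤ L h n Z

/-- normal angle of the bounce between line `j` and line `j+1` -/
noncomputable def mid (Z : ℕ → ℝ) (j : ℕ) : ℝ := (Z j + Z (j + 1)) / 2

theorem Cfg.mono {n : ℕ} {θ : ℝ} {Z : ℕ → ℝ} (C : Cfg n θ Z) {i j : ℕ} (hij : i ≤ j)
    (hj : j ≤ n + 1) : Z i ≤ Z j := by
  induction j, hij using Nat.le_induction with
  | base => exact le_refl _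
  | succ k hk ih => exact (ih (by omega)).trans (C.2.2 k (by omega))

theorem Cfg.gap_le {n : ℕ} {θ : ℝ} {Z : ℕ → ℝ} (C : Cfg n θ Z) {i j : ℕ}
    (hi : i ≤ n + 1) (hj : j ≤ n + 1) : Z j ≤ Z i + 2 * π := by
  have h1 := C.mono (Nat.zero_le i) hi
  have h2 := C.mono hj le_rfl
  rw [C.1] at h1
  rw [C.2.1] at h2
  linarith only [h1, h2]

theorem L_update (h : ℝ → ℝ) {n k : ℕ} (hk : k + 1 ≤ n) (Z : ℕ → ℝ) (z : ℝ) :
    L h n (Function.update Z (k + 1) z) = L h n Z +
      ((S h (Z k) z + S h z (Z (k + 2))) -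
        (S h (Z k) (Z (k + 1)) + S h (Z (k + 1)) (Z (k + 2)))) := by
  unfold L
  rw [← sub_eq_iff_eq_add', ← Finset.sum_sub_distrib]
  have hsub : ({k, k + 1} : Finset ℕ) ⊆ Finset.range (n + 1) := by
    intro j hj
    simp only [Finset.mem_insert, Finset.mem_singleton] at hj
    rw [Finset.mem_range]
    omega
  rw [← Finset.sum_subset hsub]
  · rw [Finset.sum_pair (by omega)]
    have e1 : Function.update Z (k + 1) z k = Z k := Function.update_of_ne (by omega) _ _
    have e2 : Function.update Z (k + 1) z (k + 1) = z := Function.update_self _ _ _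
    have e3 : Function.update Z (k + 1) z (k + 1 + 1) = Z (k + 2) :=
      Function.update_of_ne (by omega) _ _
    rw [e1, e2, e3]
    ring
  · intro j _ hj
    simp only [Finset.mem_insert, Finset.mem_singleton, not_or] at hj
    rw [Function.update_of_ne (by omega), Function.update_of_ne (by omega), sub_self]

theorem Cfg.update {n k : ℕ} {θ : ℝ} {Z : ℕ → ℝ} (C : Cfg n θ Z) (hk : k + 1 ≤ n) {z : ℝ}
    (h1 : Z k ≤ z) (h2 : z ≤ Z (k + 2)) : Cfg n θ (Function.update Z (k + 1) z) := by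
  refine ⟨?_, ?_, ?_⟩
  · rw [Function.update_of_ne (by omega)]
    exact C.1
  · rw [Function.update_of_ne (by omega)]
    exact C.2.1
  · intro j hj
    by_cases e1 : j = k
    · subst e1
      rw [Function.update_self, Function.update_of_ne (by omega)]
      exact h1
    · by_cases e2 : j = k + 1
      · subst e2
        rw [Function.update_self, Function.update_of_ne (by omega)]
        exact h2
      · rw [Function.update_of_ne e2, Function.update_of_ne (by omega)]
        exact C.2.2 j hj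

theorem IsMaxC.local {h : ℝ → ℝ} {n k : ℕ} {θ : ℝ} {Z : ℕ → ℝ} (M : IsMaxC h n θ Z)
    (hk : k + 1 ≤ n) {z : ℝ} (h1 : Z k ≤ z) (h2 : z ≤ Z (k + 2)) :
    S h (Z k) z + S h z (Z (k + 2)) ≤
      S h (Z k) (Z (k + 1)) + S h (Z (k + 1)) (Z (k + 2)) := by
  have := M.2 _ (M.1.update hk h1 h2)
  rw [L_update h hk] at this
  linarith only [this]

/-- All gaps of a maximal configuration are positive. -/
theorem IsMaxC.pos {h : ℝ → ℝ} (H : Adm h) {n : ℕ} {θ : ℝ} {Z : ℕ → ℝ} (M : IsMaxC h n θ Z) :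
    ∀ j ≤ n, Z j < Z (j + 1) := by
  have hle := M.1.2.2
  have key : ∀ k, k + 1 ≤ n → (Z k = Z (k + 1) ↔ Z (k + 1) = Z (k + 2)) := by
    intro k hk
    by_contra hcon
    have h1 := hle k (by omega)
    have h2 := hle (k + 1) hk
    have h3 : Z k < Z (k + 2) := by
      rcases lt_or_eq_of_le h1 with h | h
      · exact lt_of_lt_of_le h h2
      · rcases lt_or_eq_of_le h2 with h' | h'
        · exact lt_of_le_of_lt h1 h'
        · exact absurd (by (clear * - hcon h h'; tauto)) hcon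
    obtain ⟨z, hz, hgain⟩ := exists_gain H h3 (M.1.gap_le (by omega) (by omega))
    have h4 := M.local hk hz.1.le hz.2.le
    have h5 : S h (Z k) (Z (k + 1)) + S h (Z (k + 1)) (Z (k + 2)) = S h (Z k) (Z (k + 2)) := by
      by_cases e1 : Z k = Z (k + 1)
      · rw [e1, S_self, zero_add]
      · by_cases e2 : Z (k + 1) = Z (k + 2)
        · rw [← e2, S_self, add_zero]
        · exact absurd (by (clear * - hcon e2 e1; tauto)) hcon
    linarith only [hgain, h4, h5]
  have key2 : ∀ j ≤ n, (Z j = Z (j + 1) ↔ Z 0 = Z 1) := by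
    intro j
    induction j with
    | zero => intro _; rfl
    | succ k ih =>
      intro hk
      rw [← key k hk]
      exact ih (by omega)
  intro j hj
  rcases lt_or_eq_of_le (hle j hj) with h | h
  · exact h
  · exfalso
    have h0 : Z 0 = Z 1 := (key2 j hj).1 h
    have hall : ∀ i ≤ n + 1, Z i = Z 0 := by
      intro i
      induction i with
      | zero => intro _; rfl
      | succ k ih =>
        intro hk
        rw [← (key2 k (by omega)).2 h0]
        exact ih (by omega)
    have := hall (n + 1) le_rfl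
    rw [M.1.1, M.1.2.1] at this
    linarith only [this, pi_pos]

/-- Criticality at the interior lines. -/
theorem IsMaxC.crit {h : ℝ → ℝ} (H : Adm h) {n k : ℕ} {θ : ℝ} {Z : ℕ → ℝ} (M : IsMaxC h n θ Z)
    (hk : k + 1 ≤ n) : K h (Z (k + 1)) (mid Z k) = K h (Z (k + 1)) (mid Z (k + 1)) := by
  have hp := M.pos H
  have h1 := hp k (by omega)
  have h2 := hp (k + 1) hk
  have hd : HasDerivAt (fun z => S h (Z k) z + S h z (Z (k + 2)))
      (K h (Z (k + 1)) (mid Z k) - K h (Z (k + 1)) (mid Z (k + 1))) (Z (k + 1)) := by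
    have e1 := hasDerivAt_S H.an (hasDerivAt_const (Z (k + 1)) (Z k)) (hasDerivAt_id _)
    have e2 := hasDerivAt_S H.an (hasDerivAt_id _) (hasDerivAt_const (Z (k + 1)) (Z (k + 2)))
    refine (e1.add e2).congr_deriv ?_
    simp only [id, mid]
    ring
  have hmax : IsLocalMax (fun z => S h (Z k) z + S h z (Z (k + 2))) (Z (k + 1)) := by
    filter_upwards [Ioo_mem_nhds h1 h2] with z hz
    exact M.local hk hz.1.le hz.2.le
  have := hmax.hasDerivAt_eq_zero hd
  linarith only [this]

theorem sum_telescope (n : ℕ) (a b : ℕ → ℝ) (h : ∀ k, k + 1 ≤ n → b k = a (k + 1)) :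
    ∑ j ∈ Finset.range (n + 1), (b j - a j) = b n - a 0 := by
  induction n with
  | zero => simp
  | succ m ih =>
    rw [Finset.sum_range_succ, ih (fun k hk => h k (by omega)), h m (by omega)]
    ring

/-- Propagation of an invariant graph along a critical chain. -/
theorem InvGraph.chain {h f : ℝ → ℝ} (H : Adm h) (G : InvGraph h f) {n : ℕ} {Z : ℕ → ℝ}
    (hpos : ∀ j ≤ n, Z j < Z (j + 1)) (hlen : ∀ j ≤ n, Z (j + 1) ≤ Z j + 2 * π)
    (hcrit : ∀ k, k + 1 ≤ n → K h (Z (k + 1)) (mid Z k) = K h (Z (k + 1)) (mid Z (k + 1)))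
    {i : ℕ} (hi : i ≤ n) (hf : f (mid Z i) = Z (i + 1) - mid Z i) :
    ∀ j ≤ n, f (mid Z j) = Z (j + 1) - mid Z j := by
  have key : ∀ k, k + 1 ≤ n → (f (mid Z k) = Z (k + 1) - mid Z k ↔
      f (mid Z (k + 1)) = Z (k + 2) - mid Z (k + 1)) := by
    intro k hk
    have p1 := hpos k (by omega)
    have p2 := hpos (k + 1) hk
    have l1 := hlen k (by omega)
    have l2 := hlen (k + 1) hk
    have m1 : mid Z (k + 1) ∈ Icc (Z (k + 1)) (Z (k + 1) + π) := by
      simp only [mid]
      constructor <;> linarith only [l2, p2]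
    have m2 : mid Z k ∈ Icc (Z (k + 1) - π) (Z (k + 1)) := by
      simp only [mid]
      constructor <;> linarith only [l1, p1]
    have e : mid Z (k + 1) - Z (k + 1) = Z (k + 2) - mid Z (k + 1) := by
      simp only [mid]
      ring
    constructor
    · intro hk'
      rw [← e]
      exact G.forward H hk' m1 (hcrit k hk)
    · intro hk'
      rw [← e] at hk'
      exact G.backward H hk' m2 (hcrit k hk)
  have key2 : ∀ j ≤ n, (f (mid Z j) = Z (j + 1) - mid Z j ↔ f (mid Z 0) = Z 1 - mid Z 0) := by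
    intro j
    induction j with
    | zero => intro _; rfl
    | succ k ih =>
      intro hk
      rw [← key k hk]
      exact ih (by omega)
  intro j hj
  exact (key2 j hj).2 ((key2 i hi).1 hf)

/-- Closing of a configuration: the two impact points on line `0` and on line `n + 1` fit. -/
def Closes (h : ℝ → ℝ) (n : ℕ) (Z : ℕ → ℝ) : Prop :=
  K h (Z (n + 1)) (mid Z n) = K h (Z 0) (mid Z 0)

theorem IsMaxC.closes_of_collar {h : ℝ → ℝ} (H : Adm h) {η : ℝ} (hη : Collar h η) {n : ℕ}
    (hn : π / (n + 1) < η) {θ : ℝ} {Z : ℕ → ℝ} (M : IsMaxC h n θ Z) : Closes h n Z := by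
  have hp := M.pos H
  obtain ⟨i, hi, hgap⟩ : ∃ i ≤ n, (Z (i + 1) - Z i) ≤ 2 * π / (n + 1) := by
    by_contra hcon
    push Not at hcon
    have h1 : ∑ j ∈ Finset.range (n + 1), (2 * π / (n + 1) : ℝ) <
        ∑ j ∈ Finset.range (n + 1), (Z (j + 1) - Z j) := by
      apply Finset.sum_lt_sum_of_nonempty ⟨0, by simp only [Finset.mem_range, lt_add_iff_pos_left, Order.lt_add_one_iff, zero_le]⟩
      intro j hj
      exact hcon j (by rw [Finset.mem_range] at hj; omega)
    rw [Finset.sum_range_sub, M.1.1, M.1.2.1, Finset.sum_const, Finset.card_range, nsmul_eq_mul]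
      at h1
    push_cast at h1
    have hn1 : (0 : ℝ) < n + 1 := by (clear * -; positivity)
    have h2 : ((n : ℝ) + 1) * (2 * π / (n + 1)) = 2 * π := by field_simp
    rw [h2] at h1
    linarith only [h1]
  obtain ⟨f, G, hf⟩ := hη (mid Z i) (Z (i + 1) - mid Z i)
    (by have := hp i hi; simp only [mid]; linarith only [this])
    (by
      have e : Z (i + 1) - mid Z i = (Z (i + 1) - Z i) / 2 := by simp only [mid]; ring
      rw [e]
      have e2 : 2 * π / ((n : ℝ) + 1) = 2 * (π / (n + 1)) := by ring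
      rw [e2] at hgap
      linarith only [hgap, hn])
  have hall := G.chain H hp (fun j hj => M.1.gap_le (by omega) (by omega))
    (fun k hk => M.crit H hk) hi hf
  have h0 := hall 0 (Nat.zero_le n)
  have hn' := hall n le_rfl
  have e0 : Z 1 - mid Z 0 = mid Z 0 - Z 0 := by simp only [mid]; ring
  unfold Closes
  rw [M.1.2.1, M.1.1]
  apply G.closing H
  · rw [h0, zero_add, e0, M.1.1]
  · rw [hn', M.1.2.1]

/-- The functional is stationary under a rotation of all lines. -/
theorem hasDerivAt_rot {h : ℝ → ℝ} (H : An h) (n : ℕ) (Z : ℕ → ℝ) :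
    HasDerivAt (fun t => L h n (fun j => Z j + t))
      (∑ j ∈ Finset.range (n + 1), (K h (Z (j + 1)) (mid Z j) - K h (Z j) (mid Z j))) 0 := by
  unfold L
  apply HasDerivAt.fun_sum
  intro j _
  have e1 : HasDerivAt (fun t : ℝ => Z j + t) 1 0 := (hasDerivAt_id (0 : ℝ)).const_add (Z j)
  have e2 : HasDerivAt (fun t : ℝ => Z (j + 1) + t) 1 0 :=
    (hasDerivAt_id (0 : ℝ)).const_add (Z (j + 1))
  refine (hasDerivAt_S H e1 e2).congr_deriv ?_
  simp only [mid, add_zero, mul_one]

theorem IsMaxC.rot_zero {h : ℝ → ℝ} (H : Adm h) {n : ℕ} {θ : ℝ} {Z : ℕ → ℝ}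
    (M : IsMaxC h n θ Z) (hc : Closes h n Z) :
    HasDerivAt (fun t => L h n (fun j => Z j + t)) 0 0 := by
  refine (hasDerivAt_rot H.an n Z).congr_deriv ?_
  rw [sum_telescope n (fun j => K h (Z j) (mid Z j)) (fun j => K h (Z (j + 1)) (mid Z j))
    (fun k hk => M.crit H hk)]
  rw [hc]
  ring

theorem IsMaxC.closes_of_rot {h : ℝ → ℝ} (H : Adm h) {n : ℕ} {θ : ℝ} {Z : ℕ → ℝ}
    (M : IsMaxC h n θ Z) (hc : IsLocalMax (fun t => L h n (fun j => Z j + t)) 0) :
    Closes h n Z := by
  have h1 := hc.hasDerivAt_eq_zero (hasDerivAt_rot H.an n Z)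
  rw [sum_telescope n (fun j => K h (Z j) (mid Z j)) (fun j => K h (Z (j + 1)) (mid Z j))
    (fun k hk => M.crit H hk)] at h1
  unfold Closes
  linarith only [h1]

theorem Cfg.rot {n : ℕ} {θ : ℝ} {Z : ℕ → ℝ} (C : Cfg n θ Z) (t : ℝ) :
    Cfg n (θ + t) (fun j => Z j + t) :=
  ⟨by simp only; rw [C.1], by simp only; rw [C.2.1]; ring,
    fun j hj => by simp only; linarith only [C.2.2 j hj]⟩

end Vale.Agent.P097
end

section

/-!
# P097: the maximum function
-/

namespace Vale.Agent.P097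

open Real Set Filter Topology

/-- Chain of `n + 2` line directions starting at `0` and ending at `2π`. -/
noncomputable def ext (n : ℕ) (y : Fin n → ℝ) (j : ℕ) : ℝ :=
  if j = 0 then 0 else if hj : j - 1 < n then y ⟨j - 1, hj⟩ else 2 * π

def Dom (n : ℕ) : Set (Fin n → ℝ) := {y | ∀ j ≤ n, ext n y j ≤ ext n y (j + 1)}

noncomputable def W (h : ℝ → ℝ) (n : ℕ) (θ : ℝ) (y : Fin n → ℝ) : ℝ :=
  L h n (fun j => θ + ext n y j)

noncomputable def mx (h : ℝ → ℝ) (n : ℕ) (θ : ℝ) : ℝ :=
  sSup ((fun y => W h n θ y) '' Dom n)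

theorem ext_zero (n : ℕ) (y : Fin n → ℝ) : ext n y 0 = 0 := by simp [ext]

theorem ext_last (n : ℕ) (y : Fin n → ℝ) : ext n y (n + 1) = 2 * π := by simp [ext]

theorem ext_mid {n : ℕ} (y : Fin n → ℝ) (i : Fin n) : ext n y (i + 1) = y i := by
  simp [ext]

theorem continuous_ext (n j : ℕ) : Continuous (fun y : Fin n → ℝ => ext n y j) := by
  unfold ext
  by_cases h0 : j = 0
  · simp only [h0, if_true]
    exact continuous_const
  · by_cases hj : j - 1 < n
    · simp only [h0, if_false, hj, dif_pos]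
      exact continuous_apply _
    · simp only [h0, if_false, hj, dif_neg, not_false_eq_true]
      exact continuous_const

theorem Dom_cfg {n : ℕ} {y : Fin n → ℝ} (hy : y ∈ Dom n) (θ : ℝ) :
    Cfg n θ (fun j => θ + ext n y j) :=
  ⟨by simp only [ext_zero, add_zero], by simp only [ext_last],
    fun j hj => by simp only; linarith [hy j hj]⟩

theorem Cfg.exists_dom {n : ℕ} {θ : ℝ} {Z : ℕ → ℝ} (C : Cfg n θ Z) :
    ∃ y ∈ Dom n, ∀ j ≤ n + 1, θ + ext n y j = Z j := by
  refine ⟨fun i => Z (i + 1) - θ, ?_, ?_⟩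
  · intro j hj
    have key : ∀ j ≤ n + 1, θ + ext n (fun i : Fin n => Z (i + 1) - θ) j = Z j := by
      intro j hj
      rcases Nat.eq_zero_or_pos j with h0 | h0
      · subst h0
        rw [ext_zero, C.1, add_zero]
      · by_cases h1 : j - 1 < n
        · simp only [ext, if_neg (show ¬ j = 0 by omega), dif_pos h1]
          have : j - 1 + 1 = j := by omega
          rw [this]
          ring
        · have : j = n + 1 := by omega
          rw [this, ext_last, C.2.1]
    have h1 := key j (by omega)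
    have h2 := key (j + 1) (by omega)
    have h3 := C.2.2 j hj
    linarith only [h3, h2, h1]
  · intro j hj
    rcases Nat.eq_zero_or_pos j with h0 | h0
    · subst h0
      rw [ext_zero, C.1, add_zero]
    · by_cases h1 : j - 1 < n
      · simp only [ext, if_neg (show ¬ j = 0 by omega), dif_pos h1]
        have : j - 1 + 1 = j := by omega
        rw [this]
        ring
      · have : j = n + 1 := by omega
        rw [this, ext_last, C.2.1]

theorem L_congr (h : ℝ → ℝ) {n : ℕ} {Z Z' : ℕ → ℝ} (he : ∀ j ≤ n + 1, Z j = Z' j) :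
    L h n Z = L h n Z' := by
  unfold L
  apply Finset.sum_congr rfl
  intro j hj
  rw [Finset.mem_range] at hj
  rw [he j (by omega), he (j + 1) (by omega)]

theorem isClosed_Dom (n : ℕ) : IsClosed (Dom n) := by
  have : Dom n = ⋂ j : ℕ, ⋂ _ : j ≤ n, {y | ext n y j ≤ ext n y (j + 1)} := by
    ext y
    simp [Dom]
  rw [this]
  exact isClosed_iInter fun j => isClosed_iInter fun _ =>
    isClosed_le (continuous_ext n j) (continuous_ext n (j + 1))

theorem isCompact_Dom (n : ℕ) : IsCompact (Dom n) := by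
  apply (isCompact_Icc (a := (fun _ => 0 : Fin n → ℝ)) (b := fun _ => 2 * π)).of_isClosed_subset
    (isClosed_Dom n)
  intro y hy
  have C := Dom_cfg hy 0
  constructor
  · intro i
    have h1 := C.mono (Nat.zero_le (i + 1)) (by omega)
    simp only [zero_add, ext_zero, ext_mid] at h1
    exact h1
  · intro i
    have h1 := C.mono (show (i : ℕ) + 1 ≤ n + 1 by omega) le_rfl
    simp only [zero_add, ext_last, ext_mid] at h1
    exact h1

theorem nonempty_Dom (n : ℕ) : (Dom n).Nonempty := by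
  refine ⟨fun _ => 0, ?_⟩
  intro j hj
  have h1 : ext n (fun _ => (0 : ℝ)) j = 0 := by
    unfold ext
    split_ifs with h0 h1
    · rfl
    · rfl
    · omega
  rw [h1]
  unfold ext
  split_ifs <;> first | exact le_refl _ | positivity

theorem continuous_W {h : ℝ → ℝ} (hc : Continuous h) (n : ℕ) :
    Continuous (fun p : ℝ × (Fin n → ℝ) => W h n p.1 p.2) := by
  unfold W L S
  have := fun j => (continuous_ext n j)
  fun_prop

theorem exists_isMaxC {h : ℝ → ℝ} (hc : Continuous h) (n : ℕ) (θ : ℝ) :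
    ∃ Z, IsMaxC h n θ Z := by
  obtain ⟨y, hy, hmax⟩ := (isCompact_Dom n).exists_isMaxOn (nonempty_Dom n)
    ((continuous_W hc n).comp (Continuous.prodMk_right θ)).continuousOn
  refine ⟨fun j => θ + ext n y j, Dom_cfg hy θ, ?_⟩
  intro Z' C
  obtain ⟨y', hy', he⟩ := C.exists_dom
  have := hmax hy'
  rw [← L_congr h he]
  exact this

theorem le_mx {h : ℝ → ℝ} (hc : Continuous h) {n : ℕ} {θ : ℝ} {Z : ℕ → ℝ} (C : Cfg n θ Z) :
    L h n Z ≤ mx h n θ := by
  obtain ⟨y, hy, he⟩ := C.exists_dom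
  rw [← L_congr h he]
  apply le_csSup
  · exact ((isCompact_Dom n).image
      ((continuous_W hc n).comp (Continuous.prodMk_right θ))).bddAbove
  · exact ⟨y, hy, rfl⟩

theorem IsMaxC.mx_eq {h : ℝ → ℝ} (hc : Continuous h) {n : ℕ} {θ : ℝ} {Z : ℕ → ℝ}
    (M : IsMaxC h n θ Z) : mx h n θ = L h n Z := by
  apply le_antisymm _ (le_mx hc M.1)
  apply csSup_le ((nonempty_Dom n).image _)
  rintro _ ⟨y, hy, rfl⟩
  exact M.2 _ (Dom_cfg hy θ)

theorem isMaxC_of_eq {h : ℝ → ℝ} (hc : Continuous h) {n : ℕ} {θ : ℝ} {Z : ℕ → ℝ}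
    (C : Cfg n θ Z) (he : mx h n θ ≤ L h n Z) : IsMaxC h n θ Z :=
  ⟨C, fun _ C' => (le_mx hc C').trans he⟩

/-- The line `s ↦ h₀ + s g` of support functions. -/
noncomputable def lin (h₀ g : ℝ → ℝ) (s : ℝ) : ℝ → ℝ := fun x => h₀ x + s * g x

theorem lin_zero (h₀ g : ℝ → ℝ) : lin h₀ g 0 = h₀ := by
  funext x
  simp [lin]

theorem continuous_mx_lin {h₀ g : ℝ → ℝ} (h0 : Continuous h₀) (hg : Continuous g) (n : ℕ) :
    Continuous (fun p : ℝ × ℝ => mx (lin h₀ g p.1) n p.2) := by
  unfold mx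
  apply IsCompact.continuous_sSup (isCompact_Dom n)
    (f := fun (p : ℝ × ℝ) (y : Fin n → ℝ) => W (lin h₀ g p.1) n p.2 y)
  show Continuous (fun q : (ℝ × ℝ) × (Fin n → ℝ) => W (lin h₀ g q.1.1) n q.1.2 q.2)
  unfold W L S lin
  have := fun j => (continuous_ext n j)
  fun_prop

theorem continuous_mx {h : ℝ → ℝ} (hc : Continuous h) (n : ℕ) : Continuous (mx h n) := by
  have := (continuous_mx_lin hc hc n).comp (Continuous.prodMk_right (0 : ℝ))
  have e : mx h n = (fun p : ℝ × ℝ => mx (lin h h p.1) n p.2) ∘ Prod.mk 0 := by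
    funext θ
    simp [lin_zero]
  rw [e]
  exact this

theorem mx_per {h : ℝ → ℝ} (hp : ∀ x, h (x + 2 * π) = h x) (n : ℕ) (θ : ℝ) :
    mx h n (θ + 2 * π) = mx h n θ := by
  unfold mx
  congr 1
  apply image_congr
  intro y _
  unfold W L
  apply Finset.sum_congr rfl
  intro j _
  have e1 : θ + 2 * π + ext n y j = (θ + ext n y j) + 2 * π := by ring
  have e2 : θ + 2 * π + ext n y (j + 1) = (θ + ext n y (j + 1)) + 2 * π := by ring
  show S h (θ + 2 * π + ext n y j) (θ + 2 * π + ext n y (j + 1)) = _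
  rw [e1, e2, S_per hp]

theorem eq_zero_of_monotone_periodic {f : ℝ → ℝ} (hm : Monotone f) {c : ℝ} (hc : 0 < c)
    (hp : ∀ x, f (x + c) = f x) (x y : ℝ) : f x = f y := by
  have hup : ∀ (n : ℕ) (x : ℝ), f (x + n * c) = f x := by
    intro n
    induction n with
    | zero => intro x; simp
    | succ k ih =>
      intro x
      have : x + ((k + 1 : ℕ) : ℝ) * c = (x + k * c) + c := by push_cast; ring
      rw [this, hp, ih]
  have main : ∀ x y : ℝ, f x ≤ f y := by
    intro x y
    obtain ⟨n, hn⟩ := exists_nat_gt ((x - y) / c)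
    rw [div_lt_iff₀ hc] at hn
    rw [← hup n y]
    exact hm (by linarith)
  exact le_antisymm (main x y) (main y x)

theorem mx_const_of_closes {h : ℝ → ℝ} (H : Adm h) {n : ℕ}
    (hcl : ∀ θ Z, IsMaxC h n θ Z → Closes h n Z) (θ : ℝ) : mx h n θ = mx h n 0 := by
  have hc := H.an.continuous
  refine eq_zero_of_monotone_periodic ?_ (by positivity : (0 : ℝ) < 2 * π) (mx_per H.per n) θ 0
  intro a b hab
  have := image_le_of_liminf_slope_right_le_deriv_boundary (f := fun t => - mx h n t)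
    (a := a) (b := b) (continuous_mx hc n).neg.continuousOn (B := fun _ => - mx h n a)
    (B' := fun _ => 0) le_rfl continuousOn_const
    (fun x _ => hasDerivWithinAt_const _ _ _) ?_ (right_mem_Icc.2 hab)
  · linarith
  · intro x _ r hr
    apply Eventually.frequently
    obtain ⟨Z, M⟩ := exists_isMaxC hc n x
    have hd := M.rot_zero H (hcl x Z M)
    have hd2 : HasDerivAt (fun z => - L h n (fun j => Z j + (z - x))) (-0) x := by
      have h0 : HasDerivAt (fun t => L h n (fun j => Z j + t)) 0 (x - x) := by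
        rw [sub_self]; exact hd
      exact (HasDerivAt.comp_sub_const x x h0).neg
    rw [neg_zero] at hd2
    have h2 := (hasDerivAt_iff_tendsto_slope.1 hd2).eventually (gt_mem_nhds hr)
    have h3 := h2.filter_mono (nhdsWithin_mono x (fun z hz => (ne_of_gt hz : z ≠ x)) :
      𝓝[>] x ≤ 𝓝[≠] x)
    filter_upwards [h3, self_mem_nhdsWithin] with z hz1 hz2
    refine lt_of_le_of_lt ?_ hz1
    rw [slope_def_field, slope_def_field]
    have hz3 : 0 < z - x := sub_pos.2 hz2
    apply div_le_div_of_nonneg_right _ hz3.le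
    have e1 : L h n (fun j => Z j + (z - x)) ≤ mx h n z := by
      have := le_mx hc (M.1.rot (z - x))
      rwa [add_sub_cancel] at this
    have e2 : L h n (fun j => Z j + (x - x)) = mx h n x := by
      rw [M.mx_eq hc]
      simp
    rw [e2]
    linarith

theorem mx_const_of_collar {h : ℝ → ℝ} (H : Adm h) {η : ℝ} (hη : Collar h η) {n : ℕ}
    (hn : π / (n + 1) < η) (θ : ℝ) : mx h n θ = mx h n 0 :=
  mx_const_of_closes H (fun _ _ M => M.closes_of_collar H hη hn) θ

end Vale.Agent.P097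
end

section

/-!
# P097: uniqueness and nondegeneracy of the maximal configuration
-/

namespace Vale.Agent.P097

open Real Set Filter Topology

/-- The maximum does not depend on the pinned direction. -/
def Cst (h : ℝ → ℝ) (n : ℕ) : Prop := ∀ θ, mx h n θ = mx h n 0

theorem IsMaxC.closes {h : ℝ → ℝ} (H : Adm h) {n : ℕ} (hC : Cst h n) {θ : ℝ} {Z : ℕ → ℝ}
    (M : IsMaxC h n θ Z) : Closes h n Z := by
  apply M.closes_of_rot H
  apply Eventually.of_forall
  intro t
  have h1 := le_mx H.an.continuous (M.1.rot t)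
  have h2 := M.mx_eq H.an.continuous
  rw [hC] at h1 h2
  simp only [add_zero]
  linarith only [h1, h2]

theorem L_sup_inf {h : ℝ → ℝ} (H : Adm h) {n : ℕ} {θ : ℝ} {Z Z' : ℕ → ℝ} (C : Cfg n θ Z)
    (C' : Cfg n θ Z') :
    L h n Z + L h n Z' ≤ L h n (fun j => max (Z j) (Z' j)) + L h n (fun j => min (Z j) (Z' j)) := by
  unfold L
  rw [← Finset.sum_add_distrib, ← Finset.sum_add_distrib]
  apply Finset.sum_le_sum
  intro j hj
  rw [Finset.mem_range] at hj
  have a1 := C.2.2 j (by omega)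
  have a2 := C'.2.2 j (by omega)
  have g1 := C.gap_le (i := j) (j := j + 1) (by omega) (by omega)
  have g2 := C'.gap_le (i := j) (j := j + 1) (by omega) (by omega)
  show S h (Z j) (Z (j + 1)) + S h (Z' j) (Z' (j + 1)) ≤
    S h (max (Z j) (Z' j)) (max (Z (j + 1)) (Z' (j + 1))) +
      S h (min (Z j) (Z' j)) (min (Z (j + 1)) (Z' (j + 1)))
  rcases le_total (Z j) (Z' j) with h1 | h1 <;> rcases le_total (Z (j + 1)) (Z' (j + 1)) with h2 | h2
  · rw [max_eq_right h1, max_eq_right h2, min_eq_left h1, min_eq_left h2]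
    linarith only []
  · rw [max_eq_right h1, max_eq_left h2, min_eq_left h1, min_eq_right h2]
    have := S_super H h1 a2 h2 g1
    linarith only [this]
  · rw [max_eq_left h1, max_eq_right h2, min_eq_right h1, min_eq_left h2]
    have := S_super H h1 a1 h2 g2
    linarith only [this]
  · rw [max_eq_left h1, max_eq_left h2, min_eq_right h1, min_eq_right h2]

theorem ordered_eq {h : ℝ → ℝ} (H : Adm h) {n : ℕ} {θ : ℝ} {u v : ℕ → ℝ}
    (Mu : IsMaxC h n θ u) (Mv : IsMaxC h n θ v) (hu : Closes h n u) (hv : Closes h n v)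
    (hle : ∀ j ≤ n + 1, v j ≤ u j) : ∀ j ≤ n + 1, u j = v j := by
  have pu := Mu.pos H
  have pv := Mv.pos H
  have hu0 := Mu.1.1
  have hv0 := Mv.1.1
  have hun := Mu.1.2.1
  have hvn := Mv.1.2.1
  -- first gap
  have e1 : K h θ (mid u 0) ≤ K h θ (mid v 0) := by
    apply (K_strictAnti H θ).antitoneOn
    · have := pv 0 (Nat.zero_le n)
      have := Mv.1.gap_le (i := 0) (j := 1) (by omega) (by omega)
      simp only [mid, zero_add]
      rw [hv0] at *
      constructor <;> linarith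
    · have := pu 0 (Nat.zero_le n)
      have := Mu.1.gap_le (i := 0) (j := 1) (by omega) (by omega)
      simp only [mid, zero_add]
      rw [hu0] at *
      constructor <;> linarith
    · have := hle 1 (by omega)
      simp only [mid, zero_add]
      rw [hu0, hv0]
      linarith only [this]
  have e2 : K h (θ + 2 * π) (mid v n) ≤ K h (θ + 2 * π) (mid u n) := by
    apply (K_strictMono H (θ + 2 * π)).monotoneOn
    · have := pv n le_rfl
      have := Mv.1.gap_le (i := n) (j := n + 1) (by omega) (by omega)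
      simp only [mid]
      rw [hvn] at *
      constructor <;> linarith
    · have := pu n le_rfl
      have := Mu.1.gap_le (i := n) (j := n + 1) (by omega) (by omega)
      simp only [mid]
      rw [hun] at *
      constructor <;> linarith
    · have := hle n (by omega)
      simp only [mid]
      rw [hun, hvn]
      linarith only [this]
  unfold Closes at hu hv
  rw [hun, hu0] at hu
  rw [hvn, hv0] at hv
  have e3 : K h θ (mid u 0) = K h θ (mid v 0) := by linarith only [hu, hv, e2, e1]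
  have e4 : mid u 0 = mid v 0 := by
    apply next_unique H (φ := θ) _ _ e3
    · have := pu 0 (Nat.zero_le n)
      have := Mu.1.gap_le (i := 0) (j := 1) (by omega) (by omega)
      simp only [mid, zero_add]
      rw [hu0] at *
      constructor <;> linarith
    · have := pv 0 (Nat.zero_le n)
      have := Mv.1.gap_le (i := 0) (j := 1) (by omega) (by omega)
      simp only [mid, zero_add]
      rw [hv0] at *
      constructor <;> linarith
  have e5 : u 1 = v 1 := by
    simp only [mid, zero_add] at e4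
    rw [hu0, hv0] at e4
    linarith only [e4]
  have key : ∀ j, j + 1 ≤ n + 1 → u j = v j ∧ u (j + 1) = v (j + 1) := by
    intro j
    induction j with
    | zero => intro _; exact ⟨by rw [hu0, hv0], e5⟩
    | succ k ih =>
      intro hk
      obtain ⟨i1, i2⟩ := ih (by omega)
      refine ⟨i2, ?_⟩
      have c1 := Mu.crit H (k := k) (by omega)
      have c2 := Mv.crit H (k := k) (by omega)
      have m1 : mid u k = mid v k := by simp only [mid]; rw [i1, i2]
      rw [i2] at c1
      rw [m1] at c1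
      have m2 : mid u (k + 1) = mid v (k + 1) := by
        apply next_unique H (φ := v (k + 1)) _ _ (c1.symm.trans c2)
        · have := pu (k + 1) (by omega)
          have := Mu.1.gap_le (i := k + 1) (j := k + 2) (by omega) (by omega)
          simp only [mid]
          rw [← i2]
          constructor <;> linarith
        · have := pv (k + 1) (by omega)
          have := Mv.1.gap_le (i := k + 1) (j := k + 2) (by omega) (by omega)
          simp only [mid]
          constructor <;> linarith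
      simp only [mid] at m2
      linarith only [i2, m2]
  intro j hj
  rcases Nat.eq_zero_or_pos j with h0 | h0
  · subst h0
    rw [hu0, hv0]
  · have := (key (j - 1) (by omega)).2
    have e : j - 1 + 1 = j := by omega
    rwa [e] at this

theorem IsMaxC.unique {h : ℝ → ℝ} (H : Adm h) {n : ℕ} (hC : Cst h n) {θ : ℝ} {Z Z' : ℕ → ℝ}
    (M : IsMaxC h n θ Z) (M' : IsMaxC h n θ Z') : ∀ j ≤ n + 1, Z j = Z' j := by
  have Cu : Cfg n θ (fun j => max (Z j) (Z' j)) := by
    refine ⟨?_, ?_, ?_⟩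
    · simp only; rw [M.1.1, M'.1.1, max_self]
    · simp only; rw [M.1.2.1, M'.1.2.1, max_self]
    · intro j hj
      exact max_le_max (M.1.2.2 j hj) (M'.1.2.2 j hj)
  have Cv : Cfg n θ (fun j => min (Z j) (Z' j)) := by
    refine ⟨?_, ?_, ?_⟩
    · simp only; rw [M.1.1, M'.1.1, min_self]
    · simp only; rw [M.1.2.1, M'.1.2.1, min_self]
    · intro j hj
      exact min_le_min (M.1.2.2 j hj) (M'.1.2.2 j hj)
  have h1 := L_sup_inf H M.1 M'.1
  have h2 := M.2 _ Cu
  have h3 := M.2 _ Cv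
  have h4 := M'.2 _ M.1
  have h5 := M.2 _ M'.1
  have hc := H.an.continuous
  have Mu : IsMaxC h n θ (fun j => max (Z j) (Z' j)) := by
    apply isMaxC_of_eq hc Cu
    rw [M.mx_eq hc]
    linarith only [h1, h3, h4]
  have Mv : IsMaxC h n θ (fun j => min (Z j) (Z' j)) := by
    apply isMaxC_of_eq hc Cv
    rw [M.mx_eq hc]
    linarith only [h1, h2, h4]
  have := ordered_eq H Mu Mv (Mu.closes H hC) (Mv.closes H hC) (fun j _ => min_le_max)
  intro j hj
  have := this j hj
  have a1 := le_max_left (Z j) (Z' j)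
  have a2 := le_max_right (Z j) (Z' j)
  have a3 := min_le_left (Z j) (Z' j)
  have a4 := min_le_right (Z j) (Z' j)
  linarith only [this, a2, a3, a1, a4]

theorem second_deriv_nonpos {f f' : ℝ → ℝ} {q : ℝ} (hf : ∀ t, HasDerivAt f (f' t) t)
    (hf' : HasDerivAt f' q 0) (hm : IsLocalMax f 0) : q ≤ 0 := by
  by_contra hq
  push Not at hq
  have hd : deriv f = f' := by
    funext t
    exact (hf t).deriv
  have h1 : IsLocalMin f 0 := by
    apply isLocalMin_of_deriv_deriv_pos
    · rw [hd, hf'.deriv]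
      exact hq
    · exact hm.deriv_eq_zero
    · exact (hf 0).continuousAt
  have h2 : f =ᶠ[𝓝 0] fun _ => f 0 := by
    filter_upwards [h1, hm] with t a b
    exact le_antisymm b a
  have h3 : f' =ᶠ[𝓝 0] fun _ => 0 := by
    have := h2.deriv
    rw [hd] at this
    simpa only [deriv_const'] using this
  have h4 := h3.deriv_eq
  rw [hf'.deriv] at h4
  simp only [deriv_const'] at h4
  linarith

/-- Coefficients of the second variation. -/
noncomputable def cc (h : ℝ → ℝ) (Z : ℕ → ℝ) (j : ℕ) : ℝ :=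
  rad h (mid Z j) * sin ((Z (j + 1) - Z j) / 2) / 2

noncomputable def al (h : ℝ → ℝ) (Z : ℕ → ℝ) (j : ℕ) : ℝ := cc h Z j - T h (Z j) (mid Z j)

noncomputable def be (h : ℝ → ℝ) (Z : ℕ → ℝ) (j : ℕ) : ℝ := cc h Z j + T h (Z (j + 1)) (mid Z j)

/-- Second variation. -/
noncomputable def QQ (h : ℝ → ℝ) (n : ℕ) (Z U : ℕ → ℝ) : ℝ :=
  ∑ j ∈ Finset.range (n + 1),
    (al h Z j * U j ^ 2 + 2 * cc h Z j * U j * U (j + 1) + be h Z j * U (j + 1) ^ 2)

theorem hasDerivAt_L {h : ℝ → ℝ} (H : An h) (n : ℕ) (Z U : ℕ → ℝ) (t : ℝ) :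
    HasDerivAt (fun t => L h n (fun j => Z j + t * U j))
      (∑ j ∈ Finset.range (n + 1),
        (K h (Z (j + 1) + t * U (j + 1)) (((Z j + t * U j) + (Z (j + 1) + t * U (j + 1))) / 2)
            * U (j + 1)
          - K h (Z j + t * U j) (((Z j + t * U j) + (Z (j + 1) + t * U (j + 1))) / 2) * U j)) t := by
  unfold L
  apply HasDerivAt.fun_sum
  intro j _
  have e1 : ∀ i, HasDerivAt (fun t : ℝ => Z i + t * U i) (U i) t := fun i => by
    have := ((hasDerivAt_id t).mul_const (U i)).const_add (Z i)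
    simpa using this
  exact hasDerivAt_S H (e1 j) (e1 (j + 1))

theorem hasDerivAt_L2 {h : ℝ → ℝ} (H : An h) (n : ℕ) (Z U : ℕ → ℝ) :
    HasDerivAt (fun t => ∑ j ∈ Finset.range (n + 1),
        (K h (Z (j + 1) + t * U (j + 1)) (((Z j + t * U j) + (Z (j + 1) + t * U (j + 1))) / 2)
            * U (j + 1)
          - K h (Z j + t * U j) (((Z j + t * U j) + (Z (j + 1) + t * U (j + 1))) / 2) * U j))
      (QQ h n Z U) 0 := by
  unfold QQ
  apply HasDerivAt.fun_sum
  intro j _
  have e1 : ∀ i, HasDerivAt (fun t : ℝ => Z i + t * U i) (U i) 0 := fun i => by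
    have := ((hasDerivAt_id (0 : ℝ)).mul_const (U i)).const_add (Z i)
    simpa using this
  have e2 : HasDerivAt (fun t : ℝ => ((Z j + t * U j) + (Z (j + 1) + t * U (j + 1))) / 2)
      ((U j + U (j + 1)) / 2) 0 := ((e1 j).add (e1 (j + 1))).div_const 2
  have e3 := ((hasDerivAt_K H (e1 (j + 1)) e2).mul_const (U (j + 1))).sub
    ((hasDerivAt_K H (e1 j) e2).mul_const (U j))
  refine e3.congr_deriv ?_
  simp only [zero_mul, add_zero, al, cc, mid, be]
  have s1 : (Z j + Z (j + 1)) / 2 - Z (j + 1) = -((Z (j + 1) - Z j) / 2) := by ring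
  have s2 : (Z j + Z (j + 1)) / 2 - Z j = (Z (j + 1) - Z j) / 2 := by ring
  rw [s1, s2, sin_neg]
  ring

/-- Second variation inequality for variations which move line `0` and line `n + 1` together. -/
theorem IsMaxC.QQ_nonpos {h : ℝ → ℝ} (H : Adm h) {n : ℕ} (hC : Cst h n) {θ : ℝ} {Z : ℕ → ℝ}
    (M : IsMaxC h n θ Z) {U : ℕ → ℝ} (hU : U (n + 1) = U 0) : QQ h n Z U ≤ 0 := by
  apply second_deriv_nonpos (hasDerivAt_L H.an n Z U) (hasDerivAt_L2 H.an n Z U)
  have hpos := M.pos H
  have hev : ∀ᶠ t in 𝓝 (0 : ℝ), ∀ j ∈ Finset.range (n + 1), Z j + t * U j < Z (j + 1) + t * U (j + 1) := by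
    rw [Filter.eventually_all_finset]
    intro j hj
    rw [Finset.mem_range] at hj
    have c1 : Continuous (fun t : ℝ => Z j + t * U j) := by fun_prop
    have c2 : Continuous (fun t : ℝ => Z (j + 1) + t * U (j + 1)) := by fun_prop
    apply c1.continuousAt.eventually_lt c2.continuousAt
    simpa using hpos j (by omega)
  filter_upwards [hev] with t ht
  have C : Cfg n (θ + t * U 0) (fun j => Z j + t * U j) := by
    refine ⟨?_, ?_, ?_⟩
    · simp only; rw [M.1.1]
    · simp only; rw [M.1.2.1, hU]; ring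
    · intro j hj
      exact (ht j (Finset.mem_range.2 (by omega))).le
  have h1 := le_mx H.an.continuous C
  have h2 := M.mx_eq H.an.continuous
  rw [hC] at h1 h2
  simp only [zero_mul, add_zero]
  linarith only [h1, h2]

theorem cc_pos {h : ℝ → ℝ} (Hr : ∀ x, 0 < rad h x) {n : ℕ} {θ : ℝ} {Z : ℕ → ℝ}
    (C : Cfg n θ Z) (hpos : ∀ j ≤ n, Z j < Z (j + 1)) (hn : 1 ≤ n) {j : ℕ} (hj : j ≤ n) :
    0 < cc h Z j := by
  unfold cc
  have h1 := hpos j hj
  have h2 : Z (j + 1) < Z j + 2 * π := by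
    rcases Nat.eq_zero_or_pos j with h0 | h0
    · subst h0
      have a1 := hpos n le_rfl
      have a2 := C.mono (show 0 + 1 ≤ n by omega) (by omega)
      rw [C.2.1] at a1
      rw [C.1]
      linarith only [a1, a2]
    · have a1 := hpos 0 (by omega)
      have a2 := C.mono (show 0 + 1 ≤ j by omega) (by omega)
      have a3 := C.mono (show j + 1 ≤ n + 1 by omega) le_rfl
      rw [C.2.1] at a3
      rw [C.1] at a1
      linarith only [a1, a2, a3]
  have h3 : 0 < sin ((Z (j + 1) - Z j) / 2) :=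
    sin_pos_of_pos_of_lt_pi (by linarith only [h1]) (by linarith only [h2])
  have := mul_pos (Hr (mid Z j)) h3
  linarith only [this]

theorem QQ_dirichlet (h : ℝ → ℝ) {n : ℕ} {Z V : ℕ → ℝ} (h0 : V 0 = 0) (hn : V (n + 1) = 0)
    (hJ : ∀ k, k + 1 ≤ n → cc h Z k * V k + (be h Z k + al h Z (k + 1)) * V (k + 1)
      + cc h Z (k + 1) * V (k + 2) = 0) : QQ h n Z V = 0 := by
  unfold QQ
  have e : ∀ j ∈ Finset.range (n + 1),
      (al h Z j * V j ^ 2 + 2 * cc h Z j * V j * V (j + 1) + be h Z j * V (j + 1) ^ 2)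
      = V (j + 1) * (cc h Z j * V j + be h Z j * V (j + 1))
        - (-(V j * (al h Z j * V j + cc h Z j * V (j + 1)))) := by
    intro j _
    ring
  rw [Finset.sum_congr rfl e,
    sum_telescope n (fun j => -(V j * (al h Z j * V j + cc h Z j * V (j + 1))))
      (fun j => V (j + 1) * (cc h Z j * V j + be h Z j * V (j + 1)))]
  · rw [h0, hn]
    ring
  · intro k hk
    have := hJ k hk
    have e2 : V (k + 1) * (cc h Z k * V k + be h Z k * V (k + 1)) +
        V (k + 1) * (al h Z (k + 1) * V (k + 1) + cc h Z (k + 1) * V (k + 1 + 1))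
        = V (k + 1) * (cc h Z k * V k + (be h Z k + al h Z (k + 1)) * V (k + 1)
      + cc h Z (k + 1) * V (k + 2)) := by ring
    rw [this, mul_zero] at e2
    linarith only [e2]

/-- Nondegeneracy. -/
theorem IsMaxC.nondeg {h : ℝ → ℝ} (H : Adm h) (Hr : ∀ x, 0 < rad h x) {n : ℕ} (hC : Cst h n)
    {θ : ℝ} {Z : ℕ → ℝ} (M : IsMaxC h n θ Z) {V : ℕ → ℝ} (h0 : V 0 = 0) (hn : V (n + 1) = 0)
    (hJ : ∀ k, k + 1 ≤ n → cc h Z k * V k + (be h Z k + al h Z (k + 1)) * V (k + 1)
      + cc h Z (k + 1) * V (k + 2) = 0) : ∀ j ≤ n + 1, V j = 0 := by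
  rcases Nat.eq_zero_or_pos n with hn0 | hn1
  · subst hn0
    intro j hj
    interval_cases j
    · exact h0
    · exact hn
  have hpos := M.pos H
  have hc : ∀ j ≤ n, 0 < cc h Z j := fun j hj => cc_pos Hr M.1 hpos hn1 hj
  have hQV : QQ h n Z V = 0 := QQ_dirichlet h h0 hn hJ
  have hQabs : 0 ≤ QQ h n Z (fun j => |V j|) := by
    rw [← hQV]
    unfold QQ
    apply Finset.sum_le_sum
    intro j hj
    rw [Finset.mem_range] at hj
    have hcj := hc j (by omega)
    simp only [sq_abs]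
    have : V j * V (j + 1) ≤ |V j| * |V (j + 1)| := by
      rw [← abs_mul]
      exact le_abs_self _
    linarith only [mul_nonneg (le_of_lt (sub_pos.2 hcj)) (sub_nonneg.2 this)]
  -- perturbation
  set E : ℕ → ℝ := fun j => if j = 0 ∨ j = n + 1 then 1 else 0 with hE
  have hexp : ∀ e : ℝ, QQ h n Z (fun j => |V j| + e * E j) =
      QQ h n Z (fun j => |V j|) + 2 * e * (∑ j ∈ Finset.range (n + 1),
        (E j * (al h Z j * |V j| + cc h Z j * |V (j + 1)|)
          + E (j + 1) * (cc h Z j * |V j| + be h Z j * |V (j + 1)|)))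
        + e ^ 2 * QQ h n Z E := by
    intro e
    unfold QQ
    rw [Finset.mul_sum, Finset.mul_sum, ← Finset.sum_add_distrib, ← Finset.sum_add_distrib]
    apply Finset.sum_congr rfl
    intro j _
    ring
  have hB : (∑ j ∈ Finset.range (n + 1),
        (E j * (al h Z j * |V j| + cc h Z j * |V (j + 1)|)
          + E (j + 1) * (cc h Z j * |V j| + be h Z j * |V (j + 1)|)))
        = cc h Z 0 * |V 1| + cc h Z n * |V n| := by
    rw [Finset.sum_add_distrib]
    congr 1
    · rw [Finset.sum_eq_single 0]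
      · simp [hE, h0]
      · intro j hj hj0
        rw [Finset.mem_range] at hj
        have : E j = 0 := by
          simp only [hE]
          rw [if_neg]
          omega
        rw [this, zero_mul]
      · intro hcon
        exact absurd (Finset.mem_range.2 (by omega)) hcon
    · rw [Finset.sum_eq_single n]
      · simp [hE, hn]
      · intro j hj hj0
        rw [Finset.mem_range] at hj
        have : E (j + 1) = 0 := by
          simp only [hE]
          rw [if_neg]
          omega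
        rw [this, zero_mul]
      · intro hcon
        exact absurd (Finset.mem_range.2 (by omega)) hcon
  have hineq : ∀ e : ℝ, QQ h n Z (fun j => |V j| + e * E j) ≤ 0 := by
    intro e
    apply M.QQ_nonpos H hC
    simp [hE, h0, hn]
  have hV1 : V 1 = 0 := by
    by_contra hV1
    have p1 : 0 < |V 1| := abs_pos.2 hV1
    have p2 : 0 < cc h Z 0 * |V 1| + cc h Z n * |V n| := by
      have := mul_pos (hc 0 (by omega)) p1
      have := mul_nonneg (hc n le_rfl).le (abs_nonneg (V n))
      (clear hC h0 hn hJ hQV hQabs E hE hexp hB hineq; linarith)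
    set b := cc h Z 0 * |V 1| + cc h Z n * |V n| with hb
    set q := QQ h n Z E with hq
    have h1 := hineq (b / (|q| + 1))
    rw [hexp, hB] at h1
    have hq1 : 0 < |q| + 1 := by (clear * -; positivity)
    have h2 : 0 < b / (|q| + 1) := div_pos p2 hq1
    set e := b / (|q| + 1) with he
    have h3 : e * (|q| + 1) = b := by rw [he]; (clear * - p2; field_simp)
    have h4 : -|q| ≤ q := neg_abs_le q
    have h5 : 0 < 2 * e * b + e ^ 2 * q := by
      have h6 : e ^ 2 * q ≥ -(e ^ 2 * |q|) := by linarith only [mul_nonneg (sq_nonneg (e : ℝ)) (sub_nonneg.2 h4)]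
      have h7 : e ^ 2 * |q| ≤ e * b := by
        rw [← h3]
        nlinarith only []
      have h8 : 0 < e * b := mul_pos h2 p2
      linarith only [h6, h7, h8]
    linarith only [hQabs, h1, h5]
  have key : ∀ j, j ≤ n → V j = 0 ∧ V (j + 1) = 0 := by
    intro j
    induction j with
    | zero => intro _; exact ⟨h0, hV1⟩
    | succ k ih =>
      intro hk
      obtain ⟨i1, i2⟩ := ih (by omega)
      refine ⟨i2, ?_⟩
      have := hJ k hk
      rw [i1, i2] at this
      have h1 := hc (k + 1) hk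
      have h2 : cc h Z (k + 1) * V (k + 2) = 0 := by linarith only [this]
      rcases mul_eq_zero.1 h2 with h3 | h3
      · exact absurd h3 h1.ne'
      · exact h3
  intro j hj
  rcases Nat.lt_or_ge j (n + 1) with h1 | h1
  · exact (key j (by omega)).1
  · have : j = n + 1 := by omega
    rw [this]
    exact hn

end Vale.Agent.P097
end

section

/-!
# P097: rational invariant curves
-/

namespace Vale.Agent.P097

open Real Set Filter Topology

/-- All data of an invariant graph. -/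
theorem InvGraph.exists_data {h f : ℝ → ℝ} (H : Adm h) (G : InvGraph h f) :
    ∃ F : ℝ → ℝ, (∀ ψ, Step h ψ (f ψ) (F ψ) (f (F ψ))) ∧
      (∀ ψ, F ψ = ψ + f ψ + f (F ψ)) ∧ (∀ ψ, K h (ψ + f ψ) ψ = K h (ψ + f ψ) (F ψ)) ∧
      StrictMono F ∧ StrictMono (fun x => x - f x) ∧ StrictMono (fun x => x + f x) ∧
      Function.Surjective (fun x => x + f x) := by
  obtain ⟨F, hS, h1, h2, hm, hs⟩ := G.exists_F' H
  have ha : StrictMono (fun x => x - f x) := by
    apply strictMono_of_shift (continuous_id.sub G.1)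
    · intro x
      show x + 2 * π - f (x + 2 * π) = x - f x + 2 * π
      rw [G.2.1]
      ring
    · intro x y hxy
      apply G.inj H (z := x - f x)
      · ring
      · have : x - f x = y - f y := hxy
        (clear * - this; linarith)
  have hab : ∀ x, x + f x = F x - f (F x) := fun x => by linarith only [h1 x]
  refine ⟨F, hS, h1, h2, hm, ha, ?_, ?_⟩
  · intro x y hxy
    simp only
    rw [hab x, hab y]
    exact ha (hm hxy)
  · apply surjective_of_shift (continuous_id.add G.1)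
    intro x
    show x + 2 * π + f (x + 2 * π) = x + f x + 2 * π
    rw [G.2.1]
    ring

/-- Crossing a line above the graph. -/
theorem step_above {h f F : ℝ → ℝ} (H : Adm h) (G : InvGraph h f)
    (h1 : ∀ ψ, F ψ = ψ + f ψ + f (F ψ)) (h2 : ∀ ψ, K h (ψ + f ψ) ψ = K h (ψ + f ψ) (F ψ))
    (hm : StrictMono F) (ha : StrictMono (fun x => x - f x)) (hb : StrictMono (fun x => x + f x))
    (hbs : Function.Surjective (fun x => x + f x)) {z p p' : ℝ} (hp : p ∈ Icc (z - π) z)
    (hp' : p' ∈ Icc z (z + π)) (hK : K h z p = K h z p') (hf : z - p < f p) :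
    p' - z < f p' ∧ ∃ y, y - f y = z ∧ p' < y ∧ y < F p := by
  obtain ⟨x, hx⟩ := hbs z
  simp only at hx
  have hxp : x < p := by
    apply hb.lt_iff_lt.1
    linarith only [hf, hx]
  have hfx := G.2.2.1
  have e1 := h1 x
  have e2 := h2 x
  rw [hx] at e1 e2
  have hxI : x ∈ Icc (z - π) z := ⟨by linarith only [hx, (hfx x).2], by linarith only [hx, (hfx x).1]⟩
  have hyI : F x ∈ Icc z (z + π) := ⟨by linarith [(hfx (F x)).1], by linarith only [e1, (hfx (F x)).2]⟩
  have k1 : K h z x < K h z p := K_strictMono H z hxI hp hxp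
  have hy : p' < F x := by
    by_contra hcon
    push Not at hcon
    have := (K_strictAnti H z).antitoneOn hyI hp' hcon
    linarith only [hK, e2, k1, this]
  have hay : F x - f (F x) = z := by linarith only [e1]
  refine ⟨?_, F x, hay, hy, hm hxp⟩
  have := ha hy
  simp only at this
  linarith only [e1, this]

/-- Crossing a line below the graph. -/
theorem step_below {h f F : ℝ → ℝ} (H : Adm h) (G : InvGraph h f)
    (h1 : ∀ ψ, F ψ = ψ + f ψ + f (F ψ)) (h2 : ∀ ψ, K h (ψ + f ψ) ψ = K h (ψ + f ψ) (F ψ))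
    (hm : StrictMono F) (ha : StrictMono (fun x => x - f x)) (hb : StrictMono (fun x => x + f x))
    (hbs : Function.Surjective (fun x => x + f x)) {z p p' : ℝ} (hp : p ∈ Icc (z - π) z)
    (hp' : p' ∈ Icc z (z + π)) (hK : K h z p = K h z p') (hf : f p < z - p) :
    f p' < p' - z ∧ ∃ y, y - f y = z ∧ y < p' ∧ F p < y := by
  obtain ⟨x, hx⟩ := hbs z
  simp only at hx
  have hxp : p < x := by
    apply hb.lt_iff_lt.1
    linarith only [hf, hx]
  have hfx := G.2.2.1
  have e1 := h1 x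
  have e2 := h2 x
  rw [hx] at e1 e2
  have hxI : x ∈ Icc (z - π) z := ⟨by linarith only [hx, (hfx x).2], by linarith only [hx, (hfx x).1]⟩
  have hyI : F x ∈ Icc z (z + π) := ⟨by linarith only [e1, (hfx (F x)).1], by linarith only [e1, (hfx (F x)).2]⟩
  have k1 : K h z p < K h z x := K_strictMono H z hp hxI hxp
  have hy : F x < p' := by
    by_contra hcon
    push Not at hcon
    have := (K_strictAnti H z).antitoneOn hp' hyI hcon
    linarith only [hK, e2, k1, this]
  have hay : F x - f (F x) = z := by linarith only [e1]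
  refine ⟨?_, F x, hay, hy, hm hxp⟩
  have := ha hy
  simp only at this
  linarith

/-- On a table with a rational invariant curve every pinned maximal configuration lies on the
curve. -/
theorem IsMaxC.on_ratLeaf {h f : ℝ → ℝ} (H : Adm h) {n : ℕ} (R : RatLeaf h (n + 1) f)
    {θ : ℝ} {Z : ℕ → ℝ} (M : IsMaxC h n θ Z) : f (mid Z 0) = Z 1 - mid Z 0 := by
  obtain ⟨G, hR⟩ := R
  obtain ⟨F, hS, h1, h2, hm, ha, hb, hbs⟩ := G.exists_data H
  have hpos := M.pos H
  have hlen : ∀ j ≤ n, Z (j + 1) ≤ Z j + 2 * π := fun j hj => M.1.gap_le (by omega) (by omega)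
  have hcrit := fun k (hk : k + 1 ≤ n) => M.crit H hk
  have hper : F^[n + 1] (mid Z 0) = mid Z 0 + 2 * π := by
    have := hR (fun j => F^[j] (mid Z 0)) (fun j => by
      simp only [Function.iterate_succ_apply']
      exact hS _)
    simpa only [Function.iterate_succ, Function.comp_apply, Function.iterate_zero, id_eq] using this
  have hI : ∀ k, k ≤ n → mid Z k ∈ Icc (Z (k + 1) - π) (Z (k + 1)) := by
    intro k hk
    have p1 := hpos k hk
    have l1 := hlen k hk
    simp only [mid]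
    constructor <;> linarith only [l1, p1]
  have hI' : ∀ k, k + 1 ≤ n → mid Z (k + 1) ∈ Icc (Z (k + 1)) (Z (k + 1) + π) := by
    intro k hk
    have p1 := hpos (k + 1) hk
    have l1 := hlen (k + 1) hk
    simp only [mid]
    constructor <;> linarith only [l1, p1]
  have e : ∀ k, mid Z (k + 1) - Z (k + 1) = Z (k + 2) - mid Z (k + 1) := by
    intro k
    simp only [mid]
    ring
  have e0 : Z 1 - mid Z 0 = mid Z 0 - Z 0 := by simp only [mid]; ring
  -- the closing bounce
  have hZ0 := M.1.1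
  have hZn := M.1.2.1
  rcases lt_trichotomy (Z 1 - mid Z 0) (f (mid Z 0)) with hlt | heq | hgt
  · exfalso
    have key : ∀ j, j ≤ n → Z (j + 1) - mid Z j < f (mid Z j) ∧ mid Z j ≤ F^[j] (mid Z 0) := by
      intro j
      induction j with
      | zero => intro _; exact ⟨hlt, le_rfl⟩
      | succ k ih =>
        intro hk
        obtain ⟨i1, i2⟩ := ih (by omega)
        obtain ⟨s1, y, _, s2, s3⟩ := step_above H G h1 h2 hm ha hb hbs (hI k (by omega))
          (hI' k hk) (hcrit k hk) i1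
        rw [e k] at s1
        refine ⟨s1, ?_⟩
        rw [Function.iterate_succ_apply']
        have := hm.monotone i2
        linarith only [s2, s3, this]
    obtain ⟨i1, i2⟩ := key n le_rfl
    obtain ⟨x, hx⟩ := hbs (Z (n + 1))
    simp only at hx
    have hxp : x < mid Z n := by
      apply hb.lt_iff_lt.1
      linarith
    have e3 : F x - f (F x) = Z (n + 1) := by linarith only [hx, h1 x]
    have e4 : F x < mid Z 0 + 2 * π := by
      rw [← hper, Function.iterate_succ_apply']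
      exact lt_of_lt_of_le (hm hxp) (hm.monotone i2)
    have e5 := ha e4
    simp only [G.2.1] at e5
    linarith only [e0, hZ0, hZn, hlt, e3, e5]
  · exact heq.symm
  · exfalso
    have key : ∀ j, j ≤ n → f (mid Z j) < Z (j + 1) - mid Z j ∧ F^[j] (mid Z 0) ≤ mid Z j := by
      intro j
      induction j with
      | zero => intro _; exact ⟨hgt, le_rfl⟩
      | succ k ih =>
        intro hk
        obtain ⟨i1, i2⟩ := ih (by omega)
        obtain ⟨s1, y, _, s2, s3⟩ := step_below H G h1 h2 hm ha hb hbs (hI k (by omega))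
          (hI' k hk) (hcrit k hk) i1
        rw [e k] at s1
        refine ⟨s1, ?_⟩
        rw [Function.iterate_succ_apply']
        have := hm.monotone i2
        linarith only [s2, s3, this]
    obtain ⟨i1, i2⟩ := key n le_rfl
    obtain ⟨x, hx⟩ := hbs (Z (n + 1))
    simp only at hx
    have hxp : mid Z n < x := by
      apply hb.lt_iff_lt.1
      linarith
    have e3 : F x - f (F x) = Z (n + 1) := by linarith only [hx, h1 x]
    have e4 : mid Z 0 + 2 * π < F x := by
      rw [← hper, Function.iterate_succ_apply']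
      exact lt_of_le_of_lt (hm.monotone i2) (hm hxp)
    have e5 := ha e4
    simp only [G.2.1] at e5
    linarith only [e0, hZ0, hZn, hgt, e3, e5]

/-- On a table with a rational invariant curve every pinned maximal configuration closes. -/
theorem IsMaxC.closes_of_ratLeaf {h f : ℝ → ℝ} (H : Adm h) {n : ℕ} (R : RatLeaf h (n + 1) f)
    {θ : ℝ} {Z : ℕ → ℝ} (M : IsMaxC h n θ Z) : Closes h n Z := by
  have hmain := M.on_ratLeaf H R
  have G := R.1
  have hpos := M.pos H
  have hlen : ∀ j ≤ n, Z (j + 1) ≤ Z j + 2 * π := fun j hj => M.1.gap_le (by omega) (by omega)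
  have hcrit := fun k (hk : k + 1 ≤ n) => M.crit H hk
  have e0 : Z 1 - mid Z 0 = mid Z 0 - Z 0 := by simp only [mid]; ring
  have hZ0 := M.1.1
  have hZn := M.1.2.1
  have hall := G.chain H hpos hlen hcrit (Nat.zero_le n) hmain
  have hn' := hall n le_rfl
  unfold Closes
  rw [hZn, hZ0]
  apply G.closing H
  · rw [hmain, e0, hZ0]
  · rw [hn', hZn]

theorem mx_const_of_ratLeaf {h f : ℝ → ℝ} (H : Adm h) {n : ℕ} (R : RatLeaf h (n + 1) f) (θ : ℝ) :
    mx h n θ = mx h n 0 :=
  mx_const_of_closes H (fun _ _ M => M.closes_of_ratLeaf H R) θ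

end Vale.Agent.P097
end

section

/-!
# P097, regularity theorem, R1: the variational part for smooth tables

The lemmas of the files Basic, Graph, Seq, Max, Rational with real-analyticity replaced by
infinite differentiability.
-/

namespace Vale.Agent.P097.Sm

open Real Set Filter Topology
open scoped ContDiff

/-- Smoothness. -/
def An (h : ℝ → ℝ) : Prop := ContDiff ℝ ∞ h

theorem An.deriv {h : ℝ → ℝ} (H : An h) : An (deriv h) :=
  (contDiff_infty_iff_deriv.1 H).2

theorem An.hasDerivAt {h : ℝ → ℝ} (H : An h) (x : ℝ) : HasDerivAt h (_root_.deriv h x) x :=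
  ((contDiff_infty_iff_deriv.1 H).1 x).hasDerivAt

theorem An.continuous {h : ℝ → ℝ} (H : An h) : Continuous h := ContDiff.continuous H

theorem hasDerivAt_K_snd {h : ℝ → ℝ} (H : An h) (φ ψ : ℝ) :
    HasDerivAt (fun x => K h φ x) (-(rad h ψ * sin (ψ - φ))) ψ := by
  have h1 := H.hasDerivAt ψ
  have h2 := H.deriv.hasDerivAt ψ
  have h3 : HasDerivAt (fun x : ℝ => x - φ) 1 ψ := (hasDerivAt_id ψ).sub_const φ
  have h4 := (h1.mul h3.cos).sub (h2.mul h3.sin)
  refine h4.congr_deriv ?_
  simp only [rad]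
  ring

theorem hasDerivAt_S {h : ℝ → ℝ} (H : An h) {a b : ℝ → ℝ} {a' b' t : ℝ}
    (ha : HasDerivAt a a' t) (hb : HasDerivAt b b' t) :
    HasDerivAt (fun x => S h (a x) (b x))
      (K h (b t) ((a t + b t) / 2) * b' - K h (a t) ((a t + b t) / 2) * a') t := by
  have h0 : HasDerivAt (fun x => (a x + b x) / 2) ((a' + b') / 2) t := (ha.add hb).div_const 2
  have h1 : HasDerivAt (fun x => h ((a x + b x) / 2))
      (deriv h ((a t + b t) / 2) * ((a' + b') / 2)) t :=
    (H.hasDerivAt ((a t + b t) / 2)).comp t h0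
  have h3 : HasDerivAt (fun x => (b x - a x) / 2) ((b' - a') / 2) t := (hb.sub ha).div_const 2
  have h4 := (h1.const_mul 2).mul h3.sin
  refine h4.congr_deriv ?_
  simp only [K]
  have e1 : (a t + b t) / 2 - b t = -((b t - a t) / 2) := by ring
  have e2 : (a t + b t) / 2 - a t = (b t - a t) / 2 := by ring
  rw [e1, e2, cos_neg, sin_neg]
  ring

theorem continuous_K {h : ℝ → ℝ} (H : An h) : Continuous (fun p : ℝ × ℝ => K h p.1 p.2) := by
  have h1 := H.continuous
  have h2 := H.deriv.continuous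
  unfold K
  (clear * - h1 h2; fun_prop)

structure Adm (h : ℝ → ℝ) : Prop where
  an : An h
  per : ∀ x, h (x + 2 * π) = h x
  nonneg : ∀ x, 0 ≤ rad h x
  dense : ∀ a b, a < b → ∃ x ∈ Ioo a b, 0 < rad h x

theorem K_strictAnti {h : ℝ → ℝ} (H : Adm h) (φ : ℝ) :
    StrictAntiOn (fun ψ => K h φ ψ) (Icc φ (φ + π)) := by
  have hanti : AntitoneOn (fun ψ => K h φ ψ) (Icc φ (φ + π)) := by
    apply antitoneOn_of_deriv_nonpos (convex_Icc _ _)
    · exact fun x _ => (hasDerivAt_K_snd H.an φ x).continuousAt.continuousWithinAt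
    · exact fun x _ => (hasDerivAt_K_snd H.an φ x).differentiableAt.differentiableWithinAt
    · intro x hx
      rw [interior_Icc] at hx
      rw [(hasDerivAt_K_snd H.an φ x).deriv]
      have : 0 ≤ sin (x - φ) := sin_nonneg_of_nonneg_of_le_pi (by linarith [hx.1]) (by linarith only [hx.2])
      have := mul_nonneg (H.nonneg x) this
      linarith only [this]
  intro x hx y hy hxy
  refine lt_of_le_of_ne (hanti hx hy hxy.le) ?_
  intro heq
  obtain ⟨z, hz, hpos⟩ := H.dense x y hxy
  have hz2 : z ∈ Ioo φ (φ + π) := ⟨lt_of_le_of_lt hx.1 hz.1, lt_of_lt_of_le hz.2 hy.2⟩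
  have hconst : ∀ w ∈ Ioo x y, K h φ w = K h φ x := by
    intro w hw
    have hw' : w ∈ Icc φ (φ + π) := ⟨hx.1.trans hw.1.le, hw.2.le.trans hy.2⟩
    have h1 := hanti hx hw' hw.1.le
    have h2 := hanti hw' hy hw.2.le
    simp only at heq h1 h2
    linarith only [heq, h2, h1]
  have hd : HasDerivAt (fun ψ => K h φ ψ) 0 z := by
    have h1 : (fun ψ => K h φ ψ) =ᶠ[nhds z] fun _ => K h φ x := by
      filter_upwards [Ioo_mem_nhds hz.1 hz.2] with w hw
      exact hconst w hw
    exact (hasDerivAt_const z (K h φ x)).congr_of_eventuallyEq h1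
  have h2 := hd.unique (hasDerivAt_K_snd H.an φ z)
  have h3 : 0 < sin (z - φ) := sin_pos_of_pos_of_lt_pi (by linarith only [hz2.1]) (by linarith only [hz2.2])
  have := mul_pos hpos h3
  linarith only [h2, this]

theorem K_strictMono {h : ℝ → ℝ} (H : Adm h) (φ : ℝ) :
    StrictMonoOn (fun ψ => K h φ ψ) (Icc (φ - π) φ) := by
  have hmono : MonotoneOn (fun ψ => K h φ ψ) (Icc (φ - π) φ) := by
    apply monotoneOn_of_deriv_nonneg (convex_Icc _ _)
    · exact fun x _ => (hasDerivAt_K_snd H.an φ x).continuousAt.continuousWithinAt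
    · exact fun x _ => (hasDerivAt_K_snd H.an φ x).differentiableAt.differentiableWithinAt
    · intro x hx
      rw [interior_Icc] at hx
      rw [(hasDerivAt_K_snd H.an φ x).deriv]
      have : sin (x - φ) ≤ 0 :=
        sin_nonpos_of_nonpos_of_neg_pi_le (by linarith [hx.2]) (by linarith only [hx.1])
      have := mul_nonpos_of_nonneg_of_nonpos (H.nonneg x) this
      linarith
  intro x hx y hy hxy
  refine lt_of_le_of_ne (hmono hx hy hxy.le) ?_
  intro heq
  obtain ⟨z, hz, hpos⟩ := H.dense x y hxy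
  have hz2 : z ∈ Ioo (φ - π) φ := ⟨lt_of_le_of_lt hx.1 hz.1, lt_of_lt_of_le hz.2 hy.2⟩
  have hconst : ∀ w ∈ Ioo x y, K h φ w = K h φ x := by
    intro w hw
    have hw' : w ∈ Icc (φ - π) φ := ⟨hx.1.trans hw.1.le, hw.2.le.trans hy.2⟩
    have h1 := hmono hx hw' hw.1.le
    have h2 := hmono hw' hy hw.2.le
    simp only at heq h1 h2
    linarith
  have hd : HasDerivAt (fun ψ => K h φ ψ) 0 z := by
    have h1 : (fun ψ => K h φ ψ) =ᶠ[nhds z] fun _ => K h φ x := by
      filter_upwards [Ioo_mem_nhds hz.1 hz.2] with w hw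
      exact hconst w hw
    exact (hasDerivAt_const z (K h φ x)).congr_of_eventuallyEq h1
  have h2 := hd.unique (hasDerivAt_K_snd H.an φ z)
  have h3 : sin (z - φ) < 0 := sin_neg_of_neg_of_neg_pi_lt (by linarith only [hz2.2]) (by linarith [hz2.1])
  have := mul_neg_of_pos_of_neg hpos h3
  linarith only [h2, this]

theorem exists_gain {h : ℝ → ℝ} (H : Adm h) {a b : ℝ} (hab : a < b) (hb : b ≤ a + 2 * π) :
    ∃ z ∈ Ioo a b, S h a b < S h a z + S h z b := by
  have hd : HasDerivAt (fun z => S h a z + S h z b) (h a - K h a ((a + b) / 2)) a := by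
    have e1 := hasDerivAt_S H.an (hasDerivAt_const a a) (hasDerivAt_id a)
    have e2 := hasDerivAt_S H.an (hasDerivAt_id a) (hasDerivAt_const a b)
    refine (e1.add e2).congr_deriv ?_
    simp only [id]
    have : (a + a) / 2 = a := by ring
    rw [this, K_self]
    ring
  have hpos : 0 < h a - K h a ((a + b) / 2) := by
    have := K_strictAnti H a (a := a) (b := (a + b) / 2)
      ⟨le_refl _, by linarith only [hab, hb]⟩ ⟨by linarith, by linarith⟩ (by linarith)
    simp only [K_self] at this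
    linarith only [this]
  have h1 := (hasDerivAt_iff_tendsto_slope.1 hd)
  have h2 : ∀ᶠ z in nhdsWithin a (Ioi a), 0 < slope (fun z => S h a z + S h z b) a z := by
    have h3 := (h1.eventually (lt_mem_nhds hpos))
    exact h3.filter_mono (nhdsWithin_mono _ (fun z hz => (ne_of_gt hz : z ≠ a)))
  have h3 : ∀ᶠ z in nhdsWithin a (Ioi a), z ∈ Ioo a b := Ioo_mem_nhdsGT hab
  obtain ⟨z, hz1, hz2⟩ := (h2.and h3).exists
  refine ⟨z, hz2, ?_⟩
  rw [slope_def_field] at hz1
  have h4 : 0 < z - a := by linarith only [hz2.1]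
  have h5 := (div_pos_iff_of_pos_right h4).1 hz1
  simp only [S_self] at h5
  linarith only [h5]

theorem next_unique {h : ℝ → ℝ} (H : Adm h) {φ x y : ℝ} (hx : x ∈ Icc φ (φ + π))
    (hy : y ∈ Icc φ (φ + π)) (he : K h φ x = K h φ y) : x = y :=
  (K_strictAnti H φ).injOn hx hy he

theorem prev_unique {h : ℝ → ℝ} (H : Adm h) {φ x y : ℝ} (hx : x ∈ Icc (φ - π) φ)
    (hy : y ∈ Icc (φ - π) φ) (he : K h φ x = K h φ y) : x = y :=
  (K_strictMono H φ).injOn hx hy he

theorem invG_exists_F' {h f : ℝ → ℝ} (H : Adm h) (G : InvGraph h f) :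
    ∃ F : ℝ → ℝ, (∀ ψ, Step h ψ (f ψ) (F ψ) (f (F ψ))) ∧
      (∀ ψ, F ψ = ψ + f ψ + f (F ψ)) ∧ (∀ ψ, K h (ψ + f ψ) ψ = K h (ψ + f ψ) (F ψ)) ∧
      StrictMono F ∧ Function.Surjective F := by
  obtain ⟨hfc, hfp, hf, hstep⟩ := G
  choose F hF using hstep
  have hF1 : ∀ ψ, F ψ = ψ + f ψ + f (F ψ) := fun ψ => (hF ψ).2.2.2.2.1
  have hK : ∀ ψ, K h (ψ + f ψ) ψ = K h (ψ + f ψ) (F ψ) := fun ψ => (hF ψ).K_eq
  have hcK := continuous_K H.an
  have hinj : Function.Injective F := by
    intro x y hxy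
    have e1 : x + f x = y + f y := by
      have := hF1 x; have := hF1 y
      rw [hxy] at *
      (clear h H hfc hfp hf hF hF1 hK hcK hxy; linarith)
    apply prev_unique H (φ := x + f x) ⟨by linarith only [(hf x).2], by linarith [(hf x).1]⟩
    · rw [e1]
      exact ⟨by linarith [(hf y).2], by linarith only [(hf y).1]⟩
    · rw [hK x, hxy, e1, hK y]
  have hlow : ∀ ψ, ψ + f ψ < F ψ := fun ψ => by linarith [hF1 ψ, (hf (F ψ)).1]
  have hhigh : ∀ ψ, F ψ < ψ + f ψ + π := fun ψ => by linarith [hF1 ψ, (hf (F ψ)).2]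
  have hcont : Continuous F := by
    rw [continuous_iff_continuousAt]
    intro x
    refine tendsto_order.2 ⟨fun a ha => ?_, fun a ha => ?_⟩
    · obtain ⟨a', h1, h2⟩ := exists_between (max_lt ha (hlow x))
      have h3 : x + f x < a' := lt_of_le_of_lt (le_max_right _ _) h1
      have h4 : a < a' := lt_of_le_of_lt (le_max_left _ _) h1
      have h5 : K h (x + f x) x < K h (x + f x) a' := by
        rw [hK x]
        exact K_strictAnti H _ ⟨h3.le, by linarith only [h2, hhigh x]⟩ ⟨(hlow x).le, (hhigh x).le⟩ h2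
      have c1 : Continuous fun y => K h (y + f y) y :=
        hcK.comp ((continuous_id.add hfc).prodMk continuous_id)
      have c2 : Continuous fun y => K h (y + f y) a' :=
        hcK.comp ((continuous_id.add hfc).prodMk continuous_const)
      have e1 : ∀ᶠ y in 𝓝 x, K h (y + f y) y < K h (y + f y) a' :=
        (c1.continuousAt (x := x)).eventually_lt c2.continuousAt h5
      have e2 : ∀ᶠ y in 𝓝 x, y + f y < a' :=
        ((continuous_id.add hfc).continuousAt (x := x)).eventually_lt continuousAt_const h3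
      have e3 : ∀ᶠ y in 𝓝 x, a' < y + f y + π :=
        continuousAt_const.eventually_lt
          (((continuous_id.add hfc).add continuous_const).continuousAt (x := x))
          (show a' < x + f x + π by linarith only [h2, hhigh x])
      filter_upwards [e1, e2, e3] with y h6 h7 h8
      refine h4.trans ?_
      by_contra hcon
      push Not at hcon
      have := (K_strictAnti H (y + f y)).antitoneOn ⟨(hlow y).le, (hhigh y).le⟩
        ⟨h7.le, h8.le⟩ hcon
      linarith only [h6, this, hK y]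
    · obtain ⟨a', h1, h2⟩ := exists_between (lt_min ha (hhigh x))
      have h3 : a' < x + f x + π := lt_of_lt_of_le h2 (min_le_right _ _)
      have h4 : a' < a := lt_of_lt_of_le h2 (min_le_left _ _)
      have h5 : K h (x + f x) a' < K h (x + f x) x := by
        rw [hK x]
        exact K_strictAnti H _ ⟨(hlow x).le, (hhigh x).le⟩ ⟨by linarith [hlow x], h3.le⟩ h1
      have c1 : Continuous fun y => K h (y + f y) y :=
        hcK.comp ((continuous_id.add hfc).prodMk continuous_id)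
      have c2 : Continuous fun y => K h (y + f y) a' :=
        hcK.comp ((continuous_id.add hfc).prodMk continuous_const)
      have e1 : ∀ᶠ y in 𝓝 x, K h (y + f y) a' < K h (y + f y) y :=
        (c2.continuousAt (x := x)).eventually_lt c1.continuousAt h5
      have e2 : ∀ᶠ y in 𝓝 x, y + f y < a' :=
        ((continuous_id.add hfc).continuousAt (x := x)).eventually_lt continuousAt_const
          (show x + f x < a' by linarith [hlow x])
      have e3 : ∀ᶠ y in 𝓝 x, a' < y + f y + π :=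
        continuousAt_const.eventually_lt
          (((continuous_id.add hfc).add continuous_const).continuousAt (x := x))
          (show a' < x + f x + π by linarith)
      filter_upwards [e1, e2, e3] with y h6 h7 h8
      refine lt_trans ?_ h4
      by_contra hcon
      push Not at hcon
      have := (K_strictAnti H (y + f y)).antitoneOn ⟨h7.le, h8.le⟩
        ⟨(hlow y).le, (hhigh y).le⟩ hcon
      linarith only [h6, this, hK y]
  have hFp : ∀ x, F (x + 2 * π) = F x + 2 * π := by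
    intro x
    apply next_unique H (φ := x + 2 * π + f (x + 2 * π))
      ⟨(hlow _).le, (hhigh _).le⟩
    · rw [hfp]
      exact ⟨by linarith only [hlow x], by linarith only [hhigh x]⟩
    · rw [← hK (x + 2 * π), hfp]
      have e1 : x + 2 * π + f x = (x + f x) + 2 * π := by ring
      rw [e1, K_per H.per, K_per H.per, hK x]
  exact ⟨F, hF, hF1, hK, strictMono_of_shift hcont hFp hinj, surjective_of_shift hcont hFp⟩

theorem invG_exists_F {h f : ℝ → ℝ} (H : Adm h) (G : InvGraph h f) :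
    ∃ F : ℝ → ℝ, (∀ ψ, F ψ = ψ + f ψ + f (F ψ)) ∧ (∀ ψ, K h (ψ + f ψ) ψ = K h (ψ + f ψ) (F ψ)) ∧
      StrictMono F ∧ Function.Surjective F := by
  obtain ⟨F, _, h⟩ := invG_exists_F' H G
  exact ⟨F, h⟩

theorem invG_forward {h f : ℝ → ℝ} (H : Adm h) (G : InvGraph h f) {z x y : ℝ}
    (hx : f x = z - x) (hy : y ∈ Icc z (z + π)) (hK : K h z x = K h z y) : f y = y - z := by
  obtain ⟨F, h1, h2, _, _⟩ := invG_exists_F H G
  have hz : x + f x = z := by linarith
  have hF := h1 x
  have hFK := h2 x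
  rw [hz] at hF hFK
  have hf := G.2.2.1
  have : F x = y := next_unique H (φ := z) ⟨by linarith only [hF, (hf (F x)).1], by linarith only [hF, (hf (F x)).2]⟩
    hy (by rw [← hFK, hK])
  rw [this] at hF
  linarith

theorem invG_backward {h f : ℝ → ℝ} (H : Adm h) (G : InvGraph h f) {z x y : ℝ}
    (hy : f y = y - z) (hx : x ∈ Icc (z - π) z) (hK : K h z x = K h z y) : f x = z - x := by
  obtain ⟨F, h1, h2, _, hs⟩ := invG_exists_F H G
  obtain ⟨w, hw⟩ := hs y
  have hF := h1 w
  have hFK := h2 w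
  have hz : w + f w = z := by rw [hw] at hF; linarith
  rw [hz, hw] at hFK
  have hf := G.2.2.1
  have : w = x := prev_unique H (φ := z) ⟨by linarith only [hz, (hf w).2], by linarith only [hz, (hf w).1]⟩
    hx (by rw [hFK, hK])
  rw [this] at hz
  linarith only [hz]

theorem invG_inj {h f : ℝ → ℝ} (H : Adm h) (G : InvGraph h f) {z x y : ℝ}
    (hx : f x = x - z) (hy : f y = y - z) : x = y := by
  obtain ⟨F, h1, h2, hm, hs⟩ := invG_exists_F H G
  have hf := G.2.2.1
  have main : ∀ x y : ℝ, f x = x - z → f y = y - z → ¬ x < y := by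
    intro x y hx hy hxy
    obtain ⟨x', hx'⟩ := hs x
    obtain ⟨y', hy'⟩ := hs y
    have a1 := h1 x'
    have a2 := h2 x'
    have b1 := h1 y'
    have b2 := h2 y'
    have zx : x' + f x' = z := by rw [hx'] at a1; linarith only [hx, a1]
    have zy : y' + f y' = z := by rw [hy'] at b1; linarith only [hy, b1]
    rw [zx, hx'] at a2
    rw [zy, hy'] at b2
    have c1 : K h z y < K h z x := K_strictAnti H z
      ⟨by linarith only [hx, (hf x).1], by linarith only [hx, (hf x).2]⟩
      ⟨by linarith only [hy, (hf y).1], by linarith only [hy, (hf y).2]⟩ hxy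
    have c2 : y' < x' := by
      by_contra hcon
      push Not at hcon
      have := (K_strictMono H z).monotoneOn
        (⟨by linarith only [zx, (hf x').2], by linarith only [zx, (hf x').1]⟩ : x' ∈ Icc (z - π) z)
        (⟨by linarith only [zy, (hf y').2], by linarith only [zy, (hf y').1]⟩ : y' ∈ Icc (z - π) z) hcon
      linarith only [a2, b2, c1, this]
    have := hm c2
    rw [hx', hy'] at this
    linarith only [hxy, this]
  rcases lt_trichotomy x y with hlt | heq | hgt
  · exact absurd hlt (main x y hx hy)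
  · exact heq
  · exact absurd hgt (main y x hy hx)

theorem invG_closing {h f : ℝ → ℝ} (H : Adm h) (G : InvGraph h f) {z x y : ℝ}
    (hx : f x = x - z) (hy : f y = z + 2 * π - y) : K h (z + 2 * π) y = K h z x := by
  obtain ⟨F, h1, h2, hm, hs⟩ := invG_exists_F H G
  have hf := G.2.2.1
  have a1 := h1 y
  have a2 := h2 y
  have zy : y + f y = z + 2 * π := by linarith
  rw [zy] at a1 a2
  have hFy : F y = x + 2 * π := by
    apply invG_inj H G (z := z + 2 * π)
    · linarith only [a1]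
    · rw [G.2.1, hx]; ring
  rw [a2, hFy, K_per H.per]

theorem isM_pos {h : ℝ → ℝ} (H : Adm h) {n : ℕ} {θ : ℝ} {Z : ℕ → ℝ} (M : IsMaxC h n θ Z) :
    ∀ j ≤ n, Z j < Z (j + 1) := by
  have hle := M.1.2.2
  have key : ∀ k, k + 1 ≤ n → (Z k = Z (k + 1) ↔ Z (k + 1) = Z (k + 2)) := by
    intro k hk
    by_contra hcon
    have h1 := hle k (by omega)
    have h2 := hle (k + 1) hk
    have h3 : Z k < Z (k + 2) := by
      rcases lt_or_eq_of_le h1 with h | h
      · exact lt_of_lt_of_le h h2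
      · rcases lt_or_eq_of_le h2 with h' | h'
        · exact lt_of_le_of_lt h1 h'
        · exact absurd (by (clear * - hcon h h'; tauto)) hcon
    obtain ⟨z, hz, hgain⟩ := exists_gain H h3 (M.1.gap_le (by omega) (by omega))
    have h4 := M.local hk hz.1.le hz.2.le
    have h5 : S h (Z k) (Z (k + 1)) + S h (Z (k + 1)) (Z (k + 2)) = S h (Z k) (Z (k + 2)) := by
      by_cases e1 : Z k = Z (k + 1)
      · rw [e1, S_self, zero_add]
      · by_cases e2 : Z (k + 1) = Z (k + 2)
        · rw [← e2, S_self, add_zero]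
        · exact absurd (by (clear * - hcon e2 e1; tauto)) hcon
    linarith only [hgain, h4, h5]
  have key2 : ∀ j ≤ n, (Z j = Z (j + 1) ↔ Z 0 = Z 1) := by
    intro j
    induction j with
    | zero => intro _; rfl
    | succ k ih =>
      intro hk
      rw [← key k hk]
      exact ih (by omega)
  intro j hj
  rcases lt_or_eq_of_le (hle j hj) with h | h
  · exact h
  · exfalso
    have h0 : Z 0 = Z 1 := (key2 j hj).1 h
    have hall : ∀ i ≤ n + 1, Z i = Z 0 := by
      intro i
      induction i with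
      | zero => intro _; rfl
      | succ k ih =>
        intro hk
        rw [← (key2 k (by omega)).2 h0]
        exact ih (by omega)
    have := hall (n + 1) le_rfl
    rw [M.1.1, M.1.2.1] at this
    linarith only [this, pi_pos]

theorem isM_crit {h : ℝ → ℝ} (H : Adm h) {n k : ℕ} {θ : ℝ} {Z : ℕ → ℝ} (M : IsMaxC h n θ Z)
    (hk : k + 1 ≤ n) : K h (Z (k + 1)) (mid Z k) = K h (Z (k + 1)) (mid Z (k + 1)) := by
  have hp := isM_pos H M
  have h1 := hp k (by omega)
  have h2 := hp (k + 1) hk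
  have hd : HasDerivAt (fun z => S h (Z k) z + S h z (Z (k + 2)))
      (K h (Z (k + 1)) (mid Z k) - K h (Z (k + 1)) (mid Z (k + 1))) (Z (k + 1)) := by
    have e1 := hasDerivAt_S H.an (hasDerivAt_const (Z (k + 1)) (Z k)) (hasDerivAt_id _)
    have e2 := hasDerivAt_S H.an (hasDerivAt_id _) (hasDerivAt_const (Z (k + 1)) (Z (k + 2)))
    refine (e1.add e2).congr_deriv ?_
    simp only [id, mid]
    ring
  have hmax : IsLocalMax (fun z => S h (Z k) z + S h z (Z (k + 2))) (Z (k + 1)) := by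
    filter_upwards [Ioo_mem_nhds h1 h2] with z hz
    exact M.local hk hz.1.le hz.2.le
  have := hmax.hasDerivAt_eq_zero hd
  linarith only [this]

theorem invG_chain {h f : ℝ → ℝ} (H : Adm h) (G : InvGraph h f) {n : ℕ} {Z : ℕ → ℝ}
    (hpos : ∀ j ≤ n, Z j < Z (j + 1)) (hlen : ∀ j ≤ n, Z (j + 1) ≤ Z j + 2 * π)
    (hcrit : ∀ k, k + 1 ≤ n → K h (Z (k + 1)) (mid Z k) = K h (Z (k + 1)) (mid Z (k + 1)))
    {i : ℕ} (hi : i ≤ n) (hf : f (mid Z i) = Z (i + 1) - mid Z i) :
    ∀ j ≤ n, f (mid Z j) = Z (j + 1) - mid Z j := by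
  have key : ∀ k, k + 1 ≤ n → (f (mid Z k) = Z (k + 1) - mid Z k ↔
      f (mid Z (k + 1)) = Z (k + 2) - mid Z (k + 1)) := by
    intro k hk
    have p1 := hpos k (by omega)
    have p2 := hpos (k + 1) hk
    have l1 := hlen k (by omega)
    have l2 := hlen (k + 1) hk
    have m1 : mid Z (k + 1) ∈ Icc (Z (k + 1)) (Z (k + 1) + π) := by
      simp only [mid]
      constructor <;> linarith only [l2, p2]
    have m2 : mid Z k ∈ Icc (Z (k + 1) - π) (Z (k + 1)) := by
      simp only [mid]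
      constructor <;> linarith only [l1, p1]
    have e : mid Z (k + 1) - Z (k + 1) = Z (k + 2) - mid Z (k + 1) := by
      simp only [mid]
      ring
    constructor
    · intro hk'
      rw [← e]
      exact invG_forward H G hk' m1 (hcrit k hk)
    · intro hk'
      rw [← e] at hk'
      exact invG_backward H G hk' m2 (hcrit k hk)
  have key2 : ∀ j ≤ n, (f (mid Z j) = Z (j + 1) - mid Z j ↔ f (mid Z 0) = Z 1 - mid Z 0) := by
    intro j
    induction j with
    | zero => intro _; rfl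
    | succ k ih =>
      intro hk
      rw [← key k hk]
      exact ih (by omega)
  intro j hj
  exact (key2 j hj).2 ((key2 i hi).1 hf)

theorem isM_closes_of_collar {h : ℝ → ℝ} (H : Adm h) {η : ℝ} (hη : Collar h η) {n : ℕ}
    (hn : π / (n + 1) < η) {θ : ℝ} {Z : ℕ → ℝ} (M : IsMaxC h n θ Z) : Closes h n Z := by
  have hp := isM_pos H M
  obtain ⟨i, hi, hgap⟩ : ∃ i ≤ n, (Z (i + 1) - Z i) ≤ 2 * π / (n + 1) := by
    by_contra hcon
    push Not at hcon
    have h1 : ∑ j ∈ Finset.range (n + 1), (2 * π / (n + 1) : ℝ) <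
        ∑ j ∈ Finset.range (n + 1), (Z (j + 1) - Z j) := by
      apply Finset.sum_lt_sum_of_nonempty ⟨0, by simp only [Finset.mem_range, lt_add_iff_pos_left, Order.lt_add_one_iff, zero_le]⟩
      intro j hj
      exact hcon j (by rw [Finset.mem_range] at hj; omega)
    rw [Finset.sum_range_sub, M.1.1, M.1.2.1, Finset.sum_const, Finset.card_range, nsmul_eq_mul]
      at h1
    push_cast at h1
    have hn1 : (0 : ℝ) < n + 1 := by positivity
    have h2 : ((n : ℝ) + 1) * (2 * π / (n + 1)) = 2 * π := by field_simp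
    rw [h2] at h1
    linarith only [h1]
  obtain ⟨f, G, hf⟩ := hη (mid Z i) (Z (i + 1) - mid Z i)
    (by have := hp i hi; simp only [mid]; linarith only [this])
    (by
      have e : Z (i + 1) - mid Z i = (Z (i + 1) - Z i) / 2 := by simp only [mid]; ring
      rw [e]
      have e2 : 2 * π / ((n : ℝ) + 1) = 2 * (π / (n + 1)) := by ring
      rw [e2] at hgap
      linarith only [hn, hgap])
  have hall := invG_chain H G hp (fun j hj => M.1.gap_le (by omega) (by omega))
    (fun k hk => isM_crit H M hk) hi hf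
  have h0 := hall 0 (Nat.zero_le n)
  have hn' := hall n le_rfl
  have e0 : Z 1 - mid Z 0 = mid Z 0 - Z 0 := by simp only [mid]; ring
  unfold Closes
  rw [M.1.2.1, M.1.1]
  apply invG_closing H G
  · rw [h0, zero_add, e0, M.1.1]
  · rw [hn', M.1.2.1]

theorem hasDerivAt_rot {h : ℝ → ℝ} (H : An h) (n : ℕ) (Z : ℕ → ℝ) :
    HasDerivAt (fun t => L h n (fun j => Z j + t))
      (∑ j ∈ Finset.range (n + 1), (K h (Z (j + 1)) (mid Z j) - K h (Z j) (mid Z j))) 0 := by
  unfold L
  apply HasDerivAt.fun_sum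
  intro j _
  have e1 : HasDerivAt (fun t : ℝ => Z j + t) 1 0 := (hasDerivAt_id (0 : ℝ)).const_add (Z j)
  have e2 : HasDerivAt (fun t : ℝ => Z (j + 1) + t) 1 0 :=
    (hasDerivAt_id (0 : ℝ)).const_add (Z (j + 1))
  refine (hasDerivAt_S H e1 e2).congr_deriv ?_
  simp only [mid, add_zero, mul_one]

theorem isM_rot_zero {h : ℝ → ℝ} (H : Adm h) {n : ℕ} {θ : ℝ} {Z : ℕ → ℝ}
    (M : IsMaxC h n θ Z) (hc : Closes h n Z) :
    HasDerivAt (fun t => L h n (fun j => Z j + t)) 0 0 := by
  refine (hasDerivAt_rot H.an n Z).congr_deriv ?_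
  rw [sum_telescope n (fun j => K h (Z j) (mid Z j)) (fun j => K h (Z (j + 1)) (mid Z j))
    (fun k hk => isM_crit H M hk)]
  rw [hc]
  ring

theorem mx_const_of_closes {h : ℝ → ℝ} (H : Adm h) {n : ℕ}
    (hcl : ∀ θ Z, IsMaxC h n θ Z → Closes h n Z) (θ : ℝ) : mx h n θ = mx h n 0 := by
  have hc := H.an.continuous
  refine eq_zero_of_monotone_periodic ?_ (by positivity : (0 : ℝ) < 2 * π) (mx_per H.per n) θ 0
  intro a b hab
  have := image_le_of_liminf_slope_right_le_deriv_boundary (f := fun t => - mx h n t)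
    (a := a) (b := b) (continuous_mx hc n).neg.continuousOn (B := fun _ => - mx h n a)
    (B' := fun _ => 0) le_rfl continuousOn_const
    (fun x _ => hasDerivWithinAt_const _ _ _) ?_ (right_mem_Icc.2 hab)
  · linarith
  · intro x _ r hr
    apply Eventually.frequently
    obtain ⟨Z, M⟩ := exists_isMaxC hc n x
    have hd := isM_rot_zero H M (hcl x Z M)
    have hd2 : HasDerivAt (fun z => - L h n (fun j => Z j + (z - x))) (-0) x := by
      have h0 : HasDerivAt (fun t => L h n (fun j => Z j + t)) 0 (x - x) := by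
        rw [sub_self]; exact hd
      exact (HasDerivAt.comp_sub_const x x h0).neg
    rw [neg_zero] at hd2
    have h2 := (hasDerivAt_iff_tendsto_slope.1 hd2).eventually (gt_mem_nhds hr)
    have h3 := h2.filter_mono (nhdsWithin_mono x (fun z hz => (ne_of_gt hz : z ≠ x)) :
      𝓝[>] x ≤ 𝓝[≠] x)
    filter_upwards [h3, self_mem_nhdsWithin] with z hz1 hz2
    refine lt_of_le_of_lt ?_ hz1
    rw [slope_def_field, slope_def_field]
    have hz3 : 0 < z - x := sub_pos.2 hz2
    apply div_le_div_of_nonneg_right _ hz3.le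
    have e1 : L h n (fun j => Z j + (z - x)) ≤ mx h n z := by
      have := le_mx hc (M.1.rot (z - x))
      rwa [add_sub_cancel] at this
    have e2 : L h n (fun j => Z j + (x - x)) = mx h n x := by
      rw [M.mx_eq hc]
      simp
    rw [e2]
    linarith only [e1]

theorem mx_const_of_collar {h : ℝ → ℝ} (H : Adm h) {η : ℝ} (hη : Collar h η) {n : ℕ}
    (hn : π / (n + 1) < η) (θ : ℝ) : mx h n θ = mx h n 0 :=
  mx_const_of_closes H (fun _ _ M => isM_closes_of_collar H hη hn M) θ

theorem invG_exists_data {h f : ℝ → ℝ} (H : Adm h) (G : InvGraph h f) :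
    ∃ F : ℝ → ℝ, (∀ ψ, Step h ψ (f ψ) (F ψ) (f (F ψ))) ∧
      (∀ ψ, F ψ = ψ + f ψ + f (F ψ)) ∧ (∀ ψ, K h (ψ + f ψ) ψ = K h (ψ + f ψ) (F ψ)) ∧
      StrictMono F ∧ StrictMono (fun x => x - f x) ∧ StrictMono (fun x => x + f x) ∧
      Function.Surjective (fun x => x + f x) := by
  obtain ⟨F, hS, h1, h2, hm, hs⟩ := invG_exists_F' H G
  have ha : StrictMono (fun x => x - f x) := by
    apply strictMono_of_shift (continuous_id.sub G.1)
    · intro x
      show x + 2 * π - f (x + 2 * π) = x - f x + 2 * π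
      rw [G.2.1]
      ring
    · intro x y hxy
      apply invG_inj H G (z := x - f x)
      · ring
      · have : x - f x = y - f y := hxy
        linarith
  have hab : ∀ x, x + f x = F x - f (F x) := fun x => by linarith only [h1 x]
  refine ⟨F, hS, h1, h2, hm, ha, ?_, ?_⟩
  · intro x y hxy
    simp only
    rw [hab x, hab y]
    exact ha (hm hxy)
  · apply surjective_of_shift (continuous_id.add G.1)
    intro x
    show x + 2 * π + f (x + 2 * π) = x + f x + 2 * π
    rw [G.2.1]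
    ring

theorem step_above {h f F : ℝ → ℝ} (H : Adm h) (G : InvGraph h f)
    (h1 : ∀ ψ, F ψ = ψ + f ψ + f (F ψ)) (h2 : ∀ ψ, K h (ψ + f ψ) ψ = K h (ψ + f ψ) (F ψ))
    (hm : StrictMono F) (ha : StrictMono (fun x => x - f x)) (hb : StrictMono (fun x => x + f x))
    (hbs : Function.Surjective (fun x => x + f x)) {z p p' : ℝ} (hp : p ∈ Icc (z - π) z)
    (hp' : p' ∈ Icc z (z + π)) (hK : K h z p = K h z p') (hf : z - p < f p) :
    p' - z < f p' ∧ ∃ y, y - f y = z ∧ p' < y ∧ y < F p := by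
  obtain ⟨x, hx⟩ := hbs z
  simp only at hx
  have hxp : x < p := by
    apply hb.lt_iff_lt.1
    linarith
  have hfx := G.2.2.1
  have e1 := h1 x
  have e2 := h2 x
  rw [hx] at e1 e2
  have hxI : x ∈ Icc (z - π) z := ⟨by linarith only [hx, (hfx x).2], by linarith only [hx, (hfx x).1]⟩
  have hyI : F x ∈ Icc z (z + π) := ⟨by linarith only [e1, (hfx (F x)).1], by linarith [(hfx (F x)).2]⟩
  have k1 : K h z x < K h z p := K_strictMono H z hxI hp hxp
  have hy : p' < F x := by
    by_contra hcon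
    push Not at hcon
    have := (K_strictAnti H z).antitoneOn hyI hp' hcon
    linarith only [hK, e2, k1, this]
  have hay : F x - f (F x) = z := by linarith only [e1]
  refine ⟨?_, F x, hay, hy, hm hxp⟩
  have := ha hy
  simp only at this
  linarith only [e1, this]

theorem step_below {h f F : ℝ → ℝ} (H : Adm h) (G : InvGraph h f)
    (h1 : ∀ ψ, F ψ = ψ + f ψ + f (F ψ)) (h2 : ∀ ψ, K h (ψ + f ψ) ψ = K h (ψ + f ψ) (F ψ))
    (hm : StrictMono F) (ha : StrictMono (fun x => x - f x)) (hb : StrictMono (fun x => x + f x))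
    (hbs : Function.Surjective (fun x => x + f x)) {z p p' : ℝ} (hp : p ∈ Icc (z - π) z)
    (hp' : p' ∈ Icc z (z + π)) (hK : K h z p = K h z p') (hf : f p < z - p) :
    f p' < p' - z ∧ ∃ y, y - f y = z ∧ y < p' ∧ F p < y := by
  obtain ⟨x, hx⟩ := hbs z
  simp only at hx
  have hxp : p < x := by
    apply hb.lt_iff_lt.1
    linarith
  have hfx := G.2.2.1
  have e1 := h1 x
  have e2 := h2 x
  rw [hx] at e1 e2
  have hxI : x ∈ Icc (z - π) z := ⟨by linarith only [hx, (hfx x).2], by linarith only [hx, (hfx x).1]⟩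
  have hyI : F x ∈ Icc z (z + π) := ⟨by linarith only [e1, (hfx (F x)).1], by linarith only [e1, (hfx (F x)).2]⟩
  have k1 : K h z p < K h z x := K_strictMono H z hp hxI hxp
  have hy : F x < p' := by
    by_contra hcon
    push Not at hcon
    have := (K_strictAnti H z).antitoneOn hp' hyI hcon
    linarith only [hK, e2, k1, this]
  have hay : F x - f (F x) = z := by linarith only [e1]
  refine ⟨?_, F x, hay, hy, hm hxp⟩
  have := ha hy
  simp only at this
  linarith

theorem isM_on_ratLeaf {h f : ℝ → ℝ} (H : Adm h) {n : ℕ} (R : RatLeaf h (n + 1) f)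
    {θ : ℝ} {Z : ℕ → ℝ} (M : IsMaxC h n θ Z) : f (mid Z 0) = Z 1 - mid Z 0 := by
  obtain ⟨G, hR⟩ := R
  obtain ⟨F, hS, h1, h2, hm, ha, hb, hbs⟩ := invG_exists_data H G
  have hpos := isM_pos H M
  have hlen : ∀ j ≤ n, Z (j + 1) ≤ Z j + 2 * π := fun j hj => M.1.gap_le (by omega) (by omega)
  have hcrit := fun k (hk : k + 1 ≤ n) => isM_crit H M hk
  have hper : F^[n + 1] (mid Z 0) = mid Z 0 + 2 * π := by
    have := hR (fun j => F^[j] (mid Z 0)) (fun j => by
      simp only [Function.iterate_succ_apply']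
      exact hS _)
    simpa using this
  have hI : ∀ k, k ≤ n → mid Z k ∈ Icc (Z (k + 1) - π) (Z (k + 1)) := by
    intro k hk
    have p1 := hpos k hk
    have l1 := hlen k hk
    simp only [mid]
    constructor <;> linarith only [l1, p1]
  have hI' : ∀ k, k + 1 ≤ n → mid Z (k + 1) ∈ Icc (Z (k + 1)) (Z (k + 1) + π) := by
    intro k hk
    have p1 := hpos (k + 1) hk
    have l1 := hlen (k + 1) hk
    simp only [mid]
    constructor <;> linarith only [l1, p1]
  have e : ∀ k, mid Z (k + 1) - Z (k + 1) = Z (k + 2) - mid Z (k + 1) := by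
    intro k
    simp only [mid]
    ring
  have e0 : Z 1 - mid Z 0 = mid Z 0 - Z 0 := by simp only [mid]; ring
  -- the closing bounce
  have hZ0 := M.1.1
  have hZn := M.1.2.1
  rcases lt_trichotomy (Z 1 - mid Z 0) (f (mid Z 0)) with hlt | heq | hgt
  · exfalso
    have key : ∀ j, j ≤ n → Z (j + 1) - mid Z j < f (mid Z j) ∧ mid Z j ≤ F^[j] (mid Z 0) := by
      intro j
      induction j with
      | zero => intro _; exact ⟨hlt, le_rfl⟩
      | succ k ih =>
        intro hk
        obtain ⟨i1, i2⟩ := ih (by omega)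
        obtain ⟨s1, y, _, s2, s3⟩ := step_above H G h1 h2 hm ha hb hbs (hI k (by omega))
          (hI' k hk) (hcrit k hk) i1
        rw [e k] at s1
        refine ⟨s1, ?_⟩
        rw [Function.iterate_succ_apply']
        have := hm.monotone i2
        linarith only [s2, s3, this]
    obtain ⟨i1, i2⟩ := key n le_rfl
    obtain ⟨x, hx⟩ := hbs (Z (n + 1))
    simp only at hx
    have hxp : x < mid Z n := by
      apply hb.lt_iff_lt.1
      linarith only [i1, hx]
    have e3 : F x - f (F x) = Z (n + 1) := by linarith only [hx, h1 x]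
    have e4 : F x < mid Z 0 + 2 * π := by
      rw [← hper, Function.iterate_succ_apply']
      exact lt_of_lt_of_le (hm hxp) (hm.monotone i2)
    have e5 := ha e4
    simp only [G.2.1] at e5
    linarith only [e0, hZ0, hZn, hlt, e3, e5]
  · exact heq.symm
  · exfalso
    have key : ∀ j, j ≤ n → f (mid Z j) < Z (j + 1) - mid Z j ∧ F^[j] (mid Z 0) ≤ mid Z j := by
      intro j
      induction j with
      | zero => intro _; exact ⟨hgt, le_rfl⟩
      | succ k ih =>
        intro hk
        obtain ⟨i1, i2⟩ := ih (by omega)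
        obtain ⟨s1, y, _, s2, s3⟩ := step_below H G h1 h2 hm ha hb hbs (hI k (by omega))
          (hI' k hk) (hcrit k hk) i1
        rw [e k] at s1
        refine ⟨s1, ?_⟩
        rw [Function.iterate_succ_apply']
        have := hm.monotone i2
        linarith only [s2, s3, this]
    obtain ⟨i1, i2⟩ := key n le_rfl
    obtain ⟨x, hx⟩ := hbs (Z (n + 1))
    simp only at hx
    have hxp : mid Z n < x := by
      apply hb.lt_iff_lt.1
      linarith
    have e3 : F x - f (F x) = Z (n + 1) := by linarith only [hx, h1 x]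
    have e4 : mid Z 0 + 2 * π < F x := by
      rw [← hper, Function.iterate_succ_apply']
      exact lt_of_le_of_lt (hm.monotone i2) (hm hxp)
    have e5 := ha e4
    simp only [G.2.1] at e5
    linarith only [e0, hZ0, hZn, hgt, e3, e5]

theorem isM_closes_of_ratLeaf {h f : ℝ → ℝ} (H : Adm h) {n : ℕ} (R : RatLeaf h (n + 1) f)
    {θ : ℝ} {Z : ℕ → ℝ} (M : IsMaxC h n θ Z) : Closes h n Z := by
  have hmain := isM_on_ratLeaf H R M
  have G := R.1
  have hpos := isM_pos H M
  have hlen : ∀ j ≤ n, Z (j + 1) ≤ Z j + 2 * π := fun j hj => M.1.gap_le (by omega) (by omega)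
  have hcrit := fun k (hk : k + 1 ≤ n) => isM_crit H M hk
  have e0 : Z 1 - mid Z 0 = mid Z 0 - Z 0 := by simp only [mid]; ring
  have hZ0 := M.1.1
  have hZn := M.1.2.1
  have hall := invG_chain H G hpos hlen hcrit (Nat.zero_le n) hmain
  have hn' := hall n le_rfl
  unfold Closes
  rw [hZn, hZ0]
  apply invG_closing H G
  · rw [hmain, e0, hZ0]
  · rw [hn', hZn]

theorem mx_const_of_ratLeaf {h f : ℝ → ℝ} (H : Adm h) {n : ℕ} (R : RatLeaf h (n + 1) f) (θ : ℝ) :
    mx h n θ = mx h n 0 :=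
  mx_const_of_closes H (fun _ _ M => isM_closes_of_ratLeaf H R M) θ

theorem adm_of {h : ℝ → ℝ} (hs : ContDiff ℝ ∞ h) (hp : ∀ x, h (x + 2 * π) = h x)
    (hpos : ∀ x, 0 < rad h x) : Adm h where
  an := hs
  per := hp
  nonneg := fun x => (hpos x).le
  dense := fun a b hab => ⟨(a + b) / 2, ⟨by linarith, by linarith only [hab]⟩, hpos _⟩

end Vale.Agent.P097.Sm

namespace Vale.Agent.P097.Reg

open Complex
open scoped ComplexConjugate ContDiff

theorem mx_const_of_ratLeaf_smooth {h f : ℝ → ℝ} (hs : ContDiff ℝ ∞ h)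
    (hp : ∀ x, h (x + 2 * Real.pi) = h x) (hpos : ∀ x, 0 < rad h x) {n : ℕ}
    (R : RatLeaf h (n + 1) f) (θ : ℝ) : mx h n θ = mx h n 0 :=
  Sm.mx_const_of_ratLeaf (Sm.adm_of hs hp hpos) R θ

theorem mx_const_of_collar_smooth {h : ℝ → ℝ} (hs : ContDiff ℝ ∞ h)
    (hp : ∀ x, h (x + 2 * Real.pi) = h x) (hpos : ∀ x, 0 < rad h x) {η : ℝ} (hη : Collar h η)
    {n : ℕ} (hn : Real.pi / (n + 1) < η) (θ : ℝ) : mx h n θ = mx h n 0 :=
  Sm.mx_const_of_collar (Sm.adm_of hs hp hpos) hη hn θ

theorem isMaxC_pos_smooth {h : ℝ → ℝ} (hs : ContDiff ℝ ∞ h)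
    (hp : ∀ x, h (x + 2 * Real.pi) = h x) (hpos : ∀ x, 0 < rad h x) {n : ℕ} {θ : ℝ} {Z : ℕ → ℝ}
    (Mx : IsMaxC h n θ Z) : ∀ j ≤ n, Z j < Z (j + 1) :=
  Sm.isM_pos (Sm.adm_of hs hp hpos) Mx

theorem isMaxC_crit_smooth {h : ℝ → ℝ} (hs : ContDiff ℝ ∞ h)
    (hp : ∀ x, h (x + 2 * Real.pi) = h x) (hpos : ∀ x, 0 < rad h x) {n : ℕ} {θ : ℝ} {Z : ℕ → ℝ}
    (Mx : IsMaxC h n θ Z) : ∀ k, k + 1 ≤ n →
      K h (Z (k + 1)) (mid Z k) = K h (Z (k + 1)) (mid Z (k + 1)) :=
  fun _ hk => Sm.isM_crit (Sm.adm_of hs hp hpos) Mx hk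

end Vale.Agent.P097.Reg
end

section

/-!
# P097, regularity theorem, R11g: second order inequality
-/

namespace Vale.Agent.P097.Reg

open Complex
open scoped ComplexConjugate ContDiff

/-- A second order Taylor estimate with a bound of the second derivative. -/
theorem so_taylor {f f' f'' : ℝ → ℝ} {A : ℝ} (h1 : ∀ t, HasDerivAt f (f' t) t)
    (h2 : ∀ t, HasDerivAt f' (f'' t) t) (hA : ∀ t, |f'' t| ≤ 2 * A) :
    |f 1 - f 0 - f' 0| ≤ A := by
  have hd : ∀ t, 0 ≤ t → |f' t - f' 0| ≤ 2 * A * t := by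
    intro t ht
    have := (convex_univ (𝕜 := ℝ) (E := ℝ)).norm_image_sub_le_of_norm_hasDerivWithin_le
      (f := f') (f' := f'') (C := 2 * A) (x := 0) (y := t)
      (fun x _ => (h2 x).hasDerivWithinAt) (fun x _ => by rw [Real.norm_eq_abs]; exact hA x)
      (Set.mem_univ _) (Set.mem_univ _)
    rw [Real.norm_eq_abs, Real.norm_eq_abs, sub_zero, abs_of_nonneg ht] at this
    exact this
  have hmono : ∀ s : ℝ, (s = 1 ∨ s = -1) →
      MonotoneOn (fun t => A * t ^ 2 - s * (f t - f 0 - f' 0 * t)) (Set.Icc (0 : ℝ) 1) := by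
    intro s hs
    have hder : ∀ t, HasDerivAt (fun t => A * t ^ 2 - s * (f t - f 0 - f' 0 * t))
        (A * (2 * t) - s * (f' t - f' 0)) t := by
      intro t
      have e1 : HasDerivAt (fun t : ℝ => A * t ^ 2) (A * (2 * t)) t := by
        have := (hasDerivAt_pow 2 t).const_mul A
        simpa only [Nat.cast_ofNat, Nat.add_one_sub_one, pow_one] using this
      have e2 : HasDerivAt (fun t : ℝ => f t - f 0 - f' 0 * t) (f' t - f' 0) t := by
        refine (((h1 t).sub_const (f 0)).sub ((hasDerivAt_id t).const_mul (f' 0))).congr_deriv ?_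
        rw [mul_one]
      exact e1.sub (e2.const_mul s)
    apply monotoneOn_of_deriv_nonneg (convex_Icc _ _)
    · exact fun x _ => (hder x).continuousAt.continuousWithinAt
    · exact fun x _ => (hder x).differentiableAt.differentiableWithinAt
    · intro x hx
      rw [interior_Icc] at hx
      rw [(hder x).deriv]
      have := abs_le.1 (hd x hx.1.le)
      rcases hs with rfl | rfl <;> linarith [this.1, this.2]
  have m1 := hmono 1 (Or.inl rfl) (Set.left_mem_Icc.2 zero_le_one)
    (Set.right_mem_Icc.2 zero_le_one) zero_le_one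
  have m2 := hmono (-1) (Or.inr rfl) (Set.left_mem_Icc.2 zero_le_one)
    (Set.right_mem_Icc.2 zero_le_one) zero_le_one
  simp only at m1 m2
  rw [abs_le]
  constructor <;> linarith

theorem so_term {h : ℝ → ℝ} (hs : ContDiff ℝ ∞ h) {B : ℝ}
    (hB : ∀ x, |h x| ≤ B ∧ |deriv h x| ≤ B ∧ |deriv (deriv h) x| ≤ B) {ε : ℝ} (a b a' b' : ℝ)
    (ha : |a' - a| ≤ ε) (hb : |b' - b| ≤ ε) :
    |S h a' b' - S h a b - (K h b ((a + b) / 2) * (b' - b) - K h a ((a + b) / 2) * (a' - a))|
      ≤ 4 * B * ε ^ 2 := by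
  have H : Sm.An h := hs
  set μ : ℝ := ((a' - a) + (b' - b)) / 2 with hμ
  set ν : ℝ := ((b' - b) - (a' - a)) / 2 with hν
  set m : ℝ := (a + b) / 2 with hm
  set d : ℝ := (b - a) / 2 with hd
  have hμε : |μ| ≤ ε := by
    rw [abs_le] at ha hb ⊢
    constructor <;> linarith only [ha, hb, hμ]
  have hνε : |ν| ≤ ε := by
    rw [abs_le] at ha hb ⊢
    constructor <;> linarith [ha.1, ha.2, hb.1, hb.2]
  have l1 : ∀ t : ℝ, HasDerivAt (fun t : ℝ => m + t * μ) μ t := by
    intro t
    have := ((hasDerivAt_id t).mul_const μ).const_add m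
    simpa using this
  have l2 : ∀ t : ℝ, HasDerivAt (fun t : ℝ => d + t * ν) ν t := by
    intro t
    have := ((hasDerivAt_id t).mul_const ν).const_add d
    simpa only [hasDerivAt_const_add_iff, id_eq, one_mul] using this
  have k0 : ∀ t : ℝ, HasDerivAt (fun t : ℝ => h (m + t * μ)) (deriv h (m + t * μ) * μ) t :=
    fun t => (H.hasDerivAt (m + t * μ)).comp t (l1 t)
  have k1 : ∀ t : ℝ, HasDerivAt (fun t : ℝ => deriv h (m + t * μ))
      (deriv (deriv h) (m + t * μ) * μ) t :=
    fun t => HasDerivAt.comp (h₂ := deriv h) t (H.deriv.hasDerivAt (m + t * μ)) (l1 t)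
  have s0 : ∀ t : ℝ, HasDerivAt (fun t : ℝ => Real.sin (d + t * ν))
      (Real.cos (d + t * ν) * ν) t := fun t => (l2 t).sin
  have c0 : ∀ t : ℝ, HasDerivAt (fun t : ℝ => Real.cos (d + t * ν))
      (-Real.sin (d + t * ν) * ν) t := fun t => (l2 t).cos
  have f1 : ∀ t : ℝ, HasDerivAt (fun t : ℝ => 2 * h (m + t * μ) * Real.sin (d + t * ν))
      (2 * deriv h (m + t * μ) * μ * Real.sin (d + t * ν)
        + 2 * h (m + t * μ) * Real.cos (d + t * ν) * ν) t := by
    intro t
    refine (((k0 t).const_mul 2).mul (s0 t)).congr_deriv ?_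
    ring
  have f2 : ∀ t : ℝ, HasDerivAt (fun t : ℝ => 2 * deriv h (m + t * μ) * μ * Real.sin (d + t * ν)
        + 2 * h (m + t * μ) * Real.cos (d + t * ν) * ν)
      (2 * deriv (deriv h) (m + t * μ) * μ ^ 2 * Real.sin (d + t * ν)
        + 4 * deriv h (m + t * μ) * μ * Real.cos (d + t * ν) * ν
        - 2 * h (m + t * μ) * Real.sin (d + t * ν) * ν ^ 2) t := by
    intro t
    refine (((((k1 t).const_mul 2).mul_const μ).mul (s0 t)).add
      ((((k0 t).const_mul 2).mul (c0 t)).mul_const ν)).congr_deriv ?_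
    ring
  have hB0 : 0 ≤ B := (abs_nonneg _).trans (hB 0).1
  have hε0 : 0 ≤ ε := (abs_nonneg _).trans ha
  have bd : ∀ t : ℝ, |2 * deriv (deriv h) (m + t * μ) * μ ^ 2 * Real.sin (d + t * ν)
        + 4 * deriv h (m + t * μ) * μ * Real.cos (d + t * ν) * ν
        - 2 * h (m + t * μ) * Real.sin (d + t * ν) * ν ^ 2| ≤ 2 * (4 * B * ε ^ 2) := by
    intro t
    obtain ⟨q0, q1, q2⟩ := hB (m + t * μ)
    have p1 : |2 * deriv (deriv h) (m + t * μ) * μ ^ 2 * Real.sin (d + t * ν)|
        ≤ 2 * B * ε ^ 2 * 1 := by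
      rw [abs_mul, abs_mul, abs_mul, abs_pow]
      have := Real.abs_sin_le_one (d + t * ν)
      have e : |(2 : ℝ)| = 2 := by norm_num
      rw [e]
      (clear * - q2 hμε hB0 this; gcongr)
    have p2 : |4 * deriv h (m + t * μ) * μ * Real.cos (d + t * ν) * ν|
        ≤ 4 * B * ε * 1 * ε := by
      rw [abs_mul, abs_mul, abs_mul, abs_mul]
      have := Real.abs_cos_le_one (d + t * ν)
      have e : |(4 : ℝ)| = 4 := by norm_num
      rw [e]
      (clear * - q1 hμε hB0 this hε0 hνε; gcongr)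
    have p3 : |2 * h (m + t * μ) * Real.sin (d + t * ν) * ν ^ 2|
        ≤ 2 * B * 1 * ε ^ 2 := by
      rw [abs_mul, abs_mul, abs_mul, abs_pow]
      have := Real.abs_sin_le_one (d + t * ν)
      have e : |(2 : ℝ)| = 2 := by norm_num
      rw [e]
      (clear * - q0 this hB0 hνε; gcongr)
    have t1 := abs_sub (2 * deriv (deriv h) (m + t * μ) * μ ^ 2 * Real.sin (d + t * ν)
        + 4 * deriv h (m + t * μ) * μ * Real.cos (d + t * ν) * ν)
        (2 * h (m + t * μ) * Real.sin (d + t * ν) * ν ^ 2)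
    have t2 := abs_add_le (2 * deriv (deriv h) (m + t * μ) * μ ^ 2 * Real.sin (d + t * ν))
        (4 * deriv h (m + t * μ) * μ * Real.cos (d + t * ν) * ν)
    linarith only [t2, t1, p3, p2, p1]
  have key := so_taylor f1 f2 bd
  have e1 : (a' + b') / 2 = m + 1 * μ := by rw [hm, hμ]; ring
  have e2 : (b' - a') / 2 = d + 1 * ν := by rw [hd, hν]; ring
  have e3 : m - b = -d := by rw [hm, hd]; ring
  have e4 : m - a = d := by rw [hm, hd]; ring
  have e5 : S h a' b' = 2 * h (m + 1 * μ) * Real.sin (d + 1 * ν) := by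
    unfold S
    rw [e1, e2]
  have e6 : S h a b = 2 * h m * Real.sin d := by
    unfold S
    rfl
  rw [e5, e6]
  have e7 : K h b m * (b' - b) - K h a m * (a' - a)
      = 2 * deriv h (m + 0 * μ) * μ * Real.sin (d + 0 * ν)
        + 2 * h (m + 0 * μ) * Real.cos (d + 0 * ν) * ν := by
    unfold K
    rw [e3, e4, Real.cos_neg, Real.sin_neg, zero_mul, zero_mul, add_zero, add_zero, hμ, hν]
    ring
  rw [e7]
  simpa only [one_mul, zero_mul, add_zero, ge_iff_le] using key

theorem second_order {h : ℝ → ℝ} (hs : ContDiff ℝ ∞ h) {B : ℝ}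
    (hB : ∀ x, |h x| ≤ B ∧ |deriv h x| ≤ B ∧ |deriv (deriv h) x| ≤ B) {n : ℕ} {Z U : ℕ → ℝ}
    {ε : ℝ} (h0 : U 0 = Z 0) (h1 : U (n + 1) = Z (n + 1))
    (hc : ∀ k, k + 1 ≤ n → K h (Z (k + 1)) (mid Z k) = K h (Z (k + 1)) (mid Z (k + 1)))
    (hε : ∀ j ≤ n + 1, |U j - Z j| ≤ ε) :
    |L h n U - L h n Z| ≤ 4 * B * (n + 1) * ε ^ 2 := by
  have tel : ∀ k ≤ n, ∑ j ∈ Finset.range (k + 1),
      (K h (Z (j + 1)) (mid Z j) * (U (j + 1) - Z (j + 1)) - K h (Z j) (mid Z j) * (U j - Z j))
        = K h (Z (k + 1)) (mid Z k) * (U (k + 1) - Z (k + 1)) := by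
    intro k
    induction k with
    | zero =>
      intro _
      simp [h0]
    | succ k ih =>
      intro hk
      rw [Finset.sum_range_succ, ih (by omega), hc k hk]
      ring
  have tel0 := tel n le_rfl
  rw [h1, sub_self, mul_zero] at tel0
  have e : L h n U - L h n Z = ∑ j ∈ Finset.range (n + 1),
      (S h (U j) (U (j + 1)) - S h (Z j) (Z (j + 1))
        - (K h (Z (j + 1)) (mid Z j) * (U (j + 1) - Z (j + 1))
          - K h (Z j) (mid Z j) * (U j - Z j))) := by
    rw [Finset.sum_sub_distrib, tel0, sub_zero, Finset.sum_sub_distrib]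
    rfl
  rw [e]
  refine (Finset.abs_sum_le_sum_abs _ _).trans ?_
  have : ∀ j ∈ Finset.range (n + 1), |S h (U j) (U (j + 1)) - S h (Z j) (Z (j + 1))
        - (K h (Z (j + 1)) (mid Z j) * (U (j + 1) - Z (j + 1))
          - K h (Z j) (mid Z j) * (U j - Z j))| ≤ 4 * B * ε ^ 2 := by
    intro j hj
    rw [Finset.mem_range] at hj
    exact so_term hs hB (Z j) (Z (j + 1)) (U j) (U (j + 1)) (hε j (by omega)) (hε (j + 1) (by omega))
  refine (Finset.sum_le_sum this).trans ?_
  rw [Finset.sum_const, Finset.card_range, nsmul_eq_mul]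
  push_cast
  apply le_of_eq
  ring

end Vale.Agent.P097.Reg
end

section

/-!
# P097: an analytic implicit function lemma
-/

namespace Vale.Agent.P097

open Set Filter Topology

theorem exists_analytic_solution {P Y : Type*} [NormedAddCommGroup P] [NormedSpace ℝ P]
    [FiniteDimensional ℝ P] [NormedAddCommGroup Y] [NormedSpace ℝ Y] [FiniteDimensional ℝ Y]
    {E : P × Y → Y} {p₀ : P} {y₀ : Y} (hE : AnalyticAt ℝ E (p₀, y₀)) (h0 : E (p₀, y₀) = 0)
    (hinj : ∀ V : Y, fderiv ℝ E (p₀, y₀) (0, V) = 0 → V = 0) :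
    ∃ u : P → Y, AnalyticAt ℝ u p₀ ∧ u p₀ = y₀ ∧
      ∀ᶠ q : P × Y in 𝓝 (p₀, y₀), E q = 0 → q.2 = u q.1 := by
  have : CompleteSpace P := FiniteDimensional.complete ℝ P
  have : CompleteSpace Y := FiniteDimensional.complete ℝ Y
  set Ψ : P × Y → P × Y := fun q => (q.1, E q) with hΨ
  have hΨa : AnalyticAt ℝ Ψ (p₀, y₀) := analyticAt_fst.prod hE
  set E' := fderiv ℝ E (p₀, y₀) with hE'
  have hd : HasFDerivAt E E' (p₀, y₀) := hE.differentiableAt.hasFDerivAt
  set D : (P × Y) →L[ℝ] (P × Y) := (ContinuousLinearMap.fst ℝ P Y).prod E' with hD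
  have hΨd : HasFDerivAt Ψ D (p₀, y₀) := hasFDerivAt_fst.prodMk hd
  have hDinj : Function.Injective D := by
    rw [injective_iff_map_eq_zero]
    rintro ⟨a, b⟩ hab
    simp only [hD, ContinuousLinearMap.prod_apply, ContinuousLinearMap.coe_fst', Prod.mk_eq_zero]
      at hab
    obtain ⟨h1, h2⟩ := hab
    subst h1
    rw [hinj b h2]
    rfl
  set e : (P × Y) ≃L[ℝ] (P × Y) :=
    (LinearEquiv.ofInjectiveEndo (D : (P × Y) →ₗ[ℝ] (P × Y)) hDinj).toContinuousLinearEquiv with he
  have heD : (e : (P × Y) →L[ℝ] (P × Y)) = D := by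
    ext x <;> rfl
  have hΨe : HasFDerivAt Ψ (e : (P × Y) →L[ℝ] (P × Y)) (p₀, y₀) := by rw [heD]; exact hΨd
  have hcd : ContDiffAt ℝ ⊤ Ψ (p₀, y₀) := hΨa.contDiffAt
  have hn : (⊤ : WithTop ℕ∞) ≠ 0 := by simp
  set G := hcd.localInverse hΨe hn with hG
  have hGa : AnalyticAt ℝ G (Ψ (p₀, y₀)) := (hcd.to_localInverse hΨe hn).analyticAt
  have hΨ0 : Ψ (p₀, y₀) = (p₀, 0) := by simp only [hΨ, h0]
  have hGinv : ∀ᶠ q in 𝓝 (p₀, y₀), G (Ψ q) = q :=
    (hcd.hasStrictFDerivAt' hΨe hn).eventually_left_inverse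
  refine ⟨fun p => (G (p, 0)).2, ?_, ?_, ?_⟩
  · have h1 : AnalyticAt ℝ (fun p : P => ((p, (0 : Y)) : P × Y)) p₀ :=
      analyticAt_id.prod analyticAt_const
    have h2 : AnalyticAt ℝ (fun p : P => G (p, 0)) p₀ := by
      rw [hΨ0] at hGa
      exact AnalyticAt.comp (g := G) (f := fun p : P => ((p, (0 : Y)) : P × Y)) hGa h1
    exact analyticAt_snd.comp h2
  · have h1 : G (Ψ (p₀, y₀)) = (p₀, y₀) := hGinv.self_of_nhds
    rw [hΨ0] at h1
    simp only [h1]
  · filter_upwards [hGinv] with q hq hq0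
    have h1 : Ψ q = (q.1, 0) := by simp only [hΨ, hq0]
    rw [h1] at hq
    show q.2 = (G (q.1, 0)).2
    rw [hq]

end Vale.Agent.P097
end

section

/-!
# P097: analyticity of the maximum function
-/

namespace Vale.Agent.P097

open Real Set Filter Topology

theorem An.lin {h₀ g : ℝ → ℝ} (h0 : An h₀) (hg : An g) (s : ℝ) : An (lin h₀ g s) := fun x =>
  (h0 x).add (analyticAt_const.mul (hg x))

theorem deriv_lin {h₀ g : ℝ → ℝ} (h0 : An h₀) (hg : An g) (s x : ℝ) :
    deriv (lin h₀ g s) x = deriv h₀ x + s * deriv g x :=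
  ((h0.hasDerivAt x).add ((hg.hasDerivAt x).const_mul s)).deriv

theorem deriv_lin' {h₀ g : ℝ → ℝ} (h0 : An h₀) (hg : An g) (s : ℝ) :
    deriv (lin h₀ g s) = lin (deriv h₀) (deriv g) s := by
  funext x
  exact deriv_lin h0 hg s x

theorem rad_lin {h₀ g : ℝ → ℝ} (h0 : An h₀) (hg : An g) (s x : ℝ) :
    rad (lin h₀ g s) x = rad h₀ x + s * rad g x := by
  unfold rad
  rw [deriv_lin' h0 hg, deriv_lin h0.deriv hg.deriv]
  simp only [lin]
  ring

theorem K_lin {h₀ g : ℝ → ℝ} (h0 : An h₀) (hg : An g) (s φ ψ : ℝ) :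
    K (lin h₀ g s) φ ψ = K h₀ φ ψ + s * K g φ ψ := by
  unfold K
  rw [deriv_lin h0 hg]
  simp only [lin]
  ring

theorem S_lin (h₀ g : ℝ → ℝ) (s a b : ℝ) :
    S (lin h₀ g s) a b = S h₀ a b + s * S g a b := by
  unfold S
  simp only [lin]
  ring

theorem analyticAt_K {E : Type*} [NormedAddCommGroup E] [NormedSpace ℝ E] {h : ℝ → ℝ} (H : An h)
    {φ ψ : E → ℝ} {e : E} (hφ : AnalyticAt ℝ φ e) (hψ : AnalyticAt ℝ ψ e) :
    AnalyticAt ℝ (fun x => K h (φ x) (ψ x)) e := by
  unfold K
  have h1 : AnalyticAt ℝ (fun x => h (ψ x)) e := (H (ψ e)).fun_comp hψ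
  have h2 : AnalyticAt ℝ (fun x => deriv h (ψ x)) e := (H.deriv (ψ e)).fun_comp hψ
  have h3 : AnalyticAt ℝ (fun x => ψ x - φ x) e := hψ.sub hφ
  have h4 : AnalyticAt ℝ (fun x => cos (ψ x - φ x)) e := (analyticAt_cos).fun_comp h3
  have h5 : AnalyticAt ℝ (fun x => sin (ψ x - φ x)) e := (analyticAt_sin).fun_comp h3
  exact (h1.mul h4).sub (h2.mul h5)

theorem analyticAt_S {E : Type*} [NormedAddCommGroup E] [NormedSpace ℝ E] {h : ℝ → ℝ} (H : An h)
    {a b : E → ℝ} {e : E} (ha : AnalyticAt ℝ a e) (hb : AnalyticAt ℝ b e) :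
    AnalyticAt ℝ (fun x => S h (a x) (b x)) e := by
  unfold S
  have h0 : AnalyticAt ℝ (fun x => (a x + b x) / 2) e := (ha.add hb).div analyticAt_const (by norm_num)
  have h1 : AnalyticAt ℝ (fun x => h ((a x + b x) / 2)) e := AnalyticAt.fun_comp (H _) h0
  have h3 : AnalyticAt ℝ (fun x => (b x - a x) / 2) e := (hb.sub ha).div analyticAt_const (by norm_num)
  have h5 : AnalyticAt ℝ (fun x => sin ((b x - a x) / 2)) e := (analyticAt_sin).fun_comp h3
  exact (analyticAt_const.mul h1).mul h5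

theorem analyticAt_ext (n j : ℕ) (y : Fin n → ℝ) :
    AnalyticAt ℝ (fun y : Fin n → ℝ => ext n y j) y := by
  unfold ext
  by_cases h0 : j = 0
  · simp only [h0, if_true]
    exact analyticAt_const
  · by_cases hj : j - 1 < n
    · simp only [h0, if_false, hj, dif_pos]
      exact (ContinuousLinearMap.proj (R := ℝ) (φ := fun _ : Fin n => ℝ) ⟨j - 1, hj⟩).analyticAt _
    · simp only [h0, if_false, hj, dif_neg, not_false_eq_true]
      exact analyticAt_const

/-- the equations -/
noncomputable def EE (h₀ g : ℝ → ℝ) (n : ℕ) (q : (ℝ × ℝ) × (Fin n → ℝ)) : Fin n → ℝ :=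
  fun i => K (lin h₀ g q.1.1) (q.1.2 + ext n q.2 (i + 1)) (mid (fun j => q.1.2 + ext n q.2 j) i)
    - K (lin h₀ g q.1.1) (q.1.2 + ext n q.2 (i + 1)) (mid (fun j => q.1.2 + ext n q.2 j) (i + 1))

theorem analyticAt_line {n : ℕ} (j : ℕ) (q : (ℝ × ℝ) × (Fin n → ℝ)) :
    AnalyticAt ℝ (fun q : (ℝ × ℝ) × (Fin n → ℝ) => q.1.2 + ext n q.2 j) q := by
  have h1 : AnalyticAt ℝ (fun q : (ℝ × ℝ) × (Fin n → ℝ) => q.1.2) q :=
    AnalyticAt.fun_comp (g := fun p : ℝ × ℝ => p.2) analyticAt_snd analyticAt_fst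
  have h2 : AnalyticAt ℝ (fun q : (ℝ × ℝ) × (Fin n → ℝ) => ext n q.2 j) q :=
    AnalyticAt.fun_comp (g := fun y : Fin n → ℝ => ext n y j) (analyticAt_ext n j q.2) analyticAt_snd
  exact h1.add h2

theorem analyticAt_par {n : ℕ} (q : (ℝ × ℝ) × (Fin n → ℝ)) :
    AnalyticAt ℝ (fun q : (ℝ × ℝ) × (Fin n → ℝ) => q.1.1) q :=
  AnalyticAt.fun_comp (g := fun p : ℝ × ℝ => p.1) analyticAt_fst analyticAt_fst

theorem analyticAt_EE {h₀ g : ℝ → ℝ} (h0 : An h₀) (hg : An g) (n : ℕ)
    (q : (ℝ × ℝ) × (Fin n → ℝ)) : AnalyticAt ℝ (EE h₀ g n) q := by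
  unfold EE
  apply AnalyticAt.pi
  intro i
  simp only [K_lin h0 hg, mid]
  have hl := fun j => analyticAt_line (n := n) j q
  have hm : ∀ j, AnalyticAt ℝ (fun q : (ℝ × ℝ) × (Fin n → ℝ) =>
      (q.1.2 + ext n q.2 j + (q.1.2 + ext n q.2 (j + 1))) / 2) q := fun j =>
    ((hl j).add (hl (j + 1))).div analyticAt_const (by norm_num)
  have hs := analyticAt_par (n := n) q
  exact ((analyticAt_K h0 (hl (i + 1)) (hm i)).add (hs.mul (analyticAt_K hg (hl (i + 1)) (hm i)))).sub
    ((analyticAt_K h0 (hl (i + 1)) (hm (i + 1))).add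
      (hs.mul (analyticAt_K hg (hl (i + 1)) (hm (i + 1)))))

theorem analyticAt_WW {h₀ g : ℝ → ℝ} (h0 : An h₀) (hg : An g) (n : ℕ)
    (q : (ℝ × ℝ) × (Fin n → ℝ)) :
    AnalyticAt ℝ (fun q : (ℝ × ℝ) × (Fin n → ℝ) => W (lin h₀ g q.1.1) n q.1.2 q.2) q := by
  unfold W L
  simp only [S_lin]
  apply Finset.analyticAt_fun_sum
  intro j _
  have hl := fun j => analyticAt_line (n := n) j q
  have hs := analyticAt_par (n := n) q
  exact (analyticAt_S h0 (hl j) (hl (j + 1))).add (hs.mul (analyticAt_S hg (hl j) (hl (j + 1))))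

/-- homogeneous version of `ext` -/
noncomputable def ext0 (n : ℕ) (y : Fin n → ℝ) (j : ℕ) : ℝ :=
  if j = 0 then 0 else if hj : j - 1 < n then y ⟨j - 1, hj⟩ else 0

theorem ext_add (n : ℕ) (y V : Fin n → ℝ) (t : ℝ) (j : ℕ) :
    ext n (y + t • V) j = ext n y j + t * ext0 n V j := by
  unfold ext ext0
  split_ifs <;> simp

theorem ext0_mid {n : ℕ} (y : Fin n → ℝ) (i : Fin n) : ext0 n y (i + 1) = y i := by
  simp [ext0]

theorem hasDerivAt_EE {h₀ g : ℝ → ℝ} (h0 : An h₀) (hg : An g) {n : ℕ} (s θ : ℝ)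
    (y V : Fin n → ℝ) (i : Fin n) :
    HasDerivAt (fun t : ℝ => EE h₀ g n ((s, θ), y + t • V) i)
      (cc (lin h₀ g s) (fun j => θ + ext n y j) i * ext0 n V i
        + (be (lin h₀ g s) (fun j => θ + ext n y j) i
          + al (lin h₀ g s) (fun j => θ + ext n y j) (i + 1)) * ext0 n V (i + 1)
        + cc (lin h₀ g s) (fun j => θ + ext n y j) (i + 1) * ext0 n V (i + 2)) 0 := by
  have H := An.lin h0 hg s
  unfold EE
  simp only [ext_add]
  set Z : ℕ → ℝ := fun j => θ + ext n y j with hZ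
  set U : ℕ → ℝ := ext0 n V with hU
  have e1 : ∀ j, HasDerivAt (fun t : ℝ => θ + (ext n y j + t * U j)) (U j) 0 := fun j => by
    have := (((hasDerivAt_id (0 : ℝ)).mul_const (U j)).const_add (ext n y j)).const_add θ
    simpa using this
  have e2 : ∀ j, HasDerivAt (fun t : ℝ => mid (fun j => θ + (ext n y j + t * U j)) j)
      ((U j + U (j + 1)) / 2) 0 := fun j => ((e1 j).add (e1 (j + 1))).div_const 2
  have e3 := (hasDerivAt_K H (e1 (i + 1)) (e2 i)).sub (hasDerivAt_K H (e1 (i + 1)) (e2 (i + 1)))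
  refine e3.congr_deriv ?_
  simp only [zero_mul, add_zero, al, be, cc, mid]
  have s1 : (θ + ext n y i + (θ + ext n y (i + 1))) / 2 - (θ + ext n y (i + 1))
      = -((Z (i + 1) - Z i) / 2) := by simp only [hZ]; ring
  have s2 : (θ + ext n y (i + 1) + (θ + ext n y (i + 1 + 1))) / 2 - (θ + ext n y (i + 1))
      = (Z (i + 1 + 1) - Z (i + 1)) / 2 := by simp only [hZ]; ring
  rw [s1, s2, sin_neg]
  simp only [hZ]
  ring

/-- The set of parameters. -/
def JJ (h₀ g : ℝ → ℝ) : Set ℝ := {s | ∀ x, 0 < rad (lin h₀ g s) x}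

theorem isOpen_JJ {h₀ g : ℝ → ℝ} (h0 : An h₀) (hg : An g) (hp0 : ∀ x, h₀ (x + 2 * π) = h₀ x)
    (hpg : ∀ x, g (x + 2 * π) = g x) : IsOpen (JJ h₀ g) := by
  rw [isOpen_iff_mem_nhds]
  intro s hs
  have c1 := h0.rad.continuous
  have c2 := hg.rad.continuous
  have key : ∀ᶠ t in 𝓝 s, ∀ x ∈ Icc (0 : ℝ) (2 * π), 0 < rad h₀ x + t * rad g x := by
    apply isCompact_Icc.eventually_forall_of_forall_eventually
    intro x _
    have hx := hs x
    rw [rad_lin h0 hg] at hx
    have c3 : Continuous (fun z : ℝ × ℝ => rad h₀ z.2 + z.1 * rad g z.2) := by fun_prop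
    exact continuousAt_const.eventually_lt c3.continuousAt hx
  filter_upwards [key] with t ht
  intro x
  rw [rad_lin h0 hg]
  have hper : Function.Periodic (fun x => rad h₀ x + t * rad g x) (2 * π) := by
    intro x
    simp only [rad_per hp0, rad_per hpg]
  obtain ⟨y, hy, he⟩ := hper.exists_mem_Ico₀ (by positivity) x
  have := ht y ⟨hy.1, hy.2.le⟩
  rw [he]
  exact this

theorem adm_of_JJ {h₀ g : ℝ → ℝ} (h0 : An h₀) (hg : An g) (hp0 : ∀ x, h₀ (x + 2 * π) = h₀ x)
    (hpg : ∀ x, g (x + 2 * π) = g x) {s : ℝ} (hs : s ∈ JJ h₀ g) : Adm (lin h₀ g s) where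
  an := h0.lin hg s
  per := fun x => by simp only [lin, hp0, hpg]
  nonneg := fun x => (hs x).le
  dense := fun a b hab => ⟨(a + b) / 2, ⟨by linarith, by linarith⟩, hs _⟩

theorem EE_eq_zero {h₀ g : ℝ → ℝ} {n : ℕ} {s θ : ℝ} {y : Fin n → ℝ} (H : Adm (lin h₀ g s))
    (M : IsMaxC (lin h₀ g s) n θ (fun j => θ + ext n y j)) : EE h₀ g n ((s, θ), y) = 0 := by
  funext i
  have := M.crit H (k := i) (by omega)
  simp only [EE, Pi.zero_apply]
  linarith

theorem exists_max_dom {h : ℝ → ℝ} (hc : Continuous h) (n : ℕ) (θ : ℝ) :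
    ∃ y ∈ Dom n, IsMaxC h n θ (fun j => θ + ext n y j) ∧ W h n θ y = mx h n θ := by
  obtain ⟨Z, M⟩ := exists_isMaxC hc n θ
  obtain ⟨y, hy, he⟩ := M.1.exists_dom
  have hW : W h n θ y = mx h n θ := by
    rw [M.mx_eq hc]
    exact L_congr _ he
  exact ⟨y, hy, isMaxC_of_eq hc (Dom_cfg hy θ) (le_of_eq hW.symm), hW⟩

theorem fderiv_EE_inj {h₀ g : ℝ → ℝ} (h0 : An h₀) (hg : An g) {n : ℕ} {s₀ : ℝ}
    (H : Adm (lin h₀ g s₀)) (hs : s₀ ∈ JJ h₀ g) (hC : Cst (lin h₀ g s₀) n) {θ₀ : ℝ}
    {y₀ : Fin n → ℝ} (hmax : IsMaxC (lin h₀ g s₀) n θ₀ (fun j => θ₀ + ext n y₀ j))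
    (V : Fin n → ℝ) (hV : fderiv ℝ (EE h₀ g n) ((s₀, θ₀), y₀) (0, V) = 0) : V = 0 := by
  have hd : HasFDerivAt (EE h₀ g n) (fderiv ℝ (EE h₀ g n) ((s₀, θ₀), y₀)) ((s₀, θ₀), y₀) :=
    (analyticAt_EE h0 hg n _).differentiableAt.hasFDerivAt
  have hcurve : HasDerivAt (fun t : ℝ => (((s₀, θ₀), y₀ + t • V) : (ℝ × ℝ) × (Fin n → ℝ)))
      (0, V) 0 := by
    apply HasDerivAt.prodMk
    · exact hasDerivAt_const _ _
    · have := ((hasDerivAt_id (0 : ℝ)).smul_const V).const_add y₀
      simpa using this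
  have hd' : HasFDerivAt (EE h₀ g n) (fderiv ℝ (EE h₀ g n) ((s₀, θ₀), y₀))
      ((s₀, θ₀), y₀ + (0 : ℝ) • V) := by
    rw [zero_smul, add_zero]
    exact hd
  have hcomp := hd'.comp_hasDerivAt (0 : ℝ) hcurve
  rw [hV] at hcomp
  have hcomp' := hasDerivAt_pi.1 hcomp
  have hJ : ∀ k, k + 1 ≤ n →
      cc (lin h₀ g s₀) (fun j => θ₀ + ext n y₀ j) k * ext0 n V k
      + (be (lin h₀ g s₀) (fun j => θ₀ + ext n y₀ j) k
        + al (lin h₀ g s₀) (fun j => θ₀ + ext n y₀ j) (k + 1)) * ext0 n V (k + 1)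
      + cc (lin h₀ g s₀) (fun j => θ₀ + ext n y₀ j) (k + 1) * ext0 n V (k + 2) = 0 := by
    intro k hk
    have h1 := hcomp' ⟨k, by omega⟩
    have h2 := hasDerivAt_EE h0 hg s₀ θ₀ y₀ V ⟨k, by omega⟩
    exact h2.unique h1
  have hz := hmax.nondeg H hs hC (V := ext0 n V) (by simp [ext0]) (by simp [ext0]) hJ
  funext i
  have := hz (i + 1) (by omega)
  rwa [ext0_mid] at this

theorem eventually_lt_mx {h₀ g : ℝ → ℝ} (h0 : An h₀) (hg : An g) {n : ℕ} {s₀ θ₀ : ℝ}
    {y₀ : Fin n → ℝ} (hc : Continuous (lin h₀ g s₀))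
    (huniq : ∀ y ∈ Dom n, IsMaxC (lin h₀ g s₀) n θ₀ (fun j => θ₀ + ext n y j) → y = y₀)
    {O : Set (Fin n → ℝ)} (hO2 : IsOpen O) (hO3 : y₀ ∈ O) :
    ∀ᶠ p in 𝓝 ((s₀, θ₀) : ℝ × ℝ), ∀ y ∈ Dom n \ O,
      W (lin h₀ g p.1) n p.2 y < mx (lin h₀ g p.1) n p.2 := by
  have hK : IsCompact (Dom n \ O) := (isCompact_Dom n).diff hO2
  apply hK.eventually_forall_of_forall_eventually
  intro y hy
  have c1 : ContinuousAt (fun q : (ℝ × ℝ) × (Fin n → ℝ) => W (lin h₀ g q.1.1) n q.1.2 q.2)
      ((s₀, θ₀), y) := (analyticAt_WW h0 hg n _).continuousAt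
  have c2 : ContinuousAt (fun q : (ℝ × ℝ) × (Fin n → ℝ) => mx (lin h₀ g q.1.1) n q.1.2)
      ((s₀, θ₀), y) :=
    ((continuous_mx_lin h0.continuous hg.continuous n).comp continuous_fst).continuousAt
  apply c1.eventually_lt c2
  apply lt_of_le_of_ne (le_mx hc (Dom_cfg hy.1 θ₀))
  intro hcon
  have := huniq y hy.1 (isMaxC_of_eq hc (Dom_cfg hy.1 θ₀) (le_of_eq hcon.symm))
  rw [this] at hy
  exact hy.2 hO3

theorem analyticAt_WW_comp {h₀ g : ℝ → ℝ} (h0 : An h₀) (hg : An g) (n : ℕ)
    {u : ℝ × ℝ → (Fin n → ℝ)} {p : ℝ × ℝ} (hu : AnalyticAt ℝ u p) :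
    AnalyticAt ℝ (fun p : ℝ × ℝ => W (lin h₀ g p.1) n p.2 (u p)) p := by
  have h2 : AnalyticAt ℝ (fun p : ℝ × ℝ => ((p, u p) : (ℝ × ℝ) × (Fin n → ℝ))) p :=
    analyticAt_id.prod hu
  exact AnalyticAt.fun_comp
    (g := fun q : (ℝ × ℝ) × (Fin n → ℝ) => W (lin h₀ g q.1.1) n q.1.2 q.2)
    (f := fun p : ℝ × ℝ => ((p, u p) : (ℝ × ℝ) × (Fin n → ℝ)))
    (analyticAt_WW h0 hg n (p, u p)) h2

theorem exists_EE_solution {h₀ g : ℝ → ℝ} (h0 : An h₀) (hg : An g) {n : ℕ} {s₀ : ℝ}
    (H : Adm (lin h₀ g s₀)) (hs : s₀ ∈ JJ h₀ g) (hC : Cst (lin h₀ g s₀) n) {θ₀ : ℝ}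
    {y₀ : Fin n → ℝ} (hmax : IsMaxC (lin h₀ g s₀) n θ₀ (fun j => θ₀ + ext n y₀ j)) :
    ∃ u : ℝ × ℝ → (Fin n → ℝ), AnalyticAt ℝ u (s₀, θ₀) ∧
      ∀ᶠ q : (ℝ × ℝ) × (Fin n → ℝ) in 𝓝 ((s₀, θ₀), y₀), EE h₀ g n q = 0 → q.2 = u q.1 := by
  obtain ⟨u, hua, _, hloc⟩ := exists_analytic_solution (E := EE h₀ g n) (p₀ := (s₀, θ₀)) (y₀ := y₀)
    (analyticAt_EE h0 hg n ((s₀, θ₀), y₀))
    (EE_eq_zero H hmax) (fderiv_EE_inj h0 hg H hs hC hmax)
  exact ⟨u, hua, hloc⟩

theorem analyticAt_mx {h₀ g : ℝ → ℝ} (h0 : An h₀) (hg : An g)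
    (hp0 : ∀ x, h₀ (x + 2 * π) = h₀ x) (hpg : ∀ x, g (x + 2 * π) = g x) {n : ℕ} {s₀ : ℝ}
    (hs : s₀ ∈ JJ h₀ g) (hC : Cst (lin h₀ g s₀) n) (θ₀ : ℝ) :
    AnalyticAt ℝ (fun p : ℝ × ℝ => mx (lin h₀ g p.1) n p.2) (s₀, θ₀) := by
  have H := adm_of_JJ h0 hg hp0 hpg hs
  obtain ⟨y₀, hy₀, hmax, _⟩ := exists_max_dom H.an.continuous n θ₀
  have huniq : ∀ y ∈ Dom n, IsMaxC (lin h₀ g s₀) n θ₀ (fun j => θ₀ + ext n y j) → y = y₀ := by
    intro y _ M
    have := M.unique H hC hmax
    funext i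
    have := this (i + 1) (by omega)
    rw [ext_mid, ext_mid] at this
    linarith
  obtain ⟨u, hua, hloc⟩ := exists_EE_solution h0 hg H hs hC hmax
  rw [nhds_prod_eq] at hloc
  obtain ⟨A, hA, B, hB, hAB⟩ := Filter.eventually_prod_iff.1 hloc
  obtain ⟨O, hO1, hO2, hO3⟩ := mem_nhds_iff.1 hB
  have hlt := eventually_lt_mx h0 hg H.an.continuous huniq hO2 hO3
  have hJev : ∀ᶠ p in 𝓝 ((s₀, θ₀) : ℝ × ℝ), p.1 ∈ JJ h₀ g :=
    continuousAt_fst.eventually ((isOpen_JJ h0 hg hp0 hpg).mem_nhds hs)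
  have heq : (fun p : ℝ × ℝ => W (lin h₀ g p.1) n p.2 (u p)) =ᶠ[𝓝 (s₀, θ₀)]
      (fun p : ℝ × ℝ => mx (lin h₀ g p.1) n p.2) := by
    filter_upwards [hA, hlt, hJev] with p hpA hplt hpJ
    have Hp := adm_of_JJ h0 hg hp0 hpg hpJ
    obtain ⟨y, hy, My, hW⟩ := exists_max_dom Hp.an.continuous n p.2
    have hyO : y ∈ O := by
      by_contra hcon
      exact absurd hW (hplt y ⟨hy, hcon⟩).ne
    have h1 : y = u p := hAB hpA (hO1 hyO) (EE_eq_zero Hp My)
    rw [← h1]
    exact hW
  exact (analyticAt_WW_comp h0 hg n hua).congr heq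

end Vale.Agent.P097
end

section

/-!
# P097: the set of parameters with constant maximum function
-/

namespace Vale.Agent.P097

open Real Set Filter Topology

def AA (h₀ g : ℝ → ℝ) (n : ℕ) : Set ℝ := {s | Cst (lin h₀ g s) n}

theorem continuous_mx_s {h₀ g : ℝ → ℝ} (h0 : An h₀) (hg : An g) (n : ℕ) (θ : ℝ) :
    Continuous (fun s => mx (lin h₀ g s) n θ) :=
  Continuous.comp (g := fun p : ℝ × ℝ => mx (lin h₀ g p.1) n p.2) (f := fun s : ℝ => (s, θ))
    (continuous_mx_lin h0.continuous hg.continuous n) (continuous_id.prodMk continuous_const)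

theorem isClosed_AA {h₀ g : ℝ → ℝ} (h0 : An h₀) (hg : An g) (n : ℕ) : IsClosed (AA h₀ g n) := by
  have : AA h₀ g n = ⋂ θ : ℝ, {s | mx (lin h₀ g s) n θ = mx (lin h₀ g s) n 0} := by
    ext s
    simp [AA, Cst]
  rw [this]
  exact isClosed_iInter fun θ => isClosed_eq (continuous_mx_s h0 hg n θ)
    (continuous_mx_s h0 hg n 0)

theorem convex_JJ {h₀ g : ℝ → ℝ} (h0 : An h₀) (hg : An g) : Convex ℝ (JJ h₀ g) := by
  intro s hs t ht a b ha hb hab x
  have h1 := hs x
  have h2 := ht x
  rw [rad_lin h0 hg] at h1 h2 ⊢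
  have e : rad h₀ x + (a • s + b • t) * rad g x
      = a * (rad h₀ x + s * rad g x) + b * (rad h₀ x + t * rad g x) := by
    simp only [smul_eq_mul]
    have : rad h₀ x = (a + b) * rad h₀ x := by rw [hab, one_mul]
    rw [this]
    ring_nf
    have h3 : rad h₀ x = (a + b) * rad h₀ x := by rw [hab, one_mul]
    nlinarith [h3]
  rw [e]
  rcases lt_or_eq_of_le ha with ha' | ha'
  · have := mul_pos ha' h1
    have := mul_nonneg hb h2.le
    linarith
  · have hb1 : b = 1 := by linarith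
    rw [← ha', hb1]
    linarith

theorem local_const {h₀ g : ℝ → ℝ} (h0 : An h₀) (hg : An g)
    (hp0 : ∀ x, h₀ (x + 2 * π) = h₀ x) (hpg : ∀ x, g (x + 2 * π) = g x) {n : ℕ} {s₀ : ℝ}
    (hs : s₀ ∈ JJ h₀ g) (hC : s₀ ∈ AA h₀ g n) (hf : ∃ᶠ s in 𝓝[≠] s₀, s ∈ AA h₀ g n) (θ₀ : ℝ) :
    ∀ᶠ q in 𝓝 ((s₀, θ₀) : ℝ × ℝ), mx (lin h₀ g q.1) n q.2 = mx (lin h₀ g q.1) n 0 := by
  have a1 := (analyticAt_mx h0 hg hp0 hpg hs hC θ₀).eventually_analyticAt
  have a2 := (analyticAt_mx h0 hg hp0 hpg hs hC 0).eventually_analyticAt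
  rw [nhds_prod_eq] at a1 a2
  obtain ⟨A, hA, B, hB, hAB⟩ := Filter.eventually_prod_iff.1 a1
  obtain ⟨A', hA', B', hB', hAB'⟩ := Filter.eventually_prod_iff.1 a2
  obtain ⟨ε, hε, hball⟩ := Metric.eventually_nhds_iff_ball.1 (hA.and hA')
  have hB0 : B' 0 := hB'.self_of_nhds
  have key : ∀ s ∈ Metric.ball s₀ ε, ∀ θ, B θ →
      mx (lin h₀ g s) n θ = mx (lin h₀ g s) n 0 := by
    intro s hsb θ hθ
    have han : AnalyticOnNhd ℝ (fun s => mx (lin h₀ g s) n θ - mx (lin h₀ g s) n 0)
        (Metric.ball s₀ ε) := by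
      intro t ht
      obtain ⟨hA1, hA2⟩ := hball t ht
      have b1 : AnalyticAt ℝ (fun p : ℝ × ℝ => mx (lin h₀ g p.1) n p.2) (t, θ) := hAB hA1 hθ
      have b2 : AnalyticAt ℝ (fun p : ℝ × ℝ => mx (lin h₀ g p.1) n p.2) (t, 0) := hAB' hA2 hB0
      have c1 : AnalyticAt ℝ (fun s => mx (lin h₀ g s) n θ) t :=
        AnalyticAt.fun_comp (g := fun p : ℝ × ℝ => mx (lin h₀ g p.1) n p.2)
          (f := fun s : ℝ => (s, θ)) b1 (analyticAt_id.prod analyticAt_const)
      have c2 : AnalyticAt ℝ (fun s => mx (lin h₀ g s) n 0) t :=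
        AnalyticAt.fun_comp (g := fun p : ℝ × ℝ => mx (lin h₀ g p.1) n p.2)
          (f := fun s : ℝ => (s, (0 : ℝ))) b2 (analyticAt_id.prod analyticAt_const)
      exact c1.sub c2
    have hz := han.eqOn_zero_of_preconnected_of_frequently_eq_zero
      (convex_ball s₀ ε).isPreconnected (Metric.mem_ball_self hε)
      (hf.mono fun t ht => by
        have := ht θ
        linarith)
    have := hz hsb
    simp only [Pi.zero_apply] at this
    linarith
  rw [nhds_prod_eq]
  apply Filter.eventually_prod_iff.2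
  exact ⟨fun s => s ∈ Metric.ball s₀ ε, Metric.ball_mem_nhds s₀ hε, B, hB,
    fun {x} hx {y} hy => key x hx y hy⟩

theorem AA_mem_nhds {h₀ g : ℝ → ℝ} (h0 : An h₀) (hg : An g)
    (hp0 : ∀ x, h₀ (x + 2 * π) = h₀ x) (hpg : ∀ x, g (x + 2 * π) = g x) {n : ℕ} {s₀ : ℝ}
    (hs : s₀ ∈ JJ h₀ g) (hf : ∃ᶠ s in 𝓝[≠] s₀, s ∈ AA h₀ g n) : AA h₀ g n ∈ 𝓝 s₀ := by
  have hC : s₀ ∈ AA h₀ g n := by
    apply (isClosed_AA h0 hg n).closure_subset
    rw [mem_closure_iff_frequently]
    exact hf.filter_mono nhdsWithin_le_nhds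
  have key : ∀ᶠ s in 𝓝 s₀, ∀ θ ∈ Icc (0 : ℝ) (2 * π),
      mx (lin h₀ g s) n θ = mx (lin h₀ g s) n 0 :=
    isCompact_Icc.eventually_forall_of_forall_eventually
      (fun θ _ => local_const h0 hg hp0 hpg hs hC hf θ)
  filter_upwards [key] with s hs2
  intro θ
  have hper : Function.Periodic (mx (lin h₀ g s) n) (2 * π) :=
    mx_per (fun x => by simp only [lin, hp0, hpg]) n
  obtain ⟨y, hy, he⟩ := hper.exists_mem_Ico₀ (by positivity) θ
  rw [he]
  exact hs2 y ⟨hy.1, hy.2.le⟩

theorem JJ_subset_AA {h₀ g : ℝ → ℝ} (h0 : An h₀) (hg : An g)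
    (hp0 : ∀ x, h₀ (x + 2 * π) = h₀ x) (hpg : ∀ x, g (x + 2 * π) = g x) {n : ℕ} {s₀ : ℝ}
    (hs : s₀ ∈ JJ h₀ g) (hf : ∃ᶠ s in 𝓝[≠] s₀, s ∈ AA h₀ g n) :
    closure (JJ h₀ g) ⊆ AA h₀ g n := by
  have h1 : JJ h₀ g ⊆ interior (AA h₀ g n) := by
    apply (convex_JJ h0 hg).isPreconnected.subset_of_closure_inter_subset isOpen_interior
    · exact ⟨s₀, hs, mem_interior_iff_mem_nhds.2 (AA_mem_nhds h0 hg hp0 hpg hs hf)⟩
    · rintro t ⟨ht1, ht2⟩
      by_cases hti : t ∈ interior (AA h₀ g n)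
      · exact hti
      · rw [mem_interior_iff_mem_nhds]
        apply AA_mem_nhds h0 hg hp0 hpg ht2
        have h3 : ∃ᶠ s in 𝓝 t, s ∈ interior (AA h₀ g n) := mem_closure_iff_frequently.1 ht1
        have h4 : ∃ᶠ s in 𝓝[≠] t, s ∈ interior (AA h₀ g n) := by
          rw [Filter.Frequently, eventually_nhdsWithin_iff]
          intro hcon
          apply h3
          filter_upwards [hcon] with s hs1 hs2
          have : s ≠ t := by
            intro he
            rw [he] at hs2
            exact hti hs2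
          exact hs1 this hs2
        exact h4.mono fun s hs => interior_subset hs
  exact (closure_mono (h1.trans interior_subset)).trans (isClosed_AA h0 hg n).closure_subset

end Vale.Agent.P097
end

section

/-!
# P097: a point of zero radius of curvature
-/

namespace Vale.Agent.P097

open Real Set Filter Topology

/-- insert a line in the first gap -/
def insF (z : ℝ) (Z : ℕ → ℝ) (j : ℕ) : ℝ :=
  if j = 0 then Z 0 else if j = 1 then z else Z (j - 1)

/-- insert a line in the last gap -/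
def insL (n : ℕ) (z : ℝ) (Z : ℕ → ℝ) (j : ℕ) : ℝ :=
  if j ≤ n then Z j else if j = n + 1 then z else Z (n + 1)

theorem L_insF (h : ℝ → ℝ) (n : ℕ) (z : ℝ) (Z : ℕ → ℝ) :
    L h (n + 1) (insF z Z) = L h n Z + (S h (Z 0) z + S h z (Z 1) - S h (Z 0) (Z 1)) := by
  unfold L
  rw [Finset.sum_range_succ', Finset.sum_range_succ',
    Finset.sum_range_succ' (fun j => S h (Z j) (Z (j + 1)))]
  have e1 : ∀ j, insF z Z (j + 2) = Z (j + 1) := fun j => by simp only [insF, Nat.add_eq_zero_iff, OfNat.ofNat_ne_zero, and_false, ↓reduceIte, Nat.reduceEqDiff, Nat.add_one_sub_one]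
  have e2 : insF z Z 1 = z := by simp [insF]
  have e3 : insF z Z 0 = Z 0 := by simp [insF]
  have e4 : ∀ j ∈ Finset.range n, S h (insF z Z (j + 1 + 1)) (insF z Z (j + 1 + 1 + 1))
      = S h (Z (j + 1)) (Z (j + 1 + 1)) := fun j _ => by
    rw [e1 j, e1 (j + 1)]
  rw [Finset.sum_congr rfl e4]
  simp only [zero_add]
  have e5 : insF z Z (1 + 1) = Z 1 := e1 0
  rw [e5, e2, e3]
  ring

theorem L_insL (h : ℝ → ℝ) (n : ℕ) (z : ℝ) (Z : ℕ → ℝ) :
    L h (n + 1) (insL n z Z) =
      L h n Z + (S h (Z n) z + S h z (Z (n + 1)) - S h (Z n) (Z (n + 1))) := by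
  unfold L
  rw [Finset.sum_range_succ, Finset.sum_range_succ,
    Finset.sum_range_succ (fun j => S h (Z j) (Z (j + 1)))]
  have e1 : ∀ j ≤ n, insL n z Z j = Z j := fun j hj => by simp only [insL, hj, ↓reduceIte]
  have e2 : insL n z Z (n + 1) = z := by simp only [insL, add_le_iff_nonpos_right, nonpos_iff_eq_zero, one_ne_zero, ↓reduceIte, Nat.add_left_cancel_iff]
  have e3 : insL n z Z (n + 1 + 1) = Z (n + 1) := by
    unfold insL
    rw [if_neg (by omega), if_neg (by omega)]
  have e4 : ∀ j ∈ Finset.range n, S h (insL n z Z j) (insL n z Z (j + 1))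
      = S h (Z j) (Z (j + 1)) := fun j hj => by
    rw [Finset.mem_range] at hj
    rw [e1 j (by (clear * - hj; omega)), e1 (j + 1) (by omega)]
  rw [Finset.sum_congr rfl e4, e1 n le_rfl, e2, e3]
  ring

theorem Cfg.insF {n : ℕ} {θ : ℝ} {Z : ℕ → ℝ} (C : Cfg n θ Z) {z : ℝ} (h1 : Z 0 ≤ z)
    (h2 : z ≤ Z 1) : Cfg (n + 1) θ (insF z Z) := by
  refine ⟨by simp [P097.insF, C.1], by simp only [P097.insF, Nat.add_eq_zero_iff, one_ne_zero, and_false, and_self, ↓reduceIte, Nat.add_eq_right, add_tsub_cancel_right, C.2.1], ?_⟩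
  intro j hj
  rcases Nat.eq_zero_or_pos j with h0 | h0
  · subst h0
    simpa only [P097.insF, ↓reduceIte, zero_add, one_ne_zero] using h1
  · rcases Nat.lt_or_ge j 2 with h3 | h3
    · have : j = 1 := by omega
      subst this
      simpa only [P097.insF, one_ne_zero, ↓reduceIte, Nat.reduceAdd, OfNat.ofNat_ne_zero, OfNat.ofNat_ne_one,     Nat.add_one_sub_one, ge_iff_le] using h2
    · obtain ⟨k, rfl⟩ : ∃ k, j = k + 2 := ⟨j - 2, by omega⟩
      simpa only [P097.insF, Nat.add_eq_zero_iff, OfNat.ofNat_ne_zero, and_false, ↓reduceIte, Nat.reduceEqDiff,     Nat.add_one_sub_one, one_ne_zero, and_self, Nat.add_eq_right, add_tsub_cancel_right] using C.2.2 (k + 1) (by omega)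

theorem Cfg.insL {n : ℕ} {θ : ℝ} {Z : ℕ → ℝ} (C : Cfg n θ Z) {z : ℝ} (h1 : Z n ≤ z)
    (h2 : z ≤ Z (n + 1)) : Cfg (n + 1) θ (insL n z Z) := by
  refine ⟨by simp only [P097.insL, zero_le, ↓reduceIte, C.1], ?_, ?_⟩
  · unfold P097.insL
    rw [if_neg (by omega), if_neg (by omega)]
    exact C.2.1
  · intro j hj
    unfold P097.insL
    rcases Nat.lt_or_ge j n with h3 | h3
    · rw [if_pos (by omega), if_pos (by omega)]
      exact C.2.2 j (by omega)
    · rcases Nat.lt_or_ge j (n + 1) with h4 | h4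
      · have : j = n := by omega
        subst this
        rw [if_pos le_rfl, if_neg (by omega), if_pos rfl]
        exact h1
      · have : j = n + 1 := by omega
        subst this
        rw [if_neg (by omega), if_pos rfl, if_neg (by omega), if_neg (by omega)]
        exact h2

theorem bounded_of_periodic {h : ℝ → ℝ} (hc : Continuous h) (hp : ∀ x, h (x + 2 * π) = h x) :
    ∃ C, 0 ≤ C ∧ ∀ x, |h x| ≤ C := by
  obtain ⟨C, hC⟩ := (isCompact_Icc (a := (0 : ℝ)) (b := 2 * π)).exists_bound_of_continuousOn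
    hc.continuousOn
  refine ⟨|C|, abs_nonneg C, fun x => ?_⟩
  have hper : Function.Periodic h (2 * π) := hp
  obtain ⟨y, hy, he⟩ := hper.exists_mem_Ico₀ (by positivity) x
  rw [he]
  have := hC y ⟨hy.1, hy.2.le⟩
  rw [Real.norm_eq_abs] at this
  exact this.trans (le_abs_self C)

theorem mx_bdd {h : ℝ → ℝ} (hc : Continuous h) (hp : ∀ x, h (x + 2 * π) = h x) (θ : ℝ) :
    ∃ B, ∀ n, mx h n θ ≤ B := by
  obtain ⟨C, hC0, hC⟩ := bounded_of_periodic hc hp
  refine ⟨C * (2 * π), fun n => ?_⟩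
  obtain ⟨Z, M⟩ := exists_isMaxC hc n θ
  rw [M.mx_eq hc]
  have h1 : L h n Z ≤ ∑ j ∈ Finset.range (n + 1), C * (Z (j + 1) - Z j) := by
    unfold L
    apply Finset.sum_le_sum
    intro j hj
    rw [Finset.mem_range] at hj
    have hg : 0 ≤ Z (j + 1) - Z j := sub_nonneg.2 (M.1.2.2 j (by omega))
    have h2 : |sin ((Z (j + 1) - Z j) / 2)| ≤ (Z (j + 1) - Z j) / 2 := by
      have := abs_sin_le_abs (x := (Z (j + 1) - Z j) / 2)
      rwa [abs_of_nonneg (by linarith only [hg] : 0 ≤ (Z (j + 1) - Z j) / 2)] at this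
    calc S h (Z j) (Z (j + 1)) ≤ |S h (Z j) (Z (j + 1))| := le_abs_self _
      _ = 2 * |h ((Z j + Z (j + 1)) / 2)| * |sin ((Z (j + 1) - Z j) / 2)| := by
        unfold S
        rw [abs_mul, abs_mul, abs_two]
      _ ≤ 2 * C * ((Z (j + 1) - Z j) / 2) := by
        apply mul_le_mul _ h2 (abs_nonneg _) (by (clear * - hC0; positivity))
        have := hC ((Z j + Z (j + 1)) / 2)
        linarith only [this]
      _ = C * (Z (j + 1) - Z j) := by ring
  rw [← Finset.mul_sum, Finset.sum_range_sub, M.1.1, M.1.2.1] at h1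
  have : C * (θ + 2 * π - θ) = C * (2 * π) := by ring
  linarith only [h1]

theorem mx_mono {h : ℝ → ℝ} (hc : Continuous h) (θ : ℝ) : Monotone (fun n => mx h n θ) := by
  apply monotone_nat_of_le_succ
  intro n
  obtain ⟨Z, M⟩ := exists_isMaxC hc n θ
  rw [M.mx_eq hc]
  have := le_mx hc (M.1.insF (z := Z 0) le_rfl (M.1.2.2 0 (by omega)))
  rw [L_insF, S_self] at this
  linarith only [this]

theorem mx_gap {h : ℝ → ℝ} (H : Adm h) (θ : ℝ) {κ : ℝ} (hκ : 0 < κ) :
    ∀ᶠ n in atTop, mx h (n + 1) θ < mx h n θ + κ := by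
  obtain ⟨B, hB⟩ := mx_bdd H.an.continuous H.per θ
  have hb : BddAbove (range fun n => mx h n θ) := ⟨B, by rintro _ ⟨n, rfl⟩; exact hB n⟩
  have ht := tendsto_atTop_ciSup (mx_mono H.an.continuous θ) hb
  have h1 : ∀ᶠ n in atTop, (⨆ n, mx h n θ) - κ < mx h n θ :=
    ht.eventually (lt_mem_nhds (by linarith only [hκ]))
  filter_upwards [h1] with n hn
  have := le_ciSup hb (n + 1)
  linarith only [hn, this]

theorem small_gaps {h : ℝ → ℝ} (H : Adm h) (θ : ℝ) {ε : ℝ} (hε : 0 < ε) :
    ∀ᶠ n in atTop, ∀ Z, IsMaxC h n θ Z → Z 1 - Z 0 < ε ∧ Z (n + 1) - Z n < ε := by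
  have hc := H.an.continuous
  set e := min ε (2 * π) with he
  have he0 : 0 < e := lt_min hε (by positivity)
  have he1 : e ≤ 2 * π := min_le_right _ _
  have he2 : e ≤ ε := min_le_left _ _
  obtain ⟨z₁, hz₁, hg₁⟩ := exists_gain H (a := θ) (b := θ + e) (by linarith only [he0]) (by linarith only [he1])
  obtain ⟨z₂, hz₂, hg₂⟩ := exists_gain H (a := θ + 2 * π - e) (b := θ + 2 * π) (by linarith only [he0])
    (by linarith only [he1])
  have h1 := mx_gap H θ (sub_pos.2 hg₁)
  have h2 := mx_gap H θ (sub_pos.2 hg₂)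
  filter_upwards [h1, h2] with n hn1 hn2
  intro Z M
  rw [M.mx_eq hc] at hn1 hn2
  constructor
  · by_contra hcon
    push Not at hcon
    have hZ0 := M.1.1
    have h3 : θ + e ≤ Z 1 := by linarith only [he2, hcon, hZ0]
    have h4 := M.1.insF (z := z₁) (by rw [hZ0]; exact hz₁.1.le) (by linarith only [he2, hcon, hZ0, hz₁.2])
    have h5 := le_mx hc h4
    rw [L_insF, hZ0] at h5
    have h6 := S_super H (a := θ) (a' := z₁) (b' := θ + e) (b := Z 1) hz₁.1.le hz₁.2.le h3
      (by have := M.1.gap_le (i := 0) (j := 1) (by omega) (by omega); rwa [hZ0] at this)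
    linarith only [hn1, h5, h6]
  · by_contra hcon
    push Not at hcon
    have hZn := M.1.2.1
    have h3 : Z n ≤ θ + 2 * π - e := by linarith only [he2, hcon, hZn]
    have h4 := M.1.insL (z := z₂) (by linarith only [he2, hcon, hZn, hz₂.1]) (by rw [hZn]; exact hz₂.2.le)
    have h5 := le_mx hc h4
    rw [L_insL, hZn] at h5
    have h6 := S_super H (a := Z n) (a' := θ + 2 * π - e) (b' := z₂) (b := θ + 2 * π) h3
      hz₂.1.le hz₂.2.le
      (by have := M.1.gap_le (i := n) (j := n + 1) (by omega) (by omega); rwa [hZn] at this)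
    linarith only [hn2, h5, h6]

/-- Sign of `sin · u' - cos · u` at a zero of a nonnegative analytic function. -/
theorem flat_sign {u : ℝ → ℝ} (hu : AnalyticAt ℝ u 0) (hnn : ∀ x, 0 ≤ u x) (h0 : u 0 = 0)
    (hne : ¬ ∀ᶠ x in 𝓝 0, u x = 0) :
    ∀ᶠ δ in 𝓝[>] (0 : ℝ), 0 < sin δ * deriv u δ - cos δ * u δ := by
  obtain ⟨k, v, hv, hv0, huv⟩ := hu.exists_eventuallyEq_pow_smul_nonzero_iff.2 hne
  simp only [sub_zero, smul_eq_mul] at huv
  have hvc := hv.continuousAt
  have hk0 : k ≠ 0 := by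
    intro hk
    subst hk
    have := huv.self_of_nhds
    rw [h0] at this
    simp at this
    exact hv0 this.symm
  have hvpos : 0 < v 0 := by
    have hge : 0 ≤ v 0 := by
      have h1 : ∀ᶠ x in 𝓝[>] (0 : ℝ), 0 ≤ v x := by
        filter_upwards [huv.filter_mono nhdsWithin_le_nhds, self_mem_nhdsWithin] with x hx1 hx2
        have h2 := hnn x
        rw [hx1] at h2
        have h3 : (0 : ℝ) < x ^ k := pow_pos hx2 k
        exact nonneg_of_mul_nonneg_right h2 h3
      exact ge_of_tendsto (hvc.tendsto.mono_left nhdsWithin_le_nhds) h1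
    exact lt_of_le_of_ne hge (Ne.symm hv0)
  have hk1 : k ≠ 1 := by
    intro hk
    subst hk
    have h1 : ∀ᶠ x in 𝓝[<] (0 : ℝ), 0 < v x :=
      (hvc.tendsto.mono_left nhdsWithin_le_nhds).eventually (lt_mem_nhds hvpos)
    obtain ⟨x, ⟨hx1, hx2⟩, hx3⟩ :=
      ((h1.and (huv.filter_mono nhdsWithin_le_nhds)).and self_mem_nhdsWithin).exists
    have h2 := hnn x
    rw [hx2, pow_one] at h2
    have := mul_neg_of_neg_of_pos hx3 hx1
    linarith
  obtain ⟨m, rfl⟩ : ∃ m, k = m + 2 := ⟨k - 2, by omega⟩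
  have hd : ∀ᶠ x in 𝓝 (0 : ℝ), deriv u x = ((m + 2 : ℕ) : ℝ) * x ^ (m + 1) * v x
      + x ^ (m + 2) * deriv v x := by
    filter_upwards [huv.eventually_nhds, hv.eventually_analyticAt] with x hx1 hx2
    have h1 : HasDerivAt (fun x : ℝ => x ^ (m + 2) * v x)
        (((m + 2 : ℕ) : ℝ) * x ^ (m + 1) * v x + x ^ (m + 2) * deriv v x) x := by
      have h3 := (hasDerivAt_pow (m + 2) x).mul hx2.differentiableAt.hasDerivAt
      exact h3.congr_deriv (by simp only [Nat.cast_add, Nat.cast_ofNat, Nat.add_one_sub_one])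
    have h2 : u =ᶠ[𝓝 x] fun x => x ^ (m + 2) * v x := hx1
    rw [h2.deriv_eq, h1.deriv]
  have hpos : ∀ᶠ x in 𝓝 (0 : ℝ), 0 < ((m : ℝ) + 1) * v x + x * deriv v x := by
    have hdc : ContinuousAt (deriv v) 0 := hv.deriv.continuousAt
    have hcc : ContinuousAt (fun x => ((m : ℝ) + 1) * v x + x * deriv v x) 0 :=
      (continuousAt_const.mul hvc).add (continuousAt_id.mul hdc)
    apply hcc.eventually (lt_mem_nhds _)
    have : 0 < ((m : ℝ) + 1) * v 0 := by (clear * - hvpos; positivity)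
    simpa only [zero_mul, add_zero, gt_iff_lt] using this
  have hvp : ∀ᶠ x in 𝓝 (0 : ℝ), 0 < v x := hvc.eventually (lt_mem_nhds hvpos)
  have hsmall : ∀ᶠ x in 𝓝[>] (0 : ℝ), x ∈ Ioo (0 : ℝ) (π / 2) :=
    Ioo_mem_nhdsGT (by positivity)
  filter_upwards [hsmall, huv.filter_mono nhdsWithin_le_nhds, hd.filter_mono nhdsWithin_le_nhds,
    hpos.filter_mono nhdsWithin_le_nhds, hvp.filter_mono nhdsWithin_le_nhds]
    with x hx hx1 hx2 hx3 hx4
  have hsin : 0 < sin x := sin_pos_of_pos_of_lt_pi hx.1 (by linarith only [hx.2, pi_pos])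
  have hcos : 0 < cos x := cos_pos_of_mem_Ioo ⟨by linarith only [hx.1, pi_pos], hx.2⟩
  have htan : x * cos x < sin x := by
    have := lt_tan hx.1 hx.2
    rw [tan_eq_sin_div_cos, lt_div_iff₀ hcos] at this
    exact this
  rw [hx1, hx2]
  have hxp : 0 < x ^ (m + 1) := pow_pos hx.1 _
  have e : sin x * (((m + 2 : ℕ) : ℝ) * x ^ (m + 1) * v x + x ^ (m + 2) * deriv v x)
      - cos x * (x ^ (m + 2) * v x)
      = x ^ (m + 1) * (sin x * (((m : ℝ) + 1) * v x + x * deriv v x)
        + (sin x - x * cos x) * v x) := by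
    push_cast
    ring
  rw [e]
  apply mul_pos hxp
  have h1 := mul_pos hsin hx3
  have h2 := mul_pos (sub_pos.2 htan) hx4
  linarith only [h1, h2]

theorem rad_not_eventually_zero {h : ℝ → ℝ} (H : Adm h) (x : ℝ) :
    ¬ ∀ᶠ y in 𝓝 x, rad h y = 0 := by
  intro hcon
  obtain ⟨ε, hε, hball⟩ := Metric.eventually_nhds_iff_ball.1 hcon
  obtain ⟨y, hy, hpos⟩ := H.dense x (x + ε) (by linarith only [hε])
  have := hball y (by rw [Metric.mem_ball, Real.dist_eq, abs_of_pos (by linarith only [hy.1])]; linarith [hy.2])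
  linarith

/-- positivity near `0` of a function with positive derivative on the right -/
theorem pos_of_deriv_pos {f f' : ℝ → ℝ} (h0 : f 0 = 0) (hf : ∀ t, HasDerivAt f (f' t) t)
    (hp : ∀ᶠ t in 𝓝[>] (0 : ℝ), 0 < f' t) : ∃ ε > 0, ∀ t, 0 < t → t < ε → 0 < f t := by
  obtain ⟨ε, hε, hI⟩ := mem_nhdsGT_iff_exists_Ioo_subset.1 hp
  refine ⟨ε, hε, fun t ht0 htε => ?_⟩
  have hm : StrictMonoOn f (Icc 0 t) := by
    apply strictMonoOn_of_deriv_pos (convex_Icc 0 t)
    · exact fun x _ => (hf x).continuousAt.continuousWithinAt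
    · intro x hx
      rw [interior_Icc] at hx
      rw [(hf x).deriv]
      exact hI ⟨hx.1, hx.2.trans htε⟩
  have := hm (left_mem_Icc.2 ht0.le) (right_mem_Icc.2 ht0.le) ht0
  rwa [h0] at this

theorem exists_pos_right {h : ℝ → ℝ} (H : Adm h) {x : ℝ} (hx : rad h x = 0) :
    ∃ ε > 0, ∀ t, 0 < t → t < ε →
      0 < rad h (x + t) * sin t / 2 - T h x (x + t) + T h x x := by
  have hr := H.an.rad
  apply pos_of_deriv_pos (f' := fun t => (sin t * deriv (fun t => rad h (x + t)) t
      - cos t * rad h (x + t)) / 2)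
  · simp
  · intro t
    have h1 : HasDerivAt (fun t : ℝ => x + t) 1 t := (hasDerivAt_id t).const_add x
    have h2 : HasDerivAt (fun t => rad h (x + t)) (deriv (rad h) (x + t)) t := by
      have h0 := (hr.hasDerivAt (x + t)).comp t h1
      exact h0.congr_deriv (by ring)
    have h3 : HasDerivAt (fun t => T h x (x + t)) (rad h (x + t) * cos t) t := by
      have := (hasDerivAt_T_snd H.an x (x + t)).comp t h1
      have e : x + t - x = t := by ring
      rw [e, mul_one] at this
      exact this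
    have h4 := (((h2.mul (hasDerivAt_sin t)).div_const 2).sub h3).add_const (T h x x)
    refine h4.congr_deriv ?_
    rw [h2.deriv]
    ring
  · have hfs := flat_sign (u := fun t => rad h (x + t))
      (AnalyticAt.fun_comp (g := rad h) (f := fun t : ℝ => x + t) (hr _)
        (analyticAt_const.add analyticAt_id))
      (fun t => H.nonneg _) (by simp [hx]) (by
        intro hcon
        apply rad_not_eventually_zero H x
        have hc : ContinuousAt (fun y : ℝ => y - x) x := by fun_prop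
        have h2 : Tendsto (fun y : ℝ => y - x) (𝓝 x) (𝓝 0) := by
          have := hc.tendsto
          simpa only [sub_self] using this
        have := h2.eventually hcon
        filter_upwards [this] with y hy
        simpa using hy)
    filter_upwards [hfs] with t ht
    linarith only [ht]

theorem exists_pos_left {h : ℝ → ℝ} (H : Adm h) {x : ℝ} (hx : rad h x = 0) :
    ∃ ε > 0, ∀ t, 0 < t → t < ε →
      0 < rad h (x - t) * sin t / 2 + T h x (x - t) - T h x x := by
  have hr := H.an.rad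
  apply pos_of_deriv_pos (f' := fun t => (sin t * deriv (fun t => rad h (x - t)) t
      - cos t * rad h (x - t)) / 2)
  · simp
  · intro t
    have h1 : HasDerivAt (fun t : ℝ => x - t) (-1) t := (hasDerivAt_id t).const_sub x
    have h2 : HasDerivAt (fun t => rad h (x - t)) (-deriv (rad h) (x - t)) t := by
      have h0 := (hr.hasDerivAt (x - t)).comp t h1
      exact h0.congr_deriv (by ring)
    have h3 : HasDerivAt (fun t => T h x (x - t)) (-(rad h (x - t) * cos t)) t := by
      have := (hasDerivAt_T_snd H.an x (x - t)).comp t h1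
      have e : x - t - x = -t := by ring
      rw [e, cos_neg] at this
      exact this.congr_deriv (by ring)
    have h4 := (((h2.mul (hasDerivAt_sin t)).div_const 2).add h3).sub_const (T h x x)
    refine h4.congr_deriv ?_
    rw [h2.deriv]
    ring
  · have hfs := flat_sign (u := fun t => rad h (x - t))
      (AnalyticAt.fun_comp (g := rad h) (f := fun t : ℝ => x - t) (hr _)
        (analyticAt_const.sub analyticAt_id))
      (fun t => H.nonneg _) (by simp [hx]) (by
        intro hcon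
        apply rad_not_eventually_zero H x
        have hc : ContinuousAt (fun y : ℝ => x - y) x := by fun_prop
        have h2 : Tendsto (fun y : ℝ => x - y) (𝓝 x) (𝓝 0) := by
          have := hc.tendsto
          simpa only [sub_self] using this
        have := h2.eventually hcon
        filter_upwards [this] with y hy
        simpa using hy)
    filter_upwards [hfs] with t ht
    linarith only [ht]

/-- If the radius of curvature vanishes at a point, the maximum function is not constant for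
large `n`. -/
theorem not_Cst_of_rad_zero {h : ℝ → ℝ} (H : Adm h) {x : ℝ} (hx : rad h x = 0) :
    ∀ᶠ n in atTop, ¬ Cst h n := by
  obtain ⟨ε₁, hε₁, h1⟩ := exists_pos_right H hx
  obtain ⟨ε₂, hε₂, h2⟩ := exists_pos_left H hx
  have hs := small_gaps H x (ε := min ε₁ ε₂) (lt_min hε₁ hε₂)
  filter_upwards [hs, eventually_ge_atTop 1] with n hn hn1
  intro hC
  obtain ⟨Z, M⟩ := exists_isMaxC H.an.continuous n x
  obtain ⟨g1, g2⟩ := hn Z M
  have p1 := M.pos H 0 (by omega)
  have p2 := M.pos H n le_rfl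
  have m1 := min_le_left ε₁ ε₂
  have m2 := min_le_right ε₁ ε₂
  rw [zero_add] at p1
  set E : ℕ → ℝ := fun j => if j = 0 ∨ j = n + 1 then 1 else 0 with hE
  have hQ := M.QQ_nonpos H hC (U := E) (by simp [hE])
  have hQe : QQ h n Z E = al h Z 0 + be h Z n := by
    unfold QQ
    have e1 : ∀ j ∈ Finset.range (n + 1),
        (al h Z j * E j ^ 2 + 2 * cc h Z j * E j * E (j + 1) + be h Z j * E (j + 1) ^ 2)
        = E j * (al h Z j * E j + 2 * cc h Z j * E (j + 1)) + E (j + 1) * (be h Z j * E (j + 1)) := by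
      intro j _
      ring
    rw [Finset.sum_congr rfl e1, Finset.sum_add_distrib]
    congr 1
    · rw [Finset.sum_eq_single 0]
      · have a1 : E 0 = 1 := by simp only [hE, Nat.right_eq_add, Nat.add_eq_zero_iff, one_ne_zero, and_false, or_false, ↓reduceIte]
        have a2 : E (0 + 1) = 0 := by
          simp only [hE]
          rw [if_neg]
          omega
        rw [a1, a2]
        ring
      · intro j hj hj0
        rw [Finset.mem_range] at hj
        have : E j = 0 := by
          simp only [hE]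
          rw [if_neg]
          omega
        rw [this, zero_mul]
      · intro hcon
        exact absurd (Finset.mem_range.2 (by omega)) hcon
    · rw [Finset.sum_eq_single n]
      · have a1 : E (n + 1) = 1 := by simp only [hE, Nat.add_eq_zero_iff, one_ne_zero, and_false, Nat.add_left_cancel_iff, or_true, ↓reduceIte]
        rw [a1]
        ring
      · intro j hj hj0
        rw [Finset.mem_range] at hj
        have : E (j + 1) = 0 := by
          simp only [hE]
          rw [if_neg]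
          omega
        rw [this, zero_mul]
      · intro hcon
        exact absurd (Finset.mem_range.2 (by omega)) hcon
  rw [hQe] at hQ
  have q1 := h1 ((Z 1 - Z 0) / 2) (by linarith only [p1]) (by linarith only [g1, p1, m1])
  have q2 := h2 ((Z (n + 1) - Z n) / 2) (by linarith only [p2]) (by linarith only [g1, g2, p1, m2])
  have hZ0 := M.1.1
  have hZn := M.1.2.1
  have e1 : mid Z 0 = x + (Z 1 - Z 0) / 2 := by simp only [mid, zero_add, hZ0]; ring
  have e2 : mid Z n = x - (Z (n + 1) - Z n) / 2 + 2 * π := by simp only [mid, hZn]; ring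
  unfold al be cc at hQ
  rw [e1, e2, rad_per H.per, hZ0, zero_add] at hQ
  rw [hZn, T_per H.per] at hQ
  rw [hZ0] at q1
  rw [hZn] at q2
  linarith only [hQ, q1, q2]

end Vale.Agent.P097
end

section

/-!
# P097: geometry of one bounce
-/

namespace Vale.Agent.P097

open Real Set Filter Topology

theorem bdry_eq (h : ℝ → ℝ) (φ ψ : ℝ) :
    bdry h ψ = ((K h φ ψ : ℂ) + (T h φ ψ : ℂ) * Complex.I) * Complex.exp ((φ : ℂ) * Complex.I) := by
  have e2 : Complex.exp ((ψ : ℂ) * Complex.I)
      = Complex.exp (((ψ - φ : ℝ) : ℂ) * Complex.I) * Complex.exp ((φ : ℂ) * Complex.I) := by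
    rw [← Complex.exp_add]
    congr 1
    push_cast
    ring
  have e3 : Complex.exp (((ψ - φ : ℝ) : ℂ) * Complex.I)
      = (Real.cos (ψ - φ) : ℂ) + (Real.sin (ψ - φ) : ℂ) * Complex.I := by
    rw [Complex.exp_mul_I]
    push_cast
    rfl
  rw [bdry, e2, e3]
  unfold K T
  push_cast
  have hI : Complex.I * Complex.I = -1 := Complex.I_mul_I
  linear_combination (((deriv h ψ : ℝ) : ℂ) * Complex.sin ((ψ : ℂ) - (φ : ℂ)) *
    Complex.exp ((φ : ℂ) * Complex.I)) * hI

theorem T_shift {h : ℝ → ℝ} (hp : ∀ x, h (x + 2 * π) = h x) (φ ψ : ℝ) :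
    T h φ (ψ + 2 * π) = T h φ ψ := by
  unfold T
  rw [hp, deriv_per hp]
  have : ψ + 2 * π - φ = ψ - φ + 2 * π := by ring
  rw [this, sin_add_two_pi, cos_add_two_pi]

theorem T_rotate (h : ℝ → ℝ) (φ β ψ : ℝ) :
    T h (φ + β) ψ = cos β * T h φ ψ - sin β * K h φ ψ := by
  unfold T K
  have e1 : ψ - (φ + β) = (ψ - φ) - β := by ring
  rw [e1, sin_sub (ψ - φ) β, cos_sub (ψ - φ) β]
  ring

/-- The second impact point lies ahead. -/
theorem T_lt_of_K_eq {h : ℝ → ℝ} (H : An h) (hp : ∀ x, h (x + 2 * π) = h x)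
    (Hr : ∀ x, 0 < rad h x) {φ δ δ' : ℝ} (h1 : 0 < δ) (h2 : δ < π) (h3 : 0 < δ') (h4 : δ' < π)
    (hK : K h φ (φ - δ) = K h φ (φ + δ')) : T h φ (φ - δ) < T h φ (φ + δ') := by
  set β := (δ' - δ) / 2 with hβ
  have hcos : 0 < cos β := cos_pos_of_mem_Ioo ⟨by rw [hβ]; linarith only [h3, h2], by rw [hβ]; linarith⟩
  have hd : ∀ x, HasDerivAt (fun t => T h (φ + β) t) (rad h x * cos (x - (φ + β))) x :=
    fun x => hasDerivAt_T_snd H _ x
  rcases le_or_gt (δ + δ') π with hle | hgt
  · have hm : StrictMonoOn (fun t => T h (φ + β) t) (Icc (φ - δ) (φ + δ')) := by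
      apply strictMonoOn_of_deriv_pos (convex_Icc _ _)
      · exact fun x _ => (hd x).continuousAt.continuousWithinAt
      · intro x hx
        rw [interior_Icc] at hx
        rw [(hd x).deriv]
        apply mul_pos (Hr x)
        apply cos_pos_of_mem_Ioo
        constructor
        · rw [hβ]; linarith [hx.1]
        · rw [hβ]; linarith [hx.2]
    have := hm (left_mem_Icc.2 (by linarith)) (right_mem_Icc.2 (by linarith)) (by linarith)
    simp only [T_rotate, hK] at this
    have h5 : cos β * T h φ (φ - δ) < cos β * T h φ (φ + δ') := by linarith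
    exact lt_of_mul_lt_mul_left h5 hcos.le
  · have hm : StrictAntiOn (fun t => T h (φ + β) t) (Icc (φ + δ') (φ - δ + 2 * π)) := by
      apply strictAntiOn_of_deriv_neg (convex_Icc _ _)
      · exact fun x _ => (hd x).continuousAt.continuousWithinAt
      · intro x hx
        rw [interior_Icc] at hx
        rw [(hd x).deriv]
        apply mul_neg_of_pos_of_neg (Hr x)
        apply cos_neg_of_pi_div_two_lt_of_lt
        · rw [hβ]; linarith [hx.1]
        · rw [hβ]; linarith [hx.2]
    have := hm (left_mem_Icc.2 (by linarith)) (right_mem_Icc.2 (by linarith))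
      (show φ + δ' < φ - δ + 2 * π by linarith)
    simp only [T_shift hp] at this
    simp only [T_rotate, hK] at this
    have h5 : cos β * T h φ (φ - δ) < cos β * T h φ (φ + δ') := by linarith
    exact lt_of_mul_lt_mul_left h5 hcos.le

theorem step_of_K {h : ℝ → ℝ} (H : An h) (hp : ∀ x, h (x + 2 * π) = h x)
    (Hr : ∀ x, 0 < rad h x) {ψ δ ψ' δ' : ℝ} (h1 : 0 < δ) (h2 : δ < π) (h3 : 0 < δ') (h4 : δ' < π)
    (hψ : ψ' = ψ + δ + δ') (hK : K h (ψ + δ) ψ = K h (ψ + δ) ψ') : Step h ψ δ ψ' δ' := by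
  refine ⟨h1, h2, h3, h4, hψ, T h (ψ + δ) ψ' - T h (ψ + δ) ψ, ?_, ?_⟩
  · have := T_lt_of_K_eq H hp Hr (φ := ψ + δ) h1 h2 h3 h4 (by
      rw [add_sub_cancel_right, ← hψ]; exact hK)
    rw [add_sub_cancel_right, ← hψ] at this
    linarith
  · rw [bdry_eq h (ψ + δ) ψ', bdry_eq h (ψ + δ) ψ, hK]
    push_cast
    ring

theorem bdry_rot {h : ℝ → ℝ} {c : ℝ} (hp : ∀ x, h (x + c) = h x) (ψ : ℝ) :
    bdry h (ψ + c) = bdry h ψ * Complex.exp ((c : ℂ) * Complex.I) := by
  unfold bdry
  rw [hp, deriv_per hp]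
  have : Complex.exp (((ψ + c : ℝ) : ℂ) * Complex.I)
      = Complex.exp ((ψ : ℂ) * Complex.I) * Complex.exp ((c : ℂ) * Complex.I) := by
    rw [← Complex.exp_add]
    congr 1
    push_cast
    ring
  rw [this]
  ring

theorem Step.rot {h : ℝ → ℝ} {c : ℝ} (hp : ∀ x, h (x + c) = h x) {ψ δ ψ' δ' : ℝ}
    (hS : Step h (ψ + c) δ (ψ' + c) δ') : Step h ψ δ ψ' δ' := by
  obtain ⟨h1, h2, h3, h4, h5, ℓ, h6, h7⟩ := hS
  refine ⟨h1, h2, h3, h4, by linarith, ℓ, h6, ?_⟩
  rw [bdry_rot hp, bdry_rot hp] at h7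
  have e : Complex.exp (((ψ + c + δ : ℝ) : ℂ) * Complex.I)
      = Complex.exp (((ψ + δ : ℝ) : ℂ) * Complex.I) * Complex.exp ((c : ℂ) * Complex.I) := by
    rw [← Complex.exp_add]
    congr 1
    push_cast
    ring
  rw [e] at h7
  have hne : Complex.exp ((c : ℂ) * Complex.I) ≠ 0 := Complex.exp_ne_zero _
  apply mul_right_cancel₀ hne
  rw [h7]
  ring

/-- The next bounce on a graph is unique. -/
theorem Step.unique {h : ℝ → ℝ} (H : Adm h) {ψ δ ψ₁ δ₁ ψ₂ δ₂ : ℝ} (S1 : Step h ψ δ ψ₁ δ₁)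
    (S2 : Step h ψ δ ψ₂ δ₂) : ψ₁ = ψ₂ := by
  apply next_unique H (φ := ψ + δ)
  · obtain ⟨_, _, h3, h4, h5, _⟩ := S1
    constructor <;> linarith
  · obtain ⟨_, _, h3, h4, h5, _⟩ := S2
    constructor <;> linarith
  · rw [← S1.K_eq, ← S2.K_eq]

end Vale.Agent.P097
end
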