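import Mathlib
import Vale.Agent.P097.Bdl.B1
import Vale.Agent.P097.Bdl.B2
import Vale.Agent.P097.Reg.STab

attribute [-instance] ProperSMul.toContinuousSMul IsTopologicalTorsor.toContinuousSMul IdemSemiring.toCanonicallyOrderedAdd IdemSemiring.toMulLeftMono IdemSemiring.toMulRightMono AddQuantale.instAddLeftMono AddQuantale.instAddRightMono Quantale.instMulLeftMono Quantale.instMulRightMono FiniteDimensional.rclike_to_real IsScalarTower.complexToReal FiniteDimensional.complexToReal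

set_option linter.all false

section

/-!
# P097, regularity theorem, R11: orbits in the complex domain
-/

namespace Vale.Agent.P097.Reg

open Complex Filter Topology
open scoped ComplexConjugate

section

variable {M β P : ℝ} {T : CTab M β P}

variable (T) in
/-- chord direction and half gap along the orbit -/
noncomputable def orb (φ δ : ℂ) : ℕ → ℂ × ℂ
  | 0 => (φ, δ)
  | j + 1 => ((orb φ δ j).1 + 2 * (orb φ δ j).2,
      (orb φ δ j).2 * (1 + nu T ((orb φ δ j).1 + 2 * (orb φ δ j).2) (orb φ δ j).2))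

variable (T) in
/-- the impact point -/
noncomputable def imp (φ δ : ℂ) (j : ℕ) : ℂ := (orb T φ δ j).1 + (orb T φ δ j).2

variable (T) in
/-- the adiabatic invariant -/
noncomputable def ww (φ δ : ℂ) (j : ℕ) : ℂ := (orb T φ δ j).2 * T.lam (imp T φ δ j)

theorem orb_zero (φ δ : ℂ) : orb T φ δ 0 = (φ, δ) := rfl

theorem orb_succ1 (φ δ : ℂ) (j : ℕ) :
    (orb T φ δ (j + 1)).1 = (orb T φ δ j).1 + 2 * (orb T φ δ j).2 := rfl

theorem orb_shift (φ δ : ℂ) (j : ℕ) :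
    orb T φ δ (j + 1) = orb T (orb T φ δ 1).1 (orb T φ δ 1).2 j := by
  induction j with
  | zero => rfl
  | succ j ih => rw [orb, ih]; rfl


variable (T) in
/-- raw bounds along the orbit -/
structure Raw (C1 C2 ω : ℝ) (φ δ : ℂ) (j : ℕ) : Prop where
  mem : (orb T φ δ j).1 ∈ T.D
  ne : (orb T φ δ j).2 ≠ 0
  small : ‖(orb T φ δ j).2‖ ≤ 2 * M * ω
  w : ‖ww T φ δ j - ww T φ δ 0‖ ≤ C1 * (j * ω ^ 4)
  X : ‖T.X (orb T φ δ j).1 - T.X φ - 2 * (j * ww T φ δ 0)‖ ≤ C2 * (j * ω ^ 3)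

variable (T) in
/-- the state has room -/
structure Room (ω : ℝ) (φ δ : ℂ) : Prop where
  im : |(T.X φ).im| + 20 * M ^ 2 * ω ≤ β
  ad : Ad T (φ + 2 * δ) δ
  imp : φ + δ ∈ T.D
  bin : Bin T (φ + δ) (2 * M * ω)

theorem room_of {ω : ℝ} {φ δ : ℂ} (hω0 : 0 < ω) (hs : 800 * M ^ 7 * ω ≤ 1) (hm : φ ∈ T.D)
    (hne : δ ≠ 0) (hδ : ‖δ‖ ≤ 2 * M * ω) (him : |(T.X φ).im| + 20 * M ^ 2 * ω ≤ β) :
    Room T ω φ δ := by
  have hM1 := T.M1
  have hM0 : 0 < M := by linarith only [hM1]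
  have hM2 : 0 < M ^ 2 * ω := by (clear * - hM1 hω0; positivity)
  have hMω : 0 < M * ω := by positivity
  have c2 : Bin T φ (8 * M * ω) := bin_of hm (by linarith)
  have d1 : ‖2 * δ‖ ≤ 4 * M * ω := by
    rw [norm_mul]; norm_num; linarith only [hδ]
  have c3 : φ + 2 * δ ∈ T.D := c2 _ (d1.trans (by linarith only [hMω]))
  have c4 : φ + δ ∈ T.D := c2 _ (hδ.trans (by nlinarith only [hMω]))
  have e1 := (ball_subset T hm (ψ := φ + 2 * δ) (by
    rw [add_sub_cancel_left]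
    have : M * ‖2 * δ‖ ≤ M * (4 * M * ω) := by (clear * - d1 hM1; gcongr)
    linarith)).2
  rw [add_sub_cancel_left] at e1
  have e1' : ‖T.X (φ + 2 * δ) - T.X φ‖ ≤ 4 * (M ^ 2 * ω) := by
    refine e1.trans ?_
    calc M * ‖2 * δ‖ ≤ M * (4 * M * ω) := by (clear * - d1 hM1; gcongr)
      _ = 4 * (M ^ 2 * ω) := by ring
  have e2 : |(T.X (φ + 2 * δ)).im| ≤ |(T.X φ).im| + 4 * (M ^ 2 * ω) := by
    have e3 : (T.X (φ + 2 * δ)).im = (T.X φ).im + (T.X (φ + 2 * δ) - T.X φ).im := by simp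
    rw [e3]
    refine (abs_add_le _ _).trans ?_
    have := (abs_im_le_norm (T.X (φ + 2 * δ) - T.X φ)).trans e1'
    linarith only [this]
  have e4 : 2 * M * ‖δ‖ ≤ 4 * (M ^ 2 * ω) := by
    calc 2 * M * ‖δ‖ ≤ 2 * M * (2 * M * ω) := by (clear * - hδ hM1; gcongr)
      _ = 4 * (M ^ 2 * ω) := by ring
  refine ⟨him, ⟨c3, hne, by linarith only [him, hM2, e2, e4], ?_⟩, c4, ?_⟩
  · calc 400 * M ^ 6 * ‖δ‖ ≤ 400 * M ^ 6 * (2 * M * ω) := by (clear * - hδ hM1; gcongr)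
      _ = 800 * M ^ 7 * ω := by ring
      _ ≤ 1 := hs
  · exact c2.shift (by linarith only [hδ, hMω])

theorem raw_im {C1 C2 ω : ℝ} {φ δ : ℂ} {j q : ℕ} (h : Raw T C1 C2 ω φ δ j) (hC2 : 0 ≤ C2)
    (hω0 : 0 < ω) (hj : j ≤ q)
    (hIm : |(T.X φ).im| + 2 * (q * |(ww T φ δ 0).im|) + C2 * (q * ω ^ 3) + 20 * M ^ 2 * ω ≤ β) :
    |(T.X (orb T φ δ j).1).im| + 20 * M ^ 2 * ω ≤ β := by
  have hjq : (j : ℝ) ≤ q := by exact_mod_cast hj
  have b1 : |(T.X (orb T φ δ j).1).im|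
      ≤ |(T.X φ).im| + 2 * (q * |(ww T φ δ 0).im|) + C2 * (q * ω ^ 3) := by
    have e : (T.X (orb T φ δ j).1).im = (T.X φ).im + 2 * (j * (ww T φ δ 0).im)
        + (T.X (orb T φ δ j).1 - T.X φ - 2 * (j * ww T φ δ 0)).im := by
      simp only [sub_im, mul_im, re_ofNat, natCast_re, natCast_im, zero_mul, add_zero, im_ofNat, mul_re, sub_zero, add_add_sub_cancel, add_sub_cancel]
    rw [e]
    have g1 := (abs_im_le_norm (T.X (orb T φ δ j).1 - T.X φ - 2 * (j * ww T φ δ 0))).trans h.X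
    have g2 : C2 * (j * ω ^ 3) ≤ C2 * (q * ω ^ 3) := by (clear * - hjq hω0 hC2; gcongr)
    have g3 : |2 * (j * (ww T φ δ 0).im)| ≤ 2 * (q * |(ww T φ δ 0).im|) := by
      rw [abs_mul, abs_mul, Nat.abs_ofNat, Nat.abs_cast]
      gcongr
    refine (abs_add_le _ _).trans (add_le_add ((abs_add_le _ _).trans ?_) (g1.trans g2))
    (clear * - g3; gcongr)
  linarith only [b1, hIm]

/-- one step of the induction -/
theorem raw_step {C0 C1 C2 ω : ℝ} {φ δ : ℂ} {j q : ℕ}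
    (hw : ∀ φ δ : ℂ, Ad T φ δ → C0 * ‖δ‖ ≤ 1 →
      ‖δ * (1 + nu T φ δ) * T.lam (φ + δ * (1 + nu T φ δ)) - δ * T.lam (φ - δ)‖
        ≤ C0 * ‖δ‖ ^ 4)
    (hC0 : 1 ≤ C0) (hω0 : 0 < ω) (hω1 : ω ≤ 1) (hj : j < q) (h0 : ‖ww T φ δ 0‖ ≤ ω)
    (s1 : C0 * (2 * M * ω) ≤ 1) (hC1 : 16 * C0 * M ^ 4 ≤ C1) (s2 : C1 * (q * ω) * ω ≤ 1)
    (hC2 : 16 * M ^ 4 + 2 * C1 * (q * ω) ≤ C2)
    (h : Raw T C1 C2 ω φ δ j) (hr : Room T ω (orb T φ δ j).1 (orb T φ δ j).2) :
    Raw T C1 C2 ω φ δ (j + 1) := by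
  have hM1 := T.M1
  have hM0 : 0 < M := by linarith only [hM1]
  have hj' : (j : ℝ) + 1 ≤ q := by exact_mod_cast hj
  have hC1p : 0 ≤ C1 := le_trans (by (clear * - hC0 hM1; positivity)) hC1
  obtain ⟨a1, a2, a3, a4, a5⟩ := h
  set φj := (orb T φ δ j).1 with hφj
  set δj := (orb T φ δ j).2 with hδj
  have e1 : (orb T φ δ (j + 1)).1 = φj + 2 * δj := rfl
  have e2 : (orb T φ δ (j + 1)).2 = δj * (1 + nu T (φj + 2 * δj) δj) := rfl
  have had := hr.ad
  obtain ⟨n1, _⟩ := nu_spec had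
  have hmem : (orb T φ δ (j + 1)).1 + (orb T φ δ (j + 1)).2 ∈ T.D := by
    rw [e1, e2]; exact had.mem1 n1
  have hwj : ww T φ δ j = δj * T.lam (φj + 2 * δj - δj) := by
    rw [ww, Reg.imp, ← hφj, ← hδj]
    congr 2
    ring
  have hwj' : ww T φ δ (j + 1) = δj * (1 + nu T (φj + 2 * δj) δj)
      * T.lam (φj + 2 * δj + δj * (1 + nu T (φj + 2 * δj) δj)) := by
    rw [ww, Reg.imp, e1, e2]
  have hwd : ‖ww T φ δ (j + 1) - ww T φ δ j‖ ≤ C1 * ω ^ 4 := by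
    rw [hwj, hwj']
    refine (hw _ _ had (le_trans (by (clear * - a3 hC0; gcongr)) s1)).trans ?_
    calc C0 * ‖δj‖ ^ 4 ≤ C0 * (2 * M * ω) ^ 4 := by gcongr
      _ = (16 * C0 * M ^ 4) * ω ^ 4 := by ring
      _ ≤ C1 * ω ^ 4 := by gcongr
  have hw1 : ‖ww T φ δ (j + 1) - ww T φ δ 0‖ ≤ C1 * (((j + 1 : ℕ) : ℝ) * ω ^ 4) := by
    have : ww T φ δ (j + 1) - ww T φ δ 0
        = (ww T φ δ (j + 1) - ww T φ δ j) + (ww T φ δ j - ww T φ δ 0) := by ring
    rw [this]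
    refine (norm_add_le _ _).trans ((add_le_add hwd a4).trans (le_of_eq ?_))
    push_cast
    ring
  refine ⟨?_, ?_, ?_, hw1, ?_⟩
  · rw [e1]; exact had.1
  · rw [e2]
    refine mul_ne_zero a2 ?_
    intro h0
    have : nu T (φj + 2 * δj) δj = -1 := by linear_combination h0
    rw [this] at n1
    norm_num at n1
  · have f1 : ‖(orb T φ δ (j + 1)).2‖ ≤ M * ‖ww T φ δ (j + 1)‖ := by
      rw [ww, norm_mul]
      have := T.bl _ hmem
      rw [Reg.imp]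
      linarith only [mul_nonneg (sub_nonneg.2 this) (sub_nonneg.2 (norm_nonneg (orb T φ δ (j + 1)).2))]
    have f2 : ‖ww T φ δ (j + 1)‖ ≤ 2 * ω := by
      have f3 : ‖ww T φ δ (j + 1)‖ ≤ ‖ww T φ δ (j + 1) - ww T φ δ 0‖ + ‖ww T φ δ 0‖ := by
        have := norm_add_le (ww T φ δ (j + 1) - ww T φ δ 0) (ww T φ δ 0)
        simpa only [ge_iff_le, sub_add_cancel] using this
      have f4 : C1 * (((j + 1 : ℕ) : ℝ) * ω ^ 4) ≤ ω := by
        push_cast
        calc C1 * (((j : ℝ) + 1) * ω ^ 4) ≤ C1 * (q * ω ^ 4) := by (clear * - hj' hω0 hC1p; gcongr)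
          _ = (C1 * (q * ω) * ω) * ω * ω := by ring
          _ ≤ 1 * 1 * ω := by (clear * - s2 hω1 hω0; gcongr)
          _ = ω := by ring
      linarith only [h0, hw1, f3, f4]
    calc ‖(orb T φ δ (j + 1)).2‖ ≤ M * (2 * ω) := f1.trans (by (clear * - f2 hM1; gcongr))
      _ = 2 * M * ω := by ring
  · have g1 := X_mid hr.bin a3
    have g2 : φj + δj + δj = φj + 2 * δj := by ring
    have g3 : φj + δj - δj = φj := by ring
    have g4 : δj * T.lam (φj + δj) = ww T φ δ j := rfl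
    rw [g2, g3, g4] at g1
    rw [e1]
    have e : T.X (φj + 2 * δj) - T.X φ - 2 * (((j + 1 : ℕ) : ℂ) * ww T φ δ 0)
        = (T.X (φj + 2 * δj) - T.X φj - 2 * ww T φ δ j)
          + (T.X φj - T.X φ - 2 * (j * ww T φ δ 0)) + 2 * (ww T φ δ j - ww T φ δ 0) := by
      push_cast; ring
    rw [e]
    have g5 : 2 * M * ‖δj‖ ^ 3 ≤ 16 * M ^ 4 * ω ^ 3 := by
      calc 2 * M * ‖δj‖ ^ 3 ≤ 2 * M * (2 * M * ω) ^ 3 := by (clear * - a2 a3 hM1; gcongr)
        _ = 16 * M ^ 4 * ω ^ 3 := by ring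
    have g6 : ‖2 * (ww T φ δ j - ww T φ δ 0)‖ ≤ 2 * C1 * (q * ω) * ω ^ 3 := by
      rw [norm_mul]
      norm_num
      calc 2 * ‖ww T φ δ j - ww T φ δ 0‖ ≤ 2 * (C1 * (j * ω ^ 4)) := by (clear * - a4; gcongr)
        _ ≤ 2 * (C1 * (q * ω ^ 4)) := by (clear * - hj hω0 hC1p; gcongr)
        _ = 2 * C1 * (q * ω) * ω ^ 3 := by ring
    have g7 : (16 * M ^ 4 + 2 * C1 * (q * ω)) * ω ^ 3 ≤ C2 * ω ^ 3 := by (clear * - hC2 hω0; gcongr)
    calc ‖(T.X (φj + 2 * δj) - T.X φj - 2 * ww T φ δ j)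
          + (T.X φj - T.X φ - 2 * (j * ww T φ δ 0)) + 2 * (ww T φ δ j - ww T φ δ 0)‖
        ≤ ‖T.X (φj + 2 * δj) - T.X φj - 2 * ww T φ δ j‖
          + ‖T.X φj - T.X φ - 2 * (j * ww T φ δ 0)‖ + ‖2 * (ww T φ δ j - ww T φ δ 0)‖ :=
            norm_add₃_le
      _ ≤ 16 * M ^ 4 * ω ^ 3 + C2 * (j * ω ^ 3) + 2 * C1 * (q * ω) * ω ^ 3 := by
          gcongr
          exact g1.trans g5
      _ ≤ C2 * (((j + 1 : ℕ) : ℝ) * ω ^ 3) := by push_cast; linarith only [g7]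

variable (T) in
/-- good states of the orbit -/
structure Good (C ω : ℝ) (φ δ : ℂ) (j : ℕ) : Prop extends Raw T C C ω φ δ j where
  room : Room T ω (orb T φ δ j).1 (orb T φ δ j).2

end

theorem orbit_main (M0 : ℝ) (hM0 : 1 ≤ M0) : ∃ C : ℝ, 1 ≤ C ∧ ∀ {M β P : ℝ} (T : CTab M β P),
    M ≤ M0 → ∀ (q : ℕ), 1 ≤ q → ∀ φ δ : ℂ, φ ∈ T.D → δ ≠ 0 → ‖δ‖ ≤ 2 * M * (P / q) →
      ‖ww T φ δ 0‖ ≤ P / q → C * (P / q) ≤ 1 →
      |(T.X φ).im| + 2 * (q * |(ww T φ δ 0).im|) + C * (P / q) ≤ β →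
      ∀ j ≤ q, Good T C (P / q) φ δ j := by
  obtain ⟨C0, hC0, hw⟩ := w_step M0 hM0
  have hpi := Real.pi_pos
  set C1 := 16 * C0 * M0 ^ 4 with hC1
  set C2 := 16 * M0 ^ 4 + 2 * C1 * (2 * Real.pi * M0) with hC2
  have hC1p : 0 ≤ C1 := by positivity
  have hC2p : 0 ≤ C2 := by positivity
  have hone : (1 : ℝ) ≤ M0 ^ 2 := one_le_pow₀ hM0
  refine ⟨C1 + C2 + 2 * Real.pi * M0 * C2 + 20 * M0 ^ 2 + 800 * M0 ^ 7 + 2 * M0 * C0
    + 2 * Real.pi * M0 * C1, ?_, ?_⟩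
  · have : 0 ≤ 2 * Real.pi * M0 * C2 := by positivity
    have : 0 ≤ 800 * M0 ^ 7 + 2 * M0 * C0 + 2 * Real.pi * M0 * C1 := by positivity
    linarith
  intro M β P T hM q hq φ δ hφ hδ hδs hw0 hCω hIm
  have hM1 := T.M1
  have hP := T.P0
  have hP2 := (period_bounds T).2
  have hq0 : (0 : ℝ) < q := by exact_mod_cast hq
  set ω := P / q with hω
  have hω0 : 0 < ω := div_pos hP hq0
  have hqω : q * ω = P := by rw [hω]; (clear * - hq hP; field_simp)
  have hqωM : q * ω ≤ 2 * Real.pi * M0 := by rw [hqω]; exact hP2.trans (by (clear * - hM; gcongr))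
  have hqωp : 0 < q * ω := by (clear * - hq hP; positivity)
  have t0 : 0 ≤ C1 * ω := by positivity
  have t1 : 0 ≤ C2 * ω := by positivity
  have t2 : 0 ≤ 2 * Real.pi * M0 * C2 * ω := by positivity
  have t3 : 0 ≤ 20 * M0 ^ 2 * ω := by positivity
  have t4 : 0 ≤ 800 * M0 ^ 7 * ω := by positivity
  have t5 : 0 ≤ 2 * M0 * C0 * ω := by positivity
  have t6 : 0 ≤ 2 * Real.pi * M0 * C1 * ω := by positivity
  have hCω' : C1 * ω + C2 * ω + 2 * Real.pi * M0 * C2 * ω + 20 * M0 ^ 2 * ω + 800 * M0 ^ 7 * ω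
      + 2 * M0 * C0 * ω + 2 * Real.pi * M0 * C1 * ω ≤ 1 := by linarith only [hCω]
  have hIm' : |(T.X φ).im| + 2 * (q * |(ww T φ δ 0).im|) + (C1 * ω + C2 * ω
      + 2 * Real.pi * M0 * C2 * ω + 20 * M0 ^ 2 * ω + 800 * M0 ^ 7 * ω
      + 2 * M0 * C0 * ω + 2 * Real.pi * M0 * C1 * ω) ≤ β := by linarith only [hIm]
  have hω1 : ω ≤ 1 := by nlinarith only [hone, hCω, t0, t1, t2, t4, t5, t6]
  have hMM2 : M ^ 2 ≤ M0 ^ 2 := by (clear * - hM1 hM; gcongr)
  have hMM7 : M ^ 7 ≤ M0 ^ 7 := by (clear * - hM1 hM; gcongr)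
  have hMM4 : M ^ 4 ≤ M0 ^ 4 := by (clear * - hM1 hM; gcongr)
  have u4 : 800 * M ^ 7 * ω ≤ 1 := by
    have : 800 * M ^ 7 * ω ≤ 800 * M0 ^ 7 * ω := by (clear * - hMM7 hP hq; gcongr)
    linarith only [hCω, t0, t1, t2, t3, t5, t6, this]
  have u5 : C0 * (2 * M * ω) ≤ 1 := by
    have : C0 * (2 * M * ω) ≤ C0 * (2 * M0 * ω) := by (clear * - hM hP hq hC0; gcongr)
    linarith only [this, hCω', t6, t4, t3, t2, t1, t0]
  have u1 : 16 * C0 * M ^ 4 ≤ C1 := by rw [hC1]; (clear * - hMM4 hC0; gcongr)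
  have u6 : C1 * (q * ω) * ω ≤ 1 := by
    have : C1 * (q * ω) * ω ≤ C1 * (2 * Real.pi * M0) * ω := by (clear * - hqωM hC0 hM0 hP hq; gcongr)
    linarith only [this, hCω', t5, t4, t3, t2, t1, t0]
  have u2 : 16 * M ^ 4 + 2 * C1 * (q * ω) ≤ C2 := by rw [hC2]; (clear * - hMM4 hqωM hC0 hM0; gcongr)
  have uI : |(T.X φ).im| + 2 * (q * |(ww T φ δ 0).im|) + C2 * (q * ω ^ 3) + 20 * M ^ 2 * ω
      ≤ β := by
    have v1 : C2 * (q * ω ^ 3) ≤ 2 * Real.pi * M0 * C2 * ω := by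
      calc C2 * (q * ω ^ 3) = C2 * (q * ω) * ω * ω := by ring
        _ ≤ C2 * (2 * Real.pi * M0) * 1 * ω := by (clear * - hqωM hM0 hC0 hω1 hP hq; gcongr)
        _ = 2 * Real.pi * M0 * C2 * ω := by ring
    have v2 : 20 * M ^ 2 * ω ≤ 20 * M0 ^ 2 * ω := by (clear * - hMM2 hP hq; gcongr)
    linarith only [v2, v1, t6, t5, t4, t1, t0, hIm]
  have key : ∀ j ≤ q, Raw T C1 C2 ω φ δ j ∧ Room T ω (orb T φ δ j).1 (orb T φ δ j).2 := by
    intro j
    induction j with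
    | zero =>
      intro _
      have hr : Raw T C1 C2 ω φ δ 0 := by
        refine ⟨hφ, hδ, hδs, ?_, ?_⟩ <;> simp [orb_zero]
      exact ⟨hr, room_of hω0 u4 hr.mem hr.ne hr.small (raw_im hr hC2p hω0 (Nat.zero_le q) uI)⟩
    | succ j ih =>
      intro hj
      obtain ⟨i1, i2⟩ := ih (by omega)
      have hr := raw_step (q := q) (hw T hM) hC0 hω0 hω1 (by omega) hw0 u5 u1 u6 u2 i1 i2
      exact ⟨hr, room_of hω0 u4 hr.mem hr.ne hr.small (raw_im hr hC2p hω0 hj uI)⟩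
  intro j hj
  obtain ⟨⟨a1, a2, a3, a4, a5⟩, a6⟩ := key j hj
  have hj0 : (0 : ℝ) ≤ j := by (clear * -; positivity)
  have hpos1 : 0 ≤ 2 * Real.pi * M0 * C2 + 20 * M0 ^ 2 + 800 * M0 ^ 7 + 2 * M0 * C0
      + 2 * Real.pi * M0 * C1 := by positivity
  refine ⟨⟨a1, a2, a3, a4.trans ?_, a5.trans ?_⟩, a6⟩
  · gcongr
    linarith only [hC2p, hpos1]
  · gcongr
    linarith only [hC1p, hpos1]

end Vale.Agent.P097.Reg
end

section

/-!
# P097, regularity theorem, R11: the closing parameter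
-/

namespace Vale.Agent.P097.Reg

open Complex Filter Topology
open scoped ComplexConjugate

section

variable {M β P : ℝ} {T : CTab M β P}

theorem Good.mono {C C' ω : ℝ} {φ δ : ℂ} {j : ℕ} (hω : 0 ≤ ω) (h : Good T C ω φ δ j)
    (hC : C ≤ C') : Good T C' ω φ δ j := by
  obtain ⟨⟨a1, a2, a3, a4, a5⟩, a6⟩ := h
  exact ⟨⟨a1, a2, a3, a4.trans (by (clear * - hC; gcongr)), a5.trans (by gcongr)⟩, a6⟩

variable (T) in
/-- initial half gap -/
noncomputable def d0 (ω : ℝ) (φ a : ℂ) : ℂ := ω / 2 * (1 + a) / T.lam φ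

theorem d0_mul {ω : ℝ} {φ a : ℂ} (hφ : φ ∈ T.D) : d0 T ω φ a * T.lam φ = ω / 2 * (1 + a) := by
  rw [d0, div_mul_cancel₀ _ (lam_ne hφ)]

theorem d0_norm {ω : ℝ} {φ a : ℂ} (hω : 0 < ω) (hφ : φ ∈ T.D) (ha : ‖a‖ ≤ 1 / 4) :
    ‖d0 T ω φ a‖ ≤ M * ω := by
  have h1 := inv_lam hφ
  have h2 := bu ha
  have hM := T.M1
  rw [d0, div_eq_mul_inv, norm_mul, norm_mul]
  have h3 : ‖(ω : ℂ) / 2‖ = ω / 2 := by
    rw [norm_div, norm_real, Real.norm_of_nonneg hω.le]; norm_num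
  rw [h3]
  calc ω / 2 * ‖1 + a‖ * ‖(T.lam φ)⁻¹‖ ≤ ω / 2 * (5 / 4) * M := by gcongr
    _ ≤ M * ω := by nlinarith only [hω, hM]

theorem d0_ne {ω : ℝ} {φ a : ℂ} (hω : 0 < ω) (hφ : φ ∈ T.D) (ha : ‖a‖ ≤ 1 / 4) :
    d0 T ω φ a ≠ 0 := by
  rw [d0]
  refine div_ne_zero (mul_ne_zero ?_ ?_) (lam_ne hφ)
  · have : (ω : ℂ) ≠ 0 := by exact_mod_cast hω.ne'
    exact div_ne_zero this two_ne_zero
  · intro h
    have : a = -1 := by linear_combination h
    rw [this] at ha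
    norm_num at ha

theorem orb_diff {U : Set ℂ} (hU : IsOpen U) {φ δ : ℂ → ℂ} (hφ : DifferentiableOn ℂ φ U)
    (hδ : DifferentiableOn ℂ δ U) {q : ℕ}
    (h : ∀ z ∈ U, ∀ j < q, Ad T ((orb T (φ z) (δ z) j).1 + 2 * (orb T (φ z) (δ z) j).2)
      (orb T (φ z) (δ z) j).2) :
    ∀ j ≤ q, DifferentiableOn ℂ (fun z => (orb T (φ z) (δ z) j).1) U ∧
      DifferentiableOn ℂ (fun z => (orb T (φ z) (δ z) j).2) U := by
  intro j
  induction j with
  | zero => exact fun _ => ⟨hφ, hδ⟩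
  | succ j ih =>
    intro hj
    obtain ⟨i1, i2⟩ := ih (by omega)
    have c1 : DifferentiableOn ℂ (fun z => (orb T (φ z) (δ z) j).1 + 2 * (orb T (φ z) (δ z) j).2)
        U := i1.add (i2.const_mul 2)
    refine ⟨c1, ?_⟩
    exact i2.mul ((nu_diff hU c1 i2 (fun z hz => h z hz j (by omega))).const_add 1)

end

theorem par_w {M β P : ℝ} {T : CTab M β P} {ω : ℝ} {φ a : ℂ} (hω0 : 0 < ω) (hφ : φ ∈ T.D)
    (ha : ‖a‖ ≤ 1 / 4) (hBin : Bin T φ (M * ω)) :
    ‖2 * ww T φ (d0 T ω φ a) 0 - (ω : ℝ) * (1 + a)‖ ≤ 2 * (M ^ 3 * ω ^ 2) ∧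
      (8 * M ^ 3 * ω ≤ 3 → ‖ww T φ (d0 T ω φ a) 0‖ ≤ ω) ∧
      |(ww T φ (d0 T ω φ a) 0).im| ≤ ω / 2 * ‖a‖ + M ^ 3 * ω ^ 2 := by
  have hM1 := T.M1
  set δ := d0 T ω φ a with hδ
  have hδn : ‖δ‖ ≤ M * ω := d0_norm hω0 hφ ha
  have hMω : 0 < M * ω := by positivity
  have hl := lam_t0 hBin hδn
  have hw : ‖ww T φ δ 0 - ω / 2 * (1 + a)‖ ≤ M ^ 3 * ω ^ 2 := by
    have e : ww T φ δ 0 - ω / 2 * (1 + a) = δ * (T.lam (φ + δ) - T.lam φ) := by
      rw [← d0_mul (ω := ω) (a := a) hφ, ← hδ, ww, imp, orb_zero]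
      ring
    rw [e, norm_mul]
    calc ‖δ‖ * ‖T.lam (φ + δ) - T.lam φ‖ ≤ (M * ω) * (M * (M * ω)) := by
          gcongr
          exact hl.trans (by (clear * - hδn hM1; gcongr))
      _ = M ^ 3 * ω ^ 2 := by ring
  have hωc : ‖(ω : ℂ) / 2‖ = ω / 2 := by
    rw [norm_div, norm_real, Real.norm_of_nonneg hω0.le]; norm_num
  refine ⟨?_, ?_, ?_⟩
  · have e : 2 * ww T φ δ 0 - (ω : ℝ) * (1 + a) = 2 * (ww T φ δ 0 - ω / 2 * (1 + a)) := by ring
    rw [e, norm_mul]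
    norm_num
    exact hw
  · intro h8
    have hωa : ‖(ω : ℂ) / 2 * (1 + a)‖ ≤ (5 / 8) * ω := by
      rw [norm_mul, hωc]
      have := bu ha
      linarith only [mul_nonneg (le_of_lt (sub_pos.2 hω0)) (sub_nonneg.2 this)]
    have e : ww T φ δ 0 = (ww T φ δ 0 - ω / 2 * (1 + a)) + ω / 2 * (1 + a) := by ring
    rw [e]
    refine (norm_add_le _ _).trans ?_
    have : M ^ 3 * ω ^ 2 ≤ (3 / 8) * ω := by nlinarith only [hω0, h8]
    linarith only [hw, hωa, this]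
  · have e : (ww T φ δ 0).im = (ww T φ δ 0 - ω / 2 * (1 + a)).im + ω / 2 * a.im := by
      have : ((ω : ℂ) / 2 * (1 + a)).im = ω / 2 * a.im := by
        have : (ω : ℂ) / 2 * (1 + a) = ((ω / 2 : ℝ) : ℂ) * (1 + a) := by push_cast; ring
        rw [this, Complex.im_ofReal_mul]
        simp
      rw [sub_im, this]; ring
    rw [e]
    refine (abs_add_le _ _).trans ?_
    have g1 := (abs_im_le_norm (ww T φ δ 0 - ω / 2 * (1 + a))).trans hw
    have g2 : |ω / 2 * a.im| ≤ ω / 2 * ‖a‖ := by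
      rw [abs_mul, abs_of_pos (by linarith only [hω0])]
      gcongr
      exact abs_im_le_norm a
    linarith only [g1, g2]

theorem par_main (M0 : ℝ) (hM0 : 1 ≤ M0) : ∃ C : ℝ, 1 ≤ C ∧ ∀ {M β P : ℝ} (T : CTab M β P),
    M ≤ M0 → ∀ (q : ℕ), 1 ≤ q → ∀ φ a : ℂ, φ ∈ T.D → ‖a‖ ≤ 1 / 4 → C * (P / q) ≤ 1 →
      |(T.X φ).im| + P * ‖a‖ + C * (P / q) ≤ β →
      ∀ j ≤ q, Good T C (P / q) φ (d0 T (P / q) φ a) j ∧
        ‖T.X (orb T φ (d0 T (P / q) φ a) j).1 - T.X φ - j * ((P / q : ℝ) * (1 + a))‖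
          ≤ C * (j * (P / q) ^ 2) ∧
        ‖2 * ww T φ (d0 T (P / q) φ a) 0 - (P / q : ℝ) * (1 + a)‖ ≤ C * (P / q) ^ 2 := by
  obtain ⟨C1, hC1, ho⟩ := orbit_main M0 hM0
  have hpi := Real.pi_pos
  refine ⟨C1 + 4 * Real.pi * M0 ^ 4 + 8 * M0 ^ 3, ?_, ?_⟩
  · have : 0 ≤ 4 * Real.pi * M0 ^ 4 + 8 * M0 ^ 3 := by positivity
    linarith only [hC1, this]
  intro M β P T hM q hq φ a hφ ha hω hIm
  have hM1 := T.M1
  have hP := T.P0
  have hP2 := (period_bounds T).2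
  have hq0 : (0 : ℝ) < q := by exact_mod_cast hq
  set ω := P / q with hωdef
  have hω0 : 0 < ω := div_pos hP hq0
  have hqω : q * ω = P := by rw [hωdef]; (clear * - hq hP; field_simp)
  have t1 : 0 ≤ 4 * Real.pi * M0 ^ 4 * ω := by (clear * - hM0 hP hq; positivity)
  have t2 : 0 ≤ 8 * M0 ^ 3 * ω := by positivity
  have t3 : 0 ≤ C1 * ω := by positivity
  have hMM3 : M ^ 3 ≤ M0 ^ 3 := by (clear * - hM1 hM; gcongr)
  have u1 : M ^ 3 * ω ≤ M0 ^ 3 * ω := by (clear * - hMM3 hP hq; gcongr)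
  have hω' : C1 * ω + 4 * Real.pi * M0 ^ 4 * ω + 8 * M0 ^ 3 * ω ≤ 1 := by linarith only [hω]
  have hIm' : |(T.X φ).im| + P * ‖a‖ + (C1 * ω + 4 * Real.pi * M0 ^ 4 * ω + 8 * M0 ^ 3 * ω)
      ≤ β := by linarith only [hIm]
  have hMω : 0 < M * ω := by positivity
  have hM23 : M * (M * ω) ≤ M ^ 3 * ω := by
    have : M ^ 2 ≤ M ^ 3 := pow_le_pow_right₀ hM1 (by norm_num)
    linarith only [mul_nonneg (le_of_lt (sub_pos.2 hω0)) (sub_nonneg.2 this)]
  have hPa : 0 ≤ P * ‖a‖ := by (clear * - hP; positivity)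
  have hM3p : 0 < M ^ 3 * ω := by positivity
  have hBin : Bin T φ (M * ω) := bin_of hφ (by linarith only [hIm, t1, t3, u1, hM23, hPa, hM3p])
  obtain ⟨hw2, hw1, hwim⟩ := par_w hω0 hφ ha hBin
  have hδn : ‖d0 T ω φ a‖ ≤ M * ω := d0_norm hω0 hφ ha
  have hδne : d0 T ω φ a ≠ 0 := d0_ne hω0 hφ ha
  set δ := d0 T ω φ a with hδ
  have hcond : |(T.X φ).im| + 2 * (q * |(ww T φ δ 0).im|) + C1 * ω ≤ β := by
    have g1 : 2 * (q * |(ww T φ δ 0).im|) ≤ P * ‖a‖ + 4 * Real.pi * M0 ^ 4 * ω := by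
      calc 2 * (q * |(ww T φ δ 0).im|) ≤ 2 * (q * (ω / 2 * ‖a‖ + M ^ 3 * ω ^ 2)) := by (clear * - hwim hq; gcongr)
        _ = (q * ω) * ‖a‖ + 2 * (q * ω) * (M ^ 3 * ω) := by ring
        _ ≤ P * ‖a‖ + 2 * (2 * Real.pi * M) * (M ^ 3 * ω) := by rw [hqω]; (clear * - hP2 hM1 hP hq; gcongr)
        _ = P * ‖a‖ + 4 * Real.pi * M ^ 4 * ω := by ring
        _ ≤ P * ‖a‖ + 4 * Real.pi * M0 ^ 4 * ω := by (clear * - hM1 hM hP hq; gcongr)
    linarith only [hIm, u1, hM3p, g1]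
  have horb := ho T hM q hq φ δ hφ hδne (hδn.trans (by linarith only [hMω])) (hw1 (by linarith only [hω, t1, t3, u1]))
    (by linarith only [hω, t1, u1, hM3p]) hcond
  have hCC : C1 ≤ C1 + 4 * Real.pi * M0 ^ 4 + 8 * M0 ^ 3 := by
    have : 0 ≤ 4 * Real.pi * M0 ^ 4 + 8 * M0 ^ 3 := by positivity
    linarith only [this]
  have hω1 : ω ≤ 1 := by nlinarith only [hω, t1, u1, hM3p, hC1]
  have g0 : 2 * (M ^ 3 * ω ^ 2) ≤ 2 * M0 ^ 3 * ω ^ 2 := by
    have : M ^ 3 * ω ^ 2 ≤ M0 ^ 3 * ω ^ 2 := by (clear * - hMM3 hP hq; gcongr)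
    linarith only [this]
  have hCC2 : C1 + 2 * M0 ^ 3 ≤ C1 + 4 * Real.pi * M0 ^ 4 + 8 * M0 ^ 3 := by
    have : 0 ≤ 4 * Real.pi * M0 ^ 4 + 6 * M0 ^ 3 := by positivity
    linarith only [this]
  set CC := C1 + 4 * Real.pi * M0 ^ 4 + 8 * M0 ^ 3
  clear_value CC
  intro j hj
  refine ⟨(horb j hj).mono hω0.le hCC, ?_, ?_⟩
  · have e : T.X (orb T φ δ j).1 - T.X φ - j * ((ω : ℝ) * (1 + a))
        = (T.X (orb T φ δ j).1 - T.X φ - 2 * (j * ww T φ δ 0))
          + j * (2 * ww T φ δ 0 - (ω : ℝ) * (1 + a)) := by ring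
    rw [e]
    refine (norm_add_le _ _).trans ?_
    rw [norm_mul, Complex.norm_natCast]
    have g1 : C1 * (j * ω ^ 3) ≤ C1 * (j * ω ^ 2) := by
      have : ω ^ 3 ≤ ω ^ 2 := pow_le_pow_of_le_one hω0.le hω1 (by norm_num)
      (clear * - this hC1; gcongr)
    have g2 : (j : ℝ) * ‖2 * ww T φ δ 0 - (ω : ℝ) * (1 + a)‖ ≤ j * (2 * M0 ^ 3 * ω ^ 2) := by
      gcongr
      exact hw2.trans g0
    have g3 := (horb j hj).X
    have g4 : (C1 + 2 * M0 ^ 3) * (j * ω ^ 2) ≤ CC * (j * ω ^ 2) := by (clear * - hCC2 hP hq; gcongr)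
    linarith only [g1, g2, g3, g4]
  · refine hw2.trans (g0.trans ?_)
    have g4 : (C1 + 2 * M0 ^ 3) * ω ^ 2 ≤ CC * ω ^ 2 := by (clear * - hCC2 hP hq; gcongr)
    have g5 : 0 ≤ C1 * ω ^ 2 := by positivity
    linarith only [g4, g5]

/-- Cauchy estimate and mean value inequality -/
theorem cauchy_lip {F : ℂ → ℂ} {R B : ℝ} (hR : 0 < R) (hF : DifferentiableOn ℂ F (Metric.ball 0 R))
    (hB : ∀ z ∈ Metric.ball (0 : ℂ) R, ‖F z‖ ≤ B) {a b : ℂ} (ha : ‖a‖ ≤ R / 2)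
    (hb : ‖b‖ ≤ R / 2) : ‖F b - F a‖ ≤ (3 * B / R) * ‖b - a‖ := by
  have hsub : ∀ c : ℂ, ‖c‖ ≤ R / 2 → Metric.closedBall c (R / 3) ⊆ Metric.ball (0 : ℂ) R := by
    intro c hc z hz
    rw [mem_ball_zero_iff]
    rw [Metric.mem_closedBall, dist_eq_norm] at hz
    have := norm_add_le (z - c) c
    rw [sub_add_cancel] at this
    linarith only [this, hz, hc, hR]
  refine mvb (f := F) (f' := deriv F) (r := R / 2) (fun x hx => ?_) (fun x hx => ?_) ha hb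
  · have : x ∈ Metric.ball (0 : ℂ) R := by rw [mem_ball_zero_iff]; linarith only [hR, hx]
    exact ((hF x this).differentiableAt (Metric.isOpen_ball.mem_nhds this)).hasDerivAt
  · have h1 := Complex.norm_deriv_le_of_forall_mem_sphere_norm_le (c := x) (R := R / 3) (C := B)
      (f := F) (by linarith only [hR])
      ((hF.mono ((closure_mono (Set.Subset.refl _)).trans
        (Metric.closure_ball_subset_closedBall.trans (hsub x hx)))).diffContOnCl)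
      (fun z hz => hB z (hsub x hx (Metric.sphere_subset_closedBall hz)))
    refine h1.trans (le_of_eq ?_)
    field_simp

theorem par_lip (M0 : ℝ) (hM0 : 1 ≤ M0) : ∃ C : ℝ, 1 ≤ C ∧ ∀ {M β P : ℝ} (T : CTab M β P),
    M ≤ M0 → ∀ (q : ℕ), 1 ≤ q → ∀ (φ : ℂ) (R : ℝ), φ ∈ T.D → 0 < R → R ≤ 1 / 4 →
      C * (P / q) ≤ 1 → |(T.X φ).im| + P * R + C * (P / q) ≤ β →
      ∀ a b : ℂ, ‖a‖ ≤ R / 2 → ‖b‖ ≤ R / 2 → ∀ j ≤ q,
        ‖(T.X (orb T φ (d0 T (P / q) φ b) j).1 - j * ((P / q : ℝ) * (1 + b)))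
          - (T.X (orb T φ (d0 T (P / q) φ a) j).1 - j * ((P / q : ℝ) * (1 + a)))‖
          ≤ (C * (P / q) / R) * ‖b - a‖ := by
  obtain ⟨C1, hC1, hp⟩ := par_main M0 hM0
  have hpi := Real.pi_pos
  refine ⟨C1 + 6 * Real.pi * M0 * C1, ?_, ?_⟩
  · have : 0 ≤ 6 * Real.pi * M0 * C1 := by positivity
    linarith
  intro M β P T hM q hq φ R hφ hR hR4 hω hIm a b ha hb j hj
  have hM1 := T.M1
  have hP := T.P0
  have hP2 := (period_bounds T).2
  have hq0 : (0 : ℝ) < q := by exact_mod_cast hq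
  set ω := P / q with hωdef
  have hω0 : 0 < ω := div_pos hP hq0
  have hqω : q * ω = P := by rw [hωdef]; (clear * - hq hP; field_simp)
  have t1 : 0 ≤ 6 * Real.pi * M0 * C1 * ω := by positivity
  have hω' : C1 * ω ≤ 1 := by linarith only [hω, t1]
  have hmain : ∀ c ∈ Metric.ball (0 : ℂ) R, ∀ j ≤ q, Good T C1 ω φ (d0 T ω φ c) j ∧
        ‖T.X (orb T φ (d0 T ω φ c) j).1 - T.X φ - j * ((ω : ℝ) * (1 + c))‖
          ≤ C1 * (j * ω ^ 2) := by
    intro c hc j hj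
    rw [mem_ball_zero_iff] at hc
    have h1 : P * ‖c‖ ≤ P * R := by (clear * - hc hP; gcongr)
    have := hp T hM q hq φ c hφ (by linarith only [hR4, hc]) hω' (by linarith only [hIm, t1, h1]) j hj
    exact ⟨this.1, this.2.1⟩
  have hd : DifferentiableOn ℂ (fun c => d0 T ω φ c) (Metric.ball 0 R) := by
    unfold d0
    exact ((differentiableOn_id.const_add 1).const_mul _).div_const _
  have hdiff := orb_diff (T := T) (U := Metric.ball 0 R) Metric.isOpen_ball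
    (φ := fun _ => φ) (δ := fun c => d0 T ω φ c) (differentiableOn_const _) hd (q := q)
    (fun z hz j hj => (hmain z hz j hj.le).1.room.ad) j hj
  have hX : DifferentiableOn ℂ T.X T.D := fun ψ hψ =>
    (T.dX ψ hψ).differentiableAt.differentiableWithinAt
  have hF : DifferentiableOn ℂ (fun c => T.X (orb T φ (d0 T ω φ c) j).1 - T.X φ
      - j * ((ω : ℝ) * (1 + c))) (Metric.ball 0 R) := by
    refine ((hX.comp hdiff.1 (fun z hz => (hmain z hz j hj).1.mem)).sub_const _).sub ?_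
    exact (((differentiableOn_id.const_add 1).const_mul _).const_mul _)
  have := cauchy_lip hR hF (fun z hz => (hmain z hz j hj).2) ha hb
  have e : (T.X (orb T φ (d0 T ω φ b) j).1 - T.X φ - j * ((ω : ℝ) * (1 + b)))
      - (T.X (orb T φ (d0 T ω φ a) j).1 - T.X φ - j * ((ω : ℝ) * (1 + a)))
      = (T.X (orb T φ (d0 T ω φ b) j).1 - j * ((ω : ℝ) * (1 + b)))
      - (T.X (orb T φ (d0 T ω φ a) j).1 - j * ((ω : ℝ) * (1 + a))) := by ring
  rw [e] at this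
  refine this.trans ?_
  have hjq : (j : ℝ) ≤ q := by exact_mod_cast hj
  have h5 : 3 * (C1 * (j * ω ^ 2)) ≤ (C1 + 6 * Real.pi * M0 * C1) * ω := by
    calc 3 * (C1 * (j * ω ^ 2)) ≤ 3 * (C1 * (q * ω ^ 2)) := by (clear * - hjq hP hq hC1; gcongr)
      _ = 3 * C1 * (q * ω) * ω := by ring
      _ ≤ 3 * C1 * (2 * Real.pi * M0) * ω := by
          rw [hqω]
          have : P ≤ 2 * Real.pi * M0 := hP2.trans (by (clear * - hM; gcongr))
          (clear * - this hC1 hP hq; gcongr)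
      _ ≤ (C1 + 6 * Real.pi * M0 * C1) * ω := by linarith only [mul_nonneg (le_of_lt (sub_pos.2 hω0)) (sub_nonneg.2 hC1), hω0]
  (clear * - h5 hR; gcongr)

end Vale.Agent.P097.Reg
end

section

/-!
# P097, regularity theorem, R11: closing orbits
-/

namespace Vale.Agent.P097.Reg

open Complex Filter Topology
open scoped ComplexConjugate

section

variable {M β P : ℝ} {T : CTab M β P}

theorem isOpen_strip (β : ℝ) : IsOpen (strip β) := by
  have : Continuous fun ζ : ℂ => |ζ.im| := Complex.continuous_im.abs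
  exact isOpen_lt this continuous_const

theorem strip_conj {β : ℝ} {ζ : ℂ} (h : ζ ∈ strip β) : conj ζ ∈ strip β := by
  simpa only [strip, Set.mem_ofPred_eq, conj_im, abs_neg] using h

theorem strip_add {β : ℝ} {ζ : ℂ} (h : ζ ∈ strip β) (x : ℝ) : ζ + x ∈ strip β := by
  simpa only [strip, Set.mem_ofPred_eq, add_im, ofReal_im, add_zero] using h

theorem strip_mono {β β' : ℝ} (h : β ≤ β') : strip β ⊆ strip β' := fun _ hz => lt_of_lt_of_le hz h

theorem z_conj {ζ : ℂ} (h : ζ ∈ strip β) : T.z (conj ζ) = conj (T.z ζ) := by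
  have h1 := T.zD _ h
  have h2 := T.zX _ (T.cD _ h1)
  rw [T.cX _ h1, T.Xz _ h] at h2
  exact h2

theorem z_per {ζ : ℂ} (h : ζ ∈ strip β) : T.z (ζ + P) = T.z ζ + 2 * Real.pi := by
  have h1 := T.zD _ h
  have h2 := T.zX _ (T.pD _ h1)
  rw [T.pX _ h1, T.Xz _ h] at h2
  exact h2

theorem d0_conj {ω : ℝ} {φ a : ℂ} (h : φ ∈ T.D) :
    d0 T ω (conj φ) (conj a) = conj (d0 T ω φ a) := by
  simp only [d0]
  rw [T.clam _ h]
  simp only [map_div₀, map_mul, conj_ofReal, conj_ofNat, map_add, map_one]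

theorem d0_per {ω : ℝ} {φ a : ℂ} (h : φ ∈ T.D) :
    d0 T ω (φ + 2 * Real.pi) a = d0 T ω φ a := by
  simp only [d0]
  rw [T.plam _ h]

theorem orb_conj {φ δ : ℂ} {q : ℕ}
    (h : ∀ j < q, Ad T ((orb T φ δ j).1 + 2 * (orb T φ δ j).2) (orb T φ δ j).2) :
    ∀ j ≤ q, orb T (conj φ) (conj δ) j = (conj (orb T φ δ j).1, conj (orb T φ δ j).2) := by
  intro j
  induction j with
  | zero => exact fun _ => rfl
  | succ j ih =>
    intro hj
    have i1 := ih (by omega)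
    have h1 := nu_conj (h j (by omega))
    simp only [map_add, map_mul, conj_ofNat] at h1
    simp only [orb]
    rw [i1]
    simp only [map_add, map_mul, conj_ofNat, map_one]
    rw [h1]

theorem orb_per {φ δ : ℂ} {q : ℕ}
    (h : ∀ j < q, Ad T ((orb T φ δ j).1 + 2 * (orb T φ δ j).2) (orb T φ δ j).2) :
    ∀ j ≤ q, orb T (φ + 2 * Real.pi) δ j
      = ((orb T φ δ j).1 + 2 * Real.pi, (orb T φ δ j).2) := by
  intro j
  induction j with
  | zero => exact fun _ => rfl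
  | succ j ih =>
    intro hj
    have i1 := ih (by omega)
    have h1 := nu_per (h j (by omega))
    simp only [orb]
    rw [i1]
    simp only
    rw [show (orb T φ δ j).1 + 2 * (Real.pi : ℂ) + 2 * (orb T φ δ j).2
      = (orb T φ δ j).1 + 2 * (orb T φ δ j).2 + 2 * Real.pi by ring, h1]

end

/-- the family of orbits over the strip -/
theorem fam (M0 : ℝ) (hM0 : 1 ≤ M0) : ∃ C : ℝ, 1 ≤ C ∧ ∀ {M β P : ℝ} (T : CTab M β P),
    M ≤ M0 → ∀ (q : ℕ), 1 ≤ q → ∀ s : ℝ, 0 < s → s < β → C * (P / q) ≤ s →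
      (∀ ζ ∈ strip (β - s), ∀ v : ℂ, ‖v‖ ≤ s / (32 * M0) → ∀ j ≤ q,
        Good T C (P / q) (T.z ζ) (d0 T (P / q) (T.z ζ) v) j ∧
        ‖T.X (orb T (T.z ζ) (d0 T (P / q) (T.z ζ) v) j).1 - ζ - j * ((P / q : ℝ) * (1 + v))‖
          ≤ C * (j * (P / q) ^ 2)) ∧
      (∀ ζ ∈ strip (β - s), ∀ a b : ℂ, ‖a‖ ≤ s / (32 * M0) → ‖b‖ ≤ s / (32 * M0) → ∀ j ≤ q,
        ‖(T.X (orb T (T.z ζ) (d0 T (P / q) (T.z ζ) b) j).1 - j * ((P / q : ℝ) * (1 + b)))
          - (T.X (orb T (T.z ζ) (d0 T (P / q) (T.z ζ) a) j).1 - j * ((P / q : ℝ) * (1 + a)))‖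
          ≤ P / 2 * ‖b - a‖) := by
  obtain ⟨C1, hC1, hp⟩ := par_main M0 hM0
  obtain ⟨C2, hC2, hl⟩ := par_lip M0 hM0
  have hpi := Real.pi_pos
  have hpi3 := Real.pi_gt_three
  have hpi4 := Real.pi_lt_four
  refine ⟨4 * C1 + 2 * C2 + 32 * C2 * M0 ^ 2, ?_, ?_⟩
  · have : 0 ≤ 32 * C2 * M0 ^ 2 := by positivity
    linarith only [hC1, hC2, this]
  intro M β P T hM q hq s hs hsβ hω
  have hM1 := T.M1
  have hP := T.P0
  have hP1 := (period_bounds T).1
  have hP2 := (period_bounds T).2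
  have hβ1 := T.β1
  have hq0 : (0 : ℝ) < q := by exact_mod_cast hq
  set ω := P / q with hωdef
  have hω0 : 0 < ω := div_pos hP hq0
  have t1 : 0 ≤ C1 * ω := by (clear * - hC1 hP hq; positivity)
  have t2 : 0 ≤ C2 * ω := by positivity
  have t3 : 0 ≤ 32 * C2 * M0 ^ 2 * ω := by positivity
  have hω' : 4 * (C1 * ω) + 2 * (C2 * ω) + 32 * C2 * M0 ^ 2 * ω ≤ s := by linarith only [hω]
  have hPM : P ≤ 8 * M0 := by
    calc P ≤ 2 * Real.pi * M := hP2
      _ ≤ 2 * 4 * M0 := by (clear * - hpi4 hM hM1; gcongr)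
      _ = 8 * M0 := by ring
  have hR : 0 < s / (16 * M0) := by positivity
  have hPR : P * (s / (16 * M0)) ≤ s / 2 := by
    calc P * (s / (16 * M0)) ≤ (8 * M0) * (s / (16 * M0)) := by (clear * - hPM hs hM0; gcongr)
      _ = s / 2 := by field_simp; norm_num
  have hR4 : s / (16 * M0) ≤ 1 / 4 := by
    rw [div_le_div_iff₀ (by positivity) (by norm_num)]
    linarith only [hβ1, hsβ, hM0]
  have hXz : ∀ ζ ∈ strip (β - s), T.z ζ ∈ T.D ∧ T.X (T.z ζ) = ζ ∧ |ζ.im| < β - s := by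
    intro ζ hζ
    have h1 : ζ ∈ strip β := strip_mono (by linarith only [hs]) hζ
    exact ⟨T.zD _ h1, T.Xz _ h1, hζ⟩
  constructor
  · intro ζ hζ v hv j hj
    obtain ⟨h1, h2, h3⟩ := hXz ζ hζ
    have hv' : ‖v‖ ≤ s / (16 * M0) := by
      refine hv.trans ?_
      gcongr
      norm_num
    have h4 : P * ‖v‖ ≤ s / 2 := le_trans (by (clear * - hv' hP; gcongr)) hPR
    have := hp T hM q hq (T.z ζ) v h1 (hv'.trans hR4) (by linarith only [t3, t2, hω, hβ1, hsβ]) (by rw [h2]; linarith only [hs, hω, t2, t3, h3, h4]) j hj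
    obtain ⟨g1, g2, -⟩ := this
    rw [h2] at g2
    have hCC : C1 ≤ 4 * C1 + 2 * C2 + 32 * C2 * M0 ^ 2 := by
      have : 0 ≤ 3 * C1 + 2 * C2 + 32 * C2 * M0 ^ 2 := by positivity
      linarith only [this]
    exact ⟨g1.mono hω0.le hCC, g2.trans (by (clear * - hCC hP hq; gcongr))⟩
  · intro ζ hζ a b ha hb j hj
    obtain ⟨h1, h2, h3⟩ := hXz ζ hζ
    have e : s / (32 * M0) = s / (16 * M0) / 2 := by field_simp; norm_num
    rw [e] at ha hb
    refine (hl T hM q hq (T.z ζ) (s / (16 * M0)) h1 hR hR4 (by linarith only [hsβ, hβ1, hω, t1, t3]) (by rw [h2]; linarith only [hω, t1, t3, hPR, h3])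
      a b ha hb j hj).trans ?_
    refine mul_le_mul_of_nonneg_right ?_ (norm_nonneg _)
    rw [div_le_iff₀ hR, ← hωdef]
    have hP6 : 6 ≤ M0 * P := by
      have : M * P ≤ M0 * P := by (clear * - hM hP; gcongr)
      linarith only [hpi3, hP1, this]
    calc C2 * ω = (32 * C2 * M0 ^ 2 * ω) / (32 * M0 ^ 2) := by (clear * - hM0 hω0 hC2; field_simp)
      _ ≤ s / (32 * M0 ^ 2) := by gcongr; linarith only [t2, t1, hω]
      _ ≤ s * (M0 * P) / (32 * M0 ^ 2) := by gcongr; linarith only [mul_nonneg (le_of_lt (sub_pos.2 hs)) (sub_nonneg.2 hP6), hs]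
      _ = P / 2 * (s / (16 * M0)) := by field_simp; norm_num

theorem closing (M0 : ℝ) (hM0 : 1 ≤ M0) : ∃ C : ℝ, 1 ≤ C ∧ ∀ {M β P : ℝ} (T : CTab M β P),
    M ≤ M0 → ∀ (q : ℕ), 1 ≤ q → ∀ s : ℝ, 0 < s → s < β → C * (P / q) ≤ s →
      ∃ a : ℂ → ℂ,
        (∀ j ≤ q, DifferentiableOn ℂ (fun ζ => (orb T (T.z ζ) (d0 T (P / q) (T.z ζ) (a ζ)) j).1)
          (strip (β - s)) ∧
          DifferentiableOn ℂ (fun ζ => (orb T (T.z ζ) (d0 T (P / q) (T.z ζ) (a ζ)) j).2)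
          (strip (β - s))) ∧
        ∀ ζ ∈ strip (β - s), ‖a ζ‖ ≤ s / (32 * M0) ∧
          T.X (orb T (T.z ζ) (d0 T (P / q) (T.z ζ) (a ζ)) q).1 = ζ + P ∧
          (∀ v, ‖v‖ ≤ s / (32 * M0) →
            T.X (orb T (T.z ζ) (d0 T (P / q) (T.z ζ) v) q).1 = ζ + P → v = a ζ) := by
  obtain ⟨C1, hC1, hf⟩ := fam M0 hM0
  refine ⟨32 * M0 * C1, by linarith only [mul_nonneg (sub_nonneg.2 hM0) (sub_nonneg.2 hC1), hC1, hM0], ?_⟩
  intro M β P T hM q hq s hs hsβ hω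
  have hM1 := T.M1
  have hP := T.P0
  have hq0 : (0 : ℝ) < q := by exact_mod_cast hq
  have hβ0 := T.β0
  set ω := P / q with hωdef
  have hω0 : 0 < ω := div_pos hP hq0
  have hqω : q * ω = P := by rw [hωdef]; (clear * - hq hP; field_simp)
  have hPc : (P : ℂ) ≠ 0 := by exact_mod_cast hP.ne'
  have t1 : 0 ≤ C1 * ω := by positivity
  have hω1 : C1 * ω ≤ s := by linarith only [mul_nonneg (sub_nonneg.2 hM0) (sub_nonneg.2 t1), t1, hω]
  have hω2 : C1 * ω ≤ s / (32 * M0) := by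
    rw [le_div_iff₀ (by positivity)]
    linarith only [hω]
  obtain ⟨f1, f2⟩ := hf T hM q hq s hs hsβ hω1
  rw [← hωdef] at f1 f2
  set R := s / (32 * M0) with hRdef
  have hR0 : 0 < R := by positivity
  set U := strip (β - s) with hU
  have hUo : IsOpen U := isOpen_strip _
  have hzU : DifferentiableOn ℂ T.z U := fun ζ hζ =>
    (T.dz ζ (strip_mono (by linarith only [hs]) hζ)).differentiableAt.differentiableWithinAt
  have hzm : ∀ ζ ∈ U, T.z ζ ∈ T.D := fun ζ hζ => T.zD _ (strip_mono (by linarith only [hs]) hζ)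
  have hX : DifferentiableOn ℂ T.X T.D := fun ψ hψ =>
    (T.dX ψ hψ).differentiableAt.differentiableWithinAt
  have hfam : ∀ u : ℂ → ℂ, DifferentiableOn ℂ u U → (∀ z ∈ U, ‖u z‖ ≤ R) → ∀ j ≤ q,
      DifferentiableOn ℂ (fun ζ => (orb T (T.z ζ) (d0 T ω (T.z ζ) (u ζ)) j).1) U ∧
      DifferentiableOn ℂ (fun ζ => (orb T (T.z ζ) (d0 T ω (T.z ζ) (u ζ)) j).2) U := by
    intro u hu hub
    have hd : DifferentiableOn ℂ (fun ζ => d0 T ω (T.z ζ) (u ζ)) U := by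
      unfold d0
      exact ((hu.const_add 1).const_mul _).div (T.dlam.comp hzU hzm)
        (fun ζ hζ => lam_ne (hzm ζ hζ))
    exact orb_diff hUo hzU hd (fun ζ hζ j hj => (f1 ζ hζ (u ζ) (hub ζ hζ) j hj.le).1.room.ad)
  obtain ⟨a, ha1, ha2⟩ := Cusp.holFix (E := ℂ) hUo R hR0.le
    (fun ζ v => v - (T.X (orb T (T.z ζ) (d0 T ω (T.z ζ) v) q).1 - ζ - P) / P) (1 / 2)
    (by norm_num) (by norm_num)
    (by
      intro ζ hζ v hv
      have h1 := (f1 ζ hζ v hv q le_rfl).2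
      have e : v - (T.X (orb T (T.z ζ) (d0 T ω (T.z ζ) v) q).1 - ζ - P) / P
          = -((T.X (orb T (T.z ζ) (d0 T ω (T.z ζ) v) q).1 - ζ - q * ((ω : ℝ) * (1 + v))) / P) := by
        have h2 : (q : ℂ) * (ω : ℝ) = P := by exact_mod_cast hqω
        rw [← mul_assoc, h2]
        field_simp
        ring
      rw [e, norm_neg, norm_div, norm_real, Real.norm_of_nonneg hP.le, div_le_iff₀ hP]
      refine h1.trans ?_
      calc C1 * (q * ω ^ 2) = (C1 * ω) * (q * ω) := by ring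
        _ ≤ R * P := by rw [hqω]; gcongr)
    (by
      intro ζ hζ v w hv hw
      have h1 := f2 ζ hζ w v hw hv q le_rfl
      have e : (v - (T.X (orb T (T.z ζ) (d0 T ω (T.z ζ) v) q).1 - ζ - P) / P)
          - (w - (T.X (orb T (T.z ζ) (d0 T ω (T.z ζ) w) q).1 - ζ - P) / P)
          = -(((T.X (orb T (T.z ζ) (d0 T ω (T.z ζ) v) q).1 - q * ((ω : ℝ) * (1 + v)))
          - (T.X (orb T (T.z ζ) (d0 T ω (T.z ζ) w) q).1 - q * ((ω : ℝ) * (1 + w)))) / P) := by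
        have h2 : (q : ℂ) * (ω : ℝ) = P := by exact_mod_cast hqω
        rw [← mul_assoc, ← mul_assoc, h2]
        field_simp
        ring
      rw [e, norm_neg, norm_div, norm_real, Real.norm_of_nonneg hP.le, div_le_iff₀ hP]
      refine h1.trans (le_of_eq (by ring)))
    (by
      intro u hu hub
      have h1 := (hfam u hu hub q le_rfl).1
      exact hu.sub ((((hX.comp h1 (fun z hz => (f1 z hz (u z) (hub z hz) q le_rfl).1.mem)).sub
        differentiableOn_id).sub_const _).div_const _))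
  refine ⟨a, hfam a ha1 (fun z hz => (ha2 z hz).1), ?_⟩
  intro ζ hζ
  obtain ⟨b1, b2, b3⟩ := ha2 ζ hζ
  have hiff : ∀ v : ℂ, v - (T.X (orb T (T.z ζ) (d0 T ω (T.z ζ) v) q).1 - ζ - P) / P = v
      ↔ T.X (orb T (T.z ζ) (d0 T ω (T.z ζ) v) q).1 = ζ + P := by
    intro v
    rw [sub_eq_self, div_eq_zero_iff]
    constructor
    · rintro (h | h)
      · linear_combination h
      · exact absurd h hPc
    · intro h
      left
      linear_combination h
  exact ⟨b1, (hiff _).1 b2, fun v hv hv2 => b3 v hv ((hiff v).2 hv2)⟩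

end Vale.Agent.P097.Reg
end

section

/-!
# P097, regularity theorem, R11: the functions attached to the closed orbits
-/

namespace Vale.Agent.P097.Reg

open Complex Filter Topology
open scoped ComplexConjugate

section

variable {M β P : ℝ} {T : CTab M β P}

variable (T) in
/-- chord direction number `j` of the closed orbit -/
noncomputable def ph (ω : ℝ) (a : ℂ → ℂ) (j : ℕ) (ζ : ℂ) : ℂ :=
  (orb T (T.z ζ) (d0 T ω (T.z ζ) (a ζ)) j).1

variable (T) in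
/-- half gap -/
noncomputable def dl (ω : ℝ) (a : ℂ → ℂ) (j : ℕ) (ζ : ℂ) : ℂ :=
  (orb T (T.z ζ) (d0 T ω (T.z ζ) (a ζ)) j).2

variable (T) in
/-- impact point -/
noncomputable def psi (ω : ℝ) (a : ℂ → ℂ) (j : ℕ) (ζ : ℂ) : ℂ := ph T ω a j ζ + dl T ω a j ζ

variable (T) in
noncomputable def Efn (ω : ℝ) (a : ℂ → ℂ) (j : ℕ) (ζ : ℂ) : ℂ :=
  T.X (psi T ω a j ζ) - ζ - ((j : ℂ) + 1 / 2) * ω

variable (T) in
noncomputable def kpn (ω : ℝ) (a : ℂ → ℂ) (j : ℕ) (ζ : ℂ) : ℂ :=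
  2 * sin (dl T ω a j ζ) * T.lam (psi T ω a j ζ) / ω

variable (T) in
noncomputable def Ln (ω : ℝ) (a : ℂ → ℂ) (q : ℕ) (ζ : ℂ) : ℂ :=
  ∑ j ∈ Finset.range q, 2 * T.G (psi T ω a j ζ) * sin (dl T ω a j ζ)

variable (T) in
/-- a closing parameter -/
structure Clo (C ω b : ℝ) (q : ℕ) (a : ℂ → ℂ) : Prop where
  good : ∀ ζ ∈ strip b, ∀ j ≤ q, Good T C ω (T.z ζ) (d0 T ω (T.z ζ) (a ζ)) j
  dph : ∀ j ≤ q, DifferentiableOn ℂ (ph T ω a j) (strip b)
  ddl : ∀ j ≤ q, DifferentiableOn ℂ (dl T ω a j) (strip b)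
  close : ∀ ζ ∈ strip b, T.X (ph T ω a q ζ) = ζ + P
  acj : ∀ ζ ∈ strip b, a (conj ζ) = conj (a ζ)
  apr : ∀ ζ ∈ strip b, a (ζ + P) = a ζ

theorem sin_lin {x : ℂ} (hx : ‖x‖ ≤ 1) : ‖sin x - x‖ ≤ ‖x‖ ^ 3 / 4 := by
  have h1 := Complex.sin_bound hx
  have e : sin x - x = (sin x - (x - x ^ 3 / 6)) + (-(x ^ 3 / 6)) := by ring
  rw [e]
  refine (norm_add_le _ _).trans ?_
  have h2 : ‖-(x ^ 3 / 6)‖ = ‖x‖ ^ 3 / 6 := by
    rw [norm_neg, norm_div, norm_pow]; norm_num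
  rw [h2]
  have h3 : ‖x‖ ^ 5 ≤ ‖x‖ ^ 3 := pow_le_pow_of_le_one (norm_nonneg _) hx (by norm_num)
  have := pow_nonneg (norm_nonneg x) 3
  linarith only [this, h3, h1]

section

variable {C ω b : ℝ} {q : ℕ} {a : ℂ → ℂ} (H : Clo T C ω b q a)

include H

theorem Clo.psi_mem {ζ : ℂ} (hζ : ζ ∈ strip b) {j : ℕ} (hj : j ≤ q) : psi T ω a j ζ ∈ T.D :=
  (H.good ζ hζ j hj).room.imp

theorem Clo.dpsi {j : ℕ} (hj : j ≤ q) : DifferentiableOn ℂ (psi T ω a j) (strip b) :=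
  (H.dph j hj).add (H.ddl j hj)

theorem Clo.symC (hb : b ≤ β) {ζ : ℂ} (hζ : ζ ∈ strip b) {j : ℕ} (hj : j ≤ q) :
    ph T ω a j (conj ζ) = conj (ph T ω a j ζ) ∧ dl T ω a j (conj ζ) = conj (dl T ω a j ζ) := by
  have hz := T.zD _ (strip_mono hb hζ)
  have h1 := orb_conj (q := q) (fun j hj => (H.good ζ hζ j hj.le).room.ad) j hj
  simp only [ph, dl]
  rw [z_conj (strip_mono hb hζ), H.acj ζ hζ, d0_conj hz, h1]
  exact ⟨rfl, rfl⟩

theorem Clo.symP (hb : b ≤ β) {ζ : ℂ} (hζ : ζ ∈ strip b) {j : ℕ} (hj : j ≤ q) :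
    ph T ω a j (ζ + P) = ph T ω a j ζ + 2 * Real.pi ∧ dl T ω a j (ζ + P) = dl T ω a j ζ := by
  have hz := T.zD _ (strip_mono hb hζ)
  have h1 := orb_per (q := q) (fun j hj => (H.good ζ hζ j hj.le).room.ad) j hj
  simp only [ph, dl]
  rw [z_per (strip_mono hb hζ), H.apr ζ hζ, d0_per hz, h1]
  exact ⟨rfl, rfl⟩

theorem Clo.psiC (hb : b ≤ β) {ζ : ℂ} (hζ : ζ ∈ strip b) {j : ℕ} (hj : j ≤ q) :
    psi T ω a j (conj ζ) = conj (psi T ω a j ζ) := by
  obtain ⟨h1, h2⟩ := H.symC hb hζ hj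
  simp only [psi]
  rw [h1, h2, map_add]

theorem Clo.psiP (hb : b ≤ β) {ζ : ℂ} (hζ : ζ ∈ strip b) {j : ℕ} (hj : j ≤ q) :
    psi T ω a j (ζ + P) = psi T ω a j ζ + 2 * Real.pi := by
  obtain ⟨h1, h2⟩ := H.symP hb hζ hj
  simp only [psi]
  rw [h1, h2]
  ring

theorem Clo.diffE {j : ℕ} (hj : j ≤ q) : DifferentiableOn ℂ (Efn T ω a j) (strip b) := by
  have hX : DifferentiableOn ℂ T.X T.D := fun ψ hψ =>
    (T.dX ψ hψ).differentiableAt.differentiableWithinAt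
  exact ((hX.comp (H.dpsi hj) (fun ζ hζ => H.psi_mem hζ hj)).sub differentiableOn_id).sub_const _

theorem Clo.diffK {j : ℕ} (hj : j ≤ q) : DifferentiableOn ℂ (kpn T ω a j) (strip b) := by
  have h1 : DifferentiableOn ℂ (fun ζ => sin (dl T ω a j ζ)) (strip b) :=
    Complex.differentiable_sin.comp_differentiableOn (H.ddl j hj)
  exact ((h1.const_mul 2).mul (T.dlam.comp (H.dpsi hj) (fun ζ hζ => H.psi_mem hζ hj))).div_const _

theorem Clo.diffL : DifferentiableOn ℂ (Ln T ω a q) (strip b) := by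
  unfold Ln
  refine DifferentiableOn.fun_sum (fun j hj => ?_)
  have hj' : j ≤ q := (Finset.mem_range.1 hj).le
  have h1 : DifferentiableOn ℂ (fun ζ => sin (dl T ω a j ζ)) (strip b) :=
    Complex.differentiable_sin.comp_differentiableOn (H.ddl j hj')
  exact ((T.dG.comp (H.dpsi hj') (fun ζ hζ => H.psi_mem hζ hj')).const_mul 2).mul h1

theorem Clo.perE (hb : b ≤ β) {ζ : ℂ} (hζ : ζ ∈ strip b) {j : ℕ} (hj : j ≤ q) :
    Efn T ω a j (ζ + P) = Efn T ω a j ζ := by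
  simp only [Efn]
  rw [H.psiP hb hζ hj, T.pX _ (H.psi_mem hζ hj)]
  ring

theorem Clo.perK (hb : b ≤ β) {ζ : ℂ} (hζ : ζ ∈ strip b) {j : ℕ} (hj : j ≤ q) :
    kpn T ω a j (ζ + P) = kpn T ω a j ζ := by
  simp only [kpn]
  rw [H.psiP hb hζ hj, T.plam _ (H.psi_mem hζ hj), (H.symP hb hζ hj).2]

theorem Clo.perL (hb : b ≤ β) {ζ : ℂ} (hζ : ζ ∈ strip b) :
    Ln T ω a q (ζ + P) = Ln T ω a q ζ := by
  simp only [Ln]
  refine Finset.sum_congr rfl (fun j hj => ?_)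
  have hj' : j ≤ q := (Finset.mem_range.1 hj).le
  rw [H.psiP hb hζ hj', T.pG _ (H.psi_mem hζ hj'), (H.symP hb hζ hj').2]

theorem Clo.realphi (hb : b ≤ β) {x : ℝ} (hx : (x : ℂ) ∈ strip b) {j : ℕ} (hj : j ≤ q) :
    (((ph T ω a j x).re : ℝ) : ℂ) = ph T ω a j x ∧
      (((dl T ω a j x).re : ℝ) : ℂ) = dl T ω a j x := by
  obtain ⟨h1, h2⟩ := H.symC hb hx hj
  rw [Complex.conj_ofReal] at h1 h2
  exact ⟨Complex.conj_eq_iff_re.1 h1.symm, Complex.conj_eq_iff_re.1 h2.symm⟩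

theorem Clo.realE (hb : b ≤ β) {x : ℝ} (hx : (x : ℂ) ∈ strip b) {j : ℕ} (hj : j ≤ q) :
    (Efn T ω a j x).im = 0 := by
  have h1 := H.psiC hb hx hj
  rw [Complex.conj_ofReal] at h1
  have h2 : conj (Efn T ω a j x) = Efn T ω a j x := by
    simp only [Efn, map_sub, map_mul, map_add, Complex.conj_ofReal]
    rw [← T.cX _ (H.psi_mem hx hj), ← h1]
    simp [Complex.conj_ofNat]
  exact Complex.conj_eq_iff_im.1 h2

theorem Clo.w0 (hq : 1 ≤ q) (hω : ω = P / q) {ζ : ℂ} (hζ : ζ ∈ strip b) (hb : b ≤ β) :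
    ‖2 * ww T (T.z ζ) (d0 T ω (T.z ζ) (a ζ)) 0 - ω‖ ≤ C * ω ^ 3 := by
  have h1 := (H.good ζ hζ q le_rfl).X
  have h2 := H.close ζ hζ
  have hq0 : (0 : ℝ) < q := by exact_mod_cast hq
  have hqω : (q : ℂ) * ω = P := by
    have : q * ω = P := by rw [hω]; field_simp
    exact_mod_cast this
  rw [ph] at h2
  rw [h2, T.Xz _ (strip_mono hb hζ), ← hqω] at h1
  have e : ζ + (q : ℂ) * ω - ζ - 2 * (q * ww T (T.z ζ) (d0 T ω (T.z ζ) (a ζ)) 0)
      = -(q * (2 * ww T (T.z ζ) (d0 T ω (T.z ζ) (a ζ)) 0 - ω)) := by ring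
  rw [e, norm_neg, norm_mul, Complex.norm_natCast] at h1
  have h3 : (q : ℝ) * ‖2 * ww T (T.z ζ) (d0 T ω (T.z ζ) (a ζ)) 0 - ω‖ ≤ q * (C * ω ^ 3) := by
    linarith only [h1]
  exact le_of_mul_le_mul_left h3 hq0

theorem Clo.w (hC : 0 ≤ C) (hq : 1 ≤ q) (hω : ω = P / q) {ζ : ℂ} (hζ : ζ ∈ strip b) (hb : b ≤ β)
    {j : ℕ} (hj : j ≤ q) :
    ‖2 * (dl T ω a j ζ * T.lam (psi T ω a j ζ)) - ω‖ ≤ (1 + 2 * P) * C * ω ^ 3 := by
  have h1 := (H.good ζ hζ j hj).w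
  have h2 := H.w0 hq hω hζ hb
  have hq0 : (0 : ℝ) < q := by exact_mod_cast hq
  have hω0 : 0 < ω := by rw [hω]; exact div_pos T.P0 hq0
  have hqω : q * ω = P := by rw [hω]; (clear * - hq; field_simp)
  have hjq : (j : ℝ) ≤ q := by exact_mod_cast hj
  have e : 2 * (dl T ω a j ζ * T.lam (psi T ω a j ζ)) - ω
      = 2 * (ww T (T.z ζ) (d0 T ω (T.z ζ) (a ζ)) j - ww T (T.z ζ) (d0 T ω (T.z ζ) (a ζ)) 0)
        + (2 * ww T (T.z ζ) (d0 T ω (T.z ζ) (a ζ)) 0 - ω) := by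
    simp only [ww, imp, dl, psi, ph]
    ring
  rw [e]
  refine (norm_add_le _ _).trans ?_
  rw [norm_mul, Complex.norm_ofNat]
  have h3 : C * (j * ω ^ 4) ≤ C * (P * ω ^ 3) := by
    calc C * (j * ω ^ 4) ≤ C * (q * ω ^ 4) := by gcongr
      _ = C * ((q * ω) * ω ^ 3) := by ring
      _ = C * (P * ω ^ 3) := by rw [hqω]
  linarith only [h3, h2, h1]

theorem Clo.boundE (hC : 0 ≤ C) (hq : 1 ≤ q) (hω : ω = P / q) (hω1 : ω ≤ 1) {ζ : ℂ}
    (hζ : ζ ∈ strip b) (hb : b ≤ β) {j : ℕ} (hj : j < q) :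
    ‖Efn T ω a j ζ‖ ≤ (4 * M ^ 3 + 3 * (1 + P) * C) * ω ^ 2 := by
  have hg := H.good ζ hζ j hj.le
  have h0 := H.w0 hq hω hζ hb
  have hP := T.P0
  have hM1 := T.M1
  have hq0 : (0 : ℝ) < q := by exact_mod_cast hq
  have hω0 : 0 < ω := by rw [hω]; exact div_pos T.P0 hq0
  have hqω : q * ω = P := by rw [hω]; (clear * - hq hP; field_simp)
  have hjq : (j : ℝ) + 1 ≤ q := by exact_mod_cast hj
  have hj0 : (0 : ℝ) ≤ j := by (clear * -; positivity)
  set w0 := ww T (T.z ζ) (d0 T ω (T.z ζ) (a ζ)) 0 with hw0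
  set wj := ww T (T.z ζ) (d0 T ω (T.z ζ) (a ζ)) j with hwj
  have h1 := hg.X
  rw [T.Xz _ (strip_mono hb hζ), ← hw0] at h1
  have h2 := hg.w
  rw [← hw0, ← hwj] at h2
  have h3 := X_t1 (hg.room.bin) (x := -dl T ω a j ζ) (by rw [norm_neg]; exact hg.small)
  have e3 : (orb T (T.z ζ) (d0 T ω (T.z ζ) (a ζ)) j).1 + (orb T (T.z ζ) (d0 T ω (T.z ζ) (a ζ)) j).2
      = psi T ω a j ζ := rfl
  have e4 : psi T ω a j ζ + -dl T ω a j ζ = ph T ω a j ζ := by simp [psi]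
  rw [e3, e4, norm_neg] at h3
  have h3' : M * ‖dl T ω a j ζ‖ ^ 2 ≤ 4 * M ^ 3 * ω ^ 2 := by
    have := hg.small
    calc M * ‖dl T ω a j ζ‖ ^ 2 ≤ M * (2 * M * ω) ^ 2 := by gcongr; exact this
      _ = 4 * M ^ 3 * ω ^ 2 := by ring
  have e : Efn T ω a j ζ = (T.X (ph T ω a j ζ) - ζ - 2 * (j * w0))
      + (-(T.X (ph T ω a j ζ) - T.X (psi T ω a j ζ) - T.lam (psi T ω a j ζ) * -dl T ω a j ζ))
      + ((wj - w0) + ((j : ℂ) + 1 / 2) * (2 * w0 - ω)) := by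
    have : wj = dl T ω a j ζ * T.lam (psi T ω a j ζ) := rfl
    rw [this, Efn]
    ring
  have h4 : ‖((j : ℂ) + 1 / 2) * (2 * w0 - ω)‖ ≤ q * (C * ω ^ 3) := by
    rw [norm_mul]
    have h5 : ‖((j : ℂ) + 1 / 2)‖ ≤ q := by
      refine (norm_add_le _ _).trans ?_
      rw [Complex.norm_natCast]
      norm_num
      linarith only [hjq]
    (clear * - h5 h0 hq; gcongr)
  have h6 : C * (j * ω ^ 3) ≤ (P * C) * ω ^ 2 := by
    calc C * (j * ω ^ 3) ≤ C * (q * ω ^ 3) := by (clear * - hj hω0 hC; gcongr)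
      _ = ((q * ω) * C) * ω ^ 2 := by ring
      _ = (P * C) * ω ^ 2 := by rw [hqω]
  have h7 : C * (j * ω ^ 4) ≤ (P * C) * ω ^ 2 := by
    calc C * (j * ω ^ 4) ≤ C * (q * ω ^ 4) := by (clear * - hj hω0 hC; gcongr)
      _ = ((q * ω) * C) * ω ^ 2 * ω := by ring
      _ = (P * C) * ω ^ 2 * ω := by rw [hqω]
      _ ≤ (P * C) * ω ^ 2 * 1 := by (clear * - hω1 hP hC hω0; gcongr)
      _ = (P * C) * ω ^ 2 := mul_one _
  have h8 : q * (C * ω ^ 3) = (P * C) * ω ^ 2 := by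
    calc q * (C * ω ^ 3) = ((q * ω) * C) * ω ^ 2 := by ring
      _ = (P * C) * ω ^ 2 := by rw [hqω]
  rw [e]
  refine (norm_add₃_le).trans ?_
  rw [norm_neg]
  have h9 := norm_add_le (wj - w0) (((j : ℂ) + 1 / 2) * (2 * w0 - ω))
  have h10 : 0 ≤ C * ω ^ 2 := by (clear * - hC hω0; positivity)
  have h11 : T.X (ph T ω a j ζ) = T.X (orb T (T.z ζ) (d0 T ω (T.z ζ) (a ζ)) j).1 := rfl
  rw [← h11] at h1
  linarith only [h1, h2, h3, h3', h4, h6, h7, h8, h9, h10]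

theorem Clo.boundK (hC : 0 ≤ C) (hq : 1 ≤ q) (hω : ω = P / q) (hω1 : 2 * M * ω ≤ 1) {ζ : ℂ}
    (hζ : ζ ∈ strip b) (hb : b ≤ β) {j : ℕ} (hj : j < q) :
    ‖kpn T ω a j ζ - 1‖ ≤ (4 * M ^ 4 + (1 + 2 * P) * C) * ω ^ 2 := by
  have hg := H.good ζ hζ j hj.le
  have hP := T.P0
  have hM1 := T.M1
  have hq0 : (0 : ℝ) < q := by exact_mod_cast hq
  have hω0 : 0 < ω := by rw [hω]; exact div_pos T.P0 hq0
  have hωc : (ω : ℂ) ≠ 0 := by exact_mod_cast hω0.ne'
  have h1 := H.w hC hq hω hζ hb hj.le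
  have hd : ‖dl T ω a j ζ‖ ≤ 2 * M * ω := hg.small
  have h2 := sin_lin (hd.trans hω1)
  have h3 := T.b0 _ (H.psi_mem hζ hj.le)
  have e : kpn T ω a j ζ - 1 = ((2 * (dl T ω a j ζ * T.lam (psi T ω a j ζ)) - ω)
      + 2 * ((sin (dl T ω a j ζ) - dl T ω a j ζ) * T.lam (psi T ω a j ζ))) / ω := by
    rw [kpn]
    field_simp
    ring
  rw [e, norm_div, norm_real, Real.norm_of_nonneg hω0.le, div_le_iff₀ hω0]
  refine (norm_add_le _ _).trans ?_
  rw [norm_mul, Complex.norm_ofNat, norm_mul]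
  have h4 : ‖sin (dl T ω a j ζ) - dl T ω a j ζ‖ * ‖T.lam (psi T ω a j ζ)‖ ≤ 2 * M ^ 4 * ω ^ 3 := by
    calc ‖sin (dl T ω a j ζ) - dl T ω a j ζ‖ * ‖T.lam (psi T ω a j ζ)‖
        ≤ ((2 * M * ω) ^ 3 / 4) * M := by gcongr; exact h2.trans (by (clear * - hd; gcongr))
      _ = 2 * M ^ 4 * ω ^ 3 := by ring
  linarith only [h4, h1]

theorem Clo.boundL (hq : 1 ≤ q) (hω : ω = P / q) (hω1 : 2 * M * ω ≤ 1) {ζ : ℂ}
    (hζ : ζ ∈ strip b) : ‖Ln T ω a q ζ‖ ≤ 8 * M ^ 2 * P := by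
  have hM1 := T.M1
  have hq0 : (0 : ℝ) < q := by exact_mod_cast hq
  have hω0 : 0 < ω := by rw [hω]; exact div_pos T.P0 hq0
  have hqω : q * ω = P := by rw [hω]; field_simp
  rw [Ln]
  refine (norm_sum_le _ _).trans ?_
  have h1 : ∀ j ∈ Finset.range q, ‖2 * T.G (psi T ω a j ζ) * sin (dl T ω a j ζ)‖
      ≤ 8 * M ^ 2 * ω := by
    intro j hj
    have hj' : j ≤ q := (Finset.mem_range.1 hj).le
    have hd : ‖dl T ω a j ζ‖ ≤ 2 * M * ω := (H.good ζ hζ j hj').small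
    have hd1 := hd.trans hω1
    have h2 := sin_lin hd1
    have h3 : ‖sin (dl T ω a j ζ)‖ ≤ 2 * ‖dl T ω a j ζ‖ := by
      have h4 : ‖sin (dl T ω a j ζ)‖ ≤ ‖sin (dl T ω a j ζ) - dl T ω a j ζ‖ + ‖dl T ω a j ζ‖ := by
        have := norm_add_le (sin (dl T ω a j ζ) - dl T ω a j ζ) (dl T ω a j ζ)
        simpa only [ge_iff_le, sub_add_cancel] using this
      have h5 : ‖dl T ω a j ζ‖ ^ 3 ≤ ‖dl T ω a j ζ‖ := by
        calc ‖dl T ω a j ζ‖ ^ 3 ≤ ‖dl T ω a j ζ‖ ^ 1 :=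
              pow_le_pow_of_le_one (norm_nonneg _) hd1 (by norm_num)
          _ = ‖dl T ω a j ζ‖ := pow_one _
      have := norm_nonneg (dl T ω a j ζ)
      linarith only [this, h5, h4, h2]
    rw [norm_mul, norm_mul, Complex.norm_ofNat]
    have h6 := T.bG _ (H.psi_mem hζ hj')
    calc 2 * ‖T.G (psi T ω a j ζ)‖ * ‖sin (dl T ω a j ζ)‖
        ≤ 2 * M * (2 * (2 * M * ω)) := by gcongr; exact h3.trans (by (clear * - hd; gcongr))
      _ = 8 * M ^ 2 * ω := by ring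
  refine (Finset.sum_le_sum h1).trans ?_
  rw [Finset.sum_const, Finset.card_range, nsmul_eq_mul]
  calc (q : ℝ) * (8 * M ^ 2 * ω) = 8 * M ^ 2 * (q * ω) := by ring
    _ ≤ 8 * M ^ 2 * P := by rw [hqω]

end

end

theorem exists_clo (M0 : ℝ) (hM0 : 1 ≤ M0) : ∃ C : ℝ, 1 ≤ C ∧ ∀ {M β P : ℝ} (T : CTab M β P),
    M ≤ M0 → ∀ (q : ℕ), 1 ≤ q → ∀ s : ℝ, 0 < s → s < β → C * (P / q) ≤ s →
      ∃ a : ℂ → ℂ, Clo T C (P / q) (β - s) q a ∧
        ∀ ζ ∈ strip (β - s), ‖a ζ‖ ≤ s / (32 * M0) := by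
  obtain ⟨C1, hC1, hf⟩ := fam M0 hM0
  obtain ⟨C2, hC2, hc⟩ := closing M0 hM0
  refine ⟨C1 + C2, by linarith, ?_⟩
  intro M β P T hM q hq s hs hsβ hω
  have hP := T.P0
  have hq0 : (0 : ℝ) < q := by exact_mod_cast hq
  have hω0 : 0 < P / q := div_pos hP hq0
  have t1 : 0 ≤ C1 * (P / q) := by positivity
  have t2 : 0 ≤ C2 * (P / q) := by positivity
  obtain ⟨f1, f2⟩ := hf T hM q hq s hs hsβ (by linarith only [t2, hω])
  obtain ⟨a, ha1, ha2⟩ := hc T hM q hq s hs hsβ (by linarith only [hω, t1])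
  have hsub : ∀ ζ ∈ strip (β - s), ζ ∈ strip β := fun ζ hζ => strip_mono (by linarith only [hs]) hζ
  have hgood : ∀ ζ ∈ strip (β - s), ∀ v : ℂ, ‖v‖ ≤ s / (32 * M0) → ∀ j ≤ q,
      Good T C1 (P / q) (T.z ζ) (d0 T (P / q) (T.z ζ) v) j :=
    fun ζ hζ v hv j hj => (f1 ζ hζ v hv j hj).1
  refine ⟨a, ⟨fun ζ hζ j hj => (hgood ζ hζ _ (ha2 ζ hζ).1 j hj).mono hω0.le (by linarith only [hC2]),
    fun j hj => (ha1 j hj).1, fun j hj => (ha1 j hj).2, fun ζ hζ => (ha2 ζ hζ).2.1, ?_, ?_⟩,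
    fun ζ hζ => (ha2 ζ hζ).1⟩
  · intro ζ hζ
    obtain ⟨b1, b2, b3⟩ := ha2 ζ hζ
    obtain ⟨c1, c2, c3⟩ := ha2 (conj ζ) (strip_conj hζ)
    symm
    refine c3 _ (by rwa [RCLike.norm_conj]) ?_
    have hz := T.zD _ (hsub ζ hζ)
    have h1 := orb_conj (q := q) (fun j hj => (hgood ζ hζ _ b1 j hj.le).room.ad) q le_rfl
    rw [z_conj (hsub ζ hζ), d0_conj hz, h1]
    simp only
    rw [T.cX _ (hgood ζ hζ _ b1 q le_rfl).mem, b2]
    simp
  · intro ζ hζ
    obtain ⟨b1, b2, b3⟩ := ha2 ζ hζ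
    obtain ⟨c1, c2, c3⟩ := ha2 (ζ + P) (strip_add hζ P)
    symm
    refine c3 _ b1 ?_
    have hz := T.zD _ (hsub ζ hζ)
    have h1 := orb_per (q := q) (fun j hj => (hgood ζ hζ _ b1 j hj.le).room.ad) q le_rfl
    rw [z_per (hsub ζ hζ), d0_per hz, h1]
    simp only
    rw [T.pX _ (hgood ζ hζ _ b1 q le_rfl).mem, b2]

end Vale.Agent.P097.Reg
end

section

/-!
# P097, regularity theorem, R11h: real pseudo-orbits, a priori estimates
-/

namespace Vale.Agent.P097.Reg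

open Complex Set
open scoped ComplexConjugate ContDiff

section real

variable {M β P : ℝ} (T : CTab M β P)

/-- real part of the support function on the reals -/
noncomputable def apg (x : ℝ) : ℝ := (T.G x).re

/-- the cube root of the radius of curvature on the reals -/
noncomputable def apl (x : ℝ) : ℝ := (T.lam x).re

theorem ap_lam (x : ℝ) : T.lam x = (apl T x : ℂ) := by
  have h := T.clam x (T.rD x)
  rw [conj_ofReal] at h
  exact (Complex.conj_eq_iff_re.1 h.symm).symm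

theorem ap_G (x : ℝ) : T.G x = (apg T x : ℂ) := by
  have h := T.cG x (T.rD x)
  rw [conj_ofReal] at h
  exact (Complex.conj_eq_iff_re.1 h.symm).symm

theorem ap_X_im (x : ℝ) : (T.X x).im = 0 := by
  have h := T.cX x (T.rD x)
  rw [conj_ofReal] at h
  exact Complex.conj_eq_iff_im.1 h.symm

theorem apl_pos (x : ℝ) : 0 < apl T x := T.rpos x

theorem apl_le (x : ℝ) : apl T x ≤ M := by
  have h := T.b0 x (T.rD x)
  rw [ap_lam, norm_real, Real.norm_eq_abs, abs_of_pos (apl_pos T x)] at h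
  exact h

theorem apl_ge (x : ℝ) : 1 ≤ M * apl T x := by
  have h := T.bl x (T.rD x)
  rw [ap_lam, norm_real, Real.norm_eq_abs, abs_of_pos (apl_pos T x)] at h
  exact h

theorem apl_lip (x y : ℝ) : |apl T x - apl T y| ≤ M * |x - y| := by
  have h := (convex_univ (𝕜 := ℝ) (E := ℝ)).norm_image_sub_le_of_norm_hasDerivWithin_le
    (f := fun x : ℝ => T.lam x) (f' := fun x : ℝ => deriv T.lam x) (C := M)
    (fun z _ => ((dlam1 T (T.rD z)).comp_ofReal).hasDerivWithinAt)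
    (fun z _ => T.b1 z (T.rD z)) (mem_univ y) (mem_univ x)
  rw [ap_lam, ap_lam, ← ofReal_sub, norm_real, Real.norm_eq_abs, Real.norm_eq_abs] at h
  exact h

theorem apg_deriv1 (x : ℝ) : HasDerivAt (apg T) (deriv T.G x).re x :=
  (dG1 T (T.rD x)).real_of_complex

theorem apg_deriv (x : ℝ) : deriv (apg T) x = (deriv T.G x).re := (apg_deriv1 T x).deriv

theorem apg_deriv2 (x : ℝ) : HasDerivAt (deriv (apg T)) (deriv (deriv T.G) x).re x := by
  have h : deriv (apg T) = fun x : ℝ => (deriv T.G x).re := funext (apg_deriv T)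
  rw [h]
  exact (dG2 T (T.rD x)).real_of_complex

theorem ap_G' (x : ℝ) : deriv T.G x = ((deriv (apg T) x : ℝ) : ℂ) := by
  have h := derivG_conj (T := T) (T.rD x)
  rw [conj_ofReal] at h
  rw [apg_deriv]
  exact (Complex.conj_eq_iff_re.1 h.symm).symm

theorem ap_rad (x : ℝ) : rad (apg T) x = apl T x ^ 3 := by
  have h := congrArg Complex.re (T.rho x (T.rD x))
  rw [ap_lam, ← ofReal_pow, ofReal_re, add_re] at h
  rw [rad, (apg_deriv2 T x).deriv]
  exact h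

theorem ap_lp (φ x : ℝ) : lp T.G φ x = (K (apg T) φ (φ + x) : ℂ) := by
  rw [lp, K, ← ofReal_add, ap_G, ap_G', add_sub_cancel_left]
  push_cast
  rfl

end real

/-- derivative of the line functional -/
theorem ap_K {h : ℝ → ℝ} (h1 : ∀ x, HasDerivAt h (deriv h x) x)
    (h2 : ∀ x, HasDerivAt (deriv h) (deriv (deriv h) x) x) (φ x : ℝ) :
    HasDerivAt (fun x => K h φ (φ + x)) (-(rad h (φ + x) * Real.sin x)) x := by
  have a1 : HasDerivAt (fun x => h (φ + x)) (deriv h (φ + x)) x := by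
    simpa using (h1 (φ + x)).comp_const_add φ x
  have a2 : HasDerivAt (fun x => deriv h (φ + x)) (deriv (deriv h) (φ + x)) x := by
    simpa only using (h2 (φ + x)).comp_const_add φ x
  have h4 := (a1.mul (Real.hasDerivAt_cos x)).sub (a2.mul (Real.hasDerivAt_sin x))
  have e : (fun x => K h φ (φ + x)) =
      fun x => h (φ + x) * Real.cos x - deriv h (φ + x) * Real.sin x := by
    funext y
    rw [K, add_sub_cancel_left]
  rw [e]
  refine h4.congr_deriv ?_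
  simp only [rad]
  ring

theorem ap_mono {h : ℝ → ℝ} (h1 : ∀ x, HasDerivAt h (deriv h x) x)
    (h2 : ∀ x, HasDerivAt (deriv h) (deriv (deriv h) x) x) (φ c : ℝ) :
    (∀ x, HasDerivAt (fun x => c * (1 - Real.cos x) + K h φ (φ + x))
      (c * Real.sin x - rad h (φ + x) * Real.sin x) x) ∧
    (∀ x, HasDerivAt (fun x => c * (1 - Real.cos x) + K h φ (φ + -x))
      (c * Real.sin x - rad h (φ + -x) * Real.sin x) x) := by
  constructor
  · intro x
    have a := (((Real.hasDerivAt_cos x).const_sub 1).const_mul c).add (ap_K h1 h2 φ x)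
    refine a.congr_deriv ?_
    ring
  · intro x
    have b : HasDerivAt (fun x => K h φ (φ + -x))
        (-(rad h (φ + -x) * Real.sin (-x)) * -1) x :=
      (ap_K h1 h2 φ (-x)).comp x (hasDerivAt_neg x)
    have a := (((Real.hasDerivAt_cos x).const_sub 1).const_mul c).add b
    refine a.congr_deriv ?_
    rw [Real.sin_neg]
    ring

/-- crude bounds of the functional -/
theorem ap_crude {h : ℝ → ℝ} (h1 : ∀ x, HasDerivAt h (deriv h x) x)
    (h2 : ∀ x, HasDerivAt (deriv h) (deriv (deriv h) x) x) {c C : ℝ}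
    (hc : ∀ x, c ≤ rad h x) (hC : ∀ x, rad h x ≤ C) (φ : ℝ) {x : ℝ} (hx0 : 0 ≤ x)
    (hx : x ≤ Real.pi) :
    (c * (1 - Real.cos x) ≤ h φ - K h φ (φ + x) ∧ h φ - K h φ (φ + x) ≤ C * (1 - Real.cos x)) ∧
    (c * (1 - Real.cos x) ≤ h φ - K h φ (φ - x) ∧ h φ - K h φ (φ - x) ≤ C * (1 - Real.cos x)) := by
  have hK0 : K h φ φ = h φ := by simp only [K, sub_self, Real.cos_zero, mul_one, Real.sin_zero, mul_zero, sub_zero]
  have hsin : ∀ y ∈ interior (Icc (0 : ℝ) Real.pi), 0 ≤ Real.sin y := by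
    intro y hy
    rw [interior_Icc] at hy
    exact (Real.sin_pos_of_pos_of_lt_pi hy.1 hy.2).le
  have key : ∀ (σ : ℝ → ℝ) (r : ℝ → ℝ) (b : ℝ), (∀ y, HasDerivAt (fun y => b * (1 - Real.cos y) + σ y)
      (b * Real.sin y - r y * Real.sin y) y) →
      ((∀ y, b ≤ r y) → b * (1 - Real.cos x) + σ x ≤ σ 0) ∧
      ((∀ y, r y ≤ b) → σ 0 ≤ b * (1 - Real.cos x) + σ x) := by
    intro σ r b hd
    have e0 : b * (1 - Real.cos 0) + σ 0 = σ 0 := by simp
    have hcont : ContinuousOn (fun y => b * (1 - Real.cos y) + σ y) (Icc 0 Real.pi) :=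
      fun y _ => (hd y).continuousAt.continuousWithinAt
    have hdiff : DifferentiableOn ℝ (fun y => b * (1 - Real.cos y) + σ y)
        (interior (Icc 0 Real.pi)) := fun y _ => (hd y).differentiableAt.differentiableWithinAt
    constructor
    · intro hb
      have hanti := antitoneOn_of_deriv_nonpos (convex_Icc (0 : ℝ) Real.pi) hcont hdiff
        (fun y hy => by
          rw [(hd y).deriv]
          have := mul_le_mul_of_nonneg_right (hb y) (hsin y hy)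
          (clear * - this; linarith))
      have h3 := hanti (left_mem_Icc.2 Real.pi_pos.le) ⟨hx0, hx⟩ hx0
      simp only [e0] at h3
      exact h3
    · intro hb
      have hmono := monotoneOn_of_deriv_nonneg (convex_Icc (0 : ℝ) Real.pi) hcont hdiff
        (fun y hy => by
          rw [(hd y).deriv]
          have := mul_le_mul_of_nonneg_right (hb y) (hsin y hy)
          linarith only [this])
      have h3 := hmono (left_mem_Icc.2 Real.pi_pos.le) ⟨hx0, hx⟩ hx0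
      simp only [e0] at h3
      exact h3
  have a1 := (key (fun y => K h φ (φ + y)) (fun y => rad h (φ + y)) c (ap_mono h1 h2 φ c).1).1
    (fun y => hc _)
  have a2 := (key (fun y => K h φ (φ + y)) (fun y => rad h (φ + y)) C (ap_mono h1 h2 φ C).1).2
    (fun y => hC _)
  have a3 := (key (fun y => K h φ (φ + -y)) (fun y => rad h (φ + -y)) c (ap_mono h1 h2 φ c).2).1
    (fun y => hc _)
  have a4 := (key (fun y => K h φ (φ + -y)) (fun y => rad h (φ + -y)) C (ap_mono h1 h2 φ C).2).2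
    (fun y => hC _)
  simp only [add_zero, neg_zero, hK0] at a1 a2 a3 a4
  rw [← sub_eq_add_neg] at a3 a4
  refine ⟨⟨?_, ?_⟩, ?_, ?_⟩ <;> linarith only [a1, a2, a3, a4]

/-- comparison of consecutive half gaps -/
theorem ap_compare {h : ℝ → ℝ} (h1 : ∀ x, HasDerivAt h (deriv h x) x)
    (h2 : ∀ x, HasDerivAt (deriv h) (deriv (deriv h) x) x) {M : ℝ} (hM : 1 ≤ M)
    (hc : ∀ x, 1 / (2 * M ^ 3) ≤ rad h x) (hC : ∀ x, rad h x ≤ 2 * M ^ 3) {φ d d' : ℝ}
    (hd0 : 0 < d) (hd : d ≤ Real.pi) (hd0' : 0 < d') (hd' : d' ≤ Real.pi)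
    (he : K h φ (φ - d) = K h φ (φ + d')) : d' ≤ 4 * M ^ 3 * d ∧ d ≤ 4 * M ^ 3 * d' := by
  have hM3 : 0 < M ^ 3 := by (clear * - hM; positivity)
  have hpi := Real.pi_pos
  have hpi2 : Real.pi ^ 2 ≤ 16 := by nlinarith only [hd0, hd, Real.pi_le_four]
  -- general comparison
  have key : ∀ a b : ℝ, 0 < a → a ≤ Real.pi → 0 < b → b ≤ Real.pi →
      1 / (2 * M ^ 3) * (1 - Real.cos a) ≤ 2 * M ^ 3 * (1 - Real.cos b) → a ≤ 4 * M ^ 3 * b := by
    intro a b ha ha' hb hb' hab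
    have c1 : Real.cos a ≤ 1 - 2 / Real.pi ^ 2 * a ^ 2 :=
      Real.cos_le_one_sub_mul_cos_sq (by rw [abs_of_pos ha]; exact ha')
    have c2 : 1 - b ^ 2 / 2 ≤ Real.cos b := Real.one_sub_sq_div_two_le_cos
    have c3 : 1 / (2 * M ^ 3) * (2 / Real.pi ^ 2 * a ^ 2) ≤ 2 * M ^ 3 * (b ^ 2 / 2) := by
      refine le_trans (mul_le_mul_of_nonneg_left ?_ (by positivity))
        (hab.trans (mul_le_mul_of_nonneg_left ?_ (by positivity)))
      · linarith only [c1]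
      · linarith only [c2]
    have c4 : a ^ 2 ≤ M ^ 3 * M ^ 3 * Real.pi ^ 2 * b ^ 2 := by
      have e : 1 / (2 * M ^ 3) * (2 / Real.pi ^ 2 * a ^ 2) = a ^ 2 / (M ^ 3 * Real.pi ^ 2) := by
        (clear * - ha hM; field_simp)
      rw [e, div_le_iff₀ (by positivity)] at c3
      linarith only [c3]
    have c5 : a ^ 2 ≤ (4 * M ^ 3 * b) ^ 2 := by
      refine c4.trans ?_
      have e : (4 * M ^ 3 * b) ^ 2 = M ^ 3 * M ^ 3 * 16 * b ^ 2 := by ring
      rw [e]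
      (clear * - hpi2 hM hb; gcongr)
    exact le_of_sq_le_sq c5 (by positivity)
  have p1 := ap_crude h1 h2 hc hC φ hd0.le hd
  have p2 := ap_crude h1 h2 hc hC φ hd0'.le hd'
  constructor
  · exact key d' d hd0' hd' hd0 hd (by linarith only [he, p1, p2])
  · exact key d d' hd0 hd hd0' hd' (by linarith only [he, p1, p2])

section fine

variable {M β P : ℝ} (T : CTab M β P)

/-- lower bound for the slope of the functional -/
theorem ap_slope (φ : ℝ) {a b : ℝ} (ha : 0 < a) (hab : a ≤ b) (hb : b ≤ 1) :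
    a / (2 * M ^ 3) * (b - a) ≤ K (apg T) φ (φ + a) - K (apg T) φ (φ + b) := by
  have hM1 := T.M1
  have hM3 : 0 < M ^ 3 := by positivity
  have hd : ∀ x, HasDerivAt (fun x => K (apg T) φ (φ + x) + a / (2 * M ^ 3) * x)
      (-(rad (apg T) (φ + x) * Real.sin x) + a / (2 * M ^ 3)) x := by
    intro x
    have h1 := (ap_K (fun x => by rw [apg_deriv]; exact apg_deriv1 T x)
      (fun x => by rw [(apg_deriv2 T x).deriv]; exact apg_deriv2 T x) φ x).add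
      ((hasDerivAt_id x).const_mul (a / (2 * M ^ 3)))
    refine h1.congr_deriv ?_
    ring
  have hanti := antitoneOn_of_deriv_nonpos (convex_Icc a 1)
    (fun x _ => (hd x).continuousAt.continuousWithinAt)
    (fun x _ => (hd x).differentiableAt.differentiableWithinAt)
    (fun x hx => by
      rw [interior_Icc] at hx
      rw [(hd x).deriv, ap_rad]
      have h1 : x / 2 ≤ Real.sin x := by
        have h2 := Real.mul_le_sin (ha.trans hx.1).le (by linarith only [Real.two_le_pi, hx.2])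
        have h3 : x / 2 ≤ 2 / Real.pi * x := by
          rw [div_mul_eq_mul_div, div_le_div_iff₀ (by norm_num) Real.pi_pos]
          nlinarith only [ha, Real.pi_le_four, hx.1]
        linarith only [h2, h3]
      have h4 : 1 / M ^ 3 ≤ apl T (φ + x) ^ 3 := by
        rw [div_le_iff₀ hM3, ← mul_pow, mul_comm]
        exact one_le_pow₀ (apl_ge T _)
      have h5 : 1 / M ^ 3 * (a / 2) ≤ apl T (φ + x) ^ 3 * Real.sin x := by
        refine mul_le_mul h4 (le_trans ?_ h1) (by positivity) (pow_pos (apl_pos T _) 3).le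
        linarith only [hx.1]
      have e : a / (2 * M ^ 3) = 1 / M ^ 3 * (a / 2) := by
        (clear * - hM1 ha; field_simp)
      rw [e]
      linarith only [h5])
  have h1 := hanti (left_mem_Icc.2 (hab.trans hb)) ⟨hab, hb⟩ hab
  simp only at h1
  rw [mul_sub]
  linarith only [h1]

variable {T}

/-- the difference to the complexified table -/
theorem ap_df {h : ℝ → ℝ} (h1 : ∀ x, HasDerivAt h (deriv h x) x)
    (h2 : ∀ x, HasDerivAt (deriv h) (deriv (deriv h) x) x) :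
    (∀ x, HasDerivAt (df T h) (deriv h x - deriv (apg T) x) x) ∧
    (∀ x, HasDerivAt (deriv (df T h)) (deriv (deriv h) x - deriv (deriv (apg T)) x) x) ∧
    (∀ x, rad h x = apl T x ^ 3 + rad (df T h) x) ∧
    ∀ φ ψ, K h φ ψ = K (apg T) φ ψ + K (df T h) φ ψ := by
  have g1 : ∀ x, HasDerivAt (apg T) (deriv (apg T) x) x := fun x => by
    rw [apg_deriv]; exact apg_deriv1 T x
  have g2 : ∀ x, HasDerivAt (deriv (apg T)) (deriv (deriv (apg T)) x) x := fun x => by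
    rw [(apg_deriv2 T x).deriv]; exact apg_deriv2 T x
  have a1 : ∀ x, HasDerivAt (df T h) (deriv h x - deriv (apg T) x) x := fun x =>
    (h1 x).sub (g1 x)
  have e1 : deriv (df T h) = fun x => deriv h x - deriv (apg T) x := funext fun x => (a1 x).deriv
  have a2 : ∀ x, HasDerivAt (deriv (df T h)) (deriv (deriv h) x - deriv (deriv (apg T)) x) x := by
    intro x
    rw [e1]
    exact (h2 x).sub (g2 x)
  refine ⟨a1, a2, ?_, ?_⟩
  · intro x
    rw [← ap_rad]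
    unfold rad
    rw [(a2 x).deriv]
    simp only [apg, df]
    ring
  · intro φ ψ
    unfold K
    rw [e1]
    simp only [df, apg]
    ring

theorem ap_rad_bounds {h : ℝ → ℝ} (h1 : ∀ x, HasDerivAt h (deriv h x) x)
    (h2 : ∀ x, HasDerivAt (deriv h) (deriv (deriv h) x) x) {E : ℝ} (hcl : Close T h E)
    (hE : 4 * M ^ 3 * E ≤ 1) :
    (∀ x, 1 / (2 * M ^ 3) ≤ rad h x) ∧ ∀ x, rad h x ≤ 2 * M ^ 3 := by
  have hM1 := T.M1
  have hM3 : 0 < M ^ 3 := by positivity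
  have hM3' : 1 ≤ M ^ 3 := one_le_pow₀ hM1
  obtain ⟨-, -, hr, -⟩ := ap_df (T := T) h1 h2
  have he : ∀ x, |rad (df T h) x| ≤ 2 * E := by
    intro x
    obtain ⟨c1, -, c3⟩ := hcl x
    unfold rad
    refine (abs_add_le _ _).trans ?_
    linarith
  have h2E : 2 * E ≤ 1 / (2 * M ^ 3) := by
    rw [le_div_iff₀ (by positivity)]
    linarith only [hE]
  have hl : ∀ x, 1 / M ^ 3 ≤ apl T x ^ 3 := by
    intro x
    rw [div_le_iff₀ hM3, ← mul_pow, mul_comm]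
    exact one_le_pow₀ (apl_ge T x)
  have hu : ∀ x, apl T x ^ 3 ≤ M ^ 3 := by
    intro x
    have := apl_le T x
    have := (apl_pos T x).le
    (clear h h1 h2 E hcl hE hM1 hM3 hM3' hr he h2E hl; gcongr)
  have e : 1 / M ^ 3 = 1 / (2 * M ^ 3) + 1 / (2 * M ^ 3) := by
    field_simp
    norm_num
  have h3 : 1 / (2 * M ^ 3) ≤ 1 := by
    rw [div_le_one (by positivity)]
    linarith only [hM3']
  refine ⟨fun x => ?_, fun x => ?_⟩
  · rw [hr]
    have a := hl x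
    have b := (abs_le.1 (he x)).1
    linarith only [h2E, e, a, b]
  · rw [hr]
    have a := hu x
    have b := (abs_le.1 (he x)).2
    linarith only [hM3', h2E, h3, a, b]

/-- the refined step -/
theorem ap_fine {h : ℝ → ℝ} (h1 : ∀ x, HasDerivAt h (deriv h x) x)
    (h2 : ∀ x, HasDerivAt (deriv h) (deriv (deriv h) x) x) {E : ℝ} (hcl : Close T h E)
    {φ d d' : ℝ} (hA : Ad T φ d) (hd0 : 0 < d) (hd0' : 0 < d') (hdp : d ≤ Real.pi)
    (hdp' : d' ≤ Real.pi) (hc1 : d' ≤ 4 * M ^ 3 * d) (hc2 : d ≤ 4 * M ^ 3 * d')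
    (hs : 4 * M ^ 3 * d ≤ 1) (he : K h φ (φ - d) = K h φ (φ + d')) :
    |(nu T φ d).re| ≤ 1 / 4 ∧ nu T φ d = ((nu T φ d).re : ℂ) ∧
    |d' - d * (1 + (nu T φ d).re)| ≤ 136 * M ^ 12 * E * d := by
  have hM1 := T.M1
  have hM0 : 0 < M := by linarith only [hM1]
  have hM3' : 1 ≤ M ^ 3 := one_le_pow₀ hM1
  have hE0 : 0 ≤ E := le_trans (abs_nonneg _) (hcl 0).1
  obtain ⟨n1, n2⟩ := nu_spec hA
  have hreal : nu T φ d = ((nu T φ d).re : ℂ) := by
    have h3 := nu_conj hA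
    rw [conj_ofReal, conj_ofReal] at h3
    exact (Complex.conj_eq_iff_re.1 h3.symm).symm
  set u := (nu T φ d).re with hu
  have hu4 : |u| ≤ 1 / 4 := (abs_re_le_norm _).trans n1
  refine ⟨hu4, hreal, ?_⟩
  obtain ⟨hu1, hu2⟩ := abs_le.1 hu4
  obtain ⟨a1, a2, a3, a4⟩ := ap_df (T := T) h1 h2
  -- the functional of the difference
  have hb : ∀ x, 0 ≤ x → x ≤ Real.pi →
      |df T h φ - K (df T h) φ (φ + x)| ≤ E * x ^ 2 ∧
      |df T h φ - K (df T h) φ (φ - x)| ≤ E * x ^ 2 := by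
    intro x hx0 hx
    have hr : ∀ y, |rad (df T h) y| ≤ 2 * E := by
      intro y
      obtain ⟨c1, -, c3⟩ := hcl y
      unfold rad
      refine (abs_add_le _ _).trans ?_
      linarith only [c1, c3]
    obtain ⟨⟨p1, p2⟩, p3, p4⟩ := ap_crude (h := df T h) (fun y => (a1 y).differentiableAt.hasDerivAt)
      (fun y => (a2 y).differentiableAt.hasDerivAt) (c := -(2 * E)) (C := 2 * E)
      (fun y => (abs_le.1 (hr y)).1) (fun y => (abs_le.1 (hr y)).2) φ hx0 hx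
    have hcos : 1 - Real.cos x ≤ x ^ 2 / 2 := by linarith only [Real.one_sub_sq_div_two_le_cos (x := x)]
    have hcos2 : 2 * E * (1 - Real.cos x) ≤ E * x ^ 2 := by
      have := mul_le_mul_of_nonneg_left hcos (by (clear * - hE0; positivity) : 0 ≤ 2 * E)
      linarith only [this]
    constructor
    · rw [abs_le]
      constructor <;> linarith only [p1, hcos2, p2]
    · rw [abs_le]
      constructor <;> linarith only [p3, hcos2, p4]
  have b1 := (hb d hd0.le hdp).2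
  have b2 := (hb d' hd0'.le hdp').1
  -- the fixed point equation
  have hK : K (apg T) φ (φ + d * (1 + u)) = K (apg T) φ (φ - d) := by
    rw [hreal] at n2
    have e1 : (d : ℂ) * (1 + (u : ℂ)) = ((d * (1 + u) : ℝ) : ℂ) := by push_cast; ring
    have e2 : -(d : ℂ) = ((-d : ℝ) : ℂ) := by push_cast; ring
    rw [e1, e2, ap_lp, ap_lp, ← sub_eq_add_neg] at n2
    exact_mod_cast n2
  have hdiff : |K (apg T) φ (φ + d') - K (apg T) φ (φ + d * (1 + u))| ≤ E * (d ^ 2 + d' ^ 2) := by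
    rw [hK]
    have e1 := a4 φ (φ - d)
    have e2 := a4 φ (φ + d')
    have e3 : K (apg T) φ (φ + d') - K (apg T) φ (φ - d) =
        (df T h φ - K (df T h) φ (φ + d')) - (df T h φ - K (df T h) φ (φ - d)) := by
      linarith only [he, e1, e2]
    rw [e3]
    refine (abs_sub _ _).trans ?_
    linarith only [b1, b2]
  -- slopes
  set D := d * (1 + u) with hD
  have hD1 : 3 / 4 * d ≤ D := by rw [hD]; linarith only [mul_nonneg (le_of_lt (sub_pos.2 hd0)) (sub_nonneg.2 hu1)]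
  have hD2 : D ≤ 5 / 4 * d := by rw [hD]; linarith only [mul_nonneg (le_of_lt (sub_pos.2 hd0)) (sub_nonneg.2 hu2)]
  have hlow : ∀ x y : ℝ, 0 < x → x ≤ y → y ≤ 1 → d ≤ 4 * M ^ 3 * x →
      |K (apg T) φ (φ + x) - K (apg T) φ (φ + y)| ≤ E * (d ^ 2 + d' ^ 2) →
      y - x ≤ 136 * M ^ 12 * E * d := by
    intro x y hx hxy hy hxd hK2
    have s1 := ap_slope T φ hx hxy hy
    have s2 : d / (8 * M ^ 6) * (y - x) ≤ E * (d ^ 2 + d' ^ 2) := by
      refine le_trans ?_ (s1.trans ((le_abs_self _).trans hK2))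
      refine mul_le_mul_of_nonneg_right ?_ (sub_nonneg.2 hxy)
      rw [div_le_div_iff₀ (by (clear * - hM1; positivity)) (by positivity)]
      have : M ^ 6 = M ^ 3 * M ^ 3 := by ring
      rw [this]
      nlinarith only [hd0, hd0', hxd, hc1]
    have s3 : E * (d ^ 2 + d' ^ 2) ≤ E * (17 * M ^ 6 * d ^ 2) := by
      refine mul_le_mul_of_nonneg_left ?_ hE0
      have t1 : d' ^ 2 ≤ (4 * M ^ 3 * d) ^ 2 := pow_le_pow_left₀ hd0'.le hc1 2
      have t2 : (4 * M ^ 3 * d) ^ 2 = 16 * M ^ 6 * d ^ 2 := by ring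
      have t3 : 1 * d ^ 2 ≤ M ^ 6 * d ^ 2 :=
        mul_le_mul_of_nonneg_right (one_le_pow₀ hM1) (by positivity)
      linarith only [t1, t3]
    have s4 : d / (8 * M ^ 6) * (y - x) ≤ d / (8 * M ^ 6) * (136 * M ^ 12 * E * d) := by
      refine (s2.trans s3).trans (le_of_eq ?_)
      field_simp
      ring
    exact le_of_mul_le_mul_left s4 (by (clear * - hd0 hM1; positivity))
  have hD0 : 0 < D := by linarith only [hd0, hD1]
  rcases le_total D d' with hle | hle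
  · rw [abs_of_nonneg (sub_nonneg.2 hle)]
    refine hlow D d' hD0 hle (hc1.trans hs) ?_ (by rwa [abs_sub_comm])
    nlinarith only [hM3', hd0, hd0', hu1, hc1]
  · rw [abs_sub_comm, abs_of_nonneg (sub_nonneg.2 hle)]
    refine hlow d' D hd0' hle ?_ hc2 hdiff
    nlinarith only [hs, hD2, hM3']

end fine

/-- the adiabatic invariant over one step -/
theorem ap_wstep (M0 : ℝ) (hM0 : 1 ≤ M0) : ∃ C : ℝ, 1 ≤ C ∧ ∀ {M β P : ℝ} (T : CTab M β P),
    M ≤ M0 → ∀ {h : ℝ → ℝ}, (∀ x, HasDerivAt h (deriv h x) x) →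
    (∀ x, HasDerivAt (deriv h) (deriv (deriv h) x) x) → ∀ {E : ℝ}, Close T h E →
    ∀ {φ d d' : ℝ}, Ad T φ d → 0 < d → 0 < d' → d ≤ Real.pi → d' ≤ Real.pi →
    d' ≤ 4 * M ^ 3 * d → d ≤ 4 * M ^ 3 * d' → 4 * M ^ 3 * d ≤ 1 → C * d ≤ 1 →
    K h φ (φ - d) = K h φ (φ + d') →
    |d' * apl T (φ + d') - d * apl T (φ - d)| ≤ C * (d ^ 4 + E * d) := by
  obtain ⟨C3, hC3, hw⟩ := w_step M0 hM0
  refine ⟨C3 + 272 * M0 ^ 13, ?_, ?_⟩
  · have : 0 ≤ 272 * M0 ^ 13 := by positivity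
    linarith only [hC3, this]
  intro M β P T hMM h h1 h2 E hcl φ d d' hA hd0 hd0' hdp hdp' hc1 hc2 hs hsC he
  have hM1 := T.M1
  have hM0' : 0 < M := by linarith only [hM1]
  have hE0 : 0 ≤ E := le_trans (abs_nonneg _) (hcl 0).1
  obtain ⟨f1, f2, f3⟩ := ap_fine h1 h2 hcl hA hd0 hd0' hdp hdp' hc1 hc2 hs he
  have hnd : ‖(d : ℂ)‖ = d := by rw [norm_real, Real.norm_eq_abs, abs_of_pos hd0]
  have w1 := hw T hMM φ d hA (by
    rw [hnd]
    have : 0 ≤ 272 * M0 ^ 13 * d := by positivity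
    linarith only [hsC, this])
  rw [hnd, f2] at w1
  set u := (nu T φ d).re with hu
  set D := d * (1 + u) with hD
  have e1 : (d : ℂ) * (1 + (u : ℂ)) = (D : ℂ) := by rw [hD]; push_cast; ring
  rw [e1, ← ofReal_add, ← ofReal_sub, ap_lam, ap_lam, ← ofReal_mul, ← ofReal_mul, ← ofReal_sub,
    norm_real, Real.norm_eq_abs] at w1
  have hD2 : |D| ≤ 2 * d := by
    rw [hD, abs_mul, abs_of_pos hd0]
    have : |1 + u| ≤ 2 := by
      have := abs_le.1 f1
      rw [abs_le]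
      constructor <;> linarith only [this]
    linarith only [mul_nonneg (le_of_lt (sub_pos.2 hd0)) (sub_nonneg.2 this)]
  have hd1 : 2 * d ≤ 1 := by
    have : (1 : ℝ) ≤ M ^ 3 := one_le_pow₀ hM1
    nlinarith only [hs, this]
  have w2 : |d' * apl T (φ + d') - D * apl T (φ + D)| ≤ 272 * M0 ^ 13 * (E * d) := by
    have e2 : d' * apl T (φ + d') - D * apl T (φ + D) =
        (d' - D) * apl T (φ + d') + D * (apl T (φ + d') - apl T (φ + D)) := by ring
    rw [e2]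
    have l1 : |apl T (φ + d') - apl T (φ + D)| ≤ M * |d' - D| := by
      have := apl_lip T (φ + d') (φ + D)
      rwa [add_sub_add_left_eq_sub] at this
    have l2 : |apl T (φ + d')| ≤ M := by
      rw [abs_of_pos (apl_pos T _)]
      exact apl_le T _
    calc |(d' - D) * apl T (φ + d') + D * (apl T (φ + d') - apl T (φ + D))|
        ≤ |d' - D| * |apl T (φ + d')| + |D| * |apl T (φ + d') - apl T (φ + D)| := by
          refine (abs_add_le _ _).trans ?_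
          rw [abs_mul, abs_mul]
      _ ≤ |d' - D| * M + 1 * (M * |d' - D|) := by
          gcongr
          linarith only [hD2, hd1]
      _ = 2 * M * |d' - D| := by ring
      _ ≤ 2 * M * (136 * M ^ 12 * E * d) := by (clear * - f3 hM1; gcongr)
      _ = 272 * M ^ 13 * (E * d) := by ring
      _ ≤ 272 * M0 ^ 13 * (E * d) := by (clear * - hM1 hMM hE0 hd0; gcongr)
  have e3 : d' * apl T (φ + d') - d * apl T (φ - d) =
      (d' * apl T (φ + d') - D * apl T (φ + D)) + (D * apl T (φ + D) - d * apl T (φ - d)) := by ring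
  rw [e3]
  refine (abs_add_le _ _).trans ((add_le_add w2 w1).trans ?_)
  have g1 : 0 ≤ C3 * (E * d) := by (clear * - hC3 hE0 hd0; positivity)
  have g2 : 0 ≤ 272 * M0 ^ 13 * d ^ 4 := by positivity
  linarith only [g1, g2]

/-- the induction along the orbit -/
theorem ap_seq {n q : ℕ} (hq : q = n + 1) {d w : ℕ → ℝ} {A D E M s : ℝ} (hM : 1 ≤ M)
    (hA : 1 ≤ A) (hD : 0 ≤ D) (hE : 0 ≤ E) (hd : ∀ j ≤ n, 0 < d j)
    (hdw : ∀ j ≤ n, d j ≤ M * w j) (hwd : ∀ j ≤ n, w j ≤ M * d j)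
    (hcmp : ∀ k, k + 1 ≤ n → d k ≤ A * d (k + 1))
    (hstep : ∀ k, k + 1 ≤ n → d k ≤ s → |w (k + 1) - w k| ≤ D * (d k ^ 4 + E * d k))
    (hsum : ∑ j ∈ Finset.range (n + 1), d j = Real.pi)
    (hs : A * (7 * M ^ 2 / q) ≤ s)
    (hsm : q * (D * ((A * (7 * M ^ 2 / q)) ^ 4 + E * (A * (7 * M ^ 2 / q)))) ≤ 3 * M / q) :
    (∀ j ≤ n, d j ≤ 7 * M ^ 2 / q) ∧ ∀ i ≤ n, ∀ j ≤ n,
      |w i - w j| ≤ 2 * (q * (D * ((A * (7 * M ^ 2 / q)) ^ 4 + E * (A * (7 * M ^ 2 / q))))) := by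
  have hq0 : (0 : ℝ) < q := by rw [hq]; positivity
  set R := 7 * M ^ 2 / q with hR
  set Δ := D * ((A * R) ^ 4 + E * (A * R)) with hΔ
  have hR0 : 0 ≤ R := by (clear * - hM hq0; positivity)
  have hΔ0 : 0 ≤ Δ := by (clear * - hD hA hM hq0 hE; positivity)
  have hRA : R ≤ A * R := by linarith only [mul_nonneg (sub_nonneg.2 hA) (sub_nonneg.2 hR0)]
  obtain ⟨m, hm, hdm⟩ : ∃ m ≤ n, d m ≤ Real.pi / q := by
    by_contra hcon
    push Not at hcon
    have h1 : ∑ j ∈ Finset.range (n + 1), (Real.pi / q) < ∑ j ∈ Finset.range (n + 1), d j :=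
      Finset.sum_lt_sum_of_nonempty ⟨0, by simp only [Finset.mem_range, lt_add_iff_pos_left, Order.lt_add_one_iff, zero_le]⟩ fun j hj => hcon j (by
        have := Finset.mem_range.1 hj; omega)
    rw [hsum, Finset.sum_const, Finset.card_range, nsmul_eq_mul, ← hq] at h1
    have h2 : (q : ℝ) * (Real.pi / q) = Real.pi := by (clear * - hq0; field_simp)
    rw [h2] at h1
    exact lt_irrefl _ h1
  have hwm : w m ≤ 4 * M / q := by
    refine (hwd m hm).trans ?_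
    calc M * d m ≤ M * (Real.pi / q) := by (clear * - hdm hM; gcongr)
      _ ≤ M * (4 / q) := by gcongr; exact Real.pi_le_four
      _ = 4 * M / q := by ring
  -- bound of the gap from the bound of `w`
  have hbd : ∀ j ≤ n, |w j - w m| ≤ q * Δ → d j ≤ R := by
    intro j hj h1
    have h2 : w j ≤ 7 * M / q := by
      have h3 := (abs_le.1 h1).2
      have h4 : 7 * M / q = 4 * M / q + 3 * M / q := by ring
      linarith only [h4, h3, hwm, hsm]
    calc d j ≤ M * w j := hdw j hj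
      _ ≤ M * (7 * M / q) := by (clear * - h2 hM; gcongr)
      _ = R := by rw [hR]; ring
  have hle : ∀ t : ℕ, t ≤ n → (t : ℝ) * Δ ≤ q * Δ := by
    intro t ht
    refine mul_le_mul_of_nonneg_right ?_ hΔ0
    rw [hq]
    exact_mod_cast (show t ≤ n + 1 by omega)
  have hfw : ∀ t : ℕ, m + t ≤ n → |w (m + t) - w m| ≤ t * Δ := by
    intro t
    induction t with
    | zero => intro _; simp
    | succ t ih =>
      intro ht
      have h1 := ih (by omega)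
      have h2 : d (m + t) ≤ R := hbd _ (by omega) (h1.trans (hle t (by omega)))
      have h3 := hstep (m + t) (by omega) (h2.trans (hRA.trans hs))
      have h4 : D * (d (m + t) ^ 4 + E * d (m + t)) ≤ Δ := by
        have h0 := (hd (m + t) (by omega)).le
        rw [hΔ]
        have h5 := h2.trans hRA
        (clear * - h0 h5 hE hD; gcongr)
      have h6 : w (m + (t + 1)) - w m = (w (m + t + 1) - w (m + t)) + (w (m + t) - w m) := by
        rw [← add_assoc]; ring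
      rw [h6]
      refine (abs_add_le _ _).trans ?_
      push_cast
      linarith only [h4, h3, h1]
  have hbw : ∀ t : ℕ, t ≤ m → |w (m - t) - w m| ≤ t * Δ := by
    intro t
    induction t with
    | zero => intro _; simp only [tsub_zero, sub_self, abs_zero, CharP.cast_eq_zero, zero_mul, Std.le_refl]
    | succ t ih =>
      intro ht
      have h1 := ih (by omega)
      have h2 : d (m - t) ≤ R := hbd _ (by omega) (h1.trans (hle t (by omega)))
      have e0 : m - (t + 1) + 1 = m - t := by (clear * - ht; omega)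
      have h7 := hcmp (m - (t + 1)) (by omega)
      rw [e0] at h7
      have h8 : d (m - (t + 1)) ≤ A * R := h7.trans (by (clear * - h2 hA; gcongr))
      have h3 := hstep (m - (t + 1)) (by omega) (h8.trans hs)
      rw [e0] at h3
      have h4 : D * (d (m - (t + 1)) ^ 4 + E * d (m - (t + 1))) ≤ Δ := by
        have h0 := (hd (m - (t + 1)) (by omega)).le
        rw [hΔ]
        (clear * - h0 h8 hE hD; gcongr)
      have h6 : w (m - (t + 1)) - w m =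
          -(w (m - t) - w (m - (t + 1))) + (w (m - t) - w m) := by ring
      rw [h6]
      refine (abs_add_le _ _).trans ?_
      rw [abs_neg]
      push_cast
      linarith only [h1, h3, h4]
  have hall : ∀ j ≤ n, |w j - w m| ≤ q * Δ := by
    intro j hj
    rcases le_total m j with h1 | h1
    · obtain ⟨t, rfl⟩ := Nat.exists_eq_add_of_le h1
      exact (hfw t hj).trans (hle t (by omega))
    · have h2 := hbw (m - j) (by omega)
      rw [show m - (m - j) = j by omega] at h2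
      exact h2.trans (hle _ (by omega))
  refine ⟨fun j hj => hbd j hj (hall j hj), fun i hi j hj => ?_⟩
  have h1 := hall i hi
  have h2 := hall j hj
  have h3 : w i - w j = (w i - w m) - (w j - w m) := by ring
  rw [h3]
  refine (abs_sub _ _).trans ?_
  linarith only [h2, h1]

theorem apriori (M0 : ℝ) (hM0 : 1 ≤ M0) : ∃ C : ℝ, 1 ≤ C ∧
    ∀ (M β P : ℝ) (T : CTab M β P), M ≤ M0 → ∀ (h : ℝ → ℝ), ContDiff ℝ ∞ h →
      (∀ x, h (x + 2 * Real.pi) = h x) → (∀ x, 0 < rad h x) → ∀ (E : ℝ) (n q : ℕ), q = n + 1 →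
      Close T h E → C * (P / q) ≤ β → C * q * E ≤ 1 → ∀ Z : ℕ → ℝ,
      (∀ j ≤ n, Z j < Z (j + 1)) → Z (n + 1) = Z 0 + 2 * Real.pi →
      (∀ k, k + 1 ≤ n → K h (Z (k + 1)) (mid Z k) = K h (Z (k + 1)) (mid Z (k + 1))) →
      (∀ j ≤ n, |(Z (j + 1) - Z j) * (T.lam (Z j)).re - P / q| ≤ C * ((P / q) ^ 2 + E)) ∧
      (∀ k, k + 1 ≤ n → Ad T (Z (k + 1)) (((Z (k + 1) - Z k) / 2 : ℝ) : ℂ) ∧
        |(Z (k + 2) - Z (k + 1)) / 2 - ((Z (k + 1) - Z k) / 2)
          * (1 + (nu T (Z (k + 1)) (((Z (k + 1) - Z k) / 2 : ℝ) : ℂ)).re)|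
          ≤ C * E * (P / q)) := by
  obtain ⟨C4, hC4, hws⟩ := ap_wstep M0 hM0
  set A := 4 * M0 ^ 3 with hA
  set R0 := 7 * M0 ^ 2 with hR0
  set κ := 400 * M0 ^ 6 + 4 * M0 ^ 3 + C4 + 3 * M0 with hκ
  have hA1 : 1 ≤ A := by
    have : 1 ≤ M0 ^ 3 := one_le_pow₀ hM0
    rw [hA]; linarith only [this]
  have hA0 : 0 < A := by linarith only [hA1]
  have hR0p : 0 < R0 := by positivity
  have hκp : 0 < κ := by positivity
  have hpi := Real.pi_pos
  have hM00 : 0 < M0 := by linarith only [hM0]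
  have hC40 : 0 < C4 := by linarith only [hC4]
  set C := A * R0 * κ * M0 + 4 * M0 ^ 3 + C4 * A ^ 4 * R0 ^ 4 * M0 + C4 * A * R0
    + (4 * C4 * A ^ 4 * R0 ^ 4 + 2 * M0 * R0 ^ 3 + 2 * M0 * R0 ^ 2) * M0 ^ 2
    + 4 * C4 * A * R0 + 136 * M0 ^ 12 * R0 * M0 with hC
  have p1 : 0 ≤ A * R0 * κ * M0 := by positivity
  have p2 : 0 ≤ 4 * M0 ^ 3 := by positivity
  have p3 : 0 ≤ C4 * A ^ 4 * R0 ^ 4 * M0 := by positivity
  have p4 : 0 ≤ C4 * A * R0 := by positivity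
  have p5 : 0 ≤ (4 * C4 * A ^ 4 * R0 ^ 4 + 2 * M0 * R0 ^ 3 + 2 * M0 * R0 ^ 2) * M0 ^ 2 := by
    positivity
  have p6 : 0 ≤ 136 * M0 ^ 12 * R0 * M0 := by positivity
  have hC1 : 1 ≤ C := by
    have : 1 ≤ M0 ^ 3 := one_le_pow₀ hM0
    linarith only [p1, p3, p4, p5, p6, this]
  have hC0 : 0 < C := by linarith only [hC1]
  clear_value C κ R0 A
  refine ⟨C, hC1, ?_⟩
  intro M β P T hMM h hs _ _ E n q hq hcl hCom hCE Z hZ hZn hcrit
  have hM1 := T.M1
  have hM0' : 0 < M := by linarith only [hM1]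
  have hP := T.P0
  have hβ1 := T.β1
  have hβ0 := T.β0
  have hPb := (period_bounds T).1
  have hE0 : 0 ≤ E := le_trans (abs_nonneg _) (hcl 0).1
  have h1 : ∀ x, HasDerivAt h (deriv h x) x := Sm.An.hasDerivAt hs
  have h2 : ∀ x, HasDerivAt (deriv h) (deriv (deriv h) x) x := Sm.An.hasDerivAt (Sm.An.deriv hs)
  have hq0 : (0 : ℝ) < q := by rw [hq]; (clear * -; positivity)
  have hq1 : (1 : ℝ) ≤ q := by rw [hq]; push_cast; linarith only []
  set r : ℝ := 1 / q with hr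
  have hr0 : 0 < r := by (clear * - hq0; positivity)
  have hqr : q * r = 1 := by rw [hr]; (clear * - hq0; field_simp)
  have hr1 : r ≤ 1 := by
    calc r = 1 * r := (one_mul r).symm
      _ ≤ q * r := mul_le_mul_of_nonneg_right hq1 hr0.le
      _ = 1 := hqr
  set om := P / q with hom
  have homr : om = P * r := by rw [hom, hr]; ring
  have hom0 : 0 < om := by (clear * - hP hq0; positivity)
  have hom1 : om ≤ 1 := by
    calc om = 1 * om := (one_mul om).symm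
      _ ≤ C * om := mul_le_mul_of_nonneg_right hC1 hom0.le
      _ ≤ 1 := hCom.trans hβ1
  have hrom : r ≤ M0 * om := by
    rw [homr]
    have a1 : 1 ≤ M0 * P := by
      have : M * P ≤ M0 * P := by (clear * - hMM hP; gcongr)
      linarith only [hPb, this, Real.two_le_pi]
    calc r = 1 * r := (one_mul r).symm
      _ ≤ (M0 * P) * r := mul_le_mul_of_nonneg_right a1 hr0.le
      _ = M0 * (P * r) := by ring
  have hCom1 : C * om ≤ 1 := hCom.trans hβ1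
  clear_value om r
  have hM3E : 4 * M ^ 3 * E ≤ 1 := by
    have a1 : M ^ 3 ≤ M0 ^ 3 := by (clear * - hM1 hMM; gcongr)
    have a2 : 4 * M ^ 3 * E ≤ C * E := by
      refine mul_le_mul_of_nonneg_right ?_ hE0
      linarith only [hC, p1, p3, p4, p5, p6, a1]
    have a3 : C * E ≤ C * q * E := by
      have : C * 1 * E ≤ C * q * E := by (clear * - hq1 hC1 hE0; gcongr)
      linarith only [this]
    linarith only [hCE, a2, a3]
  obtain ⟨hrad1, hrad2⟩ := ap_rad_bounds (T := T) h1 h2 hcl hM3E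
  -- half gaps
  set d : ℕ → ℝ := fun j => (Z (j + 1) - Z j) / 2 with hd
  set w : ℕ → ℝ := fun j => d j * apl T (Z j + d j) with hw
  have hd0 : ∀ j ≤ n, 0 < d j := fun j hj => by
    have := hZ j hj
    simp only [hd]
    linarith only [this]
  have hsum : ∑ j ∈ Finset.range (n + 1), d j = Real.pi := by
    simp only [hd]
    rw [← Finset.sum_div, Finset.sum_range_sub, hZn]
    ring
  have hdpi : ∀ j ≤ n, d j ≤ Real.pi := fun j hj => by
    rw [← hsum]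
    exact Finset.single_le_sum (f := d) (fun i hi => (hd0 i (by
      have := Finset.mem_range.1 hi; (clear * - this; omega))).le) (Finset.mem_range.2 (by omega))
  have hZd : ∀ j, Z (j + 1) - d j = Z j + d j := fun j => by simp only [hd]; ring
  have heq : ∀ k, k + 1 ≤ n → K h (Z (k + 1)) (Z (k + 1) - d k) =
      K h (Z (k + 1)) (Z (k + 1) + d (k + 1)) := by
    intro k hk
    have e1 : Z (k + 1) - d k = mid Z k := by simp only [hd, mid]; ring
    have e2 : Z (k + 1) + d (k + 1) = mid Z (k + 1) := by simp only [hd, mid]; ring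
    rw [e1, e2]
    exact hcrit k hk
  have hcmp : ∀ k, k + 1 ≤ n → d (k + 1) ≤ 4 * M ^ 3 * d k ∧ d k ≤ 4 * M ^ 3 * d (k + 1) :=
    fun k hk => ap_compare h1 h2 hM1 hrad1 hrad2 (hd0 k (by omega)) (hdpi k (by omega))
      (hd0 (k + 1) hk) (hdpi (k + 1) hk) (heq k hk)
  have hMA : 4 * M ^ 3 ≤ A := by
    rw [hA]
    (clear * - hM1 hMM; gcongr)
  have hAd : ∀ k, k + 1 ≤ n → d k ≤ β / κ → Ad T (Z (k + 1)) (d k : ℂ) ∧
      4 * M ^ 3 * d k ≤ 1 ∧ C4 * d k ≤ 1 := by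
    intro k hk hds
    have hdk := hd0 k (by omega)
    have a1 : κ * d k ≤ β := by
      rw [le_div_iff₀ hκp] at hds
      linarith only [hds]
    have m1 : M ^ 6 ≤ M0 ^ 6 := by (clear * - hM1 hMM; gcongr)
    have m2 : M ^ 3 ≤ M0 ^ 3 := by (clear * - hM1 hMM; gcongr)
    have b1 : 400 * M ^ 6 * d k ≤ 400 * M0 ^ 6 * d k := by (clear * - m1 hdk; gcongr)
    have b2 : 4 * M ^ 3 * d k ≤ 4 * M0 ^ 3 * d k := by (clear * - m2 hdk; gcongr)
    have b3 : M * d k ≤ M0 * d k := by (clear * - hMM hdk; gcongr)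
    have c1 : 0 ≤ 400 * M0 ^ 6 * d k := by (clear * - hM0 hdk; positivity)
    have c2 : 0 ≤ 4 * M0 ^ 3 * d k := by (clear * - hM0 hdk; positivity)
    have c3 : 0 < M0 * d k := by (clear * - hM0 hdk; positivity)
    have c4 : 0 ≤ C4 * d k := by (clear * - hC4 hdk; positivity)
    have a2 : 400 * M0 ^ 6 * d k + 4 * M0 ^ 3 * d k + C4 * d k + 3 * (M0 * d k) ≤ β := by
      rw [hκ] at a1
      linarith only [a1]
    have hnd : ‖(d k : ℂ)‖ = d k := by rw [norm_real, Real.norm_eq_abs, abs_of_pos hdk]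
    refine ⟨⟨T.rD _, by exact_mod_cast hdk.ne', ?_, ?_⟩, by linarith only [a2, c4, c3, c1, b2, hβ1], by linarith only [hβ1, c1, c2, c3, a2]⟩
    · rw [ap_X_im, abs_zero, zero_add, hnd]
      linarith only [b3, c1, c2, c3, c4, a2]
    · rw [hnd]
      linarith only [a2, c4, c3, c2, b1, hβ1]
  have hstep : ∀ k, k + 1 ≤ n → d k ≤ β / κ → |w (k + 1) - w k| ≤ C4 * (d k ^ 4 + E * d k) := by
    intro k hk hds
    obtain ⟨c1, c2⟩ := hcmp k hk
    obtain ⟨a1, a2, a3⟩ := hAd k hk hds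
    have h3 := hws T hMM h1 h2 hcl a1 (hd0 k (by omega)) (hd0 (k + 1) hk) (hdpi k (by omega))
      (hdpi (k + 1) hk) c1 c2 a2 a3 (heq k hk)
    rw [hZd k] at h3
    exact h3
  -- the induction
  have hR : 7 * M0 ^ 2 / (q : ℝ) = R0 * r := by rw [hR0, hr]; ring
  have hsmall : A * (R0 * r) * κ ≤ β := by
    calc A * (R0 * r) * κ = (A * R0 * κ) * r := by ring
      _ ≤ (A * R0 * κ) * (M0 * om) := by (clear * - hrom hA1 hR0p hκp; gcongr)
      _ = (A * R0 * κ * M0) * om := by ring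
      _ ≤ C * om := by
          refine mul_le_mul_of_nonneg_right ?_ hom0.le
          linarith only [hA, hA1, hC, p3, p4, p5, p6]
      _ ≤ β := hCom
  have hkey : (q : ℝ) * (C4 * ((A * (R0 * r)) ^ 4 + E * (A * (R0 * r)))) =
      C4 * A ^ 4 * R0 ^ 4 * r ^ 3 + C4 * A * R0 * E := by
    have e : (q : ℝ) * (C4 * ((A * (R0 * r)) ^ 4 + E * (A * (R0 * r)))) =
      (C4 * A ^ 4 * R0 ^ 4 * r ^ 3 + C4 * A * R0 * E) * (q * r) := by ring
    rw [e, hqr, mul_one]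
  have hseq := ap_seq (n := n) (q := q) hq (d := d) (w := w) (A := A) (D := C4) (E := E)
    (M := M0) (s := β / κ) hM0 hA1 hC40.le hE0 hd0
    (fun j hj => by
      have a1 := apl_ge T (Z j + d j)
      have a2 := hd0 j hj
      have a3 := apl_pos T (Z j + d j)
      simp only [hw]
      calc d j = d j * 1 := (mul_one _).symm
        _ ≤ d j * (M0 * apl T (Z j + d j)) := by
            refine mul_le_mul_of_nonneg_left (a1.trans ?_) a2.le
            (clear * - hMM a3; gcongr)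
        _ = M0 * (d j * apl T (Z j + d j)) := by ring)
    (fun j hj => by
      have a2 := hd0 j hj
      simp only [hw]
      rw [mul_comm]
      exact mul_le_mul_of_nonneg_right ((apl_le T _).trans hMM) a2.le)
    (fun k hk => (hcmp k hk).2.trans
      (mul_le_mul_of_nonneg_right hMA (hd0 (k + 1) hk).le))
    hstep hsum
    (by
      rw [hR, le_div_iff₀ hκp]
      exact hsmall)
    (by
      rw [hR, hkey]
      have a1 : C4 * A ^ 4 * R0 ^ 4 * r ^ 3 ≤ r := by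
        have b1 : r ^ 3 ≤ r * (M0 * om) := by
          calc r ^ 3 = r * (r * r) := by ring
            _ ≤ r * (1 * (M0 * om)) := by (clear * - hr1 hrom hr0; gcongr)
            _ = r * (M0 * om) := by ring
        calc C4 * A ^ 4 * R0 ^ 4 * r ^ 3 ≤ C4 * A ^ 4 * R0 ^ 4 * (r * (M0 * om)) := by (clear * - b1 hC4 hA1 hR0p; gcongr)
          _ = (C4 * A ^ 4 * R0 ^ 4 * M0) * om * r := by ring
          _ ≤ C * om * r := by
              refine mul_le_mul_of_nonneg_right (mul_le_mul_of_nonneg_right ?_ hom0.le) hr0.le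
              linarith only [hA, hA1, hC, p1, p4, p5, p6]
          _ ≤ 1 * r := mul_le_mul_of_nonneg_right hCom1 hr0.le
          _ = r := one_mul r
      have a2 : C4 * A * R0 * E ≤ r := by
        have b1 : C4 * A * R0 * E * q ≤ 1 := by
          have b2 : C4 * A * R0 ≤ C := by linarith only [hA, hA1, hC, p1, p3, p4, p5, p6]
          calc C4 * A * R0 * E * q = (C4 * A * R0) * (q * E) := by ring
            _ ≤ C * (q * E) := mul_le_mul_of_nonneg_right b2 (by (clear * - hq0 hE0; positivity))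
            _ = C * q * E := by ring
            _ ≤ 1 := hCE
        calc C4 * A * R0 * E = (C4 * A * R0 * E * q) * r := by
              rw [mul_assoc (C4 * A * R0 * E), hqr, mul_one]
          _ ≤ 1 * r := mul_le_mul_of_nonneg_right b1 hr0.le
          _ = r := one_mul r
      have a3 : 3 * M0 / (q : ℝ) = M0 * r + 2 * (M0 * r) := by rw [hr]; ring
      have a4 : r ≤ M0 * r := by
        calc r = 1 * r := (one_mul r).symm
          _ ≤ M0 * r := mul_le_mul_of_nonneg_right hM0 hr0.le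
      rw [a3]
      linarith only [hr0, a1, a2, a4])
  rw [hR, hkey] at hseq
  obtain ⟨hdR, hww⟩ := hseq
  set δ := C4 * A ^ 4 * R0 ^ 4 * r ^ 3 + C4 * A * R0 * E with hδ
  have hRβ : R0 * r ≤ β / κ := by
    rw [le_div_iff₀ hκp]
    refine le_trans ?_ hsmall
    calc R0 * r * κ = 1 * (R0 * r * κ) := (one_mul _).symm
      _ ≤ A * (R0 * r * κ) := mul_le_mul_of_nonneg_right hA1 (by (clear * - hR0p hr0 hκp; positivity))
      _ = A * (R0 * r) * κ := by ring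
  have hr32 : r ^ 3 ≤ M0 ^ 2 * om ^ 2 := by
    have a1 : r ^ 3 ≤ r ^ 2 := pow_le_pow_of_le_one hr0.le hr1 (by norm_num)
    have a2 : r ^ 2 ≤ (M0 * om) ^ 2 := pow_le_pow_left₀ hr0.le hrom 2
    calc r ^ 3 ≤ (M0 * om) ^ 2 := a1.trans a2
      _ = M0 ^ 2 * om ^ 2 := by ring
  have hr22 : r ^ 2 ≤ M0 ^ 2 * om ^ 2 := by
    have a2 : r ^ 2 ≤ (M0 * om) ^ 2 := pow_le_pow_left₀ hr0.le hrom 2
    calc r ^ 2 ≤ (M0 * om) ^ 2 := a2
      _ = M0 ^ 2 * om ^ 2 := by ring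
  refine ⟨?_, ?_⟩
  · -- the sum over the orbit
    have hX : ∀ j ≤ n, |((T.X (Z (j + 1))).re - (T.X (Z j)).re) - 2 * w j| ≤
        2 * M0 * (R0 * r) ^ 3 := by
      intro j hj
      have hdj := hd0 j hj
      have hnd : ‖(d j : ℂ)‖ = d j := by rw [norm_real, Real.norm_eq_abs, abs_of_pos hdj]
      have hb : Bin T ((Z j + d j : ℝ) : ℂ) (d j) := by
        refine bin_of (T.rD _) ?_
        rw [ap_X_im, abs_zero, zero_add]
        have a1 := hdR j hj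
        have a2 : M * d j ≤ M0 * (R0 * r) := by (clear * - hMM a1 hdj hM0; gcongr)
        have a4 : M0 * (R0 * r) < κ * (R0 * r) := by
          have b1 : 0 < R0 * r := by (clear * - hR0p hr0; positivity)
          have b2 : M0 < κ := by
            have : 0 ≤ 400 * M0 ^ 6 := by positivity
            rw [hκ]; linarith only [hM0, hC4, hA, hA1, this]
          exact mul_lt_mul_of_pos_right b2 b1
        have a5 : R0 * r * κ ≤ β := (le_div_iff₀ hκp).1 hRβ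
        linarith only [a2, a4, a5]
      have h3 := X_mid hb (δ := (d j : ℂ)) (by rw [hnd])
      rw [hnd] at h3
      have e1 : ((Z j + d j : ℝ) : ℂ) + (d j : ℂ) = ((Z (j + 1) : ℝ) : ℂ) := by
        rw [← ofReal_add]
        congr 1
        simp only [hd]
        ring
      have e2 : ((Z j + d j : ℝ) : ℂ) - (d j : ℂ) = ((Z j : ℝ) : ℂ) := by
        rw [← ofReal_sub]
        congr 1
        ring
      rw [e1, e2, ap_lam, ← ofReal_mul] at h3
      have h4 := (abs_re_le_norm _).trans h3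
      have e3 : (T.X (Z (j + 1)) - T.X (Z j) - 2 * ((d j * apl T (Z j + d j) : ℝ) : ℂ)).re =
          ((T.X (Z (j + 1))).re - (T.X (Z j)).re) - 2 * w j := by
        simp [hw]
      rw [e3] at h4
      refine h4.trans ?_
      have := hdR j hj
      (clear * - hMM hdj this hM0; gcongr)
    have hS : |P - 2 * ∑ j ∈ Finset.range (n + 1), w j| ≤ q * (2 * M0 * (R0 * r) ^ 3) := by
      have e1 : P = ∑ j ∈ Finset.range (n + 1), ((T.X (Z (j + 1))).re - (T.X (Z j)).re) := by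
        rw [Finset.sum_range_sub (fun j => (T.X (Z j)).re), hZn]
        have h3 := congrArg Complex.re (T.pX (Z 0) (T.rD _))
        rw [add_re, ofReal_re] at h3
        have e2 : ((Z 0 + 2 * Real.pi : ℝ) : ℂ) = (Z 0 : ℂ) + 2 * Real.pi := by push_cast; ring
        rw [e2, h3]
        ring
      rw [e1, Finset.mul_sum, ← Finset.sum_sub_distrib]
      refine (Finset.abs_sum_le_sum_abs _ _).trans ?_
      calc ∑ j ∈ Finset.range (n + 1), |((T.X (Z (j + 1))).re - (T.X (Z j)).re) - 2 * w j|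
          ≤ ∑ _j ∈ Finset.range (n + 1), 2 * M0 * (R0 * r) ^ 3 :=
            Finset.sum_le_sum fun j hj => hX j (by have := Finset.mem_range.1 hj; (clear * - this; omega))
        _ = q * (2 * M0 * (R0 * r) ^ 3) := by
            rw [Finset.sum_const, Finset.card_range, nsmul_eq_mul, hq]
    intro i hi
    have hW : |q * w i - ∑ j ∈ Finset.range (n + 1), w j| ≤ q * (2 * δ) := by
      have e1 : q * w i - ∑ j ∈ Finset.range (n + 1), w j =
          ∑ j ∈ Finset.range (n + 1), (w i - w j) := by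
        rw [Finset.sum_sub_distrib, Finset.sum_const, Finset.card_range, nsmul_eq_mul, hq]
      rw [e1]
      refine (Finset.abs_sum_le_sum_abs _ _).trans ?_
      calc ∑ j ∈ Finset.range (n + 1), |w i - w j| ≤ ∑ _j ∈ Finset.range (n + 1), 2 * δ :=
            Finset.sum_le_sum fun j hj => hww i hi j (by have := Finset.mem_range.1 hj; omega)
        _ = q * (2 * δ) := by rw [Finset.sum_const, Finset.card_range, nsmul_eq_mul, hq]
    have hwi : |2 * w i - om| ≤ 4 * δ + 2 * M0 * R0 ^ 3 * r ^ 3 := by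
      have e1 : 2 * w i - om = r * (2 * (q * w i - ∑ j ∈ Finset.range (n + 1), w j)
          - (P - 2 * ∑ j ∈ Finset.range (n + 1), w j)) := by
        have : r * (2 * (q * w i - ∑ j ∈ Finset.range (n + 1), w j)
          - (P - 2 * ∑ j ∈ Finset.range (n + 1), w j)) = 2 * (q * r) * w i - P * r := by ring
        rw [this, hqr, homr]
        ring
      rw [e1, abs_mul, abs_of_pos hr0]
      have a1 : |2 * (q * w i - ∑ j ∈ Finset.range (n + 1), w j)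
          - (P - 2 * ∑ j ∈ Finset.range (n + 1), w j)| ≤
          2 * (q * (2 * δ)) + q * (2 * M0 * (R0 * r) ^ 3) := by
        refine (abs_sub _ _).trans (add_le_add ?_ hS)
        rw [abs_mul, abs_two]
        linarith only [hW]
      calc r * |2 * (q * w i - ∑ j ∈ Finset.range (n + 1), w j)
          - (P - 2 * ∑ j ∈ Finset.range (n + 1), w j)|
          ≤ r * (2 * (q * (2 * δ)) + q * (2 * M0 * (R0 * r) ^ 3)) :=
            mul_le_mul_of_nonneg_left a1 hr0.le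
        _ = (q * r) * (4 * δ + 2 * M0 * R0 ^ 3 * r ^ 3) := by ring
        _ = 4 * δ + 2 * M0 * R0 ^ 3 * r ^ 3 := by rw [hqr, one_mul]
    have hdi := hd0 i hi
    have hdi2 := hdR i hi
    have hl : |2 * d i * apl T (Z i) - 2 * w i| ≤ 2 * M0 * R0 ^ 2 * r ^ 2 := by
      have e1 : 2 * d i * apl T (Z i) - 2 * w i = (2 * d i) * (apl T (Z i) - apl T (Z i + d i)) := by
        simp only [hw]; ring
      have a1 : |apl T (Z i) - apl T (Z i + d i)| ≤ M * d i := by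
        have := apl_lip T (Z i) (Z i + d i)
        rwa [sub_add_cancel_left, abs_neg, abs_of_pos hdi] at this
      rw [e1, abs_mul, abs_of_pos (by (clear * - hdi; positivity) : (0 : ℝ) < 2 * d i)]
      calc 2 * d i * |apl T (Z i) - apl T (Z i + d i)| ≤ 2 * d i * (M * d i) := by (clear * - a1 hdi; gcongr)
        _ ≤ 2 * (R0 * r) * (M0 * (R0 * r)) := by (clear * - hdi2 hMM hdi hM0 hM1 hR0p hr0; gcongr)
        _ = 2 * M0 * R0 ^ 2 * r ^ 2 := by ring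
    have e4 : (Z (i + 1) - Z i) * (T.lam (Z i)).re - om =
        (2 * d i * apl T (Z i) - 2 * w i) + (2 * w i - om) := by
      simp only [hd, apl]; ring
    rw [e4]
    refine (abs_add_le _ _).trans ((add_le_add hl hwi).trans ?_)
    have q1 : 4 * C4 * A ^ 4 * R0 ^ 4 * r ^ 3 ≤ 4 * C4 * A ^ 4 * R0 ^ 4 * (M0 ^ 2 * om ^ 2) := by
      (clear * - hr32 hC4 hA1 hR0p; gcongr)
    have q2 : 2 * M0 * R0 ^ 3 * r ^ 3 ≤ 2 * M0 * R0 ^ 3 * (M0 ^ 2 * om ^ 2) := by (clear * - hr32 hM0 hR0p; gcongr)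
    have q3 : 2 * M0 * R0 ^ 2 * r ^ 2 ≤ 2 * M0 * R0 ^ 2 * (M0 ^ 2 * om ^ 2) := by (clear * - hr22 hM0 hR0p; gcongr)
    have q4 : (4 * C4 * A ^ 4 * R0 ^ 4 + 2 * M0 * R0 ^ 3 + 2 * M0 * R0 ^ 2) * M0 ^ 2 * om ^ 2 ≤
        C * om ^ 2 := by
      refine mul_le_mul_of_nonneg_right ?_ (by (clear * - hom0; positivity))
      linarith only [p6, p4, p3, p1, hC, hA1, hA]
    have q5 : 4 * C4 * A * R0 * E ≤ C * E := by
      refine mul_le_mul_of_nonneg_right ?_ hE0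
      linarith only [hA, hA1, hC, p1, p3, p4, p5, p6]
    rw [hδ]
    linarith only [q5, q4, q3, q2, q1]
  · intro k hk
    have hdk := hd0 k (by omega)
    have hdk2 := hdR k (by omega)
    obtain ⟨c1, c2⟩ := hcmp k hk
    obtain ⟨a1, a2, a3⟩ := hAd k hk (hdk2.trans hRβ)
    refine ⟨a1, ?_⟩
    have h3 := (ap_fine h1 h2 hcl a1 hdk (hd0 (k + 1) hk) (hdpi k (by omega)) (hdpi (k + 1) hk)
      c1 c2 a2 (heq k hk)).2.2
    refine le_trans h3 ?_
    calc 136 * M ^ 12 * E * d k ≤ 136 * M0 ^ 12 * E * (R0 * (M0 * om)) := by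
          have : d k ≤ R0 * (M0 * om) := hdk2.trans (by (clear * - hrom hR0p; gcongr))
          (clear * - hM1 hMM hE0 this hdk hM0; gcongr)
      _ = (136 * M0 ^ 12 * R0 * M0) * (E * om) := by ring
      _ ≤ C * (E * om) := by
          refine mul_le_mul_of_nonneg_right ?_ (by (clear * - hE0 hom0; positivity))
          linarith only [p5, p4, p3, p1, hC, hA1, hA]
      _ = C * E * om := by ring

end Vale.Agent.P097.Reg
end

section

/-!
# P097, regularity theorem, R11: the real maximiser shadows the closed orbit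
-/

namespace Vale.Agent.P097.Reg

open Complex Filter Topology
open scoped ComplexConjugate ContDiff

section

variable {M β P : ℝ} {T : CTab M β P}

theorem X_real (x : ℝ) : (T.X x).im = 0 := by
  have h1 := T.cX _ (T.rD x)
  rw [Complex.conj_ofReal] at h1
  exact Complex.conj_eq_iff_im.1 h1.symm

theorem lam_real (x : ℝ) : (((T.lam x).re : ℝ) : ℂ) = T.lam x := by
  have h1 := T.clam _ (T.rD x)
  rw [Complex.conj_ofReal] at h1
  exact Complex.conj_eq_iff_re.1 h1.symm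

theorem X_strip {b : ℝ} (hb : 0 < b) (x : ℝ) : T.X x ∈ strip b := by
  change |(T.X x).im| < b
  rw [X_real, abs_zero]
  exact hb

theorem nu_real {φ δ : ℝ} (h : Ad T φ δ) : (((nu T φ δ).re : ℝ) : ℂ) = nu T φ δ := by
  have h1 := nu_conj h
  rw [Complex.conj_ofReal, Complex.conj_ofReal] at h1
  exact Complex.conj_eq_iff_re.1 h1.symm

theorem z_lip {ζ ξ : ℂ} (h1 : ζ ∈ strip β) (h2 : ξ ∈ strip β) :
    ‖T.z ξ - T.z ζ‖ ≤ M * ‖ξ - ζ‖ := by
  have hconv : Convex ℝ (strip β) := by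
    have e : strip β = Complex.imLm ⁻¹' (Set.Ioo (-β) β) := by
      ext z
      simp only [strip, abs_lt, Set.mem_ofPred_eq, imLm_coe, Set.mem_preimage, Set.mem_Ioo]
    rw [e]
    exact (convex_Ioo _ _).linear_preimage _
  exact hconv.norm_image_sub_le_of_norm_hasDerivWithin_le
    (fun z hz => (T.dz z hz).hasDerivWithinAt) (fun z hz => inv_lam (T.zD _ hz)) h1 h2

/-- parameter of a half gap -/
theorem d0_par {om : ℝ} (hom : 0 < om) {φ : ℂ} (hφ : φ ∈ T.D) (δ : ℂ) :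
    d0 T om φ (2 * (δ * T.lam φ) / om - 1) = δ := by
  have h1 := lam_ne hφ
  have h2 : (om : ℂ) ≠ 0 := by exact_mod_cast hom.ne'
  rw [d0]
  field_simp
  ring

/-- Lipschitz dependence on the parameter -/
def LipA {M β P : ℝ} (T : CTab M β P) (om b ρ : ℝ) (q : ℕ) : Prop :=
  ∀ ζ ∈ strip b, ∀ u v : ℂ, ‖u‖ ≤ ρ → ‖v‖ ≤ ρ → ∀ j ≤ q,
    ‖(T.X (orb T (T.z ζ) (d0 T om (T.z ζ) v) j).1 - j * ((om : ℝ) * (1 + v)))
      - (T.X (orb T (T.z ζ) (d0 T om (T.z ζ) u) j).1 - j * ((om : ℝ) * (1 + u)))‖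
      ≤ P / 2 * ‖v - u‖

theorem LipA.up {om b ρ : ℝ} {q : ℕ} (H : LipA T om b ρ q) (hom : 0 < om) (hqom : q * om = P) {ζ : ℂ}
    (hζ : ζ ∈ strip b) {u v : ℂ} (hu : ‖u‖ ≤ ρ) (hv : ‖v‖ ≤ ρ) {j : ℕ} (hj : j ≤ q) :
    ‖T.X (orb T (T.z ζ) (d0 T om (T.z ζ) v) j).1 - T.X (orb T (T.z ζ) (d0 T om (T.z ζ) u) j).1‖
      ≤ 2 * P * ‖v - u‖ := by
  have h1 := H ζ hζ u v hu hv j hj
  have hjq : (j : ℝ) ≤ q := by exact_mod_cast hj
  have hP := T.P0
  have e : T.X (orb T (T.z ζ) (d0 T om (T.z ζ) v) j).1 - T.X (orb T (T.z ζ) (d0 T om (T.z ζ) u) j).1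
      = ((T.X (orb T (T.z ζ) (d0 T om (T.z ζ) v) j).1 - j * ((om : ℝ) * (1 + v)))
      - (T.X (orb T (T.z ζ) (d0 T om (T.z ζ) u) j).1 - j * ((om : ℝ) * (1 + u))))
        + (j : ℂ) * (om : ℝ) * (v - u) := by ring
  rw [e]
  refine (norm_add_le _ _).trans ?_
  have h2 : ‖(j : ℂ) * (om : ℝ) * (v - u)‖ ≤ P * ‖v - u‖ := by
    rw [norm_mul, norm_mul, Complex.norm_natCast, norm_real, Real.norm_of_nonneg hom.le, ← hqom]
    (clear * - hjq hom; gcongr)
  have h3 : 0 ≤ P * ‖v - u‖ := by (clear * - hP; positivity)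
  linarith only [h1, h2, h3]

theorem LipA.low {om b ρ : ℝ} {q : ℕ} (H : LipA T om b ρ q) (hom : 0 < om) (hqom : q * om = P) {ζ : ℂ}
    (hζ : ζ ∈ strip b) {u v : ℂ} (hu : ‖u‖ ≤ ρ) (hv : ‖v‖ ≤ ρ) :
    P / 2 * ‖v - u‖ ≤ ‖T.X (orb T (T.z ζ) (d0 T om (T.z ζ) v) q).1
      - T.X (orb T (T.z ζ) (d0 T om (T.z ζ) u) q).1‖ := by
  have h1 := H ζ hζ u v hu hv q le_rfl
  have hP := T.P0
  have e : (q : ℂ) * (om : ℝ) * (v - u)
      = (T.X (orb T (T.z ζ) (d0 T om (T.z ζ) v) q).1 - T.X (orb T (T.z ζ) (d0 T om (T.z ζ) u) q).1)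
      - ((T.X (orb T (T.z ζ) (d0 T om (T.z ζ) v) q).1 - q * ((om : ℝ) * (1 + v)))
      - (T.X (orb T (T.z ζ) (d0 T om (T.z ζ) u) q).1 - q * ((om : ℝ) * (1 + u)))) := by ring
  have h2 : ‖(q : ℂ) * (om : ℝ) * (v - u)‖ = P * ‖v - u‖ := by
    rw [norm_mul, norm_mul, Complex.norm_natCast, norm_real, Real.norm_of_nonneg hom.le, hqom]
  have h3 := norm_sub_le (T.X (orb T (T.z ζ) (d0 T om (T.z ζ) v) q).1
    - T.X (orb T (T.z ζ) (d0 T om (T.z ζ) u) q).1)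
    ((T.X (orb T (T.z ζ) (d0 T om (T.z ζ) v) q).1 - q * ((om : ℝ) * (1 + v)))
      - (T.X (orb T (T.z ζ) (d0 T om (T.z ζ) u) q).1 - q * ((om : ℝ) * (1 + u))))
  rw [← e, h2] at h3
  linarith only [h1, h3]

/-- telescoping -/
theorem tele {om b ρ η : ℝ} {n q : ℕ} (hq : q = n + 1) (hb : 0 < b) (H : LipA T om b ρ q)
    (hom : 0 < om) (hqom : q * om = P) {Z d : ℕ → ℝ} {A : ℕ → ℂ} (hA : ∀ i ≤ n, ‖A i‖ ≤ ρ)
    (hAd : ∀ i ≤ n, d0 T om (Z i) (A i) = d i) (hZ : ∀ i ≤ n, Z (i + 1) = Z i + 2 * d i)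
    (hst : ∀ i, i + 1 ≤ n → ∃ v : ℂ, ‖v‖ ≤ ρ ∧
      d0 T om (Z (i + 1)) v = d i * (1 + nu T (Z (i + 1)) (d i)) ∧ ‖v - A (i + 1)‖ ≤ η) :
    ∀ k ≤ q, ‖T.X (Z k) - T.X (orb T (Z 0) (d 0) k).1‖ ≤ n * (2 * P * η) := by
  have hP := T.P0
  have key : ∀ i ≤ n, ∀ k, i ≤ k → k ≤ q →
      ‖T.X (orb T (Z i) (d i) (k - i)).1 - T.X (orb T (Z 0) (d 0) k).1‖ ≤ i * (2 * P * η) := by
    intro i
    induction i with
    | zero =>
      intro _ k _ _
      simp
    | succ i ih =>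
      intro hi k hk hkq
      have h1 := ih (by omega) k (by omega) hkq
      obtain ⟨v, hv1, hv2, hv3⟩ := hst i hi
      have hZc : (Z (i + 1) : ℂ) = Z i + 2 * d i := by
        rw [hZ i (by omega)]; push_cast; ring
      have e1 : orb T (Z i) (d i) (k - i) = orb T (Z (i + 1)) (d0 T om (Z (i + 1)) v)
          (k - (i + 1)) := by
        have : k - i = (k - (i + 1)) + 1 := by omega
        rw [this, orb_shift, hv2]
        simp only [orb]
        rw [← hZc]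
      have e2 : orb T (Z (i + 1)) (d (i + 1)) (k - (i + 1))
          = orb T (Z (i + 1)) (d0 T om (Z (i + 1)) (A (i + 1))) (k - (i + 1)) := by
        rw [hAd (i + 1) hi]
      have hz : T.z (T.X (Z (i + 1))) = Z (i + 1) := T.zX _ (T.rD _)
      have h2 := H.up hom hqom (ζ := T.X (Z (i + 1))) (X_strip hb _) (u := v) (v := A (i + 1)) hv1
        (hA _ hi) (j := k - (i + 1)) (by omega)
      rw [hz, ← e1, ← e2] at h2
      have e3 : T.X (orb T (Z (i + 1)) (d (i + 1)) (k - (i + 1))).1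
          - T.X (orb T (Z 0) (d 0) k).1
          = (T.X (orb T (Z (i + 1)) (d (i + 1)) (k - (i + 1))).1
            - T.X (orb T (Z i) (d i) (k - i)).1)
          + (T.X (orb T (Z i) (d i) (k - i)).1 - T.X (orb T (Z 0) (d 0) k).1) := by ring
      rw [e3]
      refine (norm_add_le _ _).trans ?_
      have h3 : 2 * P * ‖A (i + 1) - v‖ ≤ 2 * P * η := by
        rw [norm_sub_rev]
        (clear * - hv3 hP; gcongr)
      push_cast
      linarith only [h1, h2, h3]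
  have hη : ∀ i, i + 1 ≤ n → 0 ≤ η := fun i hi => by
    obtain ⟨v, _, _, hv3⟩ := hst i hi
    exact (norm_nonneg _).trans hv3
  intro k hk
  rcases Nat.lt_or_ge n k with h | h
  · have hkn : k = n + 1 := by omega
    have h1 := key n le_rfl k (by omega) hk
    rw [hkn] at h1 ⊢
    have e1 : (orb T (Z n) (d n) (n + 1 - n)).1 = Z (n + 1) := by
      rw [show n + 1 - n = 0 + 1 by omega, orb_succ1, orb_zero, hZ n le_rfl]
      push_cast
      ring
    rw [e1] at h1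
    exact h1
  · have h1 := key k h k le_rfl hk
    rw [Nat.sub_self, orb_zero] at h1
    refine h1.trans ?_
    rcases Nat.eq_zero_or_pos n with h0 | h0
    · have : k = 0 := by omega
      rw [this, h0]
    · have := hη 0 (by omega)
      (clear * - h hP this; gcongr)

/-- parameters of a pseudo-orbit -/
theorem shadow_par {M0 C1 s E om : ℝ} {n q : ℕ} {Z : ℕ → ℝ} (hM0 : 1 ≤ M0) (hM : M ≤ M0)
    (hC1 : 1 ≤ C1) (hs : 0 < s) (hE0 : 0 ≤ E) (hq : 1 ≤ (q : ℝ)) (hom0 : 0 < om)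
    (hqom : q * om = P) (h1 : 128 * M0 ^ 2 * C1 * om ≤ s) (h2 : 128 * M0 ^ 2 * C1 * q * E ≤ s)
    (p1 : ∀ j ≤ n, |(Z (j + 1) - Z j) * (T.lam (Z j)).re - om| ≤ C1 * (om ^ 2 + E))
    (p2 : ∀ k, k + 1 ≤ n → Ad T (Z (k + 1)) (((Z (k + 1) - Z k) / 2 : ℝ) : ℂ) ∧
        |(Z (k + 2) - Z (k + 1)) / 2 - ((Z (k + 1) - Z k) / 2)
          * (1 + (nu T (Z (k + 1)) (((Z (k + 1) - Z k) / 2 : ℝ) : ℂ)).re)|
          ≤ C1 * E * om) :
    ∃ (d : ℕ → ℝ) (A : ℕ → ℂ), (∀ i, d i = (Z (i + 1) - Z i) / 2) ∧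
      (∀ i ≤ n, ‖A i‖ ≤ s / (32 * M0)) ∧ (∀ i ≤ n, d0 T om (Z i) (A i) = d i) ∧
      (∀ i, i + 1 ≤ n → ∃ v : ℂ, ‖v‖ ≤ s / (32 * M0) ∧
        d0 T om (Z (i + 1)) v = d i * (1 + nu T (Z (i + 1)) (d i)) ∧
        ‖v - A (i + 1)‖ ≤ 2 * M0 * C1 * E) := by
  have hM1 := T.M1
  have hP := T.P0
  have hP1 := (period_bounds T).1
  have hpi3 := Real.pi_gt_three
  have homc : (om : ℂ) ≠ 0 := by exact_mod_cast hom0.ne'
  have hρ : s / (32 * M0) = s / (64 * M0) + s / (64 * M0) := by field_simp; norm_num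
  have hM00 : 0 < M0 := by linarith only [hM0]
  have hMP : 1 ≤ M0 * P := by
    have : M * P ≤ M0 * P := by (clear * - hM hP; gcongr)
    linarith only [hP1, hpi3, this]
  obtain ⟨d, hd⟩ : ∃ d : ℕ → ℝ, ∀ i, d i = (Z (i + 1) - Z i) / 2 := ⟨_, fun i => rfl⟩
  obtain ⟨A, hAdef⟩ : ∃ A : ℕ → ℂ, ∀ i, A i = 2 * (d i * T.lam (Z i)) / om - 1 :=
    ⟨_, fun i => rfl⟩
  have hAd : ∀ i ≤ n, d0 T om (Z i) (A i) = d i := by
    intro i _
    rw [hAdef]
    exact d0_par hom0 (T.rD _) _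
  have hAb : ∀ i ≤ n, ‖A i‖ ≤ s / (64 * M0) := by
    intro i hi
    have h1' := p1 i hi
    have e : A i = (((Z (i + 1) - Z i) * (T.lam (Z i)).re - om : ℝ) : ℂ) / om := by
      rw [hAdef, hd]
      push_cast
      rw [lam_real]
      (clear * - homc; field_simp)
    rw [e, norm_div, norm_real, norm_real, Real.norm_eq_abs, Real.norm_of_nonneg hom0.le,
      div_le_iff₀ hom0]
    refine h1'.trans ?_
    have g1 : C1 * om ≤ s / (128 * M0 ^ 2) := by
      rw [le_div_iff₀ (by positivity)]; linarith only [h1]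
    have g2 : C1 * E ≤ s / (128 * M0 ^ 2) * (M0 * om) := by
      have h2' : C1 * (q * E) ≤ s / (128 * M0 ^ 2) := by
        rw [le_div_iff₀ (by positivity)]; linarith only [h2]
      have h3 : 1 ≤ M0 * (q * om) := by rw [hqom]; exact hMP
      have h4 : 0 ≤ C1 * E := by (clear * - hC1 hE0; positivity)
      calc C1 * E ≤ C1 * E * (M0 * (q * om)) := by nlinarith only [h3, h4]
        _ = C1 * (q * E) * (M0 * om) := by ring
        _ ≤ s / (128 * M0 ^ 2) * (M0 * om) := by (clear * - h2' hM0 hom0; gcongr)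
    have g3 : s / (128 * M0 ^ 2) ≤ s / (128 * M0) := by
      gcongr
      nlinarith only [hM0]
    have g4 : s / (128 * M0 ^ 2) * (M0 * om) = s / (128 * M0) * om := by
      field_simp
    have g5 : s / (64 * M0) = s / (128 * M0) + s / (128 * M0) := by field_simp; norm_num
    calc C1 * (om ^ 2 + E) = (C1 * om) * om + C1 * E := by ring
      _ ≤ (s / (128 * M0)) * om + s / (128 * M0) * om := by
          rw [g4] at g2
          have := mul_le_mul_of_nonneg_right (g1.trans g3) hom0.le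
          linarith only [g2, this]
      _ = s / (64 * M0) * om := by rw [g5]; ring
  have hs64 : 0 ≤ s / (64 * M0) := by positivity
  refine ⟨d, A, hd, fun i hi => (hAb i hi).trans (by linarith only [hρ, hs64]), hAd, ?_⟩
  intro i hi
  obtain ⟨had, h1'⟩ := p2 i hi
  rw [← hd i] at had h1'
  have hdd : (Z (i + 2) - Z (i + 1)) / 2 = d (i + 1) := by rw [hd]
  rw [hdd] at h1'
  have hnr := nu_real had
  obtain ⟨v, hv⟩ : ∃ v : ℂ, v = 2 * ((d i * (1 + nu T (Z (i + 1)) (d i))) * T.lam (Z (i + 1)))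
    / om - 1 := ⟨_, rfl⟩
  have hvA : ‖v - A (i + 1)‖ ≤ 2 * M0 * C1 * E := by
    have e : v - A (i + 1) = 2 * (((d i * (1 + (nu T (Z (i + 1)) (d i)).re) - d (i + 1) : ℝ) : ℂ)
        * T.lam (Z (i + 1))) / om := by
      rw [hv, hAdef]
      push_cast
      rw [hnr]
      ring
    rw [e, norm_div, norm_mul, norm_mul, norm_real, norm_real, Real.norm_eq_abs,
      Real.norm_of_nonneg hom0.le, div_le_iff₀ hom0, Complex.norm_ofNat, abs_sub_comm]
    have h2' := T.b0 _ (T.rD (Z (i + 1)))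
    calc 2 * (|d (i + 1) - d i * (1 + (nu T (Z (i + 1)) (d i)).re)| * ‖T.lam (Z (i + 1))‖)
        ≤ 2 * ((C1 * E * om) * M0) := by gcongr; exact h2'.trans hM
      _ = 2 * M0 * C1 * E * om := by ring
  refine ⟨v, ?_, by rw [hv]; exact d0_par hom0 (T.rD _) _, hvA⟩
  have h3 : ‖v‖ ≤ ‖v - A (i + 1)‖ + ‖A (i + 1)‖ := by
    have := norm_add_le (v - A (i + 1)) (A (i + 1))
    simpa only [ge_iff_le, sub_add_cancel] using this
  have h4 : 2 * M0 * C1 * E ≤ s / (64 * M0) := by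
    rw [le_div_iff₀ (by positivity)]
    have : 128 * M0 ^ 2 * C1 * E ≤ 128 * M0 ^ 2 * C1 * q * E := by
      have : 0 ≤ 128 * M0 ^ 2 * C1 := by positivity
      have h7 : E ≤ q * E := by linarith only [mul_nonneg (sub_nonneg.2 hE0) (sub_nonneg.2 hq)]
      calc 128 * M0 ^ 2 * C1 * E ≤ 128 * M0 ^ 2 * C1 * (q * E) := by (clear * - h7 hM0 hC1; gcongr)
        _ = 128 * M0 ^ 2 * C1 * q * E := by ring
    linarith only [h2, this]
  have h5 := hAb (i + 1) hi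
  linarith only [hρ, hvA, h3, h4, h5]

/-- comparison of the orbits with the same ends -/
theorem shadow_end {s om Y : ℝ} {q : ℕ} {M0 : ℝ} {a : ℂ → ℂ} {x : ℝ}
    {Z : ℕ → ℝ} {δ : ℝ} {A0 : ℂ} (hsβ : s < β) (hs : 0 < s) (hM : M ≤ M0)
    (hom0 : 0 < om) (hqom : q * om = P) (H : LipA T om (β - s) (s / (32 * M0)) q)
    (hA : ‖A0‖ ≤ s / (32 * M0)) (hAd : d0 T om (Z 0) A0 = δ)
    (ht : ∀ k ≤ q, ‖T.X (Z k) - T.X (orb T (Z 0) δ k).1‖ ≤ Y)
    (ha : ‖a x‖ ≤ s / (32 * M0)) (hclose : T.X (ph T om a q x) = x + P)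
    (hZn : Z q = Z 0 + 2 * Real.pi) (hZ0 : (Z 0 : ℂ) = T.z x) {k : ℕ} (hk : k ≤ q)
    (hmem : ph T om a k x ∈ T.D) :
    ‖(Z k : ℂ) - ph T om a k x‖ ≤ 5 * M0 * Y := by
  have hM1 := T.M1
  have hP := T.P0
  have hb : 0 < β - s := by linarith only [hsβ]
  have hx : (x : ℂ) ∈ strip (β - s) := by
    change |(x : ℂ).im| < β - s
    rw [ofReal_im, abs_zero]; exact hb
  have hxβ : (x : ℂ) ∈ strip β := strip_mono (by linarith only [hs]) hx
  have horb0 : ∀ k, orb T (Z 0) δ k = orb T (T.z x) (d0 T om (T.z x) A0) k := by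
    intro k
    rw [← hAd, ← hZ0]
  have hXq : T.X (Z q) = x + P := by
    rw [hZn]
    push_cast
    rw [T.pX _ (T.rD _), hZ0, T.Xz _ hxβ]
  have hphi : ∀ k, ph T om a k x = (orb T (T.z x) (d0 T om (T.z x) (a x)) k).1 := fun k => rfl
  have h1 := ht q le_rfl
  rw [hXq, ← hclose, horb0, hphi] at h1
  have h2 := H.low hom0 hqom hx hA ha
  have h3 := ht k hk
  rw [horb0] at h3
  have h4 := H.up hom0 hqom hx hA ha hk
  have h5 : ‖T.X (Z k) - T.X (ph T om a k x)‖ ≤ 5 * Y := by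
    rw [hphi]
    have e : T.X (Z k) - T.X (orb T (T.z x) (d0 T om (T.z x) (a x)) k).1
        = (T.X (Z k) - T.X (orb T (T.z x) (d0 T om (T.z x) A0) k).1)
          - (T.X (orb T (T.z x) (d0 T om (T.z x) (a x)) k).1
            - T.X (orb T (T.z x) (d0 T om (T.z x) A0) k).1) := by ring
    rw [e]
    refine (norm_sub_le _ _).trans ?_
    linarith only [h1, h2, h3, h4]
  have h6 := z_lip (T := T) (T.XD _ hmem) (T.XD _ (T.rD (Z k)))
  rw [T.zX _ hmem, T.zX _ (T.rD _)] at h6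
  refine h6.trans ?_
  have hM00 : 0 ≤ M0 := by linarith only [hM, hM1]
  calc M * ‖T.X (Z k) - T.X (ph T om a k x)‖ ≤ M0 * (5 * Y) := by (clear * - hM h5 hM00; gcongr)
    _ = 5 * M0 * Y := by ring

end

theorem shadow (M0 : ℝ) (hM0 : 1 ≤ M0) : ∃ C : ℝ, 1 ≤ C ∧
    ∀ (M β P : ℝ) (T : CTab M β P), M ≤ M0 → ∀ (h : ℝ → ℝ), ContDiff ℝ ∞ h →
      (∀ x, h (x + 2 * Real.pi) = h x) → (∀ x, 0 < rad h x) → ∀ (E s : ℝ) (n q : ℕ), q = n + 1 →
      Close T h E → 0 < s → s < β → C * (P / q) ≤ s → C * q * E ≤ s →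
      ∀ (a : ℂ → ℂ) (x : ℝ), ‖a x‖ ≤ s / (32 * M0) → T.X (ph T (P / q) a q x) = x + P →
      ∀ Z : ℕ → ℝ, (∀ j ≤ n, Z j < Z (j + 1)) → Z (n + 1) = Z 0 + 2 * Real.pi →
      (∀ k, k + 1 ≤ n → K h (Z (k + 1)) (mid Z k) = K h (Z (k + 1)) (mid Z (k + 1))) →
      (Z 0 : ℂ) = T.z x →
      ∀ j ≤ q, ‖(Z j : ℂ) - ph T (P / q) a j x‖ ≤ C * q * E := by
  obtain ⟨C1, hC1, hap⟩ := apriori M0 hM0
  obtain ⟨C2, hC2, hfam⟩ := fam M0 hM0
  have hpi := Real.pi_pos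
  have hpi4 := Real.pi_lt_four
  refine ⟨C1 + C2 + 128 * M0 ^ 2 * C1 + 160 * M0 ^ 3 * C1, ?_, ?_⟩
  · have : 0 ≤ 128 * M0 ^ 2 * C1 + 160 * M0 ^ 3 * C1 := by
      positivity
    linarith
  intro M β P T hM h hs hp hpos E s n q hqn hcl hs0 hsβ hom hE a x ha hclose Z hZ hZn hcrit hZ0
  have hP := T.P0
  have hM10 : 0 ≤ M := by linarith only [T.M1]
  have hP2 := (period_bounds T).2
  have hβ1 := T.β1
  have hE0 : 0 ≤ E := (abs_nonneg _).trans (hcl 0).1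
  have hq1 : 1 ≤ q := by omega
  have hq0 : (1 : ℝ) ≤ q := by exact_mod_cast hq1
  set om := P / q with homdef
  have hom0 : 0 < om := div_pos hP (by linarith only [hq0])
  have hqom : q * om = P := by rw [homdef]; (clear * - hq1 hP; field_simp)
  have t1 : 0 ≤ C1 * om := by (clear * - hC1 hP hq1; positivity)
  have t2 : 0 ≤ C2 * om := by positivity
  have t3 : 0 ≤ 128 * M0 ^ 2 * C1 * om := by positivity
  have t4 : 0 ≤ 160 * M0 ^ 3 * C1 * om := by positivity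
  have r1 : 0 ≤ C1 * q * E := by (clear * - hC1 hq1 hE0; positivity)
  have r2 : 0 ≤ C2 * q * E := by positivity
  have r3 : 0 ≤ 128 * M0 ^ 2 * C1 * q * E := by (clear * - hM0 hC1 hq1 hE0; positivity)
  have r4 : 0 ≤ 160 * M0 ^ 3 * C1 * q * E := by (clear * - hM0 hC1 hq1 hE0; positivity)
  have hom' : C1 * om + C2 * om + 128 * M0 ^ 2 * C1 * om + 160 * M0 ^ 3 * C1 * om ≤ s := by linarith only [hom]
  have hE' : C1 * q * E + C2 * q * E + 128 * M0 ^ 2 * C1 * q * E + 160 * M0 ^ 3 * C1 * q * E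
      ≤ s := by linarith only [hE]
  obtain ⟨p1, p2⟩ := hap M β P T hM h hs hp hpos E n q hqn hcl (by linarith only [hsβ, hom, t2, t3, t4]) (by linarith only [hsβ, hE, hβ1, r2, r3, r4]) Z hZ hZn
    hcrit
  obtain ⟨f1, H⟩ := hfam T hM q hq1 s hs0 hsβ (by linarith only [hom, t1, t3, t4])
  rw [← homdef] at p1 p2 f1 H
  obtain ⟨d, A, hd, hA, hAd, hst⟩ := shadow_par hM0 hM hC1 hs0 hE0 hq0 hom0 hqom (by linarith only [hom, t1, t2, t4])
    (by linarith only [hE, r1, r2, r4]) p1 p2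
  have hPM : P ≤ 8 * M0 := by
    calc P ≤ 2 * Real.pi * M := hP2
      _ ≤ 2 * 4 * M0 := by (clear * - hpi4 hM hM10; gcongr)
      _ = 8 * M0 := by ring
  have ht := tele hqn (by linarith only [hsβ]) H hom0 hqom hA hAd (fun i _ => by rw [hd]; ring) hst
  have hY : (n : ℝ) * (2 * P * (2 * M0 * C1 * E)) ≤ 32 * M0 ^ 2 * C1 * q * E := by
    have hnq : (n : ℝ) ≤ q := by rw [hqn]; push_cast; linarith only []
    calc (n : ℝ) * (2 * P * (2 * M0 * C1 * E)) ≤ q * (2 * (8 * M0) * (2 * M0 * C1 * E)) := by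
          (clear * - hnq hPM hM0 hC1 hE0 hP hq1; gcongr)
      _ = 32 * M0 ^ 2 * C1 * q * E := by ring
  have hx : (x : ℂ) ∈ strip (β - s) := by
    change |(x : ℂ).im| < β - s
    rw [ofReal_im, abs_zero]; linarith only [hsβ]
  intro k hk
  have hmem : ph T om a k x ∈ T.D := (f1 x hx (a x) ha k hk).1.mem
  have h7 := shadow_end hsβ hs0 hM hom0 hqom H (hA 0 (Nat.zero_le n)) (hAd 0 (Nat.zero_le n))
    (fun k hk => (ht k hk).trans hY) ha hclose (by rw [hqn]; exact hZn) hZ0 hk hmem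
  refine h7.trans ?_
  have h8 : 5 * M0 * (32 * M0 ^ 2 * C1 * q * E) = 160 * M0 ^ 3 * C1 * q * E := by ring
  rw [h8]
  linarith only [r1, r2, r3]

end Vale.Agent.P097.Reg
end

section

/-!
# P097, regularity theorem, R11: the leaf relation
-/

namespace Vale.Agent.P097.Reg

open Complex Filter Topology
open scoped ComplexConjugate ContDiff

section

variable {M β P : ℝ} {T : CTab M β P}

theorem hasDerivAt_reG (x : ℝ) : HasDerivAt (fun x : ℝ => (T.G x).re) (deriv T.G x).re x :=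
  (dG1 T (T.rD x)).real_of_complex

theorem hasDerivAt_reG2 (x : ℝ) :
    HasDerivAt (fun x : ℝ => (deriv T.G x).re) (deriv (deriv T.G) x).re x :=
  (dG2 T (T.rD x)).real_of_complex

theorem deriv_df {h : ℝ → ℝ} (hs : ContDiff ℝ ∞ h) :
    deriv (df T h) = fun x => deriv h x - (deriv T.G x).re := by
  funext x
  have h1 : HasDerivAt h (deriv h x) x :=
    (hs.differentiable (by norm_num) x).hasDerivAt
  exact (h1.sub (hasDerivAt_reG x)).deriv

theorem deriv_df2 {h : ℝ → ℝ} (hs : ContDiff ℝ ∞ h) :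
    deriv (deriv (df T h)) = fun x => deriv (deriv h) x - (deriv (deriv T.G) x).re := by
  rw [deriv_df hs]
  funext x
  have h0 : ContDiff ℝ ∞ (deriv h) := by
    have := hs.iterate_deriv 1
    simpa using this
  have h1 : HasDerivAt (deriv h) (deriv (deriv h) x) x :=
    (h0.differentiable (by norm_num) x).hasDerivAt
  exact (h1.sub (hasDerivAt_reG2 x)).deriv

/-- uniform bound of the support function and its derivatives -/
theorem bound_h {h : ℝ → ℝ} (hs : ContDiff ℝ ∞ h) (hp : ∀ x, h (x + 2 * Real.pi) = h x) {E : ℝ}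
    (hcl : Close T h E) (hE : E ≤ 1) (x : ℝ) :
    |h x| ≤ 24 * M ^ 3 ∧ |deriv h x| ≤ 24 * M ^ 3 ∧ |deriv (deriv h) x| ≤ 24 * M ^ 3 := by
  have hM1 := T.M1
  have hM3 : M ≤ M ^ 3 := by
    calc M = M ^ 1 := (pow_one M).symm
      _ ≤ M ^ 3 := pow_le_pow_right₀ hM1 (by norm_num)
  have hpi4 := Real.pi_lt_d2
  have h0 : ContDiff ℝ ∞ (deriv h) := by
    have := hs.iterate_deriv 1
    simpa only [Function.iterate_one] using this
  have b2 : ∀ y, |deriv (deriv h) y| ≤ 3 * M ^ 3 := by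
    intro y
    have h1 := (hcl y).2.2
    rw [deriv_df2 hs] at h1
    have h2 : |(deriv (deriv T.G) y).re| ≤ M ^ 3 + M := by
      have h3 := T.rho _ (T.rD y)
      have h4 : deriv (deriv T.G) y = T.lam y ^ 3 - T.G y := by
        rw [← h3]; ring
      rw [h4]
      refine (abs_re_le_norm _).trans ((norm_sub_le _ _).trans ?_)
      rw [norm_pow]
      have := T.b0 _ (T.rD y)
      have := T.bG _ (T.rD y)
      (clear h hs hp E hcl hE x hM1 hM3 hpi4 h0 h1 h3 h4; gcongr)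
    have h5 : deriv (deriv h) y = (deriv (deriv h) y - (deriv (deriv T.G) y).re)
        + (deriv (deriv T.G) y).re := by ring
    rw [h5]
    refine (abs_add_le _ _).trans ?_
    linarith only [hE, hM1, hM3, h1, h2]
  refine ⟨?_, ?_, (b2 x).trans (by linarith only [hM3, hM1])⟩
  · have h1 := (hcl x).1
    have h2 : |(T.G x).re| ≤ M := (abs_re_le_norm _).trans (T.bG _ (T.rD x))
    have h5 : h x = (h x - (T.G x).re) + (T.G x).re := by ring
    rw [h5]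
    refine (abs_add_le _ _).trans ?_
    rw [df] at h1
    linarith only [hE, hM1, hM3, h1, h2]
  · obtain ⟨c, hc, hc0⟩ := exists_deriv_eq_zero (f := h) (a := x) (b := x + 2 * Real.pi)
      (by linarith only [Real.pi_pos]) hs.continuous.continuousOn (hp x).symm
    have h1 := (convex_univ (𝕜 := ℝ) (E := ℝ)).norm_image_sub_le_of_norm_deriv_le
      (f := deriv h) (C := 3 * M ^ 3) (x := c) (y := x)
      (fun y _ => h0.differentiable (by norm_num) y)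
      (fun y _ => by rw [Real.norm_eq_abs]; exact b2 y) (Set.mem_univ _) (Set.mem_univ _)
    rw [hc0, sub_zero, Real.norm_eq_abs, Real.norm_eq_abs] at h1
    have h2 : |x - c| ≤ 8 := by
      rw [abs_le]
      constructor <;> linarith only [hc.1, hpi4, hc.2]
    calc |deriv h x| ≤ 3 * M ^ 3 * |x - c| := h1
      _ ≤ 3 * M ^ 3 * 8 := by (clear * - h2 hM1; gcongr)
      _ = 24 * M ^ 3 := by ring

/-- the functional of `h` along the closed orbit of the table -/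
theorem Clo.L_eq {C om b : ℝ} {n q : ℕ} {a : ℂ → ℂ} (H : Clo T C om b q a) (hqn : q = n + 1)
    (hb : b ≤ β) (hom : 0 < om) {x : ℝ} (hx : (x : ℂ) ∈ strip b) (h : ℝ → ℝ) :
    ((L h n (fun j => (ph T om a j x).re) : ℝ) : ℂ) = Ln T om a q x
      + (om : ℝ) * ∑ j ∈ Finset.range q, kpn T om a j x
        * wd T h (x + (j + 1 / 2) * om + (Efn T om a j x).re) := by
  have homc : (om : ℂ) ≠ 0 := by exact_mod_cast hom.ne'
  rw [L, Ln, ← hqn, Finset.mul_sum, ← Finset.sum_add_distrib]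
  push_cast
  refine Finset.sum_congr rfl (fun j hj => ?_)
  have hjq : j < q := Finset.mem_range.1 hj
  obtain ⟨r1, r2⟩ := H.realphi hb hx hjq.le
  have hpsi : psi T om a j x ∈ T.D := H.psi_mem hx hjq.le
  set u := (ph T om a j x).re with hu
  set d := (dl T om a j x).re with hd
  have r3 : psi T om a j x = ((u + d : ℝ) : ℂ) := by
    rw [psi, ← r1, ← r2]; push_cast; ring
  have r4 : (ph T om a (j + 1) x).re = u + 2 * d := by
    have : ph T om a (j + 1) x = ph T om a j x + 2 * dl T om a j x := rfl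
    rw [this, ← r1, ← r2]
    simp
  have e1 : S h u (ph T om a (j + 1) x).re = 2 * h (u + d) * Real.sin d := by
    rw [r4, S]
    congr 3
    · ring
    · ring
  have e2 : (x : ℝ) + ((j : ℝ) + 1 / 2) * om + (Efn T om a j x).re = (T.X (psi T om a j x)).re := by
    have hi := H.realE hb hx hjq.le
    have : T.X (psi T om a j x) = ((x + (j + 1 / 2) * om : ℝ) : ℂ) + Efn T om a j x := by
      rw [Efn]; push_cast; ring
    rw [this, add_re, ofReal_re]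
  have e3 : (((T.X (psi T om a j x)).re : ℝ) : ℂ) = T.X (psi T om a j x) := by
    rw [r3]
    exact Complex.conj_eq_iff_re.1 (by
      have h1 := T.cX _ (T.rD (u + d))
      rw [Complex.conj_ofReal] at h1
      exact h1.symm)
  have e4 : wd T h (x + (j + 1 / 2) * om + (Efn T om a j x).re)
      = ((h (u + d) - (T.G ((u + d : ℝ) : ℂ)).re : ℝ) : ℂ) / T.lam (psi T om a j x) := by
    rw [wd, e2, e3, T.zX _ hpsi, r3, ofReal_re, df]
  have e5 : (((T.G ((u + d : ℝ) : ℂ)).re : ℝ) : ℂ) = T.G ((u + d : ℝ) : ℂ) := by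
    exact Complex.conj_eq_iff_re.1 (by
      have h1 := T.cG _ (T.rD (u + d))
      rw [Complex.conj_ofReal] at h1
      exact h1.symm)
  rw [e1, e4, kpn, r3, ← r2]
  have hl := lam_ne (T.rD (u + d))
  rw [ofReal_sub, e5]
  generalize T.lam ((u + d : ℝ) : ℂ) = lm at hl
  generalize T.G ((u + d : ℝ) : ℂ) = gm
  push_cast
  field_simp
  ring

end

theorem leaf_relation (M0 : ℝ) (hM0 : 1 ≤ M0) : ∃ C : ℝ, 1 ≤ C ∧
    ∀ (M β P : ℝ) (T : CTab M β P), M ≤ M0 → ∀ (h : ℝ → ℝ), ContDiff ℝ ∞ h →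
      (∀ x, h (x + 2 * Real.pi) = h x) → (∀ x, 0 < rad h x) → ∀ (E s : ℝ) (n q : ℕ), q = n + 1 →
      Close T h E → 0 < s → s < β → C * (P / q) ≤ s → C * (q : ℝ) ^ 4 * E ≤ s → Cst h n →
      ∃ (Ef κ : ℕ → ℂ → ℂ) (L : ℂ → ℂ) (c0 : ℝ),
        (∀ j < q, DifferentiableOn ℂ (Ef j) (strip (β - s))) ∧
        (∀ j < q, DifferentiableOn ℂ (κ j) (strip (β - s))) ∧
        (∀ j < q, ∀ ζ ∈ strip (β - s), Ef j (ζ + P) = Ef j ζ ∧ κ j (ζ + P) = κ j ζ) ∧
        (∀ j < q, ∀ ζ ∈ strip (β - s),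
          ‖Ef j ζ‖ ≤ C * (P / q) ^ 2 ∧ ‖κ j ζ - 1‖ ≤ C * (P / q) ^ 2) ∧
        (∀ j < q, ∀ x : ℝ, (Ef j x).im = 0) ∧
        DifferentiableOn ℂ L (strip (β - s)) ∧ (∀ ζ ∈ strip (β - s), L (ζ + P) = L ζ) ∧
        (∀ ζ ∈ strip (β - s), ‖L ζ‖ ≤ C) ∧
        (∀ x : ℝ, ‖(c0 : ℂ) - L x - (P / q : ℝ) * ∑ j ∈ Finset.range q,
          κ j x * wd T h (x + (j + 1 / 2) * (P / q) + (Ef j x).re)‖ ≤ C * (q : ℝ) ^ 8 * E ^ 2) := by
  obtain ⟨C1, hC1, hsh⟩ := shadow M0 hM0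
  obtain ⟨C2, hC2, hclo⟩ := exists_clo M0 hM0
  have hM03 : 1 ≤ M0 ^ 3 := one_le_pow₀ hM0
  refine ⟨C1 + C2 + 2 * M0 + (4 * M0 ^ 3 + 3 * (1 + 8 * M0) * C2)
    + (4 * M0 ^ 4 + (1 + 2 * (8 * M0)) * C2) + 8 * M0 ^ 2 * (8 * M0)
    + 96 * M0 ^ 3 * C1 ^ 2, ?_, ?_⟩
  · have : 0 ≤ 2 * M0 + (4 * M0 ^ 3 + 3 * (1 + 8 * M0) * C2)
      + (4 * M0 ^ 4 + (1 + 2 * (8 * M0)) * C2) + 8 * M0 ^ 2 * (8 * M0)
      + 96 * M0 ^ 3 * C1 ^ 2 := by positivity
    linarith only [hC1, hC2, this]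
  intro M β P T hM h hs hp hpos E s n q hqn hcl hs0 hsβ hom hE hcst
  have hP := T.P0
  have hM1 := T.M1
  have hM10 : 0 ≤ M := by linarith only [hM1]
  have hP2 := (period_bounds T).2
  have hβ1 := T.β1
  have hE0 : 0 ≤ E := (abs_nonneg _).trans (hcl 0).1
  have hq1 : 1 ≤ q := by omega
  have hq0 : (1 : ℝ) ≤ q := by exact_mod_cast hq1
  have hpi4 := Real.pi_lt_four
  have hPM : P ≤ 8 * M0 := by
    calc P ≤ 2 * Real.pi * M := hP2
      _ ≤ 2 * 4 * M0 := by (clear * - hpi4 hM hM1; gcongr)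
      _ = 8 * M0 := by ring
  set om := P / q with homdef
  have hom0 : 0 < om := div_pos hP (by linarith only [hq0])
  obtain ⟨CC, hCC⟩ : ∃ CC : ℝ, CC = C1 + C2 + 2 * M0 + (4 * M0 ^ 3 + 3 * (1 + 8 * M0) * C2)
    + (4 * M0 ^ 4 + (1 + 2 * (8 * M0)) * C2) + 8 * M0 ^ 2 * (8 * M0)
    + 96 * M0 ^ 3 * C1 ^ 2 := ⟨_, rfl⟩
  rw [← hCC] at hom hE ⊢
  have k1 : 0 ≤ 4 * M0 ^ 3 + 3 * (1 + 8 * M0) * C2 := by positivity
  have k2 : 0 ≤ 4 * M0 ^ 4 + (1 + 2 * (8 * M0)) * C2 := by positivity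
  have k3 : 0 ≤ 8 * M0 ^ 2 * (8 * M0) := by positivity
  have k4 : 0 ≤ 96 * M0 ^ 3 * C1 ^ 2 := by positivity
  have c1 : C1 ≤ CC := by linarith only [k4, k2, k1, hCC, hM03, hC2, hM0]
  have c2 : C2 ≤ CC := by (clear * - hM0 hC1 hM03 hs0 hsβ hβ1 hCC k1 k2 k4; linarith)
  have c3 : 2 * M0 ≤ CC := by linarith only [hC1, hC2, hM03, hCC, k1, k2, k4]
  have c4 : 4 * M0 ^ 3 + 3 * (1 + 8 * M0) * C2 ≤ CC := by linarith only [k4, k2, hCC, hM03, hC2, hC1, hM0]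
  have c5 : 4 * M0 ^ 4 + (1 + 2 * (8 * M0)) * C2 ≤ CC := by linarith only [hM0, hC1, hC2, hM03, hCC, k1, k4]
  have c6 : 8 * M0 ^ 2 * (8 * M0) ≤ CC := by linarith only [hM0, hC1, hC2, hCC, k1, k2, k4]
  have c7 : 96 * M0 ^ 3 * C1 ^ 2 ≤ CC := by linarith only [hM0, hC1, hC2, hM03, hCC, k1, k2]
  have hCC0 : 0 ≤ CC := by linarith only [hM0, hC1, hC2, hM03, hCC, k1, k2, k4]
  clear hCC
  have hC1om : C1 * om ≤ s := le_trans (by (clear * - c1 hP hq1; gcongr)) hom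
  have hC2om : C2 * om ≤ s := le_trans (by (clear * - c2 hP hq1; gcongr)) hom
  have h2om : 2 * M * om ≤ 1 := by
    have : 2 * M * om ≤ 2 * M0 * om := by (clear * - hM hP hq1; gcongr)
    have : 2 * M0 * om ≤ CC * om := by (clear * - c3 hP hq1; gcongr)
    (clear hsh hclo h hs hp hpos E hcl hcst hM1 hM10 hP2 hE0 hq0 hpi4 hPM homdef hom0 hE k3 c1 c2 c4 c5 c6 c7 hCC0 hC1om hC2om; linarith)
  have hom1 : om ≤ 1 := by nlinarith only [hsβ, hβ1, hC1om, hC1]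
  have hqp : (q : ℝ) ≤ (q : ℝ) ^ 4 := by
    calc (q : ℝ) = (q : ℝ) ^ 1 := (pow_one _).symm
      _ ≤ (q : ℝ) ^ 4 := pow_le_pow_right₀ hq0 (by norm_num)
  have hC1E : C1 * q * E ≤ s := by
    refine le_trans ?_ hE
    (clear * - c1 hqp hq1 hCC0 hE0; gcongr)
  have hE1 : E ≤ 1 := by
    have : E ≤ C1 * q * E := by
      have : 1 ≤ C1 * q := by nlinarith only [hq0, hC1]
      linarith only [mul_nonneg (sub_nonneg.2 hE0) (sub_nonneg.2 this)]
    linarith only [hsβ, hβ1, hC1E, this]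
  obtain ⟨a, H, ha⟩ := hclo T hM q hq1 s hs0 hsβ hC2om
  rw [← homdef] at H
  have hC20 : 0 ≤ C2 := by linarith only [hC2]
  have hbβ : β - s ≤ β := by linarith only [hs0]
  have hreal : ∀ x : ℝ, (x : ℂ) ∈ strip (β - s) := by
    intro x
    change |(x : ℂ).im| < β - s
    rw [ofReal_im, abs_zero]; linarith only [hsβ]
  refine ⟨Efn T om a, kpn T om a, Ln T om a q, mx h n 0, fun j hj => H.diffE hj.le,
    fun j hj => H.diffK hj.le, fun j hj ζ hζ => ⟨H.perE hbβ hζ hj.le, H.perK hbβ hζ hj.le⟩,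
    ?_, fun j hj x => H.realE hbβ (hreal x) hj.le, H.diffL, fun ζ hζ => H.perL hbβ hζ, ?_, ?_⟩
  · intro j hj ζ hζ
    refine ⟨(H.boundE hC20 hq1 homdef hom1 hζ hbβ hj).trans ?_,
      (H.boundK hC20 hq1 homdef h2om hζ hbβ hj).trans ?_⟩
    · have : 4 * M ^ 3 + 3 * (1 + P) * C2 ≤ 4 * M0 ^ 3 + 3 * (1 + 8 * M0) * C2 := by (clear * - hM1 hM hPM hC2; gcongr)
      gcongr
      exact this.trans c4
    · have : 4 * M ^ 4 + (1 + 2 * P) * C2 ≤ 4 * M0 ^ 4 + (1 + 2 * (8 * M0)) * C2 := by (clear * - hM1 hM hPM hC2; gcongr)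
      gcongr
      exact this.trans c5
  · intro ζ hζ
    refine (H.boundL hq1 homdef h2om hζ).trans (le_trans ?_ c6)
    (clear * - hM1 hM hPM hP hM0; gcongr)
  · intro x
    obtain ⟨Z, hZ⟩ := exists_isMaxC hs.continuous n (T.z x).re
    have hc := hcst (T.z x).re
    have hmx := hZ.mx_eq hs.continuous
    have hZpos := isMaxC_pos_smooth hs hp hpos hZ
    have hZcrit := isMaxC_crit_smooth hs hp hpos hZ
    have hxβ : (x : ℂ) ∈ strip β := strip_mono hbβ (hreal x)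
    have hzr : (((T.z x).re : ℝ) : ℂ) = T.z x := by
      have h1 := z_conj (T := T) hxβ
      rw [Complex.conj_ofReal] at h1
      exact Complex.conj_eq_iff_re.1 h1.symm
    have hZ0 : (Z 0 : ℂ) = T.z x := by rw [hZ.1.1, hzr]
    have hZn : Z (n + 1) = Z 0 + 2 * Real.pi := by rw [hZ.1.2.1, hZ.1.1]
    have hcloseq := H.close x (hreal x)
    have hd := hsh M β P T hM h hs hp hpos E s n q hqn hcl hs0 hsβ hC1om hC1E a x
      (ha x (hreal x)) (by rw [← homdef]; exact hcloseq) Z hZpos hZn hZcrit hZ0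
    rw [← homdef] at hd
    have hU0 : (ph T om a 0 x).re = Z 0 := by
      have : ph T om a 0 x = T.z x := rfl
      rw [this, ← hZ0, ofReal_re]
    have hUn : (ph T om a (n + 1) x).re = Z (n + 1) := by
      have h1 : ph T om a q x ∈ T.D := (H.good x (hreal x) q le_rfl).mem
      have h2 := T.zX _ h1
      rw [hcloseq, z_per hxβ, ← hZ0] at h2
      rw [← hqn, ← h2, hqn, hZn]
      simp
    have hε : ∀ j ≤ n + 1, |(ph T om a j x).re - Z j| ≤ C1 * q * E := by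
      intro j hj
      have h1 := hd j (by (clear * - hqn hj; omega))
      have h2 : (ph T om a j x).re - Z j = (ph T om a j x - (Z j : ℂ)).re := by simp
      rw [h2]
      refine (abs_re_le_norm _).trans ?_
      rw [norm_sub_rev]
      exact h1
    have h2nd := second_order hs (B := 24 * M ^ 3) (fun x => bound_h hs hp hcl hE1 x)
      (U := fun j => (ph T om a j x).re) (Z := Z) hU0 hUn hZcrit hε
    have hLe := H.L_eq hqn hbβ hom0 (hreal x) h
    have e : (((mx h n 0 : ℝ) : ℂ)) - Ln T om a q x - (om : ℝ) * ∑ j ∈ Finset.range q,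
        kpn T om a j x * wd T h (x + (j + 1 / 2) * om + (Efn T om a j x).re)
        = -((L h n (fun j => (ph T om a j x).re) - L h n Z : ℝ) : ℂ) := by
      rw [ofReal_sub, hLe, ← hmx, hc]
      ring
    rw [e, norm_neg, norm_real, Real.norm_eq_abs]
    refine h2nd.trans ?_
    have hn1 : (n : ℝ) + 1 = q := by rw [hqn]; push_cast; ring
    rw [hn1]
    have hq3 : (q : ℝ) ^ 3 ≤ (q : ℝ) ^ 8 := pow_le_pow_right₀ hq0 (by norm_num)
    calc 4 * (24 * M ^ 3) * q * (C1 * q * E) ^ 2 = 96 * M ^ 3 * C1 ^ 2 * (q : ℝ) ^ 3 * E ^ 2 := by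
          ring
      _ ≤ 96 * M0 ^ 3 * C1 ^ 2 * (q : ℝ) ^ 8 * E ^ 2 := by (clear * - hM1 hM hC1 hq3 hq1 hM0; gcongr)
      _ ≤ CC * (q : ℝ) ^ 8 * E ^ 2 := by (clear * - c7 hq1; gcongr)

end Vale.Agent.P097.Reg
end

section

/-! Module R6, part A: cube root and inverse of a near-identity map of a strip. -/

namespace Vale.Agent.P097.Reg.U6

open Complex Set Filter Topology
open scoped ComplexConjugate

/-- cube root of `1 + w` -/
noncomputable def cr (w : ℂ) : ℂ := (1 + w) ^ (((3 : ℕ) : ℂ)⁻¹)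

theorem cr_pow (w : ℂ) : cr w ^ 3 = 1 + w := by
  unfold cr
  exact Complex.cpow_nat_inv_pow _ (by norm_num)

theorem re_pos {w : ℂ} (h : ‖w‖ < 1) : 0 < (1 + w).re := by
  have h1 := Complex.abs_re_le_norm w
  have h2 := neg_abs_le w.re
  simp only [add_re, one_re]
  linarith only [h, h1, h2]

theorem slit {w : ℂ} (h : ‖w‖ < 1) : 1 + w ∈ slitPlane := Or.inl (re_pos h)

theorem cr_eq {w : ℂ} (h : ‖w‖ < 1) : cr w = exp (log (1 + w) * ((3 : ℕ) : ℂ)⁻¹) := by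
  unfold cr
  rw [cpow_def_of_ne_zero (slitPlane_ne_zero (slit h))]

theorem im_log {w : ℂ} (h : ‖w‖ < 1) : |(log (1 + w)).im| < Real.pi / 2 := by
  rw [log_im]
  exact Complex.abs_arg_lt_pi_div_two_iff.mpr (Or.inl (re_pos h))

theorem re_exp_pos {z : ℂ} (h : |z.im| < Real.pi / 2) : 0 < (exp z).re := by
  rw [exp_re]
  apply mul_pos (Real.exp_pos _)
  apply Real.cos_pos_of_mem_Ioo
  rw [abs_lt] at h
  exact ⟨by linarith only [h], h.2⟩

theorem cr_re_pos {w : ℂ} (h : ‖w‖ < 1) : 0 < (cr w).re := by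
  rw [cr_eq h]
  apply re_exp_pos
  have h1 := im_log h
  have h2 : (log (1 + w) * ((3 : ℕ) : ℂ)⁻¹).im = (log (1 + w)).im / 3 := by
    have : (((3 : ℕ) : ℂ)⁻¹) = ((3⁻¹ : ℝ) : ℂ) := by push_cast; norm_num
    rw [this, Complex.im_mul_ofReal]
    ring
  rw [h2, abs_div]
  have : |(3 : ℝ)| = 3 := by norm_num
  rw [this]
  have := abs_nonneg (log (1 + w)).im
  linarith only [this, h1]

theorem cr_sq_re_pos {w : ℂ} (h : ‖w‖ < 1) : 0 < (cr w ^ 2).re := by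
  rw [cr_eq h, ← Complex.exp_nat_mul]
  apply re_exp_pos
  have h1 := im_log h
  have h2 : (((2 : ℕ) : ℂ) * (log (1 + w) * ((3 : ℕ) : ℂ)⁻¹)).im = (log (1 + w)).im * (2 / 3) := by
    have : (((2 : ℕ) : ℂ) * (log (1 + w) * ((3 : ℕ) : ℂ)⁻¹)) =
        log (1 + w) * ((2 / 3 : ℝ) : ℂ) := by push_cast; ring
    rw [this, Complex.im_mul_ofReal]
  rw [h2, abs_mul]
  have : |(2 / 3 : ℝ)| = 2 / 3 := by norm_num
  rw [this]
  have := abs_nonneg (log (1 + w)).im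
  linarith only [h1, this]

theorem cr_sub {w : ℂ} (h : ‖w‖ < 1) : ‖cr w - 1‖ ≤ ‖w‖ := by
  have h1 : (cr w - 1) * (cr w ^ 2 + cr w + 1) = w := by
    have := cr_pow w
    linear_combination this
  have h2 : 1 ≤ ‖cr w ^ 2 + cr w + 1‖ := by
    refine le_trans ?_ (Complex.abs_re_le_norm _)
    refine le_trans ?_ (le_abs_self _)
    simp only [add_re, one_re]
    have := cr_re_pos h
    have := cr_sq_re_pos h
    linarith
  calc ‖cr w - 1‖ ≤ ‖cr w - 1‖ * ‖cr w ^ 2 + cr w + 1‖ := le_mul_of_one_le_right (norm_nonneg _) h2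
    _ = ‖w‖ := by rw [← norm_mul, h1]

theorem cr_diff {w : ℂ} (h : ‖w‖ < 1) : DifferentiableAt ℂ cr w := by
  unfold cr
  exact (differentiableAt_const _).add differentiableAt_id |>.cpow_const (slit h)

theorem cr_conj {w : ℂ} (h : ‖w‖ < 1) : cr (conj w) = conj (cr w) := by
  unfold cr
  have h1 : 1 + conj w = conj (1 + w) := by simp
  have h2 : arg (1 + w) ≠ Real.pi := slitPlane_arg_ne_pi (slit h)
  have h3 : conj (((3 : ℕ) : ℂ)⁻¹) = ((3 : ℕ) : ℂ)⁻¹ := by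
    rw [map_inv₀, Complex.conj_natCast]
  rw [h1, Complex.conj_cpow _ _ h2, h3]

theorem convex_strip (b : ℝ) : Convex ℝ (strip b) := by
  have h : strip b = Complex.imCLM ⁻¹' (Set.Ioo (-b) b) := by
    ext ζ
    simp only [strip, abs_lt, mem_ofPred_eq, mem_preimage, imCLM_apply, mem_Ioo]
  rw [h]
  exact (convex_Ioo _ _).linear_preimage Complex.imCLM.toLinearMap

theorem strip_mono {b b' : ℝ} (h : b' ≤ b) : strip b' ⊆ strip b := fun ζ hζ => by
  have h1 : |ζ.im| < b' := hζ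
  show |ζ.im| < b
  linarith only [h, h1]

theorem isOpen_strip (b : ℝ) : IsOpen (strip b) :=
  isOpen_lt (Complex.continuous_im.abs) continuous_const

theorem real_mem {b : ℝ} (hb : 0 < b) (x : ℝ) : (x : ℂ) ∈ strip b := by
  simpa only [strip, mem_ofPred_eq, ofReal_im, abs_zero] using hb

theorem conj_mem {b : ℝ} {ζ : ℂ} (h : ζ ∈ strip b) : conj ζ ∈ strip b := by
  simpa only [strip, mem_ofPred_eq, conj_im, abs_neg] using h

theorem add_mem {b : ℝ} {ζ : ℂ} (h : ζ ∈ strip b) (P : ℝ) : ζ + P ∈ strip b := by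
  simpa [strip] using h

/-- the inverse of a near-identity map of a strip -/
theorem exists_inverse {b b' P κ : ℝ} {k : ℂ → ℂ} (hb' : 0 < b') (hb : b' < b)
    (hP : 0 < P) (hκ0 : 0 ≤ κ) (hκ : κ < 1) (hκb : κ * b ≤ b - b')
    (hk : DifferentiableOn ℂ k (strip b)) (hkb : ∀ ζ ∈ strip b, ‖k ζ‖ ≤ κ)
    (hkP : ∀ ζ ∈ strip b, k (ζ + P) = k ζ) (hkc : ∀ ζ ∈ strip b, k (conj ζ) = conj (k ζ)) :
    ∃ (H Z : ℂ → ℂ) (P' : ℝ), 0 < P' ∧
      (∀ ζ ∈ strip b, HasDerivAt H (1 + k ζ) ζ) ∧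
      (∀ ζ ∈ strip b, H (conj ζ) = conj (H ζ)) ∧
      (∀ ζ ∈ strip b, H (ζ + P) = H ζ + P') ∧
      (∀ ζ ∈ strip b', Z ζ ∈ strip b ∧ H (Z ζ) = ζ ∧ HasDerivAt Z (1 + k (Z ζ))⁻¹ ζ) ∧
      (∀ ζ ∈ strip b, H ζ ∈ strip b' → Z (H ζ) = ζ) := by
  have hbpos : 0 < b := hb'.trans hb
  have hco := isOpen_strip b
  have hcv := convex_strip b
  have hpre : IsPreconnected (strip b) := hcv.isPreconnected
  obtain ⟨e0, he0⟩ := hcv.exists_forall_hasDerivWithinAt hk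
  set e : ℂ → ℂ := fun ζ => e0 ζ - e0 0 with he
  have hde : ∀ ζ ∈ strip b, HasDerivAt e (k ζ) ζ := by
    intro ζ hζ
    exact ((he0 ζ hζ).hasDerivAt (hco.mem_nhds hζ)).sub_const _
  have h00 : e 0 = 0 := by simp [he]
  have h0m : (0 : ℂ) ∈ strip b := by simpa using real_mem hbpos 0
  have hconj : ∀ ζ ∈ strip b, e (conj ζ) = conj (e ζ) := by
    have hdc : ∀ ζ ∈ strip b, HasDerivAt (fun z => conj (e (conj z))) (k ζ) ζ := by
      intro ζ hζ
      have h1 := hde (conj ζ) (conj_mem hζ)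
      have h2 := h1.conj_conj
      rw [hkc ζ hζ] at h2
      simpa only [Function.comp_def, RingHomCompTriple.comp_apply, RingHom.id_apply] using h2
    have hEq : (strip b).EqOn (fun z => conj (e (conj z))) e := by
      apply hco.eqOn_of_deriv_eq hpre
      · exact fun ζ hζ => (hdc ζ hζ).differentiableAt.differentiableWithinAt
      · exact fun ζ hζ => (hde ζ hζ).differentiableAt.differentiableWithinAt
      · intro ζ hζ
        rw [(hdc ζ hζ).deriv, (hde ζ hζ).deriv]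
      · exact h0m
      · simp [h00]
    intro ζ hζ
    have := hEq hζ
    simp only at this
    rw [← this]
    simp
  have hreal : ∀ x : ℝ, (e x).im = 0 := by
    intro x
    have h1 := hconj x (real_mem hbpos x)
    rw [Complex.conj_ofReal] at h1
    exact Complex.conj_eq_iff_im.mp h1.symm
  have hlip : ∀ x ∈ strip b, ∀ y ∈ strip b, ‖e y - e x‖ ≤ κ * ‖y - x‖ := by
    intro x hx y hy
    exact hcv.norm_image_sub_le_of_norm_hasDerivWithin_le
      (fun z hz => (hde z hz).hasDerivWithinAt) hkb hx hy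
  have him : ∀ ζ ∈ strip b, |(e ζ).im| ≤ κ * |ζ.im| := by
    intro ζ hζ
    have h1 := hlip (ζ.re : ℂ) (real_mem hbpos _) ζ hζ
    have h2 : ζ - (ζ.re : ℂ) = ζ.im * I := by
      apply Complex.ext <;> simp
    rw [h2, norm_mul, Complex.norm_I, mul_one, Complex.norm_real] at h1
    have h3 : (e ζ - e (ζ.re : ℂ)).im = (e ζ).im := by
      rw [Complex.sub_im, hreal, sub_zero]
    calc |(e ζ).im| = |(e ζ - e (ζ.re : ℂ)).im| := by rw [h3]
      _ ≤ ‖e ζ - e (ζ.re : ℂ)‖ := Complex.abs_im_le_norm _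
      _ ≤ κ * |ζ.im| := by simpa only [Real.norm_eq_abs] using h1
  -- the period
  have hPmem : (P : ℂ) ∈ strip b := real_mem hbpos P
  have hper : ∀ ζ ∈ strip b, e (ζ + P) = e ζ + e P := by
    have hEq : (strip b).EqOn (fun z => e (z + P) - e P) e := by
      have hd1 : ∀ ζ ∈ strip b, HasDerivAt (fun z => e (z + P) - e P) (k ζ) ζ := by
        intro ζ hζ
        have h1 := (hde (ζ + P) (add_mem hζ P)).comp_add_const ζ (P : ℂ)
        rw [hkP ζ hζ] at h1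
        exact h1.sub_const _
      apply hco.eqOn_of_deriv_eq hpre
      · exact fun ζ hζ => (hd1 ζ hζ).differentiableAt.differentiableWithinAt
      · exact fun ζ hζ => (hde ζ hζ).differentiableAt.differentiableWithinAt
      · intro ζ hζ
        rw [(hd1 ζ hζ).deriv, (hde ζ hζ).deriv]
      · exact h0m
      · simp [h00]
    intro ζ hζ
    have := hEq hζ
    simp only at this
    rw [← this]
    ring
  have heP : e P = ((e P).re : ℂ) := by
    apply Complex.ext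
    · simp
    · simpa using hreal P
  have hP' : 0 < P + (e P).re := by
    have h1 := hlip 0 h0m P hPmem
    rw [h00, sub_zero, sub_zero, Complex.norm_real, Real.norm_eq_abs, abs_of_pos hP] at h1
    have h2 := Complex.abs_re_le_norm (e P)
    have h3 := neg_abs_le (e P).re
    linarith only [mul_pos (sub_pos.2 hP) (sub_pos.2 hκ), h3, h2, h1]
  set H : ℂ → ℂ := fun ζ => ζ + e ζ with hH
  have hdH : ∀ ζ ∈ strip b, HasDerivAt H (1 + k ζ) ζ := fun ζ hζ =>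
    (hasDerivAt_id ζ).add (hde ζ hζ)
  have hHlip : ∀ x ∈ strip b, ∀ y ∈ strip b, (1 - κ) * ‖y - x‖ ≤ ‖H y - H x‖ := by
    intro x hx y hy
    have h1 := hlip x hx y hy
    have h2 : H y - H x = (y - x) + (e y - e x) := by simp only [hH]; ring
    rw [h2]
    have h3 := norm_sub_le_norm_add (y - x) (e y - e x)
    linarith
  have hex : ∀ ζ ∈ strip b', ∃ v, v ∈ strip b ∧ H v = ζ := by
    intro ζ hζ
    set c : ℝ := |ζ.im| + κ * b with hc
    have hζ' : |ζ.im| < b' := hζ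
    have hcb : c < b := by rw [hc]; linarith
    set S : Set ℂ := {v | |v.im| ≤ c} with hS
    have hSc : IsClosed S := isClosed_le (Complex.continuous_im.abs) continuous_const
    have hSb : S ⊆ strip b := fun v hv => lt_of_le_of_lt hv hcb
    have hmap : MapsTo (fun v => ζ - e v) S S := by
      intro v hv
      have h1 := him v (hSb hv)
      have h2 : |v.im| ≤ b := le_of_lt (hSb hv)
      have h3 : κ * |v.im| ≤ κ * b := mul_le_mul_of_nonneg_left h2 hκ0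
      show |(ζ - e v).im| ≤ c
      rw [Complex.sub_im]
      have h4 := abs_sub ζ.im (e v).im
      linarith only [h1, h3, h4]
    have hcon : ContractingWith ⟨κ, hκ0⟩ (hmap.restrict (fun v => ζ - e v) S S) := by
      refine ⟨by exact_mod_cast hκ, ?_⟩
      apply LipschitzWith.of_dist_le_mul
      intro x y
      rw [Subtype.dist_eq, Subtype.dist_eq, dist_eq_norm, dist_eq_norm]
      simp only [MapsTo.val_restrict_apply]
      have h1 := hlip x (hSb x.2) y (hSb y.2)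
      have h2 : ζ - e x - (ζ - e y) = e y - e x := by ring
      rw [h2, norm_sub_rev (x : ℂ) y]
      exact h1
    have h0S : ζ ∈ S := by
      show |ζ.im| ≤ c
      have : 0 ≤ κ * b := by (clear * - hκ0 hbpos; positivity)
      linarith only [this]
    obtain ⟨v, hvS, hfix, -⟩ := ContractingWith.exists_fixedPoint' hSc.isComplete hmap hcon h0S
      (edist_ne_top _ _)
    refine ⟨v, hSb hvS, ?_⟩
    have h5 : ζ - e v = v := hfix
    simp only [hH]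
    rw [← h5]
    have h6 : e (ζ - e v) = e v := by rw [h5]
    rw [h6]
    ring
  choose! Z hZm hZ using hex
  have hinj : ∀ ζ ∈ strip b, H ζ ∈ strip b' → Z (H ζ) = ζ := by
    intro ζ hζ hm
    have h1 := hHlip ζ hζ (Z (H ζ)) (hZm _ hm)
    rw [hZ _ hm, sub_self, norm_zero] at h1
    have h2 : ‖Z (H ζ) - ζ‖ = 0 := by
      have h3 : 0 < 1 - κ := by linarith only [hκ]
      have h4 := norm_nonneg (Z (H ζ) - ζ)
      nlinarith only [h4, h1, hκ]
    exact sub_eq_zero.mp (norm_eq_zero.mp h2)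
  refine ⟨H, Z, P + (e P).re, hP', hdH, ?_, ?_, ?_, hinj⟩
  · intro ζ hζ
    simp only [hH, map_add, hconj ζ hζ]
  · intro ζ hζ
    have h1 : ((P + (e P).re : ℝ) : ℂ) = P + e P := by
      rw [Complex.ofReal_add, ← heP]
    rw [h1]
    simp only [hH, hper ζ hζ]
    ring
  · intro ζ hζ
    refine ⟨hZm ζ hζ, hZ ζ hζ, ?_⟩
    have hopen' := isOpen_strip b'
    have hZc : ContinuousAt Z ζ := by
      have h3 : 0 < 1 - κ := by linarith
      rw [Metric.continuousAt_iff]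
      intro ε hε
      obtain ⟨r, hr, hball⟩ := Metric.isOpen_iff.mp hopen' ζ hζ
      refine ⟨min r ((1 - κ) * ε), lt_min hr (by positivity), ?_⟩
      intro x hx
      have hxm : x ∈ strip b' := hball (lt_of_lt_of_le hx (min_le_left _ _))
      have h1 := hHlip (Z ζ) (hZm ζ hζ) (Z x) (hZm x hxm)
      rw [hZ ζ hζ, hZ x hxm] at h1
      have h2 : ‖x - ζ‖ < (1 - κ) * ε := by
        rw [← dist_eq_norm]
        exact lt_of_lt_of_le hx (min_le_right _ _)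
      rw [dist_eq_norm]
      have h4 := lt_of_le_of_lt h1 h2
      exact lt_of_mul_lt_mul_left h4 h3.le
    have hne : 1 + k (Z ζ) ≠ 0 := by
      intro h0
      have h1 := hkb (Z ζ) (hZm ζ hζ)
      have h2 : k (Z ζ) = -1 := by linear_combination h0
      rw [h2, norm_neg, norm_one] at h1
      linarith only [hκ, h1]
    exact HasDerivAt.of_local_left_inverse hZc (hdH _ (hZm ζ hζ)) hne
      (by filter_upwards [hopen'.mem_nhds hζ] with y hy using hZ y hy)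

end Vale.Agent.P097.Reg.U6
end

section

/-! Module R6: changing the complexified table. -/

namespace Vale.Agent.P097.Reg.U6

open Complex Set Filter Topology
open scoped ComplexConjugate

theorem _root_.Vale.Agent.P097.Reg.exists_update (M0 : ℝ) (hM0 : 1 ≤ M0) : ∃ C : ℝ, 1 ≤ C ∧
    ∀ (M β P : ℝ) (T : CTab M β P) (s τ : ℝ) (g : ℂ → ℂ), M + 1 ≤ M0 → 0 < s → 4 * s ≤ β →
      0 ≤ τ → C * τ ≤ s ^ 7 →
      DifferentiableOn ℂ g {ψ | ψ ∈ T.D ∧ |(T.X ψ).im| < β - s} →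
      (∀ ψ ∈ T.D, |(T.X ψ).im| < β - s → ‖g ψ‖ ≤ τ ∧ g (conj ψ) = conj (g ψ) ∧
        g (ψ + 2 * Real.pi) = g ψ) →
      ∃ (P' : ℝ) (T' : CTab (M + s) (β - 3 * s) P'),
        (∀ ψ ∈ T'.D, ψ ∈ T.D ∧ |(T.X ψ).im| < β - s) ∧
        ∀ ψ ∈ T'.D, T'.G ψ = T.G ψ + g ψ := by
  refine ⟨3456 * M0 ^ 9, by linarith only [one_le_pow₀ hM0 (n := 9)], ?_⟩
  intro M β P T s τ g hMM0 hs hsβ hτ hCτ hgd hg
  have hM1 := T.M1
  have hβ1 := T.β1
  have hM : 0 < M := lt_of_lt_of_le one_pos hM1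
  have hM0p : 0 < M0 := lt_of_lt_of_le one_pos hM0
  have hs1 : s ≤ 1 / 4 := by linarith only [hsβ, hβ1]
  have hs1' : s ≤ 1 := by linarith only [hsβ, hβ1]
  have hMM : M ≤ M0 := by linarith only [hMM0]
  -- numerical facts
  have hp : ∀ n : ℕ, 1 ≤ M0 ^ n := fun n => one_le_pow₀ hM0
  have hτs : 3456 * M0 ^ 9 * τ / s ^ 5 ≤ s ^ 2 := by
    rw [div_le_iff₀ (by positivity)]
    calc 3456 * M0 ^ 9 * τ ≤ s ^ 7 := hCτ
      _ = s ^ 2 * s ^ 5 := by ring
  have hs52 : s ^ 5 ≤ s ^ 2 := pow_le_pow_of_le_one hs.le hs1' (by norm_num)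
  have hss : s ^ 2 ≤ s := by (by_contra nlg; linarith [mul_nonneg (le_of_lt (sub_pos.2 hs)) (sub_nonneg.2 hβ1), mul_nonneg (le_of_lt (sub_pos.2 hs)) (sub_nonneg.2 hsβ), mul_pos (sub_pos.2 hs) (sub_pos.2 hs), mul_nonneg (le_of_lt (sub_pos.2 (not_le.1 nlg))) (sub_nonneg.2 hβ1), mul_nonneg (le_of_lt (sub_pos.2 (not_le.1 nlg))) (sub_nonneg.2 hsβ), mul_pos (sub_pos.2 (not_le.1 nlg)) (sub_pos.2 hs)])
  set W : ℝ := 9 * M0 ^ 5 * τ / s ^ 2 with hW
  have hW0 : 0 ≤ W := by (clear * - hM0 hτ hs; positivity)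
  -- W M0^4 * 384 = 3456 M0^9 τ / s^2
  have hWs : 384 * M0 ^ 4 * W ≤ s ^ 5 := by
    have : 384 * M0 ^ 4 * W = 3456 * M0 ^ 9 * τ / s ^ 2 := by rw [hW]; ring
    rw [this, div_le_iff₀ (by positivity)]
    calc 3456 * M0 ^ 9 * τ ≤ s ^ 7 := hCτ
      _ = s ^ 5 * s ^ 2 := by ring
  have hWle : W ≤ s / 384 := by
    have h1 : W ≤ M0 ^ 4 * W := le_mul_of_one_le_left hW0 (hp 4)
    have h2 : s ^ 5 ≤ s := by
      calc s ^ 5 ≤ s ^ 1 := pow_le_pow_of_le_one hs.le hs1' (by norm_num)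
        _ = s := pow_one s
    linarith only [hs52, hss, hWs, h1]
  have hW1 : W < 1 := by linarith only [hsβ, hβ1, hWle]
  -- the regions
  have hregs : {ψ | ψ ∈ T.D ∧ |(T.X ψ).im| < β - s} = reg T s := rfl
  rw [hregs] at hgd
  have hgb : ∀ ψ ∈ reg T s, ‖g ψ‖ ≤ τ := fun ψ hψ => (hg ψ hψ.1 hψ.2).1
  have hgc : ∀ ψ ∈ reg T s, g (conj ψ) = conj (g ψ) := fun ψ hψ => (hg ψ hψ.1 hψ.2).2.1
  have hgp : ∀ ψ ∈ reg T s, g (ψ + 2 * Real.pi) = g ψ := fun ψ hψ => (hg ψ hψ.1 hψ.2).2.2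
  have hos : IsOpen (reg T s) := isOpen_reg T s
  have ho2 : IsOpen (reg T (2 * s)) := isOpen_reg T (2 * s)
  have h12 : reg T (2 * s) ⊆ reg T s := reg_mono T (by linarith only [hs])
  have h23 : reg T (5 / 2 * s) ⊆ reg T (2 * s) := reg_mono T (by linarith only [hs])
  have hdg : DifferentiableOn ℂ (deriv g) (reg T s) := hgd.deriv hos
  have hddg : DifferentiableOn ℂ (deriv (deriv g)) (reg T s) := hdg.deriv hos
  have hddb : ∀ ψ ∈ reg T (2 * s), ‖deriv (deriv g) ψ‖ ≤ 8 * M ^ 2 * τ / s ^ 2 := by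
    intro ψ hψ
    have h1 := cauchy_reg T hs.le (by linarith only [hs] : s < 2 * s) hgd hgb 2 hψ
    rw [iter2] at h1
    refine h1.trans (le_of_eq ?_)
    simp only [Nat.factorial]
    field_simp
    ring
  set w : ℂ → ℂ := fun ψ => (g ψ + deriv (deriv g) ψ) / T.lam ψ ^ 3 with hw
  have hlam0 : ∀ ψ ∈ T.D, T.lam ψ ≠ 0 := by
    intro ψ hψ h0
    have := T.bl ψ hψ
    rw [h0, norm_zero, mul_zero] at this
    linarith only [this]
  have hlaminv : ∀ ψ ∈ T.D, ‖(T.lam ψ ^ 3)⁻¹‖ ≤ M ^ 3 := by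
    intro ψ hψ
    have h1 := T.bl ψ hψ
    have h2 : 0 < ‖T.lam ψ‖ := norm_pos_iff.mpr (hlam0 ψ hψ)
    rw [norm_inv, norm_pow, inv_le_iff_one_le_mul₀ (by (clear * - h2; positivity)), ← mul_pow]
    exact one_le_pow₀ h1
  have hwb : ∀ ψ ∈ reg T (2 * s), ‖w ψ‖ ≤ W := by
    intro ψ hψ
    have h1 := hgb ψ (h12 hψ)
    have h2 := hddb ψ hψ
    have h3 := hlaminv ψ hψ.1
    have h4 : ‖w ψ‖ ≤ (τ + 8 * M ^ 2 * τ / s ^ 2) * M ^ 3 := by
      simp only [hw]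
      rw [div_eq_mul_inv, norm_mul]
      apply mul_le_mul _ h3 (norm_nonneg _) (by (clear * - hτ hM1 hs; positivity))
      exact (norm_add_le _ _).trans (add_le_add h1 h2)
    have h5 : τ ≤ M ^ 2 * τ / s ^ 2 := by
      rw [le_div_iff₀ (by positivity)]
      have h6 : s ^ 2 ≤ 1 := by nlinarith only [hss]
      have h7 : 1 ≤ M ^ 2 := one_le_pow₀ hM1
      nlinarith only [hτ, hsβ, hβ1, hss, h7]
    have h6 : (τ + 8 * M ^ 2 * τ / s ^ 2) * M ^ 3 ≤ 9 * M ^ 5 * τ / s ^ 2 := by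
      have : 9 * M ^ 5 * τ / s ^ 2 = (M ^ 2 * τ / s ^ 2 + 8 * M ^ 2 * τ / s ^ 2) * M ^ 3 := by
        field_simp; ring
      rw [this]
      (clear * - h5 hM1; gcongr)
    have h7 : 9 * M ^ 5 * τ / s ^ 2 ≤ W := by
      rw [hW]
      (clear * - hM1 hMM hτ hs; gcongr)
    linarith only [h7, h6, h4]
  have hw1 : ∀ ψ ∈ reg T (2 * s), ‖w ψ‖ < 1 := fun ψ hψ => lt_of_le_of_lt (hwb ψ hψ) hW1
  have hwd : DifferentiableOn ℂ w (reg T (2 * s)) := by
    simp only [hw]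
    apply DifferentiableOn.div
    · exact (hgd.mono h12).add (hddg.mono h12)
    · exact (T.dlam.mono fun ψ hψ => hψ.1).pow 3
    · intro ψ hψ
      exact pow_ne_zero 3 (hlam0 ψ hψ.1)
  have hwp : ∀ ψ ∈ reg T s, w (ψ + 2 * Real.pi) = w ψ := by
    intro ψ hψ
    simp only [hw]
    rw [hgp ψ hψ, deriv_per hos (deriv_per hos hgp) ψ hψ, T.plam ψ hψ.1]
  have hwc : ∀ ψ ∈ reg T s, w (conj ψ) = conj (w ψ) := by
    intro ψ hψ
    simp only [hw]
    rw [hgc ψ hψ, U6.deriv_conj hos (U6.deriv_conj hos hgc) ψ hψ, T.clam ψ hψ.1]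
    simp only [map_div₀, map_add, map_pow]
  -- the function `k` in the coordinate
  set k : ℂ → ℂ := fun ζ => cr (w (T.z ζ)) - 1 with hk
  have hzreg : ∀ t, 0 ≤ t → ∀ ζ ∈ strip (β - t), T.z ζ ∈ reg T t := by
    intro t ht ζ hζ
    have h1 : ζ ∈ strip β := strip_mono (by linarith only [ht]) hζ
    refine ⟨T.zD ζ h1, ?_⟩
    rw [T.Xz ζ h1]
    exact hζ
  set b : ℝ := β - 5 / 2 * s with hb
  set b' : ℝ := β - 3 * s with hb'
  have hbb : b' < b := by linarith only [hb, hs]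
  have hb'0 : 0 < b' := by linarith only [hs, hsβ]
  have hstb : ∀ ζ ∈ strip b, ζ ∈ strip β := fun ζ hζ => strip_mono (by linarith only [hs, hb]) hζ
  have hz2 : ∀ ζ ∈ strip b, T.z ζ ∈ reg T (2 * s) := fun ζ hζ =>
    h23 (hzreg (5 / 2 * s) (by linarith only [hs]) ζ hζ)
  obtain ⟨H, Z, P', hP', hHd, hHc, hHp, hZ, hZH⟩ := exists_inverse (b := b) (b' := b') (P := P)
    (κ := W) (k := k) hb'0 hbb T.P0 hW0 hW1 (by
      have h1 : W * b ≤ s / 384 * 1 := by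
        apply mul_le_mul hWle _ (by linarith only [hs, hsβ, hbb]) (by positivity)
        linarith only [hs, hβ1, hb]
      linarith only [hb, hbb, h1])
    (by
      intro ζ hζ
      have h1 : HasDerivAt T.z (T.lam (T.z ζ))⁻¹ ζ := T.dz ζ (hstb ζ hζ)
      have h2 : DifferentiableAt ℂ w (T.z ζ) := hwd.differentiableAt (ho2.mem_nhds (hz2 ζ hζ))
      have h3 : DifferentiableAt ℂ cr (w (T.z ζ)) := cr_diff (hw1 _ (hz2 ζ hζ))
      have h4 : DifferentiableAt ℂ k ζ := by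
        simp only [hk]
        exact ((h3.comp ζ (h2.comp ζ h1.differentiableAt))).sub_const 1
      exact h4.differentiableWithinAt)
    (by
      intro ζ hζ
      exact (cr_sub (hw1 _ (hz2 ζ hζ))).trans (hwb _ (hz2 ζ hζ)))
    (by
      intro ζ hζ
      simp only [hk]
      rw [z_per T (hstb ζ hζ), hwp _ (h12 (hz2 ζ hζ))])
    (by
      intro ζ hζ
      simp only [hk]
      rw [z_conj T (hstb ζ hζ), hwc _ (h12 (hz2 ζ hζ)), cr_conj (hw1 _ (hz2 ζ hζ))]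
      simp only [map_sub, map_one])
  have hkX : ∀ ψ ∈ reg T (5 / 2 * s), 1 + k (T.X ψ) = cr (w ψ) := by
    intro ψ hψ
    simp only [hk]
    rw [T.zX ψ hψ.1]
    ring
  -- the new functions
  set lam' : ℂ → ℂ := fun ψ => T.lam ψ * cr (w ψ) with hlam'
  set e : ℂ → ℂ := fun ψ => T.lam ψ * (cr (w ψ) - 1) with he
  have hlame : lam' = fun ψ => T.lam ψ + e ψ := by
    funext ψ
    simp only [hlam', he]
    ring
  have hed : DifferentiableOn ℂ e (reg T (2 * s)) := by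
    intro ψ hψ
    have h1 : DifferentiableAt ℂ T.lam ψ :=
      T.dlam.differentiableAt (T.isOpen.mem_nhds hψ.1)
    have h2 : DifferentiableAt ℂ w ψ := hwd.differentiableAt (ho2.mem_nhds hψ)
    have h3 : DifferentiableAt ℂ cr (w ψ) := cr_diff (hw1 _ hψ)
    have h4 : DifferentiableAt ℂ e ψ := by
      simp only [he]
      exact h1.mul ((h3.comp ψ h2).sub_const 1)
    exact h4.differentiableWithinAt
  have heb : ∀ ψ ∈ reg T (2 * s), ‖e ψ‖ ≤ M0 * W := by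
    intro ψ hψ
    simp only [he]
    rw [norm_mul]
    apply mul_le_mul ((T.b0 ψ hψ.1).trans hMM) _ (norm_nonneg _) hM0p.le
    exact (cr_sub (hw1 _ hψ)).trans (hwb _ hψ)
  have hlamd2 : DifferentiableOn ℂ T.lam (reg T (2 * s)) := T.dlam.mono fun ψ hψ => hψ.1
  have hei : ∀ i ≤ 3, ∀ ψ ∈ reg T (5 / 2 * s), ‖iteratedDeriv i e ψ‖ ≤ s := by
    intro i hi ψ hψ
    have h1 := cauchy_reg T (by linarith only [hs] : 0 ≤ 2 * s) (by linarith only [hs] : 2 * s < 5 / 2 * s) hed heb i hψ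
    refine h1.trans ?_
    have hr : (5 / 2 * s - 2 * s) / (2 * M) = s / (4 * M) := by field_simp; ring
    rw [hr]
    have hr0 : 0 < s / (4 * M) := by positivity
    have hr1 : s / (4 * M) ≤ 1 := by
      rw [div_le_one (by positivity)]
      linarith only [hsβ, hM1, hβ1]
    have h2 : (s / (4 * M0)) ^ 3 ≤ (s / (4 * M)) ^ i := by
      calc (s / (4 * M0)) ^ 3 ≤ (s / (4 * M)) ^ 3 := by (clear * - hs hM0 hM1 hMM; gcongr)
        _ ≤ (s / (4 * M)) ^ i := pow_le_pow_of_le_one hr0.le hr1 hi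
    have h3 : (i.factorial : ℝ) ≤ 6 := by
      have : i.factorial ≤ Nat.factorial 3 := Nat.factorial_le hi
      have h4 : Nat.factorial 3 = 6 := rfl
      rw [h4] at this
      exact_mod_cast this
    calc (i.factorial : ℝ) * (M0 * W) / (s / (4 * M)) ^ i
        ≤ 6 * (M0 * W) / (s / (4 * M0)) ^ 3 := by
          (clear * - hM0 hτ hs h3 h2; gcongr)
      _ = 384 * M0 ^ 4 * W / s ^ 3 := by
          field_simp
          ring
      _ ≤ s ^ 5 / s ^ 3 := by (clear * - hWs hs; gcongr)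
      _ = s ^ 2 := by field_simp
      _ ≤ s := hss
  have hli : ∀ i ≤ 3, ∀ ψ ∈ reg T (5 / 2 * s),
      ‖iteratedDeriv i lam' ψ‖ ≤ ‖iteratedDeriv i T.lam ψ‖ + s := by
    intro i hi ψ hψ
    rw [hlame, iter_add ho2 hlamd2 hed i (h23 hψ)]
    exact (norm_add_le _ _).trans (add_le_add le_rfl (hei i hi ψ hψ))
  set D' : Set ℂ := {ψ | ψ ∈ reg T (5 / 2 * s) ∧ |(H (T.X ψ)).im| < b'} with hD'
  have hXst : ∀ ψ ∈ reg T (5 / 2 * s), T.X ψ ∈ strip b := fun ψ hψ => hψ.2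
  have hD'r : ∀ ψ ∈ D', ψ ∈ reg T (5 / 2 * s) := fun ψ hψ => hψ.1
  have hHX : ∀ ψ ∈ reg T (5 / 2 * s), HasDerivAt (fun ψ => H (T.X ψ)) (lam' ψ) ψ := by
    intro ψ hψ
    have h1 := (hHd _ (hXst ψ hψ)).comp ψ (T.dX ψ hψ.1)
    rw [hkX ψ hψ, mul_comm] at h1
    exact h1
  have hrealreg : ∀ x : ℝ, (x : ℂ) ∈ reg T (5 / 2 * s) := by
    intro x
    refine ⟨T.rD x, ?_⟩
    rw [X_real T x, abs_zero]
    linarith only [hs, hsβ]
  have hlamc : ∀ ψ ∈ reg T (5 / 2 * s), lam' (conj ψ) = conj (lam' ψ) := by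
    intro ψ hψ
    simp only [hlam']
    rw [T.clam ψ hψ.1, hwc ψ (h12 (h23 hψ)), cr_conj (hw1 ψ (h23 hψ)), map_mul]
  have hXc : ∀ ψ ∈ reg T (5 / 2 * s), H (T.X (conj ψ)) = conj (H (T.X ψ)) := by
    intro ψ hψ
    rw [T.cX ψ hψ.1, hHc _ (hXst ψ hψ)]
  have hXp : ∀ ψ ∈ reg T (5 / 2 * s), H (T.X (ψ + 2 * Real.pi)) = H (T.X ψ) + P' := by
    intro ψ hψ
    rw [T.pX ψ hψ.1, hHp _ (hXst ψ hψ)]
  refine ⟨P', ?_, ?_, ?_⟩
  · exact
    { D := D'
      G := fun ψ => T.G ψ + g ψ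
      lam := lam'
      X := fun ψ => H (T.X ψ)
      z := fun ζ => T.z (Z ζ)
      M1 := by linarith only [hs, hM1]
      β0 := hb'0
      β1 := by linarith only [hs, hβ1]
      P0 := hP'
      isOpen := by
        have h1 : ContinuousOn (fun ψ => |(H (T.X ψ)).im|) (reg T (5 / 2 * s)) :=
          (Complex.continuous_im.comp_continuousOn
            (fun ψ hψ => (hHX ψ hψ).continuousAt.continuousWithinAt)).abs
        exact h1.isOpen_inter_preimage (isOpen_reg T _) isOpen_Iio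
      dG := (T.dG.mono fun ψ hψ => (hD'r ψ hψ).1).add
        (hgd.mono fun ψ hψ => h12 (h23 (hD'r ψ hψ)))
      dlam := by
        rw [hlame]
        exact (hlamd2.add hed).mono fun ψ hψ => h23 (hD'r ψ hψ)
      dX := fun ψ hψ => hHX ψ (hD'r ψ hψ)
      dz := by
        intro ζ hζ
        obtain ⟨h1, h2, h3⟩ := hZ ζ hζ
        have h4 := (T.dz (Z ζ) (hstb _ h1)).comp ζ h3
        have h5 : (lam' (T.z (Z ζ)))⁻¹ = (T.lam (T.z (Z ζ)))⁻¹ * (1 + k (Z ζ))⁻¹ := by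
          simp only [hlam', hk]
          rw [← mul_inv]
          congr 2
          ring
        rw [h5]
        exact h4
      XD := fun ψ hψ => hψ.2
      zD := by
        intro ζ hζ
        obtain ⟨h1, h2, h3⟩ := hZ ζ hζ
        refine ⟨hzreg (5 / 2 * s) (by linarith only [hs]) _ h1, ?_⟩
        rw [T.Xz _ (hstb _ h1), h2]
        exact hζ
      zX := by
        intro ψ hψ
        show T.z (Z (H (T.X ψ))) = ψ
        rw [hZH _ (hXst ψ hψ.1) hψ.2, T.zX ψ hψ.1.1]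
      Xz := by
        intro ζ hζ
        obtain ⟨h1, h2, h3⟩ := hZ ζ hζ
        show H (T.X (T.z (Z ζ))) = ζ
        rw [T.Xz _ (hstb _ h1), h2]
      rho := by
        intro ψ hψ
        have hψ1 : ψ ∈ reg T s := h12 (h23 (hD'r ψ hψ))
        have h1 := iter_add hos (T.dG.mono fun ψ hψ => hψ.1) hgd 2 hψ1
        rw [iter2, iter2, iter2] at h1
        show T.G ψ + g ψ + deriv (deriv fun ψ => T.G ψ + g ψ) ψ = lam' ψ ^ 3
        rw [h1]
        have h2 := T.rho ψ hψ1.1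
        simp only [hlam']
        rw [mul_pow, cr_pow]
        simp only [hw]
        have h3 := pow_ne_zero 3 (hlam0 ψ hψ1.1)
        rw [mul_add, mul_one, mul_div_cancel₀ _ h3, ← h2]
        ring
      bG := by
        intro ψ hψ
        have hψ1 : ψ ∈ reg T s := h12 (h23 (hD'r ψ hψ))
        have h1 := T.bG ψ hψ1.1
        have h2 := hgb ψ hψ1
        have h3 : τ ≤ s := by
          have h4 : τ ≤ 3456 * M0 ^ 9 * τ := by
            have := hp 9
            nlinarith only [hτ, this]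
          have h5 : s ^ 7 ≤ s := by
            calc s ^ 7 ≤ s ^ 1 := pow_le_pow_of_le_one hs.le hs1' (by norm_num)
              _ = s := pow_one s
          linarith only [hCτ, h4, h5]
        exact (norm_add_le _ _).trans (by linarith only [h1, h2, h3])
      b0 := by
        intro ψ hψ
        have h1 := hli 0 (by norm_num) ψ (hD'r ψ hψ)
        rw [iteratedDeriv_zero, iteratedDeriv_zero] at h1
        linarith only [h1, T.b0 ψ (hD'r ψ hψ).1]
      b1 := by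
        intro ψ hψ
        have h1 := hli 1 (by norm_num) ψ (hD'r ψ hψ)
        rw [iter1, iter1] at h1
        linarith only [h1, T.b1 ψ (hD'r ψ hψ).1]
      b2 := by
        intro ψ hψ
        have h1 := hli 2 (by norm_num) ψ (hD'r ψ hψ)
        rw [iter2, iter2] at h1
        linarith only [h1, T.b2 ψ (hD'r ψ hψ).1]
      b3 := by
        intro ψ hψ
        have h1 := hli 3 (by norm_num) ψ (hD'r ψ hψ)
        rw [iter3, iter3] at h1
        linarith only [h1, T.b3 ψ (hD'r ψ hψ).1]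
      bl := by
        intro ψ hψ
        have hψ2 : ψ ∈ reg T (2 * s) := h23 (hD'r ψ hψ)
        have h1 := T.bl ψ hψ2.1
        have h2 := heb ψ hψ2
        have h3 : ‖T.lam ψ‖ ≤ ‖lam' ψ‖ + ‖e ψ‖ := by
          have : T.lam ψ = lam' ψ - e ψ := by
            rw [hlame]; ring
          rw [this]
          exact norm_sub_le _ _
        -- `(M + s) ‖lam'‖ ≥ (M + s) (‖lam‖ - M0 W)`
        have h4 : (M + s) * (M0 * W) ≤ s / M := by
          rw [le_div_iff₀ hM]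
          have h5 : (M + s) ≤ M0 := by linarith only [hMM0, hsβ, hβ1]
          have h6 : (M + s) * (M0 * W) * M ≤ M0 * (M0 * W) * M0 := by (clear * - h5 hM0 hτ hs hMM hM1; gcongr)
          have h7 : M0 * (M0 * W) * M0 = M0 ^ 3 * W := by ring
          have h8 : M0 ^ 3 * W ≤ M0 ^ 4 * W := by
            apply mul_le_mul_of_nonneg_right _ hW0
            exact pow_le_pow_right₀ hM0 (by norm_num)
          have h9 : s ^ 5 ≤ s := by
            calc s ^ 5 ≤ s ^ 1 := pow_le_pow_of_le_one hs.le hs1' (by norm_num)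
              _ = s := pow_one s
          have h10 : 0 ≤ M0 ^ 4 * W := by (clear * - hM0 hτ hs; positivity)
          linarith only [h8, h6, hWs, hss, hs52, hs]
        have h5 : 1 / M ≤ ‖T.lam ψ‖ := by
          rw [div_le_iff₀ hM]
          linarith only [h1]
        have h6 : 1 + s / M ≤ (M + s) * ‖T.lam ψ‖ := by
          calc 1 + s / M = (M + s) * (1 / M) := by (clear * - hM1 hs; field_simp)
            _ ≤ (M + s) * ‖T.lam ψ‖ := by (clear * - h5 hM1 hs; gcongr)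
        have h7 : (M + s) * ‖T.lam ψ‖ ≤ (M + s) * ‖lam' ψ‖ + (M + s) * (M0 * W) := by
          rw [← mul_add]
          gcongr
          linarith only [h2, h3]
        linarith only [h4, h6, h7]
      cD := by
        intro ψ hψ
        refine ⟨reg_conj T hψ.1, ?_⟩
        rw [hXc ψ hψ.1, Complex.conj_im, abs_neg]
        exact hψ.2
      cG := by
        intro ψ hψ
        show T.G (conj ψ) + g (conj ψ) = conj (T.G ψ + g ψ)
        rw [T.cG ψ hψ.1.1, hgc ψ (h12 (h23 hψ.1)), map_add]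
      clam := fun ψ hψ => hlamc ψ hψ.1
      cX := fun ψ hψ => hXc ψ hψ.1
      rD := by
        intro x
        refine ⟨hrealreg x, ?_⟩
        have h1 := hXc x (hrealreg x)
        rw [Complex.conj_ofReal] at h1
        rw [Complex.conj_eq_iff_im.1 h1.symm, abs_zero]
        exact hb'0
      rpos := by
        intro x
        have h1 := T.rpos x
        have h2 := lam_real T x
        have h3 := cr_re_pos (hw1 x (h23 (hrealreg x)))
        simp only [hlam']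
        rw [Complex.mul_re, h2, zero_mul, sub_zero]
        (clear * - h1 h3; positivity)
      pD := by
        intro ψ hψ
        refine ⟨reg_add T hψ.1, ?_⟩
        rw [hXp ψ hψ.1, Complex.add_im, Complex.ofReal_im, add_zero]
        exact hψ.2
      mD := by
        intro ψ hψ
        have h0 := reg_sub T hψ.1
        refine ⟨h0, ?_⟩
        have h1 := hXp _ h0
        rw [sub_add_cancel] at h1
        have h2 : (H (T.X ψ)).im = (H (T.X (ψ - 2 * Real.pi))).im := by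
          rw [h1, Complex.add_im, Complex.ofReal_im, add_zero]
        rw [← h2]
        exact hψ.2
      pG := by
        intro ψ hψ
        show T.G (ψ + 2 * Real.pi) + g (ψ + 2 * Real.pi) = T.G ψ + g ψ
        rw [T.pG ψ hψ.1.1, hgp ψ (h12 (h23 hψ.1))]
      plam := by
        intro ψ hψ
        simp only [hlam']
        rw [T.plam ψ hψ.1.1, hwp ψ (h12 (h23 hψ.1))]
      pX := fun ψ hψ => hXp ψ hψ.1 }
  · intro ψ hψ
    exact h12 (h23 (hD'r ψ hψ))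
  · intro ψ hψ
    rfl

end Vale.Agent.P097.Reg.U6
end

section

/-!
# P097, R10: weighted bound
-/

namespace Vale.Agent.P097.Reg

theorem Wg_slow {Λ T : ℝ} (hΛ : 0 ≤ Λ) (hT : 1 ≤ T) (q : ℕ) (m n : ℤ) :
    0 < Wg Λ T q n ∧ Wg Λ T q m ≤ Wg Λ T q n * Real.exp (Λ * |(m : ℝ) - n|) := by
  have hT0 : 0 < T := lt_of_lt_of_le one_pos hT
  refine ⟨lt_min (Real.exp_pos _) hT0, ?_⟩
  have he : 0 ≤ Real.exp (Λ * |(m : ℝ) - n|) := (Real.exp_pos _).le
  unfold Wg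
  rw [min_mul_of_nonneg _ _ he]
  refine min_le_min ?_ ?_
  · rw [← Real.exp_add, ← mul_add]
    refine Real.exp_le_exp.2 (mul_le_mul_of_nonneg_left ?_ hΛ)
    have h1 : |(m : ℝ)| ≤ |(n : ℝ)| + |(m : ℝ) - n| := by
      have h2 := abs_add_le (n : ℝ) ((m : ℝ) - n)
      rwa [add_sub_cancel] at h2
    refine max_le ?_ (add_nonneg (le_max_right _ _) (abs_nonneg _))
    have h3 := le_max_left (|(n : ℝ)| - q) 0
    linarith
  · have h1 : (1 : ℝ) ≤ Real.exp (Λ * |(m : ℝ) - n|) :=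
      Real.one_le_exp (mul_nonneg hΛ (abs_nonneg _))
    linarith only [mul_nonneg (le_of_lt (sub_pos.2 hT0)) (sub_nonneg.2 h1)]

theorem Wg_neg (Λ T : ℝ) (q : ℕ) (n : ℤ) : Wg Λ T q (-n) = Wg Λ T q n := by
  unfold Wg
  rw [Int.cast_neg, abs_neg]

theorem weighted_bound {Λ T A : ℝ} (hΛ : 0 ≤ Λ) (hT : 1 ≤ T) (hA : 0 ≤ A) {q1 q2 : ℕ}
    {c : ℤ → ℂ} (hc : ∀ n, ‖c (-n)‖ = ‖c n‖) (h1 : ∀ n : ℤ, |n| ≤ q1 → ‖c n‖ ≤ 1)
    (h2 : ∀ n : ℤ, (q2 : ℤ) < |n| → ‖c n‖ * T ≤ 1)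
    (h3 : ∀ q : ℕ, q1 < q → q ≤ q2 → ∀ S, (∀ n, ‖c n‖ * Wg Λ T q1 n ≤ S) →
      ‖c q‖ * Wg Λ T q1 q ≤ S / 2 + A) :
    ∀ n, ‖c n‖ * Wg Λ T q1 n ≤ 2 * A + 1 := by
  have hout : ∀ n : ℤ, (q2 : ℤ) < |n| → ‖c n‖ * Wg Λ T q1 n ≤ 1 := by
    intro n hn
    refine le_trans ?_ (h2 n hn)
    exact mul_le_mul_of_nonneg_left (min_le_right _ _) (norm_nonneg _)
  have hin : ∀ n : ℤ, |n| ≤ q1 → ‖c n‖ * Wg Λ T q1 n ≤ 1 := by
    intro n hn
    have hW : Wg Λ T q1 n ≤ 1 := by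
      unfold Wg
      refine (min_le_left _ _).trans ?_
      have h4 : |(n : ℝ)| - q1 ≤ 0 := by
        have h5 : ((|n| : ℤ) : ℝ) ≤ ((q1 : ℤ) : ℝ) := Int.cast_le.2 hn
        rw [Int.cast_abs, Int.cast_natCast] at h5
        linarith
      rw [max_eq_right h4, mul_zero, Real.exp_zero]
    have hW0 : 0 ≤ Wg Λ T q1 n := (Wg_slow hΛ hT q1 n n).1.le
    calc ‖c n‖ * Wg Λ T q1 n ≤ 1 * 1 := mul_le_mul (h1 n hn) hW hW0 zero_le_one
      _ = 1 := one_mul 1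
  have hne : (Finset.Icc (-(q2 : ℤ)) q2).Nonempty := ⟨0, by simp⟩
  obtain ⟨n0, hn0, hmax⟩ := Finset.exists_max_image (Finset.Icc (-(q2 : ℤ)) q2)
    (fun n => ‖c n‖ * Wg Λ T q1 n) hne
  by_cases hS : ‖c n0‖ * Wg Λ T q1 n0 ≤ 1
  · intro n
    have h4 : ‖c n‖ * Wg Λ T q1 n ≤ 1 := by
      by_cases hn : |n| ≤ q2
      · exact (hmax n (Finset.mem_Icc.2 (abs_le.1 hn))).trans hS
      · exact hout n (not_le.1 hn)
    linarith
  · push Not at hS
    have hall : ∀ n, ‖c n‖ * Wg Λ T q1 n ≤ ‖c n0‖ * Wg Λ T q1 n0 := by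
      intro n
      by_cases hn : |n| ≤ q2
      · exact hmax n (Finset.mem_Icc.2 (abs_le.1 hn))
      · exact (hout n (not_le.1 hn)).trans hS.le
    have hn0' : |n0| ≤ q2 := abs_le.2 (Finset.mem_Icc.1 hn0)
    have hn0'' : (q1 : ℤ) < |n0| := by
      by_contra hcon
      exact absurd (hin n0 (not_lt.1 hcon)) (not_le.2 hS)
    have hnat : ((n0.natAbs : ℕ) : ℤ) = |n0| := Int.natCast_natAbs n0
    have h4 := h3 n0.natAbs (by omega) (by omega) _ hall
    have h5 : ‖c ((n0.natAbs : ℕ) : ℤ)‖ * Wg Λ T q1 ((n0.natAbs : ℕ) : ℤ) =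
        ‖c n0‖ * Wg Λ T q1 n0 := by
      rw [hnat]
      rcases abs_choice n0 with h6 | h6
      · rw [h6]
      · rw [h6, hc, Wg_neg]
    rw [h5] at h4
    intro n
    have h6 := hall n
    linarith only [h6, h4]

end Vale.Agent.P097.Reg
end

section

/-!
# P097, regularity theorem: the Newton step (R12)
-/

namespace Vale.Agent.P097.Reg

open Complex
open scoped ComplexConjugate ContDiff

/-! ### basic facts on the weighted difference -/

section basic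

variable {M β P : ℝ} (T : CTab M β P)

theorem r12_mem (x : ℝ) (hβ : 0 < β) : (x : ℂ) ∈ strip β := by
  simp only [strip, Set.mem_ofPred_eq, ofReal_im, abs_zero, hβ]

theorem r12_z_real (x : ℝ) : ((T.z x).re : ℂ) = T.z x := by
  have hx := r12_mem x T.β0
  have hD := T.zD _ hx
  have h1 : T.X (conj (T.z x)) = x := by
    rw [T.cX _ hD, T.Xz _ hx, conj_ofReal]
  have h2 : T.z (T.X (conj (T.z x))) = conj (T.z x) := T.zX _ (T.cD _ hD)
  rw [h1] at h2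
  exact conj_eq_iff_re.mp h2.symm

theorem r12_z_period (x : ℝ) : T.z ((x + P : ℝ) : ℂ) = T.z x + 2 * Real.pi := by
  have hx := r12_mem x T.β0
  have hD := T.zD _ hx
  have h1 := T.zX _ (T.pD _ hD)
  rw [T.pX _ hD, T.Xz _ hx] at h1
  rw [← h1]
  push_cast
  rfl

theorem r12_lam_ne {ψ : ℂ} (hψ : ψ ∈ T.D) : T.lam ψ ≠ 0 := by
  intro h0
  have := T.bl ψ hψ
  rw [h0, norm_zero, mul_zero] at this
  linarith only [this]

theorem r12_wd_cont {h : ℝ → ℝ} (hh : Continuous h) : Continuous (wd T h) := by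
  rw [continuous_iff_continuousAt]
  intro x
  have hx := r12_mem x T.β0
  have hD := T.zD _ hx
  have hz : ContinuousAt (fun x : ℝ => T.z x) x :=
    (T.dz _ hx).continuousAt.comp (f := fun x : ℝ => (x : ℂ)) continuous_ofReal.continuousAt
  have hre : ContinuousAt (fun x : ℝ => (T.z x).re) x :=
    continuous_re.continuousAt.comp hz
  have hG : ContinuousAt (fun x : ℝ => (T.G ((T.z x).re : ℂ)).re) x := by
    refine continuous_re.continuousAt.comp ?_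
    have h1 : ContinuousAt T.G ((T.z x).re : ℂ) :=
      (T.dG.differentiableAt (T.isOpen.mem_nhds (T.rD _))).continuousAt
    exact ContinuousAt.comp (f := fun x : ℝ => ((T.z x).re : ℂ)) h1
      (continuous_ofReal.continuousAt.comp hre)
  have hlam : ContinuousAt (fun x : ℝ => T.lam (T.z x)) x := by
    have h1 : ContinuousAt T.lam (T.z x) :=
      (T.dlam.differentiableAt (T.isOpen.mem_nhds hD)).continuousAt
    exact ContinuousAt.comp (f := fun x : ℝ => T.z x) h1 hz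
  unfold wd df
  refine ContinuousAt.div ?_ hlam (r12_lam_ne T hD)
  refine continuous_ofReal.continuousAt.comp (f := fun x : ℝ => h (T.z x).re -
    (T.G ((T.z x).re : ℂ)).re) ?_
  exact (hh.continuousAt.comp hre).sub hG

theorem r12_wd_per {h : ℝ → ℝ} (hp : ∀ x, h (x + 2 * Real.pi) = h x) (x : ℝ) :
    wd T h (x + P) = wd T h x := by
  have hx := r12_mem x T.β0
  have hD := T.zD _ hx
  have h1 := r12_z_period T x
  unfold wd df
  rw [h1, T.plam _ hD]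
  have h2 : (T.z x + 2 * Real.pi).re = (T.z x).re + 2 * Real.pi := by simp
  rw [h2, hp]
  have h3 : (((T.z x).re + 2 * Real.pi : ℝ) : ℂ) = ((T.z x).re : ℂ) + 2 * Real.pi := by
    push_cast; rfl
  rw [h3, T.pG _ (T.rD _)]

theorem r12_lam_conj {x : ℝ} : conj (T.lam (T.z x)) = T.lam (T.z x) := by
  have hx := r12_mem x T.β0
  have hD := T.zD _ hx
  rw [← T.clam _ hD]
  congr 1
  rw [← r12_z_real T x, conj_ofReal]

theorem r12_wd_conj (h : ℝ → ℝ) (x : ℝ) : conj (wd T h x) = wd T h x := by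
  unfold wd
  rw [map_div₀, conj_ofReal, r12_lam_conj]

theorem r12_wd_bound {h : ℝ → ℝ} {E : ℝ} (hE : Close T h E) (x : ℝ) :
    ‖wd T h x‖ ≤ M * E := by
  have hx := r12_mem x T.β0
  have hD := T.zD _ hx
  have h1 := T.bl _ hD
  have h0 : 0 < ‖T.lam (T.z x)‖ := norm_pos_iff.mpr (r12_lam_ne T hD)
  unfold wd
  rw [norm_div, norm_real, Real.norm_eq_abs, div_le_iff₀ h0]
  have h2 := (hE (T.z x).re).1
  have h3 : 0 ≤ E := (abs_nonneg _).trans h2
  calc |df T h (T.z x).re| ≤ E := h2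
    _ = E * 1 := (mul_one E).symm
    _ ≤ E * (M * ‖T.lam (T.z x)‖) := mul_le_mul_of_nonneg_left h1 h3
    _ = M * E * ‖T.lam (T.z x)‖ := by ring

theorem r12_fc_bound {F : ℝ → ℂ} {B : ℝ} (hP : 0 < P) (hB : ∀ x, ‖F x‖ ≤ B) (n : ℤ) :
    ‖fc P F n‖ ≤ B := by
  unfold fc
  have h1 : ‖∫ x in (0 : ℝ)..P, F x * exp (-(2 * Real.pi * I * n * x / P))‖ ≤ B * |P - 0| := by
    apply intervalIntegral.norm_integral_le_of_norm_le_const
    intro x _
    rw [norm_mul]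
    have h2 : ‖exp (-(2 * Real.pi * I * n * x / P))‖ = 1 := by
      have h3 : -(2 * Real.pi * I * n * x / P) = ((-(2 * Real.pi * n * x / P) : ℝ) : ℂ) * I := by
        push_cast
        ring
      rw [h3, norm_exp_ofReal_mul_I]
    rw [h2, mul_one]
    exact hB x
  rw [norm_mul, norm_inv, norm_real, Real.norm_of_nonneg hP.le]
  rw [sub_zero, abs_of_pos hP] at h1
  calc P⁻¹ * ‖∫ x in (0 : ℝ)..P, F x * exp (-(2 * Real.pi * I * n * x / P))‖ ≤ P⁻¹ * (B * P) :=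
        mul_le_mul_of_nonneg_left h1 (by positivity)
    _ = B := by (clear * - hP; field_simp)

theorem r12_fc_neg {F : ℝ → ℂ} (hP : 0 < P) (hF : ∀ x, conj (F x) = F x) (n : ℤ) :
    ‖fc P F (-n)‖ = ‖fc P F n‖ := by
  have h1 : fc P F (-n) = conj (fc P F n) := by
    unfold fc
    rw [map_mul, map_inv₀, conj_ofReal]
    congr 1
    rw [intervalIntegral.integral_of_le hP.le, intervalIntegral.integral_of_le hP.le,
      ← integral_conj]
    refine MeasureTheory.integral_congr_ae (Filter.Eventually.of_forall fun x => ?_)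
    simp only
    rw [map_mul, hF, ← exp_conj]
    congr 2
    simp only [map_neg, map_div₀, map_mul, conj_ofReal, conj_I, map_ofNat, map_intCast]
    push_cast
    ring
  rw [h1]
  exact norm_conj _

end basic

/-! ### smallness -/

section small

theorem r12_star {K0 C ε β E : ℝ} (hK : 1 ≤ K0) (hC : 16 * (K0 + 8) ≤ C) (hε : 0 < ε)
    (hε1 : ε ≤ 1) (hβ : 0 < β) (hβ1 : β ≤ 1) (hE : 0 < E)
    (h : Real.exp (C / ε ^ 2) * (1 / β) ^ C * E ^ (ε / C) ≤ 1) :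
    K0 * Real.exp (K0 / ε) * (1 / (ε * β)) ^ 8 * E ^ (ε / 16) ≤ 1 ∧ E < 1 := by
  have hC0 : 0 < C := by linarith only [hK, hC]
  have hb : 0 ≤ Real.log (1 / β) := Real.log_nonneg (by rw [le_div_iff₀ hβ]; linarith only [hβ1])
  have he : 1 ≤ 1 / ε := by rw [le_div_iff₀ hε]; linarith only [hε1]
  have he2 : 1 / ε ≤ 1 / ε ^ 2 := by
    rw [sq, ← one_div_mul_one_div]
    nlinarith only [he]
  rw [Real.rpow_def_of_pos (by positivity), Real.rpow_def_of_pos hE, ← Real.exp_add,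
    ← Real.exp_add, Real.exp_le_one_iff] at h
  set L := -Real.log E with hL
  set b := Real.log (1 / β) with hbdef
  have h1 : C ^ 2 * (1 / ε ^ 2) + C ^ 2 * b ≤ ε * L := by
    have e1 : C / ε ^ 2 + b * C + Real.log E * (ε / C) =
        (C ^ 2 * (1 / ε ^ 2) + C ^ 2 * b - ε * L) / C := by
      rw [hL]
      field_simp
      ring
    rw [e1] at h
    have h2 : C ^ 2 * (1 / ε ^ 2) + C ^ 2 * b - ε * L ≤ 0 := by
      by_contra hcon
      push Not at hcon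
      have := div_pos hcon hC0
      linarith only [h, this]
    linarith only [h2]
  have hC2 : 16 * (2 * K0 + 8) ≤ C ^ 2 := by nlinarith only [hC]
  have hLpos : 0 < L := by
    have : 0 < C ^ 2 * (1 / ε ^ 2) := by positivity
    have h3 : 0 < ε * L := by
      have : 0 ≤ C ^ 2 * b := by (clear * - hC0 hb; positivity)
      (clear K0 hK hC hε1 hβ hβ1 hE he he2 hbdef hC2; linarith)
    exact (mul_pos_iff_of_pos_left hε).mp h3
  refine ⟨?_, ?_⟩
  · have hK1 : K0 ≤ Real.exp K0 := by linarith only [Real.add_one_le_exp K0]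
    have hinv : (1 / (ε * β)) ^ 8 ≤ Real.exp (8 * (1 / ε) + 8 * b) := by
      have h4 : 1 / (ε * β) = (1 / ε) * (1 / β) := by rw [one_div_mul_one_div]
      have h5 : 1 / ε ≤ Real.exp (1 / ε) := by linarith only [Real.add_one_le_exp (1 / ε)]
      have h6 : 1 / β = Real.exp b := by rw [hbdef, Real.exp_log (by positivity)]
      rw [h4, mul_pow]
      calc (1 / ε) ^ 8 * (1 / β) ^ 8 ≤ Real.exp (1 / ε) ^ 8 * Real.exp b ^ 8 := by
            rw [← h6]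
            exact mul_le_mul_of_nonneg_right (pow_le_pow_left₀ (by positivity) h5 8)
              (by positivity)
        _ = Real.exp (8 * (1 / ε) + 8 * b) := by
            rw [← Real.exp_nat_mul, ← Real.exp_nat_mul, ← Real.exp_add]
            norm_num
    have hEe : E ^ (ε / 16) = Real.exp (-(ε * L / 16)) := by
      rw [Real.rpow_def_of_pos hE, hL]
      congr 1
      ring
    calc K0 * Real.exp (K0 / ε) * (1 / (ε * β)) ^ 8 * E ^ (ε / 16)
        ≤ Real.exp K0 * Real.exp (K0 / ε) * Real.exp (8 * (1 / ε) + 8 * b) *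
            Real.exp (-(ε * L / 16)) := by
          rw [hEe]
          refine mul_le_mul_of_nonneg_right ?_ (Real.exp_pos _).le
          refine mul_le_mul ?_ hinv (by (clear * - hε hβ; positivity)) (by positivity)
          exact mul_le_mul_of_nonneg_right hK1 (Real.exp_pos _).le
      _ = Real.exp (K0 + K0 / ε + (8 * (1 / ε) + 8 * b) + -(ε * L / 16)) := by
          rw [← Real.exp_add, ← Real.exp_add, ← Real.exp_add]
      _ ≤ 1 := by
          rw [Real.exp_le_one_iff]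
          have h7 : K0 / ε = K0 * (1 / ε) := by ring
          have h8 : K0 * (1 / ε) ≤ K0 * (1 / ε ^ 2) := mul_le_mul_of_nonneg_left he2 (by linarith only [hK])
          have h9 : K0 * 1 ≤ K0 * (1 / ε ^ 2) :=
            mul_le_mul_of_nonneg_left (he.trans he2) (by linarith only [hK])
          have h10 : (16 * (2 * K0 + 8)) * (1 / ε ^ 2) ≤ C ^ 2 * (1 / ε ^ 2) :=
            mul_le_mul_of_nonneg_right hC2 (by positivity)
          have h11 : 128 * b ≤ C ^ 2 * b := mul_le_mul_of_nonneg_right (by linarith only [hK, hC2]) hb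
          rw [h7]
          linarith only [he2, h1, h8, h9, h10, h11]
  · by_contra hcon
    push Not at hcon
    have := Real.log_nonneg hcon
    linarith only [hLpos, this]

/-- consequences of the smallness -/
theorem r12_use {K0 ε β E A B θ : ℝ} {k : ℕ}
    (hstar : K0 * Real.exp (K0 / ε) * (1 / (ε * β)) ^ 8 * E ^ (ε / 16) ≤ 1) (hE : 0 < E)
    (hE1 : E < 1) (hε : 0 < ε) (hε1 : ε ≤ 1) (hβ : 0 < β) (hβ1 : β ≤ 1)
    (hA0 : 0 ≤ A) (hA : A ≤ K0) (hB : B ≤ K0) (hk : k ≤ 8) (hθ : ε / 16 ≤ θ) :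
    A * Real.exp (B / ε) * (1 / (ε * β)) ^ k * E ^ θ ≤ 1 := by
  refine le_trans ?_ hstar
  have h1 : 1 ≤ 1 / (ε * β) := by
    rw [le_div_iff₀ (by (clear * - hε hβ; positivity))]
    nlinarith only [hε1, hε, hβ1]
  have h2 : E ^ θ ≤ E ^ (ε / 16) := Real.rpow_le_rpow_of_exponent_ge hE hE1.le hθ
  have h3 : (1 / (ε * β)) ^ k ≤ (1 / (ε * β)) ^ 8 := pow_le_pow_right₀ h1 hk
  have h4 : Real.exp (B / ε) ≤ Real.exp (K0 / ε) :=
    Real.exp_le_exp.mpr (div_le_div_of_nonneg_right hB hε.le)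
  have h5 : A * Real.exp (B / ε) ≤ K0 * Real.exp (K0 / ε) :=
    mul_le_mul hA h4 (Real.exp_pos _).le (hA0.trans hA)
  have h6 : 0 ≤ K0 * Real.exp (K0 / ε) := mul_nonneg (hA0.trans hA) (Real.exp_pos _).le
  exact mul_le_mul (mul_le_mul h5 h3 (by (clear * - hε hβ; positivity)) h6) h2 (Real.rpow_nonneg hE.le _)
    (mul_nonneg h6 (by positivity))

theorem r12_use' {K0 ε β E A θ : ℝ} (k : ℕ)
    (hstar : K0 * Real.exp (K0 / ε) * (1 / (ε * β)) ^ 8 * E ^ (ε / 16) ≤ 1) (hE : 0 < E)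
    (hE1 : E < 1) (hε : 0 < ε) (hε1 : ε ≤ 1) (hβ : 0 < β) (hβ1 : β ≤ 1)
    (hA0 : 0 ≤ A) (hA : A ≤ K0) (hk : k ≤ 8) (hθ : ε / 16 ≤ θ) :
    A * (1 / (ε * β)) ^ k * E ^ θ ≤ 1 := by
  have := r12_use (B := 0) hstar hE hE1 hε hε1 hβ hβ1 hA0 hA (hA0.trans hA) hk hθ
  simpa only [one_div, mul_inv_rev, ge_iff_le, zero_div, Real.exp_zero, mul_one] using this

theorem r12_log {E θ : ℝ} (hE : 0 < E) (hE1 : E < 1) (hθ : 0 < θ) :
    -Real.log E * E ^ θ ≤ 1 / θ := by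
  rw [Real.rpow_def_of_pos hE]
  have h1 : -Real.log E * θ ≤ Real.exp (-Real.log E * θ) := by
    linarith [Real.add_one_le_exp (-Real.log E * θ)]
  have h2 : Real.exp (Real.log E * θ) * Real.exp (-Real.log E * θ) = 1 := by
    rw [← Real.exp_add]
    simp
  rw [le_div_iff₀ hθ]
  calc -Real.log E * Real.exp (Real.log E * θ) * θ
      = (-Real.log E * θ) * Real.exp (Real.log E * θ) := by ring
    _ ≤ Real.exp (-Real.log E * θ) * Real.exp (Real.log E * θ) :=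
        mul_le_mul_of_nonneg_right h1 (Real.exp_pos _).le
    _ = 1 := by rw [mul_comm, h2]

/-- interpolation of one term -/
theorem r12_term {A' e0 Λ μ t q a m : ℝ} (h0 : 0 ≤ a) (ha : a ≤ e0)
    (hw : a * Real.exp (Λ * max (m - q) 0) ≤ A') (hA' : 1 ≤ A') (ht0 : 0 ≤ t) (ht1 : t ≤ 1)
    (hμ : 0 ≤ μ) (hμt : μ ≤ (1 - t) * Λ) :
    a * Real.exp (μ * m) ≤ A' * e0 ^ t * Real.exp (μ * q) := by
  rcases h0.eq_or_lt with h | hpos
  · rw [← h, zero_mul]
    have : 0 ≤ e0 := h0.trans ha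
    (clear * - hA' this; positivity)
  · set x := max (m - q) 0 with hx
    have hx0 : 0 ≤ x := le_max_right _ _
    have hxm : m - q ≤ x := le_max_left _ _
    have he0 : 0 < e0 := lt_of_lt_of_le hpos ha
    have h1 : a ≤ A' * Real.exp (-(Λ * x)) := by
      rw [Real.exp_neg, ← div_eq_mul_inv, le_div_iff₀ (Real.exp_pos _)]
      exact hw
    have h2 : a = a ^ (1 - t) * a ^ t := by
      rw [← Real.rpow_add hpos]
      norm_num
    have h3 : a ^ (1 - t) ≤ A' * Real.exp (-(Λ * x) * (1 - t)) := by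
      calc a ^ (1 - t) ≤ (A' * Real.exp (-(Λ * x))) ^ (1 - t) :=
            Real.rpow_le_rpow h0 h1 (by linarith only [ht1])
        _ = A' ^ (1 - t) * Real.exp (-(Λ * x) * (1 - t)) := by
            rw [Real.mul_rpow (by linarith only [hA']) (Real.exp_pos _).le, ← Real.exp_mul]
        _ ≤ A' * Real.exp (-(Λ * x) * (1 - t)) := by
            refine mul_le_mul_of_nonneg_right ?_ (Real.exp_pos _).le
            calc A' ^ (1 - t) ≤ A' ^ (1 : ℝ) :=
                  Real.rpow_le_rpow_of_exponent_le hA' (by linarith only [ht0])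
              _ = A' := Real.rpow_one _
    have h4 : a ^ t ≤ e0 ^ t := Real.rpow_le_rpow h0 ha ht0
    have h5 : Real.exp (-(Λ * x) * (1 - t)) * Real.exp (μ * m) ≤ Real.exp (μ * q) := by
      rw [← Real.exp_add, Real.exp_le_exp]
      have h6 : μ * x ≤ (1 - t) * Λ * x := mul_le_mul_of_nonneg_right hμt hx0
      have h7 : μ * (m - q) ≤ μ * x := mul_le_mul_of_nonneg_left hxm hμ
      linarith only [h6, h7]
    calc a * Real.exp (μ * m) = a ^ (1 - t) * a ^ t * Real.exp (μ * m) := by rw [← h2]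
      _ ≤ (A' * Real.exp (-(Λ * x) * (1 - t))) * e0 ^ t * Real.exp (μ * m) := by
          refine mul_le_mul_of_nonneg_right ?_ (Real.exp_pos _).le
          exact mul_le_mul h3 h4 (Real.rpow_nonneg h0 _)
            (mul_nonneg (by linarith only [hA']) (Real.exp_pos _).le)
      _ = A' * e0 ^ t * (Real.exp (-(Λ * x) * (1 - t)) * Real.exp (μ * m)) := by ring
      _ ≤ A' * e0 ^ t * Real.exp (μ * q) := by
          refine mul_le_mul_of_nonneg_left h5 ?_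
          exact mul_nonneg (by linarith only [hA']) (Real.rpow_nonneg he0.le _)

theorem r12_summable : Summable fun n : ℤ => 1 / (1 + |(n : ℝ)|) ^ 2 := by
  have h1 : Summable fun n : ℕ => 1 / ((n : ℝ) + 1) ^ 2 := by
    have := (summable_nat_add_iff 1).mpr
      (Real.summable_one_div_nat_pow (p := 2).mpr (by norm_num))
    simpa only [one_div, Nat.cast_add, Nat.cast_one] using this
  refine Summable.of_nat_of_neg ?_ ?_
  · refine h1.congr fun n => ?_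
    rw [Int.cast_natCast, abs_of_nonneg (Nat.cast_nonneg n), add_comm]
  · refine h1.congr fun n => ?_
    rw [Int.cast_neg, Int.cast_natCast, abs_neg, abs_of_nonneg (Nat.cast_nonneg n), add_comm]

end small

/-! ### the weighted bound for the Fourier coefficients -/

section weights

/-- decay of the Fourier coefficients, with constants depending on the table -/
theorem r12_decay {h : ℝ → ℝ} {M β P E c3 : ℝ} (T : CTab M β P) (hcl : Close T h E)
    (hME : M * E ≤ 1) (hc3 : 1 ≤ c3)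
    (H3 : ∀ n : ℤ, c3 ≤ β ^ 2 * |(n : ℝ)| → ‖fc P (wd T h) n‖ ≤ c3 / |(n : ℝ)| ^ 130) (n : ℤ) :
    (1 + |(n : ℝ)|) ^ 2 * ‖fc P (wd T h) n‖ ≤
      ((1 + c3 / β ^ 2) ^ 4 + 16 * c3) * (1 / (1 + |(n : ℝ)|) ^ 2) := by
  have hβ := T.β0
  have hb : ‖fc P (wd T h) n‖ ≤ 1 :=
    (r12_fc_bound T.P0 (r12_wd_bound T hcl) n).trans hME
  have habs : 0 ≤ |(n : ℝ)| := abs_nonneg _
  have key : (1 + |(n : ℝ)|) ^ 4 * ‖fc P (wd T h) n‖ ≤ (1 + c3 / β ^ 2) ^ 4 + 16 * c3 := by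
    by_cases hn : c3 ≤ β ^ 2 * |(n : ℝ)|
    · have h1 := H3 n hn
      have hβ1 := T.β1
      have hβ2 : β ^ 2 ≤ 1 := by (clear * - hβ1 hβ; nlinarith)
      have hn1 : 1 ≤ |(n : ℝ)| := by nlinarith only [hc3, hn, habs, hβ2]
      have h2 : (1 + |(n : ℝ)|) ^ 4 ≤ (2 * |(n : ℝ)|) ^ 4 :=
        pow_le_pow_left₀ (by positivity) (by linarith only [hn1]) 4
      have h3 : (1 + |(n : ℝ)|) ^ 4 * ‖fc P (wd T h) n‖ ≤
          (2 * |(n : ℝ)|) ^ 4 * (c3 / |(n : ℝ)| ^ 130) :=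
        mul_le_mul h2 h1 (norm_nonneg _) (by positivity)
      have h4 : (2 * |(n : ℝ)|) ^ 4 * (c3 / |(n : ℝ)| ^ 130) = 16 * c3 / |(n : ℝ)| ^ 126 := by
        have : |(n : ℝ)| ≠ 0 := by linarith only [hn1]
        field_simp
        ring
      have h5 : 16 * c3 / |(n : ℝ)| ^ 126 ≤ 16 * c3 :=
        div_le_self (by positivity) (one_le_pow₀ hn1)
      have h6 : 0 ≤ (1 + c3 / β ^ 2) ^ 4 := by positivity
      linarith only [h6, h5, h4, h3]
    · push Not at hn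
      have h1 : |(n : ℝ)| ≤ c3 / β ^ 2 := by
        rw [le_div_iff₀ (by positivity)]
        linarith only [hn]
      have h2 : (1 + |(n : ℝ)|) ^ 4 ≤ (1 + c3 / β ^ 2) ^ 4 :=
        pow_le_pow_left₀ (by (clear * -; positivity)) (by linarith only [h1]) 4
      have h3 : (1 + |(n : ℝ)|) ^ 4 * ‖fc P (wd T h) n‖ ≤ (1 + c3 / β ^ 2) ^ 4 * 1 :=
        mul_le_mul h2 hb (norm_nonneg _) (by (clear * - hc3 hβ; positivity))
      have : 0 ≤ 16 * c3 := by positivity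
      linarith only [hc3, h3]
  rw [mul_one_div, le_div_iff₀ (by positivity)]
  calc (1 + |(n : ℝ)|) ^ 2 * ‖fc P (wd T h) n‖ * (1 + |(n : ℝ)|) ^ 2
      = (1 + |(n : ℝ)|) ^ 4 * ‖fc P (wd T h) n‖ := by ring
    _ ≤ _ := key

theorem r12_weights {h : ℝ → ℝ} (hs : ContDiff ℝ ∞ h) (hp : ∀ x, h (x + 2 * Real.pi) = h x)
    {q0 : ℕ} (hcst : ∀ n, q0 ≤ n → Cst h n) {M β P E s c1 c2 c3 M2 : ℝ} (T : CTab M β P)
    (hcl : Close T h E) (hE : 0 < E) (hE1 : E < 1) (hME : M * E ≤ 1) (hs0 : 0 < s)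
    (hs4 : 4 * s ≤ β) (hc1 : 1 ≤ c1) (hc2 : 1 ≤ c2) (hc3 : 1 ≤ c3) (hM2 : 1 ≤ M2 * P)
    (hM2' : P ≤ M2) (hc1M : c1 ≤ M2)
    (H1 : ∀ n q : ℕ, q = n + 1 → c1 * (P / q) ≤ s → c1 * (q : ℝ) ^ 4 * E ≤ s → Cst h n →
      ∃ (Ef κ : ℕ → ℂ → ℂ) (L : ℂ → ℂ) (c0 : ℝ),
        (∀ j < q, DifferentiableOn ℂ (Ef j) (strip (β - s))) ∧
        (∀ j < q, DifferentiableOn ℂ (κ j) (strip (β - s))) ∧
        (∀ j < q, ∀ ζ ∈ strip (β - s), Ef j (ζ + P) = Ef j ζ ∧ κ j (ζ + P) = κ j ζ) ∧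
        (∀ j < q, ∀ ζ ∈ strip (β - s),
          ‖Ef j ζ‖ ≤ c1 * (P / q) ^ 2 ∧ ‖κ j ζ - 1‖ ≤ c1 * (P / q) ^ 2) ∧
        (∀ j < q, ∀ x : ℝ, (Ef j x).im = 0) ∧
        DifferentiableOn ℂ L (strip (β - s)) ∧ (∀ ζ ∈ strip (β - s), L (ζ + P) = L ζ) ∧
        (∀ ζ ∈ strip (β - s), ‖L ζ‖ ≤ c1) ∧
        (∀ x : ℝ, ‖(c0 : ℂ) - L x - (P / q : ℝ) * ∑ j ∈ Finset.range q,
          κ j x * wd T h (x + (j + 1 / 2) * (P / q) + (Ef j x).re)‖ ≤
            c1 * (q : ℝ) ^ 8 * E ^ 2))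
    (H2 : ∀ (P β Λ γ S η c0 : ℝ) (q : ℕ) (Ef κ : ℕ → ℂ → ℂ) (L : ℂ → ℂ) (F : ℝ → ℂ) (Wt : ℤ → ℝ),
      1 ≤ M2 * P → P ≤ M2 → 0 < β → β ≤ 1 → 1 ≤ q → P / q ≤ 1 → 0 ≤ Λ → 0 < γ →
      Λ + γ ≤ 2 * Real.pi * β / P → c2 * (P / q) ≤ γ → 0 ≤ S → 0 ≤ η →
      (∀ j < q, DifferentiableOn ℂ (Ef j) (strip β)) →
      (∀ j < q, DifferentiableOn ℂ (κ j) (strip β)) →
      (∀ j < q, ∀ ζ ∈ strip β, Ef j (ζ + P) = Ef j ζ ∧ κ j (ζ + P) = κ j ζ) →
      (∀ j < q, ∀ ζ ∈ strip β, ‖Ef j ζ‖ ≤ M2 * (P / q) ^ 2 ∧ ‖κ j ζ - 1‖ ≤ M2 * (P / q) ^ 2) →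
      (∀ j < q, ∀ x : ℝ, (Ef j x).im = 0) →
      DifferentiableOn ℂ L (strip β) → (∀ ζ ∈ strip β, L (ζ + P) = L ζ) →
      (∀ ζ ∈ strip β, ‖L ζ‖ ≤ M2) →
      Continuous F → (∀ x, F (x + P) = F x) → (Summable fun n : ℤ => ‖fc P F n‖) →
      (∀ n, 0 < Wt n) → (∀ n, Wt q ≤ Wt n * Real.exp (Λ * |(q : ℝ) - n|)) →
      (∀ n, ‖fc P F n‖ * Wt n ≤ S) →
      (∀ x : ℝ, ‖(c0 : ℂ) - L x - (P / q : ℝ) * ∑ j ∈ Finset.range q,
        κ j x * F (x + (j + 1 / 2) * (P / q) + (Ef j x).re)‖ ≤ η) →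
      ‖fc P F q‖ * Wt q ≤ c2 * (P / q / γ) * S
        + c2 * Wt q * (Real.exp (-(2 * Real.pi * q * β / P)) + η))
    (H3 : ∀ n : ℤ, c3 ≤ β ^ 2 * |(n : ℝ)| → ‖fc P (wd T h) n‖ ≤ c3 / |(n : ℝ)| ^ 130)
    {q1 : ℕ} (hq0 : q0 ≤ q1)
    (Q1 : ∀ q : ℕ, q1 < q → c1 * (P / q) ≤ s) (Q2 : ∀ q : ℕ, q1 < q → P / q ≤ 1)
    (Q3 : ∀ q : ℕ, q1 < q → c2 * (P / q) ≤ (2 * Real.pi * s / P) / 2)
    (S1 : c1 * E ^ (9 / 10 : ℝ) ≤ s) (S2 : c3 ≤ β ^ 2 * E ^ (-(1 / 40) : ℝ))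
    (S3 : c3 * E ^ (7 / 4 : ℝ) ≤ 1) (n : ℤ) :
    ‖fc P (wd T h) n‖ * Wg (2 * Real.pi * (β - 2 * s) / P) (E ^ (-(3 / 2) : ℝ)) q1 n ≤
      2 * (c2 * (1 + c1)) + 1 := by
  have hP := T.P0
  have hβ := T.β0
  have hβ1 := T.β1
  have hpi := Real.pi_pos
  have hΛ : 0 ≤ 2 * Real.pi * (β - 2 * s) / P := by
    have : 0 ≤ β - 2 * s := by linarith only [hs0, hs4]
    (clear * - this hP; positivity)
  have hT : 1 ≤ E ^ (-(3 / 2) : ℝ) :=
    Real.one_le_rpow_of_pos_of_le_one_of_nonpos hE hE1.le (by norm_num)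
  have hfb : ∀ n : ℤ, ‖fc P (wd T h) n‖ ≤ 1 := fun n =>
    (r12_fc_bound hP (r12_wd_bound T hcl) n).trans hME
  have hsum : Summable fun n : ℤ => ‖fc P (wd T h) n‖ := by
    refine Summable.of_nonneg_of_le (fun n => norm_nonneg _) (fun n => ?_)
      (r12_summable.mul_left ((1 + c3 / β ^ 2) ^ 4 + 16 * c3))
    refine le_trans ?_ (r12_decay T hcl hME hc3 H3 n)
    have : 1 ≤ (1 + |(n : ℝ)|) ^ 2 := one_le_pow₀ (by linarith only [abs_nonneg (n : ℝ)])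
    exact le_mul_of_one_le_left (norm_nonneg _) this
  refine weighted_bound (q2 := ⌊E ^ (-(1 / 40) : ℝ)⌋₊) hΛ hT (by (clear * - hc2 hc1; positivity))
    (fun n => r12_fc_neg hP (r12_wd_conj T h) n) (fun n _ => hfb n) ?_ ?_ n
  · -- high frequencies
    intro n hn
    have h1 : E ^ (-(1 / 40) : ℝ) < |(n : ℝ)| := by
      have h2 := Nat.lt_floor_add_one (E ^ (-(1 / 40) : ℝ))
      have h3 : ((⌊E ^ (-(1 / 40) : ℝ)⌋₊ : ℤ) + 1 : ℤ) ≤ |n| := by omega
      have h4 : ((⌊E ^ (-(1 / 40) : ℝ)⌋₊ : ℝ) + 1) ≤ |(n : ℝ)| := by exact_mod_cast h3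
      linarith only [h2, h4]
    have hEp : 0 < E ^ (-(1 / 40) : ℝ) := Real.rpow_pos_of_pos hE _
    have h2 := H3 n (S2.trans (mul_le_mul_of_nonneg_left h1.le (by (clear * - hβ; positivity))))
    have h3 : (E ^ (-(1 / 40) : ℝ)) ^ 130 ≤ |(n : ℝ)| ^ 130 := pow_le_pow_left₀ hEp.le h1.le 130
    have h4 : (E ^ (-(1 / 40) : ℝ)) ^ 130 = E ^ (-(13 / 4) : ℝ) := by
      rw [← Real.rpow_natCast, ← Real.rpow_mul hE.le]
      norm_num
    have h5 : c3 / |(n : ℝ)| ^ 130 ≤ c3 * E ^ (13 / 4 : ℝ) := by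
      rw [h4] at h3
      rw [div_le_iff₀ (pow_pos (hEp.trans h1) 130)]
      have h6 : E ^ (13 / 4 : ℝ) * E ^ (-(13 / 4) : ℝ) = 1 := by
        rw [← Real.rpow_add hE]
        norm_num
      calc c3 = c3 * (E ^ (13 / 4 : ℝ) * E ^ (-(13 / 4) : ℝ)) := by rw [h6, mul_one]
        _ ≤ c3 * (E ^ (13 / 4 : ℝ) * |(n : ℝ)| ^ 130) := by (clear * - h3 hE hc3; gcongr)
        _ = c3 * E ^ (13 / 4 : ℝ) * |(n : ℝ)| ^ 130 := by ring
    calc ‖fc P (wd T h) n‖ * E ^ (-(3 / 2) : ℝ)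
        ≤ c3 * E ^ (13 / 4 : ℝ) * E ^ (-(3 / 2) : ℝ) :=
          mul_le_mul_of_nonneg_right (h2.trans h5) (by positivity)
      _ = c3 * E ^ (7 / 4 : ℝ) := by
          rw [mul_assoc, ← Real.rpow_add hE]
          norm_num
      _ ≤ 1 := S3
  · -- middle frequencies
    intro q hq hq2 S hS
    have hqE : (q : ℝ) ≤ E ^ (-(1 / 40) : ℝ) :=
      (Nat.le_floor_iff (Real.rpow_nonneg hE.le _)).mp hq2
    have hq1 : 1 ≤ q := by omega
    have hq1' : (1 : ℝ) ≤ q := by exact_mod_cast hq1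
    have hcond : c1 * (q : ℝ) ^ 4 * E ≤ s := by
      have h1 : (q : ℝ) ^ 4 ≤ E ^ (-(1 / 10) : ℝ) := by
        calc (q : ℝ) ^ 4 ≤ (E ^ (-(1 / 40) : ℝ)) ^ 4 := pow_le_pow_left₀ (by (clear * - hq1; positivity)) hqE 4
          _ = E ^ (-(1 / 10) : ℝ) := by
              rw [← Real.rpow_natCast, ← Real.rpow_mul hE.le]
              (clear * -; norm_num)
      calc c1 * (q : ℝ) ^ 4 * E ≤ c1 * E ^ (-(1 / 10) : ℝ) * E := by (clear * - h1 hc1 hE; gcongr)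
        _ = c1 * E ^ (9 / 10 : ℝ) := by
            rw [mul_assoc]
            congr 1
            nth_rewrite 2 [← Real.rpow_one E]
            rw [← Real.rpow_add hE]
            norm_num
        _ ≤ s := S1
    obtain ⟨Ef, κ, L, c0, A1, A2, A3, A4, A5, A6, A7, A8, A9⟩ :=
      H1 (q - 1) q (by omega) (Q1 q hq) hcond (hcst _ (by omega))
    have hS0 : 0 ≤ S := by
      refine le_trans ?_ (hS 0)
      exact mul_nonneg (norm_nonneg _) (Wg_slow hΛ hT q1 0 0).1.le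
    have hγ : 0 < 2 * Real.pi * s / P := by (clear * - hs0 hP; positivity)
    have hη : 0 ≤ c1 * (q : ℝ) ^ 8 * E ^ 2 := by positivity
    have hmain := H2 P (β - s) (2 * Real.pi * (β - 2 * s) / P) (2 * Real.pi * s / P) S
      (c1 * (q : ℝ) ^ 8 * E ^ 2) c0 q Ef κ L (wd T h)
      (Wg (2 * Real.pi * (β - 2 * s) / P) (E ^ (-(3 / 2) : ℝ)) q1) hM2 hM2' (by linarith only [hs0, hs4])
      (by linarith only [hs0, hβ1]) hq1 (Q2 q hq) hΛ hγ
      (by rw [← add_div]; exact div_le_div_of_nonneg_right (by nlinarith only []) hP.le)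
      ((Q3 q hq).trans (by linarith only [hγ])) hS0 hη A1 A2 A3
      (fun j hj ζ hζ => ⟨(A4 j hj ζ hζ).1.trans (mul_le_mul_of_nonneg_right hc1M (sq_nonneg _)),
        (A4 j hj ζ hζ).2.trans (mul_le_mul_of_nonneg_right hc1M (sq_nonneg _))⟩) A5 A6 A7
      (fun ζ hζ => (A8 ζ hζ).trans hc1M) (r12_wd_cont T hs.continuous) (r12_wd_per T hp) hsum
      (fun n => (Wg_slow hΛ hT q1 0 n).1) (fun n => by
        have := (Wg_slow hΛ hT q1 (q : ℤ) n).2
        simpa only [ge_iff_le, Int.cast_natCast] using this) hS A9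
    refine hmain.trans ?_
    have hW0 : 0 ≤ Wg (2 * Real.pi * (β - 2 * s) / P) (E ^ (-(3 / 2) : ℝ)) q1 (q : ℤ) :=
      (Wg_slow hΛ hT q1 0 q).1.le
    have B1 : c2 * (P / q / (2 * Real.pi * s / P)) * S ≤ S / 2 := by
      have : c2 * (P / q / (2 * Real.pi * s / P)) ≤ 1 / 2 := by
        rw [← mul_div_assoc, div_le_iff₀ hγ]
        (clear * - Q3 hq; linarith [Q3 q hq])
      calc _ ≤ 1 / 2 * S := mul_le_mul_of_nonneg_right this hS0
        _ = S / 2 := by ring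
    have B2 : Wg (2 * Real.pi * (β - 2 * s) / P) (E ^ (-(3 / 2) : ℝ)) q1 (q : ℤ) *
        Real.exp (-(2 * Real.pi * q * (β - s) / P)) ≤ 1 := by
      have h1 : Wg (2 * Real.pi * (β - 2 * s) / P) (E ^ (-(3 / 2) : ℝ)) q1 (q : ℤ) ≤
          Real.exp (2 * Real.pi * (β - 2 * s) / P * q) := by
        unfold Wg
        refine (min_le_left _ _).trans (Real.exp_le_exp.mpr ?_)
        refine mul_le_mul_of_nonneg_left ?_ hΛ
        apply max_le
        · rw [Int.cast_natCast, abs_of_nonneg (by (clear * - hq1; positivity))]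
          have : (0 : ℝ) ≤ q1 := by (clear * -; positivity)
          linarith only []
        · (clear * - hq1; positivity)
      calc _ ≤ Real.exp (2 * Real.pi * (β - 2 * s) / P * q) *
            Real.exp (-(2 * Real.pi * q * (β - s) / P)) :=
            mul_le_mul_of_nonneg_right h1 (Real.exp_pos _).le
        _ = Real.exp (-(2 * Real.pi * s / P * q)) := by
            rw [← Real.exp_add]
            congr 1
            ring
        _ ≤ 1 := by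
            rw [Real.exp_le_one_iff]
            have : 0 ≤ 2 * Real.pi * s / P * q := by (clear * - hs0 hP hq1; positivity)
            linarith only [this]
    have B3 : Wg (2 * Real.pi * (β - 2 * s) / P) (E ^ (-(3 / 2) : ℝ)) q1 (q : ℤ) *
        (c1 * (q : ℝ) ^ 8 * E ^ 2) ≤ c1 := by
      have h1 : Wg (2 * Real.pi * (β - 2 * s) / P) (E ^ (-(3 / 2) : ℝ)) q1 (q : ℤ) ≤
          E ^ (-(3 / 2) : ℝ) := min_le_right _ _
      have h2 : (q : ℝ) ^ 8 ≤ E ^ (-(1 / 5) : ℝ) := by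
        calc (q : ℝ) ^ 8 ≤ (E ^ (-(1 / 40) : ℝ)) ^ 8 := pow_le_pow_left₀ (by (clear * - hq1; positivity)) hqE 8
          _ = E ^ (-(1 / 5) : ℝ) := by
              rw [← Real.rpow_natCast, ← Real.rpow_mul hE.le]
              (clear * -; norm_num)
      have h3 : E ^ 2 = E ^ (2 : ℝ) := by norm_num
      calc _ ≤ E ^ (-(3 / 2) : ℝ) * (c1 * E ^ (-(1 / 5) : ℝ) * E ^ 2) := by (clear * - h1 h2 hc1 hE hq1; gcongr)
        _ = c1 * E ^ (3 / 10 : ℝ) := by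
            rw [h3]
            have : E ^ (3 / 10 : ℝ) = E ^ (-(3 / 2) : ℝ) * E ^ (-(1 / 5) : ℝ) * E ^ (2 : ℝ) := by
              rw [← Real.rpow_add hE, ← Real.rpow_add hE]
              norm_num
            rw [this]
            ring
        _ ≤ c1 * 1 := by
            refine mul_le_mul_of_nonneg_left ?_ (by linarith only [hc1])
            exact Real.rpow_le_one hE.le hE1.le (by norm_num)
        _ = c1 := mul_one _
    have e : c2 * Wg (2 * Real.pi * (β - 2 * s) / P) (E ^ (-(3 / 2) : ℝ)) q1 (q : ℤ) *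
        (Real.exp (-(2 * Real.pi * q * (β - s) / P)) + c1 * (q : ℝ) ^ 8 * E ^ 2) =
        c2 * (Wg (2 * Real.pi * (β - 2 * s) / P) (E ^ (-(3 / 2) : ℝ)) q1 (q : ℤ) *
          Real.exp (-(2 * Real.pi * q * (β - s) / P)) +
        Wg (2 * Real.pi * (β - 2 * s) / P) (E ^ (-(3 / 2) : ℝ)) q1 (q : ℤ) *
          (c1 * (q : ℝ) ^ 8 * E ^ 2)) := by ring
    rw [e]
    have B4 := mul_le_mul_of_nonneg_left (add_le_add B2 B3) (by linarith only [hc2] : 0 ≤ c2)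
    linarith only [B1, B4]

end weights

/-! ### the size of the correction and of the remainder -/

section sizes

theorem r12_Wg_low {Λ T : ℝ} (hΛ : 0 < Λ) (hT : 1 ≤ T) {q : ℕ} {n : ℤ}
    (hn : |n| ≤ (q + ⌊Real.log T / Λ⌋₊ : ℕ)) :
    Wg Λ T q n = Real.exp (Λ * max (|(n : ℝ)| - q) 0) := by
  unfold Wg
  apply min_eq_left
  have hlog : 0 ≤ Real.log T := Real.log_nonneg hT
  have h1 : |(n : ℝ)| ≤ q + Real.log T / Λ := by
    have h2 : |(n : ℝ)| ≤ (q + ⌊Real.log T / Λ⌋₊ : ℕ) := by exact_mod_cast hn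
    push_cast at h2
    have h3 := Nat.floor_le (div_nonneg hlog hΛ.le)
    linarith only [h3, h2]
  have h4 : max (|(n : ℝ)| - q) 0 ≤ Real.log T / Λ :=
    max_le (by linarith only [h1]) (div_nonneg hlog hΛ.le)
  calc Real.exp (Λ * max (|(n : ℝ)| - q) 0) ≤ Real.exp (Λ * (Real.log T / Λ)) :=
        Real.exp_le_exp.mpr (mul_le_mul_of_nonneg_left h4 hΛ.le)
    _ = T := by
        rw [mul_div_cancel₀ _ hΛ.ne', Real.exp_log (by linarith only [hT])]

theorem r12_Wg_high {Λ T : ℝ} (hΛ : 0 < Λ) (hT : 1 ≤ T) {q : ℕ} {n : ℤ}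
    (hn : ¬ |n| ≤ (q + ⌊Real.log T / Λ⌋₊ : ℕ)) : Wg Λ T q n = T := by
  unfold Wg
  apply min_eq_right
  have h1 : q + Real.log T / Λ ≤ |(n : ℝ)| := by
    have h2 : ((q + ⌊Real.log T / Λ⌋₊ : ℕ) : ℤ) + 1 ≤ |n| := by omega
    have h3 : (((q + ⌊Real.log T / Λ⌋₊ : ℕ) : ℝ)) + 1 ≤ |(n : ℝ)| := by exact_mod_cast h2
    push_cast at h3
    have h4 := Nat.lt_floor_add_one (Real.log T / Λ)
    linarith only [h3, h4]
  calc T = Real.exp (Λ * (Real.log T / Λ)) := by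
        rw [mul_div_cancel₀ _ hΛ.ne', Real.exp_log (by linarith only [hT])]
    _ ≤ Real.exp (Λ * max (|(n : ℝ)| - q) 0) :=
        Real.exp_le_exp.mpr (mul_le_mul_of_nonneg_left
          (le_trans (by linarith only [h1]) (le_max_left _ _)) hΛ.le)

theorem r12_sum_bound {c : ℤ → ℂ} {Λ T A' e0 μ t y : ℝ} {q : ℕ} (hΛ : 0 < Λ) (hT : 1 ≤ T)
    (hA' : 1 ≤ A') (hw : ∀ n, ‖c n‖ * Wg Λ T q n ≤ A') (he : ∀ n, ‖c n‖ ≤ e0) (ht0 : 0 ≤ t)
    (ht1 : t ≤ 1) (hμ : 0 ≤ μ) (hμt : μ ≤ (1 - t) * Λ) (hy : y ≤ μ) :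
    ∑ n ∈ Finset.Icc (-((q + ⌊Real.log T / Λ⌋₊ : ℕ) : ℤ)) (q + ⌊Real.log T / Λ⌋₊ : ℕ),
      ‖c n‖ * Real.exp (y * |(n : ℝ)|) ≤
      (2 * ((q + ⌊Real.log T / Λ⌋₊ : ℕ) : ℝ) + 1) * (A' * e0 ^ t * Real.exp (μ * q)) := by
  have h1 : ∀ n ∈ Finset.Icc (-((q + ⌊Real.log T / Λ⌋₊ : ℕ) : ℤ)) (q + ⌊Real.log T / Λ⌋₊ : ℕ),
      ‖c n‖ * Real.exp (y * |(n : ℝ)|) ≤ A' * e0 ^ t * Real.exp (μ * q) := by
    intro n hn
    rw [Finset.mem_Icc] at hn
    have hn2 : |n| ≤ (q + ⌊Real.log T / Λ⌋₊ : ℕ) := abs_le.mpr hn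
    have h2 := hw n
    rw [r12_Wg_low hΛ hT hn2] at h2
    refine le_trans ?_ (r12_term (norm_nonneg _) (he n) h2 hA' ht0 ht1 hμ hμt)
    refine mul_le_mul_of_nonneg_left (Real.exp_le_exp.mpr ?_) (norm_nonneg _)
    exact mul_le_mul_of_nonneg_right hy (abs_nonneg _)
  refine (Finset.sum_le_card_nsmul _ _ _ h1).trans (le_of_eq ?_)
  rw [Int.card_Icc, nsmul_eq_mul]
  congr 1
  have : ((q + ⌊Real.log T / Λ⌋₊ : ℕ) : ℤ) + 1 - -((q + ⌊Real.log T / Λ⌋₊ : ℕ) : ℤ) =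
      ((2 * (q + ⌊Real.log T / Λ⌋₊) + 1 : ℕ) : ℤ) := by
    push_cast
    ring
  rw [this, Int.toNat_natCast]
  push_cast
  ring

theorem r12_tail_bound {c : ℤ → ℂ} {Λ A' c3 β E : ℝ} {q : ℕ} (hΛ : 0 < Λ) (hE : 0 < E)
    (hE1 : E < 1) (hA' : 1 ≤ A') (hc3 : 1 ≤ c3)
    (hw : ∀ n, ‖c n‖ * Wg Λ (E ^ (-(3 / 2) : ℝ)) q n ≤ A')
    (H3 : ∀ n : ℤ, c3 ≤ β ^ 2 * |(n : ℝ)| → ‖c n‖ ≤ c3 / |(n : ℝ)| ^ 130)
    (S2 : c3 ≤ β ^ 2 * E ^ (-(1 / 40) : ℝ)) (n : ℤ) :
    (if |n| ≤ (q + ⌊Real.log (E ^ (-(3 / 2) : ℝ)) / Λ⌋₊ : ℕ) then 0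
      else (1 + |(n : ℝ)|) ^ 2 * ‖c n‖) ≤
      16 * (A' + c3) * E ^ (7 / 5 : ℝ) * (1 / (1 + |(n : ℝ)|) ^ 2) := by
  have hT : 1 ≤ E ^ (-(3 / 2) : ℝ) :=
    Real.one_le_rpow_of_pos_of_le_one_of_nonpos hE hE1.le (by norm_num)
  have habs := abs_nonneg (n : ℝ)
  split_ifs with hn
  · positivity
  · rw [mul_one_div, le_div_iff₀ (by positivity)]
    have hU : 1 ≤ E ^ (-(1 / 40) : ℝ) :=
      Real.one_le_rpow_of_pos_of_le_one_of_nonpos hE hE1.le (by norm_num)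
    have e1 : (1 + |(n : ℝ)|) ^ 2 * ‖c n‖ * (1 + |(n : ℝ)|) ^ 2 =
        (1 + |(n : ℝ)|) ^ 4 * ‖c n‖ := by ring
    rw [e1]
    rcases le_total |(n : ℝ)| (E ^ (-(1 / 40) : ℝ)) with h1 | h1
    · have h2 := hw n
      rw [r12_Wg_high hΛ hT hn] at h2
      have h3 : ‖c n‖ ≤ A' * E ^ (3 / 2 : ℝ) := by
        have h4 : E ^ (-(3 / 2) : ℝ) * E ^ (3 / 2 : ℝ) = 1 := by
          rw [← Real.rpow_add hE]
          norm_num
        calc ‖c n‖ = ‖c n‖ * (E ^ (-(3 / 2) : ℝ) * E ^ (3 / 2 : ℝ)) := by rw [h4, mul_one]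
          _ = ‖c n‖ * E ^ (-(3 / 2) : ℝ) * E ^ (3 / 2 : ℝ) := by ring
          _ ≤ A' * E ^ (3 / 2 : ℝ) := mul_le_mul_of_nonneg_right h2 (Real.rpow_nonneg hE.le _)
      have h5 : (1 + |(n : ℝ)|) ^ 4 ≤ (2 * E ^ (-(1 / 40) : ℝ)) ^ 4 :=
        pow_le_pow_left₀ (by (clear * -; positivity)) (by (clear * - hU h1; linarith)) 4
      have h6 : (2 * E ^ (-(1 / 40) : ℝ)) ^ 4 * (A' * E ^ (3 / 2 : ℝ)) =
          16 * A' * E ^ (7 / 5 : ℝ) := by
        have h7 : (E ^ (-(1 / 40) : ℝ)) ^ 4 = E ^ (-(1 / 10) : ℝ) := by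
          rw [← Real.rpow_natCast, ← Real.rpow_mul hE.le]
          norm_num
        have h8 : E ^ (7 / 5 : ℝ) = E ^ (-(1 / 10) : ℝ) * E ^ (3 / 2 : ℝ) := by
          rw [← Real.rpow_add hE]
          norm_num
        rw [mul_pow, h7, h8]
        ring
      have h9 : 0 ≤ 16 * c3 * E ^ (7 / 5 : ℝ) := by positivity
      calc (1 + |(n : ℝ)|) ^ 4 * ‖c n‖ ≤ (2 * E ^ (-(1 / 40) : ℝ)) ^ 4 * (A' * E ^ (3 / 2 : ℝ)) :=
            mul_le_mul h5 h3 (norm_nonneg _) (by positivity)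
        _ = 16 * A' * E ^ (7 / 5 : ℝ) := h6
        _ ≤ 16 * (A' + c3) * E ^ (7 / 5 : ℝ) := by linarith only [h9]
    · have h2 := H3 n (S2.trans (mul_le_mul_of_nonneg_left h1 (by (clear * -; positivity))))
      have hn1 : 1 ≤ |(n : ℝ)| := hU.trans h1
      have hn0 : 0 < |(n : ℝ)| := by linarith only [hU, h1]
      have h3 : (1 + |(n : ℝ)|) ^ 4 ≤ (2 * |(n : ℝ)|) ^ 4 :=
        pow_le_pow_left₀ (by (clear * - hn1; positivity)) (by linarith only [hU, h1]) 4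
      have h4 : (2 * |(n : ℝ)|) ^ 4 * (c3 / |(n : ℝ)| ^ 130) = 16 * c3 / |(n : ℝ)| ^ 126 := by
        have : |(n : ℝ)| ≠ 0 := hn0.ne'
        field_simp
        ring
      have h5 : (E ^ (-(1 / 40) : ℝ)) ^ 126 ≤ |(n : ℝ)| ^ 126 :=
        pow_le_pow_left₀ (by linarith only [hU]) h1 126
      have h6 : (E ^ (-(1 / 40) : ℝ)) ^ 126 = E ^ (-(63 / 20) : ℝ) := by
        rw [← Real.rpow_natCast, ← Real.rpow_mul hE.le]
        norm_num
      have h7 : 16 * c3 / |(n : ℝ)| ^ 126 ≤ 16 * c3 * E ^ (63 / 20 : ℝ) := by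
        rw [h6] at h5
        rw [div_le_iff₀ (pow_pos hn0 126)]
        have h8 : E ^ (63 / 20 : ℝ) * E ^ (-(63 / 20) : ℝ) = 1 := by
          rw [← Real.rpow_add hE]
          norm_num
        calc 16 * c3 = 16 * c3 * (E ^ (63 / 20 : ℝ) * E ^ (-(63 / 20) : ℝ)) := by
              rw [h8, mul_one]
          _ ≤ 16 * c3 * (E ^ (63 / 20 : ℝ) * |(n : ℝ)| ^ 126) := by
              refine mul_le_mul_of_nonneg_left ?_ (by linarith only [hc3])
              exact mul_le_mul_of_nonneg_left h5 (Real.rpow_nonneg hE.le _)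
          _ = 16 * c3 * E ^ (63 / 20 : ℝ) * |(n : ℝ)| ^ 126 := by ring
      have h9 : E ^ (63 / 20 : ℝ) ≤ E ^ (7 / 5 : ℝ) :=
        Real.rpow_le_rpow_of_exponent_ge hE hE1.le (by norm_num)
      have h10 : 0 ≤ 16 * A' * E ^ (7 / 5 : ℝ) := by positivity
      calc (1 + |(n : ℝ)|) ^ 4 * ‖c n‖ ≤ (2 * |(n : ℝ)|) ^ 4 * (c3 / |(n : ℝ)| ^ 130) :=
            mul_le_mul h3 h2 (norm_nonneg _) (by (clear * - hn1; positivity))
        _ = 16 * c3 / |(n : ℝ)| ^ 126 := h4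
        _ ≤ 16 * c3 * E ^ (63 / 20 : ℝ) := h7
        _ ≤ 16 * c3 * E ^ (7 / 5 : ℝ) := mul_le_mul_of_nonneg_left h9 (by linarith only [hc3])
        _ ≤ 16 * (A' + c3) * E ^ (7 / 5 : ℝ) := by linarith only [h10]

/-- the size of the correction -/
theorem r12_size {M0 M A' Cq K2 K0 ε β P E : ℝ} {q : ℕ} (hM1 : 1 ≤ M) (hM : M ≤ M0)
    (hA' : 1 ≤ A') (hCq : 0 ≤ Cq) (hK2 : K2 = 2 * (Cq + 1) + 96 * M0 + 1)
    (hK0 : M0 ^ 2 * A' * K2 ≤ K0) (hK0' : M0 * (Cq + 1) ≤ K0)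
    (hstar : K0 * Real.exp (K0 / ε) * (1 / (ε * β)) ^ 8 * E ^ (ε / 16) ≤ 1) (hE : 0 < E)
    (hE1 : E < 1) (hε : 0 < ε) (hε1 : ε ≤ 1) (hβ : 0 < β) (hβ1 : β ≤ 1) (hP : 0 < P)
    (hP1 : 2 * Real.pi ≤ M * P) (hP2 : P ≤ 2 * Real.pi * M)
    (hq : (q : ℝ) ≤ (Cq + 1) * (1 / (ε * β))) :
    M * ((2 * ((q + ⌊Real.log (E ^ (-(3 / 2) : ℝ)) /
      (2 * Real.pi * (β - 2 * (ε * β / 4)) / P)⌋₊ : ℕ) : ℝ) + 1) *
      (A' * (M * E) ^ (ε / 4) * Real.exp (2 * Real.pi * (β - ε * β) / P * q))) ≤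
      E ^ (ε / 8) := by
  have hpi := Real.pi_pos
  have hM0 : 1 ≤ M0 := hM1.trans hM
  have hεβ : 0 < ε * β := by (clear * - hε hβ; positivity)
  have hεβ1 : ε * β ≤ β := by linarith only [mul_nonneg (sub_nonneg.2 hε1) (le_of_lt (sub_pos.2 hβ))]
  set Λ := 2 * Real.pi * (β - 2 * (ε * β / 4)) / P with hΛ
  set L := -Real.log E with hL
  have hL0 : 0 ≤ L := by
    have := Real.log_nonpos hE.le hE1.le
    linarith only [this]
  have hlogT : Real.log (E ^ (-(3 / 2) : ℝ)) = 3 / 2 * L := by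
    rw [Real.log_rpow hE, hL]
    ring
  have hΛge : β / (2 * M0) ≤ Λ := by
    rw [hΛ, div_le_div_iff₀ (by positivity) hP]
    have h1 : β * P ≤ β * (2 * Real.pi * M0) :=
      mul_le_mul_of_nonneg_left (hP2.trans (by (clear * - hM; gcongr))) hβ.le
    have h2 : β / 2 ≤ β - 2 * (ε * β / 4) := by linarith only [hεβ1]
    have h3 : 2 * Real.pi * (β / 2) * (2 * M0) ≤
        2 * Real.pi * (β - 2 * (ε * β / 4)) * (2 * M0) := by (clear * - h2 hM0; gcongr)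
    linarith only [h3, h1]
  have hΛ0 : 0 < Λ := lt_of_lt_of_le (by (clear * - hβ hM0; positivity)) hΛge
  have hfloor : (⌊Real.log (E ^ (-(3 / 2) : ℝ)) / Λ⌋₊ : ℝ) ≤ 3 * M0 * L * (1 / β) := by
    rw [hlogT]
    refine (Nat.floor_le (by (clear * - hL0 hΛ0; positivity))).trans ?_
    rw [div_le_iff₀ hΛ0]
    calc 3 / 2 * L = 3 * M0 * L * (1 / β) * (β / (2 * M0)) := by
          (clear * - hM0 hβ; field_simp)
      _ ≤ 3 * M0 * L * (1 / β) * Λ := mul_le_mul_of_nonneg_left hΛge (by (clear * - hM0 hL0 hβ; positivity))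
  have hu : 1 / β ≤ 1 / (ε * β) := one_div_le_one_div_of_le hεβ hεβ1
  have hu1 : 1 ≤ 1 / (ε * β) := by
    rw [le_div_iff₀ hεβ]
    linarith only [hβ1, hεβ1]
  have hE16 : 0 ≤ E ^ (ε / 16) := Real.rpow_nonneg hE.le _
  have hE16' : E ^ (ε / 16) ≤ 1 := Real.rpow_le_one hE.le hE1.le (by (clear * - hε; positivity))
  have hlog : L * E ^ (ε / 16) ≤ 16 / ε := by
    have := r12_log hE hE1 (by positivity : 0 < ε / 16)
    rwa [one_div_div] at this
  -- the number of terms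
  have hnum : (2 * ((q + ⌊Real.log (E ^ (-(3 / 2) : ℝ)) / Λ⌋₊ : ℕ) : ℝ) + 1) * E ^ (ε / 16) ≤
      K2 * (1 / (ε * β)) := by
    push_cast
    have h1 : (2 * ((q : ℝ) + (⌊Real.log (E ^ (-(3 / 2) : ℝ)) / Λ⌋₊ : ℝ)) + 1) ≤
        2 * ((Cq + 1) * (1 / (ε * β))) + 6 * M0 * (1 / β) * L + 1 * (1 / (ε * β)) := by
      linarith only [hq, hfloor, hu1]
    calc (2 * ((q : ℝ) + (⌊Real.log (E ^ (-(3 / 2) : ℝ)) / Λ⌋₊ : ℝ)) + 1) * E ^ (ε / 16)
        ≤ (2 * ((Cq + 1) * (1 / (ε * β))) + 6 * M0 * (1 / β) * L + 1 * (1 / (ε * β))) *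
            E ^ (ε / 16) := mul_le_mul_of_nonneg_right h1 hE16
      _ = (2 * (Cq + 1) + 1) * (1 / (ε * β)) * E ^ (ε / 16) +
            6 * M0 * (1 / β) * (L * E ^ (ε / 16)) := by ring
      _ ≤ (2 * (Cq + 1) + 1) * (1 / (ε * β)) * 1 + 6 * M0 * (1 / β) * (16 / ε) := by
          refine add_le_add ?_ ?_
          · exact mul_le_mul_of_nonneg_left hE16' (by (clear * - hCq hε hβ; positivity))
          · exact mul_le_mul_of_nonneg_left hlog (by positivity)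
      _ = K2 * (1 / (ε * β)) := by
          rw [hK2]
          field_simp
          ring
  -- the exponential
  have hexp : Real.exp (2 * Real.pi * (β - ε * β) / P * q) ≤ Real.exp (M0 * (Cq + 1) / ε) := by
    apply Real.exp_le_exp.mpr
    have h1 : 2 * Real.pi * (β - ε * β) / P ≤ M0 * β := by
      rw [div_le_iff₀ hP]
      have h2 : 2 * Real.pi * (β - ε * β) ≤ M * P * β :=
        mul_le_mul hP1 (by linarith only [hεβ]) (by nlinarith only [hεβ1]) (by positivity)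
      have h3 : M * P * β ≤ M0 * P * β := by (clear * - hM hP hβ; gcongr)
      linarith only [h2, h3]
    calc 2 * Real.pi * (β - ε * β) / P * q ≤ (M0 * β) * ((Cq + 1) * (1 / (ε * β))) :=
          mul_le_mul h1 hq (by (clear * -; positivity)) (by positivity)
      _ = M0 * (Cq + 1) / ε := by (clear * - hβ hε hCq hM0; field_simp)
  -- the power
  have hpow : (M * E) ^ (ε / 4) ≤ M0 * (E ^ (ε / 16) * E ^ (ε / 16) * E ^ (ε / 8)) := by
    rw [Real.mul_rpow (by linarith only [hM1]) hE.le]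
    have h1 : M ^ (ε / 4) ≤ M0 := by
      calc M ^ (ε / 4) ≤ M ^ (1 : ℝ) := Real.rpow_le_rpow_of_exponent_le hM1 (by linarith only [hε1])
        _ = M := Real.rpow_one _
        _ ≤ M0 := hM
    have h2 : E ^ (ε / 4) = E ^ (ε / 16) * E ^ (ε / 16) * E ^ (ε / 8) := by
      rw [← Real.rpow_add hE, ← Real.rpow_add hE]
      congr 1
      ring
    rw [← h2]
    exact mul_le_mul_of_nonneg_right h1 (Real.rpow_nonneg hE.le _)
  have huse := r12_use (k := 1) hstar hE hE1 hε hε1 hβ hβ1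
    (by rw [hK2]; (clear * - hM0 hA' hCq; positivity) : 0 ≤ M0 ^ 2 * A' * K2) hK0 hK0' (by norm_num) le_rfl
  set X := (2 * ((q + ⌊Real.log (E ^ (-(3 / 2) : ℝ)) / Λ⌋₊ : ℕ) : ℝ) + 1) with hX
  have hX0 : 0 ≤ X := by (clear * -; positivity)
  calc M * (X * (A' * (M * E) ^ (ε / 4) * Real.exp (2 * Real.pi * (β - ε * β) / P * q)))
      ≤ M0 * (X * (A' * (M0 * (E ^ (ε / 16) * E ^ (ε / 16) * E ^ (ε / 8))) *
          Real.exp (M0 * (Cq + 1) / ε))) := by
        refine mul_le_mul hM ?_ (by (clear * - hA' hM1 hE; positivity)) (by linarith only [hM1, hM])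
        refine mul_le_mul_of_nonneg_left ?_ hX0
        refine mul_le_mul ?_ hexp (Real.exp_pos _).le (by (clear * - hA' hM0 hE; positivity))
        exact mul_le_mul_of_nonneg_left hpow (by linarith only [hA'])
    _ = M0 ^ 2 * A' * Real.exp (M0 * (Cq + 1) / ε) * (X * E ^ (ε / 16)) * E ^ (ε / 16) *
          E ^ (ε / 8) := by ring
    _ ≤ M0 ^ 2 * A' * Real.exp (M0 * (Cq + 1) / ε) * (K2 * (1 / (ε * β))) * E ^ (ε / 16) *
          E ^ (ε / 8) := by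
        refine mul_le_mul_of_nonneg_right ?_ (Real.rpow_nonneg hE.le _)
        refine mul_le_mul_of_nonneg_right ?_ hE16
        exact mul_le_mul_of_nonneg_left hnum (by positivity)
    _ = (M0 ^ 2 * A' * K2 * Real.exp (M0 * (Cq + 1) / ε) * (1 / (ε * β)) ^ 1 *
          E ^ (ε / 16)) * E ^ (ε / 8) := by ring
    _ ≤ 1 * E ^ (ε / 8) := mul_le_mul_of_nonneg_right huse (Real.rpow_nonneg hE.le _)
    _ = E ^ (ε / 8) := one_mul _

end sizes

/-! ### side conditions -/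

section side

/-- conditions on the first frequency -/
theorem r12_freq {M0 P ε β c1 c2 Cq : ℝ} {q0 q1 : ℕ} (hM0 : 1 ≤ M0) (hc1 : 1 ≤ c1)
    (hc2 : 1 ≤ c2) (hCq : Cq = 8 * Real.pi * M0 * c1 + 2 * Real.pi * M0 +
      16 * Real.pi * M0 ^ 2 * c2 + q0)
    (hεβ : 0 < ε * β) (hεβ1 : ε * β ≤ 1) (hP : 0 < P) (hP3 : P ≤ 2 * Real.pi * M0)
    (hq1 : Cq * (1 / (ε * β)) ≤ q1) :
    q0 ≤ q1 ∧ (∀ q : ℕ, q1 < q → c1 * (P / q) ≤ ε * β / 4) ∧
      (∀ q : ℕ, q1 < q → P / q ≤ 1) ∧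
      (∀ q : ℕ, q1 < q → c2 * (P / q) ≤ (2 * Real.pi * (ε * β / 4) / P) / 2) := by
  have hpi := Real.pi_pos
  have g1 : 0 ≤ 8 * Real.pi * M0 * c1 := by positivity
  have g2 : 0 ≤ 2 * Real.pi * M0 := by positivity
  have g3 : 0 ≤ 16 * Real.pi * M0 ^ 2 * c2 := by positivity
  have g4 : (0 : ℝ) ≤ q0 := by positivity
  have hCq0 : 0 ≤ Cq := by rw [hCq]; linarith only [hP, hP3, g1, g3]
  have hu1 : 1 ≤ 1 / (ε * β) := by
    rw [le_div_iff₀ hεβ]
    linarith only [hεβ1]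
  have hq1b : Cq ≤ q1 := by
    refine le_trans ?_ hq1
    calc Cq = Cq * 1 := (mul_one _).symm
      _ ≤ Cq * (1 / (ε * β)) := mul_le_mul_of_nonneg_left hu1 hCq0
  rw [mul_one_div, div_le_iff₀ hεβ] at hq1
  have hqge : ∀ q : ℕ, q1 < q → 0 < (q : ℝ) ∧ Cq ≤ ε * β * q ∧ Cq ≤ q := by
    intro q hq
    have h1 : (q1 : ℝ) < q := by exact_mod_cast hq
    have h2 : (0 : ℝ) ≤ q1 := by (clear * -; positivity)
    refine ⟨by linarith only [h1], ?_, by linarith only [hq1b, h1]⟩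
    have h3 : (q1 : ℝ) * (ε * β) ≤ q * (ε * β) := mul_le_mul_of_nonneg_right h1.le hεβ.le
    linarith only [hq1, h3]
  refine ⟨?_, ?_, ?_, ?_⟩
  · have h1 : (q0 : ℝ) ≤ q1 := by linarith only [hCq, hP, hP3, g1, g3, hq1b]
    exact_mod_cast h1
  · intro q hq
    obtain ⟨hq0, h1, -⟩ := hqge q hq
    rw [← mul_div_assoc, div_le_iff₀ hq0]
    have h2 : c1 * P ≤ c1 * (2 * Real.pi * M0) := mul_le_mul_of_nonneg_left hP3 (by linarith only [hc1])
    linarith only [hCq, hP, hP3, g3, h1, h2]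
  · intro q hq
    obtain ⟨hq0, -, h1⟩ := hqge q hq
    rw [div_le_one hq0]
    linarith only [hCq, hP3, g1, g3, h1]
  · intro q hq
    obtain ⟨hq0, h1, -⟩ := hqge q hq
    rw [div_div, ← mul_div_assoc, div_le_div_iff₀ hq0 (by positivity)]
    have h2 : P * P ≤ (2 * Real.pi * M0) * (2 * Real.pi * M0) :=
      mul_le_mul hP3 hP3 hP.le (by positivity)
    have h3 : c2 * (P * P) ≤ c2 * ((2 * Real.pi * M0) * (2 * Real.pi * M0)) :=
      mul_le_mul_of_nonneg_left h2 (by linarith only [hc2])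
    have h4 : Real.pi * (16 * Real.pi * M0 ^ 2 * c2) ≤ Real.pi * (ε * β * q) :=
      mul_le_mul_of_nonneg_left (by linarith only [hCq, hP, hP3, g1, h1]) hpi.le
    calc c2 * P * (P * 2) = 2 * (c2 * (P * P)) := by ring
      _ ≤ 2 * (c2 * ((2 * Real.pi * M0) * (2 * Real.pi * M0))) := by linarith only [h3]
      _ = Real.pi * (16 * Real.pi * M0 ^ 2 * c2) / 2 := by ring
      _ ≤ Real.pi * (ε * β * q) / 2 := by linarith only [h4]
      _ = 2 * Real.pi * (ε * β / 4) * q := by ring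

/-- the small quantities -/
theorem r12_smalls {M M0 ε β E c1 c3 c4 K K0 : ℝ} (hMM : M ≤ M0) (hM0 : 1 ≤ M0)
    (hc1 : 1 ≤ c1) (hc3 : 1 ≤ c3) (hc4 : 1 ≤ c4) (hK : 0 ≤ K)
    (b1 : 4 * c1 ≤ K0) (b2 : c3 ≤ K0) (b3 : M0 ≤ K0) (b4 : c4 ≤ K0) (b5 : K ≤ K0)
    (hstar : K0 * Real.exp (K0 / ε) * (1 / (ε * β)) ^ 8 * E ^ (ε / 16) ≤ 1) (hE : 0 < E)
    (hE1 : E < 1) (hε : 0 < ε) (hε8 : 8 * ε ≤ 1) (hβ : 0 < β) (hβ1 : β ≤ 1) :
    M * E ≤ 1 ∧ c1 * E ^ (9 / 10 : ℝ) ≤ ε * β / 4 ∧ c3 ≤ β ^ 2 * E ^ (-(1 / 40) : ℝ) ∧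
      c3 * E ^ (7 / 4 : ℝ) ≤ 1 ∧ c4 * E ^ (ε / 8) ≤ (ε * β) ^ 7 ∧
      K * E ^ (3 / 20 : ℝ) ≤ 1 := by
  have hε1 : ε ≤ 1 := by linarith only [hε8]
  have hεβ : 0 < ε * β := by (clear * - hε hβ; positivity)
  have hεβ1 : ε * β ≤ β := by nlinarith only [hβ, hε8]
  have huse : ∀ (A θ : ℝ) (k : ℕ), 0 ≤ A → A ≤ K0 → k ≤ 8 → ε / 16 ≤ θ →
      A * (1 / (ε * β)) ^ k * E ^ θ ≤ 1 := fun A θ k h1 h2 h3 h4 =>
    r12_use' k hstar hE hE1 hε hε1 hβ hβ1 h1 h2 h3 h4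
  refine ⟨?_, ?_, ?_, ?_, ?_, ?_⟩
  · have := huse M0 1 0 (by linarith only [hM0]) b3 (by norm_num) (by linarith only [hε8])
    rw [pow_zero, mul_one, Real.rpow_one] at this
    exact (mul_le_mul_of_nonneg_right hMM hE.le).trans this
  · have := huse (4 * c1) (9 / 10) 1 (by linarith only [hc1]) b1 (by norm_num) (by linarith)
    rw [pow_one, mul_one_div, div_mul_eq_mul_div, div_le_iff₀ hεβ] at this
    linarith only [this]
  · have := huse c3 (1 / 40) 2 (by linarith only [hc3]) b2 (by norm_num) (by linarith only [hε8])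
    have h2 : (1 / β) ^ 2 ≤ (1 / (ε * β)) ^ 2 :=
      pow_le_pow_left₀ (by positivity) (one_div_le_one_div_of_le hεβ hεβ1) 2
    have h3 : c3 * (1 / β) ^ 2 * E ^ (1 / 40 : ℝ) ≤ 1 := by
      refine le_trans ?_ this
      (clear * - h2 hc3 hE; gcongr)
    have h4 : E ^ (1 / 40 : ℝ) * E ^ (-(1 / 40) : ℝ) = 1 := by
      rw [← Real.rpow_add hE]
      norm_num
    calc c3 = (c3 * (1 / β) ^ 2 * E ^ (1 / 40 : ℝ)) * (β ^ 2 * E ^ (-(1 / 40) : ℝ)) := by
          have h5 : (1 / β) ^ 2 * β ^ 2 = 1 := by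
            rw [← mul_pow, one_div_mul_cancel hβ.ne', one_pow]
          calc c3 = c3 * ((1 / β) ^ 2 * β ^ 2) * (E ^ (1 / 40 : ℝ) * E ^ (-(1 / 40) : ℝ)) := by
                rw [h4, h5, mul_one, mul_one]
            _ = _ := by ring
      _ ≤ 1 * (β ^ 2 * E ^ (-(1 / 40) : ℝ)) := by
          refine mul_le_mul_of_nonneg_right h3 ?_
          have := Real.rpow_nonneg hE.le (-(1 / 40) : ℝ)
          (clear * - hβ hE; positivity)
      _ = β ^ 2 * E ^ (-(1 / 40) : ℝ) := one_mul _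
  · have := huse c3 (7 / 4) 0 (by linarith only [hc3]) b2 (by norm_num) (by linarith only [hε8])
    rwa [pow_zero, mul_one] at this
  · have := huse c4 (ε / 8) 7 (by linarith only [hc4]) b4 (by norm_num) (by linarith only [hε])
    rw [one_div, inv_pow, ← div_eq_mul_inv, div_mul_eq_mul_div,
      div_le_iff₀ (by positivity)] at this
    linarith only [this]
  · have := huse K (3 / 20) 0 hK b5 (by norm_num) (by linarith only [hε8])
    rwa [pow_zero, mul_one] at this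

/-- size of the correction on the smaller strip -/
theorem r12_corr {h : ℝ → ℝ} {M0 M A' Cq K2 K0 ε β P E : ℝ} (T : CTab M β P)
    (hcl : Close T h E) {q1 N : ℕ} (hMM : M ≤ M0)
    (hN : N = q1 + ⌊Real.log (E ^ (-(3 / 2) : ℝ)) /
      (2 * Real.pi * (β - 2 * (ε * β / 4)) / P)⌋₊)
    (hA'1 : 1 ≤ A') (hCq0 : 0 ≤ Cq) (hK2 : K2 = 2 * (Cq + 1) + 96 * M0 + 1)
    (hK0 : M0 ^ 2 * A' * K2 ≤ K0) (hK0' : M0 * (Cq + 1) ≤ K0)
    (hstar : K0 * Real.exp (K0 / ε) * (1 / (ε * β)) ^ 8 * E ^ (ε / 16) ≤ 1) (hE : 0 < E)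
    (hE1 : E < 1) (hε : 0 < ε) (hε8 : 8 * ε ≤ 1)
    (hP1 : 2 * Real.pi ≤ M * P) (hP2 : P ≤ 2 * Real.pi * M)
    (hq1' : (q1 : ℝ) ≤ (Cq + 1) * (1 / (ε * β)))
    (hW : ∀ n : ℤ, ‖fc P (wd T h) n‖ * Wg (2 * Real.pi * (β - 2 * (ε * β / 4)) / P)
      (E ^ (-(3 / 2) : ℝ)) q1 n ≤ A')
    (hC : ∀ ψ ∈ T.D, ‖corr T h N ψ‖ ≤ M * ∑ n ∈ Finset.Icc (-(N : ℤ)) N,
      ‖fc P (wd T h) n‖ * Real.exp (2 * Real.pi * |(n : ℝ)| * |(T.X ψ).im| / P)) :
    ∀ ψ ∈ T.D, |(T.X ψ).im| < β - ε * β → ‖corr T h N ψ‖ ≤ E ^ (ε / 8) := by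
  have hpi := Real.pi_pos
  have hβ := T.β0
  have hβ1 := T.β1
  have hP := T.P0
  have hM1 := T.M1
  have hε1 : ε ≤ 1 := by linarith only [hε8]
  have hεβ : 0 < ε * β := by positivity
  have hεβ1 : ε * β ≤ β := by linarith only [mul_nonneg (le_of_lt (sub_pos.2 hβ)) (sub_nonneg.2 hε8), hβ]
  have hT1 : 1 ≤ E ^ (-(3 / 2) : ℝ) :=
    Real.one_le_rpow_of_pos_of_le_one_of_nonpos hE hE1.le (by norm_num)
  have hΛ0 : 0 < 2 * Real.pi * (β - 2 * (ε * β / 4)) / P := by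
    have : 0 < β - 2 * (ε * β / 4) := by linarith only [hβ, hεβ1]
    (clear * - this hP; positivity)
  intro ψ hψ him
  refine (hC ψ hψ).trans ?_
  have h0 : 0 ≤ β - ε * β := by linarith only [hεβ1]
  have hs1 := r12_sum_bound (c := fc P (wd T h)) (q := q1) (t := ε / 4) (e0 := M * E)
    (μ := 2 * Real.pi * (β - ε * β) / P) (y := 2 * Real.pi * |(T.X ψ).im| / P) hΛ0 hT1 hA'1 hW
    (fun n => r12_fc_bound hP (r12_wd_bound T hcl) n) (by positivity) (by linarith only [hε8])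
    (by (clear * - hεβ1 hP; positivity))
    (by
      rw [← mul_div_assoc]
      refine div_le_div_of_nonneg_right ?_ hP.le
      have e : (1 - ε / 4) * (2 * Real.pi * (β - 2 * (ε * β / 4))) -
          2 * Real.pi * (β - ε * β) = 2 * Real.pi * (ε * β / 4 + ε ^ 2 * β / 8) := by ring
      have : 0 ≤ 2 * Real.pi * (ε * β / 4 + ε ^ 2 * β / 8) := by (clear * - hε hβ; positivity)
      linarith only [this])
    (div_le_div_of_nonneg_right (mul_le_mul_of_nonneg_left him.le (by positivity)) hP.le)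
  rw [← hN] at hs1
  have hs2 := r12_size (q := q1) hM1 hMM hA'1 hCq0 hK2 hK0 hK0' hstar hE hE1 hε hε1 hβ hβ1 hP
    hP1 hP2 hq1'
  rw [← hN] at hs2
  refine le_trans (mul_le_mul_of_nonneg_left ?_ (by linarith only [hM1])) hs2
  refine le_trans (le_of_eq ?_) hs1
  refine Finset.sum_congr rfl fun n _ => ?_
  congr 2
  ring

/-- size of the remainder -/
theorem r12_rem {h : ℝ → ℝ} {M A' β P E ε c3 c5 Z : ℝ} (T : CTab M β P) (hcl : Close T h E)
    {q1 N : ℕ}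
    (hN : N = q1 + ⌊Real.log (E ^ (-(3 / 2) : ℝ)) /
      (2 * Real.pi * (β - 2 * (ε * β / 4)) / P)⌋₊)
    (hZ : Z = ∑' n : ℤ, 1 / (1 + |(n : ℝ)|) ^ 2)
    (hA'1 : 1 ≤ A') (hc3 : 1 ≤ c3) (hE : 0 < E) (hE1 : E < 1) (hME : M * E ≤ 1)
    (hΛ0 : 0 < 2 * Real.pi * (β - 2 * (ε * β / 4)) / P)
    (hW : ∀ n : ℤ, ‖fc P (wd T h) n‖ * Wg (2 * Real.pi * (β - 2 * (ε * β / 4)) / P)
      (E ^ (-(3 / 2) : ℝ)) q1 n ≤ A')
    (H3 : ∀ n : ℤ, c3 ≤ β ^ 2 * |(n : ℝ)| → ‖fc P (wd T h) n‖ ≤ c3 / |(n : ℝ)| ^ 130)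
    (S2 : c3 ≤ β ^ 2 * E ^ (-(1 / 40) : ℝ))
    (S5 : c5 * (16 * (A' + c3) * Z) * E ^ (3 / 20 : ℝ) ≤ 1) :
    (Summable fun n : ℤ => (1 + |(n : ℝ)|) ^ 2 * ‖fc P (wd T h) n‖) ∧
    (∑' n : ℤ, (if |n| ≤ N then 0 else (1 + |(n : ℝ)|) ^ 2 * ‖fc P (wd T h) n‖) ≤
      16 * (A' + c3) * E ^ (7 / 5 : ℝ) * Z) ∧
    c5 * (16 * (A' + c3) * E ^ (7 / 5 : ℝ) * Z) ≤ E ^ (5 / 4 : ℝ) := by
  have hdec := fun n : ℤ => r12_decay T hcl hME hc3 H3 n
  have htail := fun n : ℤ => r12_tail_bound (q := q1) hΛ0 hE hE1 hA'1 hc3 hW H3 S2 n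
  rw [← hN] at htail
  refine ⟨Summable.of_nonneg_of_le (fun n => by (clear * -; positivity)) hdec (r12_summable.mul_left _),
    ?_, ?_⟩
  · rw [hZ, ← tsum_mul_left]
    refine Summable.tsum_le_tsum htail ?_ (r12_summable.mul_left _)
    refine Summable.of_nonneg_of_le (fun n => ?_) htail (r12_summable.mul_left _)
    split_ifs
    · exact le_rfl
    · (clear * -; positivity)
  · have h1 : E ^ (7 / 5 : ℝ) = E ^ (3 / 20 : ℝ) * E ^ (5 / 4 : ℝ) := by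
      rw [← Real.rpow_add hE]
      norm_num
    rw [h1]
    calc c5 * (16 * (A' + c3) * (E ^ (3 / 20 : ℝ) * E ^ (5 / 4 : ℝ)) * Z)
        = (c5 * (16 * (A' + c3) * Z) * E ^ (3 / 20 : ℝ)) * E ^ (5 / 4 : ℝ) := by ring
      _ ≤ 1 * E ^ (5 / 4 : ℝ) := mul_le_mul_of_nonneg_right S5 (Real.rpow_nonneg hE.le _)
      _ = E ^ (5 / 4 : ℝ) := one_mul _

end side

/-! ### the Newton step -/

/-- the Newton step, from the leaf relation (`leaf_relation`, part R11) -/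
theorem newton_step_of
    (leaf : ∀ M0 : ℝ, 1 ≤ M0 → ∃ C : ℝ, 1 ≤ C ∧
      ∀ (M β P : ℝ) (T : CTab M β P), M ≤ M0 → ∀ (h : ℝ → ℝ), ContDiff ℝ ∞ h →
        (∀ x, h (x + 2 * Real.pi) = h x) → (∀ x, 0 < rad h x) → ∀ (E s : ℝ) (n q : ℕ), q = n + 1 →
        Close T h E → 0 < s → s < β → C * (P / q) ≤ s → C * (q : ℝ) ^ 4 * E ≤ s → Cst h n →
        ∃ (Ef κ : ℕ → ℂ → ℂ) (L : ℂ → ℂ) (c0 : ℝ),
          (∀ j < q, DifferentiableOn ℂ (Ef j) (strip (β - s))) ∧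
          (∀ j < q, DifferentiableOn ℂ (κ j) (strip (β - s))) ∧
          (∀ j < q, ∀ ζ ∈ strip (β - s), Ef j (ζ + P) = Ef j ζ ∧ κ j (ζ + P) = κ j ζ) ∧
          (∀ j < q, ∀ ζ ∈ strip (β - s),
            ‖Ef j ζ‖ ≤ C * (P / q) ^ 2 ∧ ‖κ j ζ - 1‖ ≤ C * (P / q) ^ 2) ∧
          (∀ j < q, ∀ x : ℝ, (Ef j x).im = 0) ∧
          DifferentiableOn ℂ L (strip (β - s)) ∧ (∀ ζ ∈ strip (β - s), L (ζ + P) = L ζ) ∧
          (∀ ζ ∈ strip (β - s), ‖L ζ‖ ≤ C) ∧
          (∀ x : ℝ, ‖(c0 : ℂ) - L x - (P / q : ℝ) * ∑ j ∈ Finset.range q,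
            κ j x * wd T h (x + (j + 1 / 2) * (P / q) + (Ef j x).re)‖ ≤ C * (q : ℝ) ^ 8 * E ^ 2))
    {h : ℝ → ℝ} (hs : ContDiff ℝ ∞ h) (hp : ∀ x, h (x + 2 * Real.pi) = h x)
    (hpos : ∀ x, 0 < rad h x) {q0 : ℕ} (hcst : ∀ n, q0 ≤ n → Cst h n) (M0 : ℝ) (hM0 : 1 ≤ M0) :
    ∃ C : ℝ, 1 ≤ C ∧ ∀ (M β P : ℝ) (T : CTab M β P) (ε E : ℝ), M + 1 ≤ M0 → 0 < ε → 8 * ε ≤ 1 →
      0 < E → Close T h E → Real.exp (C / ε ^ 2) * (1 / β) ^ C * E ^ (ε / C) ≤ 1 →
      ∃ (P' : ℝ) (T' : CTab (M + ε * β) (β - 3 * (ε * β)) P'),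
        (∀ ψ ∈ T'.D, ψ ∈ T.D ∧ ‖T'.G ψ - T.G ψ‖ ≤ E ^ (ε / C)) ∧
        Close T' h (E ^ (5 / 4 : ℝ)) := by
  have hpi := Real.pi_pos
  have hpi4 := Real.pi_le_four
  obtain ⟨c1, hc1, H1⟩ := leaf M0 hM0
  obtain ⟨c2, hc2, H2⟩ := fourier_relation (c1 + 8 * M0) (by linarith)
  obtain ⟨c3, hc3, H3⟩ := coef_tail hs hp M0 130
  obtain ⟨c4, hc4, H4⟩ := exists_update M0 hM0
  obtain ⟨c5, hc5, H5⟩ := corr_close M0
  obtain ⟨Z, hZ⟩ : ∃ Z : ℝ, Z = ∑' n : ℤ, 1 / (1 + |(n : ℝ)|) ^ 2 := ⟨_, rfl⟩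
  have hZ0 : 0 ≤ Z := by rw [hZ]; exact tsum_nonneg fun n => by (clear * -; positivity)
  obtain ⟨Cq, hCq⟩ : ∃ Cq : ℝ, Cq = 8 * Real.pi * M0 * c1 + 2 * Real.pi * M0 +
    16 * Real.pi * M0 ^ 2 * c2 + q0 := ⟨_, rfl⟩
  have hCq0 : 0 ≤ Cq := by rw [hCq]; (clear * - hM0 hc1 hc2; positivity)
  obtain ⟨A', hA'⟩ : ∃ A' : ℝ, A' = 2 * (c2 * (1 + c1)) + 1 := ⟨_, rfl⟩
  have hA'1 : 1 ≤ A' := by
    have : 0 ≤ c2 * (1 + c1) := by positivity
    rw [hA']
    linarith only [this]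
  obtain ⟨K2, hK2⟩ : ∃ K2 : ℝ, K2 = 2 * (Cq + 1) + 96 * M0 + 1 := ⟨_, rfl⟩
  have hK20 : 0 ≤ K2 := by rw [hK2]; (clear * - hCq0 hM0; positivity)
  have k1 : 0 ≤ M0 ^ 2 * A' * K2 := by (clear * - hM0 hA'1 hK20; positivity)
  have k2 : 0 ≤ M0 * (Cq + 1) := by (clear * - hM0 hCq0; positivity)
  have k3 : 0 ≤ c5 * (16 * (A' + c3) * Z) := by (clear * - hc5 hA'1 hc3 hZ0; positivity)
  obtain ⟨K0, d1, d2, d3, d4, d5, d6, d7⟩ : ∃ K0 : ℝ, 4 * c1 ≤ K0 ∧ c3 ≤ K0 ∧ M0 ≤ K0 ∧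
      c4 ≤ K0 ∧ M0 ^ 2 * A' * K2 ≤ K0 ∧ M0 * (Cq + 1) ≤ K0 ∧
      c5 * (16 * (A' + c3) * Z) ≤ K0 :=
    ⟨4 * c1 + c3 + M0 + c4 + M0 ^ 2 * A' * K2 + M0 * (Cq + 1) + c5 * (16 * (A' + c3) * Z),
      by linarith only [hM0, hc3, hc4, k1, k2, k3], by linarith only [k3, k2, k1, hc4, hc1, hM0], by linarith, by linarith only [hM0, hc1, hc3, k1, k2, k3], by linarith only [hM0, hc1, hc3, hc4, k2, k3], by linarith only [hM0, hc1, hc3, hc4, k1, k3], by linarith only [hM0, hc1, hc3, hc4, k1, k2]⟩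
  refine ⟨16 * (K0 + 8), by linarith only [hc1, d1], ?_⟩
  intro M β P T ε E hM hε hε8 hE hcl hsmall
  have hβ := T.β0
  have hβ1 := T.β1
  have hP := T.P0
  have hMM : M ≤ M0 := by linarith only [hM]
  have hM1 := T.M1
  obtain ⟨hstar, hE1⟩ := r12_star (by linarith only [hc1, d1]) le_rfl hε (by linarith only [hε8]) hβ hβ1 hE hsmall
  obtain ⟨hP1, hP2⟩ := period_bounds T
  have hεβ : 0 < ε * β := by (clear * - hε hβ; positivity)
  have hεβ1 : ε * β ≤ β := by nlinarith only [hβ, hε8]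
  obtain ⟨hME, S1, S2, S3, S4, S5⟩ := r12_smalls hMM hM0 hc1 hc3 hc4 k3 d1 d2 d3 d4 d7 hstar
    hE hE1 hε hε8 hβ hβ1
  obtain ⟨q1, hq1, hq1'⟩ : ∃ q1 : ℕ, Cq * (1 / (ε * β)) ≤ q1 ∧
      (q1 : ℝ) ≤ (Cq + 1) * (1 / (ε * β)) := by
    refine ⟨⌈Cq * (1 / (ε * β))⌉₊, Nat.le_ceil _, ?_⟩
    have h1 := Nat.ceil_lt_add_one (by (clear * - hCq0 hε hβ; positivity) : 0 ≤ Cq * (1 / (ε * β)))
    have hu1 : 1 ≤ 1 / (ε * β) := by
      rw [le_div_iff₀ hεβ]
      linarith only [hβ1, hεβ1]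
    linarith only [h1, hu1]
  obtain ⟨Q0, Q1, Q2, Q3⟩ := r12_freq hM0 hc1 hc2 hCq hεβ (hεβ1.trans hβ1) hP
    (hP2.trans (by (clear * - hMM; gcongr))) hq1
  have hW : ∀ n : ℤ, ‖fc P (wd T h) n‖ * Wg (2 * Real.pi * (β - 2 * (ε * β / 4)) / P)
      (E ^ (-(3 / 2) : ℝ)) q1 n ≤ A' := by
    intro n
    rw [hA']
    refine r12_weights hs hp hcst T hcl hE hE1 hME (by (clear * - hε hβ; positivity)) (by linarith only [hεβ1]) hc1 hc2 hc3
      ?_ ?_ (by linarith only [hM, hM1]) ?_ H2 (fun n hn => H3 M β P T hMM n hn) Q0 Q1 Q2 Q3 S1 S2 S3 n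
    · have h1 : M * P ≤ (c1 + 8 * M0) * P := mul_le_mul_of_nonneg_right (by linarith only [hc1, hM, hM1]) hP.le
      have := Real.two_le_pi
      linarith only [hP1, h1, this]
    · have h1 : 2 * Real.pi * M ≤ 8 * M0 := mul_le_mul (by linarith only [hpi4]) hMM (by linarith only [hM1]) (by norm_num)
      linarith only [hc1, hP2, h1]
    · intro n q hq h1 h2 h3
      exact H1 M β P T hMM h hs hp hpos E (ε * β / 4) n q hq hcl (by (clear * - hε hβ; positivity)) (by linarith only [hβ, hεβ1])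
        h1 h2 h3
  obtain ⟨N, hN⟩ : ∃ N : ℕ, N = q1 + ⌊Real.log (E ^ (-(3 / 2) : ℝ)) /
    (2 * Real.pi * (β - 2 * (ε * β / 4)) / P)⌋₊ := ⟨_, rfl⟩
  have hΛ0 : 0 < 2 * Real.pi * (β - 2 * (ε * β / 4)) / P := by
    have : 0 < β - 2 * (ε * β / 4) := by linarith only [hβ, hεβ1]
    (clear * - this hP; positivity)
  obtain ⟨P1, P2, P3⟩ := corr_props T h hs hp N
  have hbound := r12_corr T hcl hMM hN hA'1 hCq0 hK2 d5 d6 hstar hE hE1 hε hε8 hP1 hP2 hq1' hW P3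
  obtain ⟨P', T', hT'1, hT'2⟩ := H4 M β P T (ε * β) (E ^ (ε / 8)) (corr T h N) hM hεβ
    (by nlinarith only [hε8, hβ]) (Real.rpow_nonneg hE.le _) S4 (P1.mono fun ψ hψ => hψ.1)
    (fun ψ hψ him => ⟨hbound ψ hψ him, (P2 ψ hψ).1, (P2 ψ hψ).2⟩)
  refine ⟨P', T', fun ψ hψ => ⟨(hT'1 ψ hψ).1, ?_⟩, ?_⟩
  · rw [hT'2 ψ hψ, add_sub_cancel_left]
    refine (hbound ψ (hT'1 ψ hψ).1 (hT'1 ψ hψ).2).trans ?_
    refine Real.rpow_le_rpow_of_exponent_ge hE hE1.le ?_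
    exact div_le_div_of_nonneg_left hε.le (by norm_num) (by linarith only [hc1, d1])
  · have hdf : df T' h = fun x : ℝ => df T h x - (corr T h N x).re := by
      funext x
      unfold df
      rw [hT'2 _ (T'.rD x), add_re]
      ring
    obtain ⟨hsm, hR, hfin⟩ := r12_rem (c5 := c5) T hcl hN hZ hA'1 hc3 hE hE1 hME hΛ0 hW
      (fun n hn => H3 M β P T hMM n hn) S2 S5
    have hcc := H5 M β P T hMM h hs hp N _ hsm hR
    intro x
    rw [hdf]
    exact ⟨(hcc x 0 (by norm_num)).trans hfin, (hcc x 1 (by norm_num)).trans hfin,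
      (hcc x 2 le_rfl).trans hfin⟩

end Vale.Agent.P097.Reg
end

section

/-!
# P097, regularity theorem: iteration of the Newton step and conclusion
-/

namespace Vale.Agent.P097.Reg.R13

open Complex Filter Topology
open scoped ComplexConjugate ContDiff

/-- the sequence of relative losses -/
noncomputable def ee (k : ℕ) : ℝ := 1 / (100 * ((k : ℝ) + 1) ^ 2)

lemma ee_pos (k : ℕ) : 0 < ee k := by unfold ee; (clear * -; positivity)

lemma ee_le (k : ℕ) : ee k ≤ 1 / 100 := by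
  unfold ee
  apply one_div_le_one_div_of_le (by (clear * -; norm_num))
  have : (1 : ℝ) ≤ ((k : ℝ) + 1) ^ 2 := by
    have h : (0 : ℝ) ≤ k := Nat.cast_nonneg k
    nlinarith
  linarith

lemma sum_ee (k : ℕ) : ∑ j ∈ Finset.range k, ee j ≤ 3 / 100 := by
  have h : ∀ k : ℕ, ∑ j ∈ Finset.range k, ee j ≤ (3 - 2 / ((k : ℝ) + 1)) / 100 := by
    intro k
    induction k with
    | zero => simp only [Finset.range_zero, Finset.sum_empty, CharP.cast_eq_zero, zero_add, div_one]; norm_num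
    | succ k ih =>
      rw [Finset.sum_range_succ]
      have h0 : (0 : ℝ) ≤ k := Nat.cast_nonneg k
      have e1 : ee k ≤ (2 / ((k : ℝ) + 1) - 2 / ((k : ℝ) + 1 + 1)) / 100 := by
        unfold ee
        have : (2 / ((k : ℝ) + 1) - 2 / ((k : ℝ) + 1 + 1)) / 100 =
            2 / (100 * (((k : ℝ) + 1) * ((k : ℝ) + 1 + 1))) := by
          field_simp; ring
        rw [this, div_le_div_iff₀ (by positivity) (by positivity)]
        nlinarith only []
      push_cast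
      have : (3 - 2 / ((k : ℝ) + 1)) / 100 + (2 / ((k : ℝ) + 1) - 2 / ((k : ℝ) + 1 + 1)) / 100 =
          (3 - 2 / ((k : ℝ) + 1 + 1)) / 100 := by ring
      linarith only [ih, e1]
  have h1 := h k
  have h2 : 0 < 2 / ((k : ℝ) + 1) := by positivity
  linarith only [h1, h2]

/-- the product of the losses -/
noncomputable def pp (k : ℕ) : ℝ := ∏ j ∈ Finset.range k, (1 - 3 * ee j)

lemma pp_succ (k : ℕ) : pp (k + 1) = pp k * (1 - 3 * ee k) := by
  unfold pp; rw [Finset.prod_range_succ]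

lemma pp_le_one (k : ℕ) : pp k ≤ 1 := by
  unfold pp
  apply Finset.prod_le_one
  · intro j _
    have := ee_le j
    linarith
  · intro j _
    have := ee_pos j
    linarith

lemma pp_ge (k : ℕ) : 1 / 2 ≤ pp k := by
  have h : ∀ k : ℕ, 1 - 3 * ∑ j ∈ Finset.range k, ee j ≤ pp k := by
    intro k
    induction k with
    | zero => simp only [Finset.range_zero, Finset.sum_empty, mul_zero, sub_zero, pp, Finset.prod_empty, Std.le_refl]
    | succ k ih =>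
      rw [Finset.sum_range_succ, pp_succ]
      have h1 := pp_le_one k
      have h2 := ee_pos k
      nlinarith
  have h1 := h k
  have h2 := sum_ee k
  linarith only [h1, h2]

/-- the errors -/
noncomputable def EE (E0 : ℝ) (k : ℕ) : ℝ := E0 ^ ((5 / 4 : ℝ) ^ k)

lemma EE_pos {E0 : ℝ} (h : 0 < E0) (k : ℕ) : 0 < EE E0 k := Real.rpow_pos_of_pos h _

lemma EE_succ {E0 : ℝ} (h : 0 < E0) (k : ℕ) : EE E0 (k + 1) = (EE E0 k) ^ (5 / 4 : ℝ) := by
  unfold EE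
  rw [← Real.rpow_mul h.le, pow_succ]

lemma exists_K : ∃ K : ℝ, 1 ≤ K ∧ ∀ k : ℕ, ((k : ℝ) + 1) ^ 6 ≤ K * (5 / 4 : ℝ) ^ k := by
  have h := tendsto_pow_const_mul_const_pow_of_abs_lt_one 6 (r := (4 / 5 : ℝ))
    (by rw [abs_of_pos] <;> norm_num)
  obtain ⟨B, hB⟩ := h.bddAbove_range
  refine ⟨max 1 (B * (5 / 4)), le_max_left _ _, fun k => ?_⟩
  have h1 : ((k + 1 : ℕ) : ℝ) ^ 6 * (4 / 5 : ℝ) ^ (k + 1) ≤ B := hB ⟨k + 1, rfl⟩
  push_cast at h1
  have h2 : (0 : ℝ) < (5 / 4 : ℝ) ^ k := by (clear * -; positivity)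
  have h3 : (4 / 5 : ℝ) ^ (k + 1) * ((5 / 4 : ℝ) ^ k * (5 / 4)) = 1 := by
    rw [← pow_succ, ← mul_pow]; norm_num
  calc ((k : ℝ) + 1) ^ 6 = (((k : ℝ) + 1) ^ 6 * (4 / 5 : ℝ) ^ (k + 1)) *
        ((5 / 4 : ℝ) ^ k * (5 / 4)) := by rw [mul_assoc, h3, mul_one]
    _ ≤ B * ((5 / 4 : ℝ) ^ k * (5 / 4)) := mul_le_mul_of_nonneg_right h1 (by positivity)
    _ = (B * (5 / 4)) * (5 / 4 : ℝ) ^ k := by ring
    _ ≤ max 1 (B * (5 / 4)) * (5 / 4 : ℝ) ^ k :=
        mul_le_mul_of_nonneg_right (le_max_right _ _) h2.le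

/-- the smallness condition of the Newton step, for all steps at once -/
lemma cond {C K E0 β0 β : ℝ} (hC : 1 ≤ C) (hK : ∀ k : ℕ, ((k : ℝ) + 1) ^ 6 ≤ K * (5 / 4 : ℝ) ^ k)
    (hE : 0 < E0) (hb : 0 < β0) (hb1 : β0 ≤ 1)
    (hL : 1000000 * C ^ 2 * K * (1 + Real.log (2 / β0)) ≤ -Real.log E0) (k : ℕ)
    (hβ : β0 / 2 ≤ β) :
    Real.exp (C / ee k ^ 2) * (1 / β) ^ C * (EE E0 k) ^ (ee k / C) ≤ 1 := by
  have hβ0 : 0 < β := by linarith only [hb, hβ]
  set ℓ := Real.log (2 / β0) with hℓ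
  have hℓ0 : 0 ≤ ℓ := by
    apply Real.log_nonneg
    rw [le_div_iff₀ hb]; linarith only [hb1]
  have h1 : (1 / β) ^ C ≤ Real.exp (C * ℓ) := by
    have h2 : (2 / β0) ^ C = Real.exp (C * ℓ) := by
      rw [Real.rpow_def_of_pos (by positivity), mul_comm]
    rw [← h2]
    apply Real.rpow_le_rpow (by positivity) _ (by linarith only [hC])
    rw [div_le_div_iff₀ hβ0 hb]; linarith only [hβ]
  have h3 : (EE E0 k) ^ (ee k / C) = Real.exp (ee k / C * ((5 / 4 : ℝ) ^ k * Real.log E0)) := by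
    unfold EE
    rw [← Real.rpow_mul hE.le, Real.rpow_def_of_pos hE]
    congr 1; ring
  have hkey : C / ee k ^ 2 + C * ℓ + ee k / C * ((5 / 4 : ℝ) ^ k * Real.log E0) ≤ 0 := by
    have hk := hK k
    have hkk : (1 : ℝ) ≤ (k : ℝ) + 1 := by
      have : (0 : ℝ) ≤ k := Nat.cast_nonneg k
      linarith only []
    have h4 : C / ee k ^ 2 = 10000 * C * ((k : ℝ) + 1) ^ 4 := by
      unfold ee; field_simp; ring
    have h5 : ee k / C * ((5 / 4 : ℝ) ^ k * Real.log E0) =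
        -((5 / 4 : ℝ) ^ k * (-Real.log E0) / (100 * C * ((k : ℝ) + 1) ^ 2)) := by
      unfold ee; (clear * - hC; field_simp)
    rw [h4, h5, ← sub_eq_add_neg, sub_nonpos, le_div_iff₀ (by (clear * - hC; positivity))]
    have h54 : 0 < (5 / 4 : ℝ) ^ k := by positivity
    calc (10000 * C * ((k : ℝ) + 1) ^ 4 + C * ℓ) * (100 * C * ((k : ℝ) + 1) ^ 2)
        = 1000000 * C ^ 2 * ((k : ℝ) + 1) ^ 6 + 100 * C ^ 2 * ℓ * ((k : ℝ) + 1) ^ 2 := by ring
      _ ≤ 1000000 * C ^ 2 * ((k : ℝ) + 1) ^ 6 + 1000000 * C ^ 2 * ℓ * ((k : ℝ) + 1) ^ 6 := by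
          have h6 : ((k : ℝ) + 1) ^ 2 ≤ ((k : ℝ) + 1) ^ 6 := pow_le_pow_right₀ hkk (by norm_num)
          have h7 : 0 ≤ C ^ 2 * ℓ := by (clear * - hC hℓ0; positivity)
          have h8 : C ^ 2 * ℓ * ((k : ℝ) + 1) ^ 2 ≤ C ^ 2 * ℓ * ((k : ℝ) + 1) ^ 6 :=
            mul_le_mul_of_nonneg_left h6 h7
          have h9 : 0 ≤ C ^ 2 * ℓ * ((k : ℝ) + 1) ^ 6 := by (clear * - hC hℓ0; positivity)
          linarith only [h9, h8]
      _ = 1000000 * C ^ 2 * (1 + ℓ) * ((k : ℝ) + 1) ^ 6 := by ring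
      _ ≤ 1000000 * C ^ 2 * (1 + ℓ) * (K * (5 / 4 : ℝ) ^ k) := by
          apply mul_le_mul_of_nonneg_left hk (by (clear * - hC hℓ0; positivity))
      _ = (1000000 * C ^ 2 * K * (1 + ℓ)) * (5 / 4 : ℝ) ^ k := by ring
      _ ≤ (-Real.log E0) * (5 / 4 : ℝ) ^ k := mul_le_mul_of_nonneg_right hL h54.le
      _ = (5 / 4 : ℝ) ^ k * (-Real.log E0) := by ring
  calc Real.exp (C / ee k ^ 2) * (1 / β) ^ C * (EE E0 k) ^ (ee k / C)
      ≤ Real.exp (C / ee k ^ 2) * Real.exp (C * ℓ) *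
          Real.exp (ee k / C * ((5 / 4 : ℝ) ^ k * Real.log E0)) := by
        rw [h3]
        apply mul_le_mul_of_nonneg_right _ (Real.exp_pos _).le
        exact mul_le_mul_of_nonneg_left h1 (Real.exp_pos _).le
    _ = Real.exp (C / ee k ^ 2 + C * ℓ + ee k / C * ((5 / 4 : ℝ) ^ k * Real.log E0)) := by
        rw [Real.exp_add, Real.exp_add]
    _ ≤ 1 := Real.exp_le_one_iff.2 hkey

/-- a table with its constants -/
structure Sg where
  M : ℝ
  β : ℝ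
  P : ℝ
  T : CTab M β P

/-- the invariant of the iteration -/
def Gd (h : ℝ → ℝ) (Mb β0 E0 : ℝ) (k : ℕ) (s : Sg) : Prop :=
  s.M ≤ Mb + ∑ j ∈ Finset.range k, ee j ∧ s.β = β0 * pp k ∧ Close s.T h (EE E0 k)

/-- the conclusion of the Newton step -/
def NStep (h : ℝ → ℝ) (M0 C : ℝ) : Prop :=
  ∀ (M β P : ℝ) (T : CTab M β P) (ε E : ℝ), M + 1 ≤ M0 → 0 < ε → 8 * ε ≤ 1 →
      0 < E → Close T h E → Real.exp (C / ε ^ 2) * (1 / β) ^ C * E ^ (ε / C) ≤ 1 →
      ∃ (P' : ℝ) (T' : CTab (M + ε * β) (β - 3 * (ε * β)) P'),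
        (∀ ψ ∈ T'.D, ψ ∈ T.D ∧ ‖T'.G ψ - T.G ψ‖ ≤ E ^ (ε / C)) ∧
        Close T' h (E ^ (5 / 4 : ℝ))

lemma exists_chain {h : ℝ → ℝ} {M0 C K Mb β0 E0 : ℝ} (hN : NStep h M0 C) (hMb : Mb + 2 ≤ M0)
    (hC : 1 ≤ C) (hK : ∀ k : ℕ, ((k : ℝ) + 1) ^ 6 ≤ K * (5 / 4 : ℝ) ^ k)
    (hE : 0 < E0) (hb : 0 < β0) (hb1 : β0 ≤ 1)
    (hL : 1000000 * C ^ 2 * K * (1 + Real.log (2 / β0)) ≤ -Real.log E0)
    (s0 : Sg) (h0 : Gd h Mb β0 E0 0 s0) :
    ∃ f : ℕ → Sg, (∀ k, Gd h Mb β0 E0 k (f k)) ∧ ∀ k, ∀ ψ ∈ (f (k + 1)).T.D,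
      ψ ∈ (f k).T.D ∧ ‖(f (k + 1)).T.G ψ - (f k).T.G ψ‖ ≤ (EE E0 k) ^ (ee k / C) := by
  have hstep : ∀ k (s : {s : Sg // Gd h Mb β0 E0 k s}), ∃ s' : {s : Sg // Gd h Mb β0 E0 (k + 1) s},
      ∀ ψ ∈ s'.1.T.D, ψ ∈ s.1.T.D ∧ ‖s'.1.T.G ψ - s.1.T.G ψ‖ ≤ (EE E0 k) ^ (ee k / C) := by
    rintro k ⟨⟨M, β, P, T⟩, hM, hβ, hcl⟩
    dsimp only at hM hβ hcl
    have hβ2 : β0 / 2 ≤ β := by
      have := pp_ge k
      rw [hβ]; nlinarith only [hb, this]
    have hM1 : M + 1 ≤ M0 := by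
      have := sum_ee k
      linarith only [hMb, hM, this]
    obtain ⟨P', T', h1, h2⟩ := hN M β P T (ee k) (EE E0 k) hM1 (ee_pos k)
      (by have := ee_le k; linarith only [this]) (EE_pos hE k) hcl (cond hC hK hE hb hb1 hL k hβ2)
    refine ⟨⟨⟨M + ee k * β, β - 3 * (ee k * β), P', T'⟩, ?_, ?_, ?_⟩, h1⟩
    · dsimp only
      rw [Finset.sum_range_succ]
      have : ee k * β ≤ ee k * 1 := mul_le_mul_of_nonneg_left T.β1 (ee_pos k).le
      linarith only [hM, this]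
    · dsimp only
      rw [pp_succ, hβ]; ring
    · dsimp only
      rw [EE_succ hE]; exact h2
  choose g hg using hstep
  let F : ∀ k, {s : Sg // Gd h Mb β0 E0 k s} := fun k =>
    Nat.rec (motive := fun k => {s : Sg // Gd h Mb β0 E0 k s}) ⟨s0, h0⟩ (fun k s => g k s) k
  exact ⟨fun k => (F k).1, fun k => (F k).2, fun k => hg k (F k)⟩

lemma ball_sub {M β P : ℝ} (T : CTab M β P) {M0 β0 x0 : ℝ} (hM : M ≤ M0) (hM0 : 1 ≤ M0)
    (hb : 0 < β0) (hβ : β0 / 2 ≤ β) :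
    Metric.ball (x0 : ℂ) (β0 / (4 * M0)) ⊆ T.D := by
  intro ψ hψ
  rw [Metric.mem_ball, dist_eq_norm] at hψ
  have hX : (T.X x0).im = 0 := by
    have h1 := T.cX x0 (T.rD x0)
    rw [Complex.conj_ofReal] at h1
    exact Complex.conj_eq_iff_im.1 h1.symm
  refine (ball_subset T (T.rD x0) ?_).1
  rw [hX, abs_zero, zero_add]
  have h2 : M * ‖ψ - x0‖ ≤ M0 * ‖ψ - x0‖ := mul_le_mul_of_nonneg_right hM (norm_nonneg _)
  have h3 : M0 * ‖ψ - x0‖ ≤ M0 * (β0 / (4 * M0)) :=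
    mul_le_mul_of_nonneg_left hψ.le (by linarith only [hM0])
  have h4 : M0 * (β0 / (4 * M0)) = β0 / 4 := by field_simp
  linarith only [hb, hβ, h2, h3, h4]

lemma analytic_of_chain {h : ℝ → ℝ} {M0 C K Mb β0 E0 : ℝ} (hMb : Mb + 2 ≤ M0) (hMb1 : 1 ≤ Mb)
    (hC : 1 ≤ C) (hK1 : 1 ≤ K) (hK : ∀ k : ℕ, ((k : ℝ) + 1) ^ 6 ≤ K * (5 / 4 : ℝ) ^ k)
    (hE : 0 < E0) (hb : 0 < β0) (hb1 : β0 ≤ 1)
    (hL : 1000000 * C ^ 2 * K * (1 + Real.log (2 / β0)) ≤ -Real.log E0)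
    (f : ℕ → Sg) (h1 : ∀ k, Gd h Mb β0 E0 k (f k))
    (h2 : ∀ k, ∀ ψ ∈ (f (k + 1)).T.D,
      ψ ∈ (f k).T.D ∧ ‖(f (k + 1)).T.G ψ - (f k).T.G ψ‖ ≤ (EE E0 k) ^ (ee k / C)) (x0 : ℝ) :
    AnalyticAt ℝ h x0 := by
  have hβ2 : ∀ k, β0 / 2 ≤ (f k).β := by
    intro k
    have := pp_ge k
    rw [(h1 k).2.1]; (clear * - hb this; nlinarith)
  have hM1 : ∀ k, (f k).M ≤ M0 := by
    intro k
    have := sum_ee k
    have := (h1 k).1
    (clear C K hMb1 hC hK1 hK hE hb hb1 hL h2 x0 hβ2; linarith)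
  set B : Set ℂ := Metric.ball (x0 : ℂ) (β0 / (4 * M0)) with hB
  have hM0 : 1 ≤ M0 := by linarith only [hMb, hMb1]
  have hr : 0 < β0 / (4 * M0) := by (clear * - hb hM0; positivity)
  have hsub : ∀ k, B ⊆ (f k).T.D := fun k => ball_sub (f k).T (hM1 k) hM0 hb (hβ2 k)
  -- the bounds
  have hlogE : Real.log E0 ≤ 0 := by
    have hl : 0 ≤ Real.log (2 / β0) := by
      apply Real.log_nonneg
      rw [le_div_iff₀ hb]; linarith only [hb1]
    have : 0 ≤ 1000000 * C ^ 2 * K * (1 + Real.log (2 / β0)) := by (clear * - hC hK1 hl; positivity)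
    linarith only [hL, this]
  have hE1 : E0 ≤ 1 := by
    by_contra hc
    push Not at hc
    have hl : 0 ≤ Real.log (2 / β0) := by
      apply Real.log_nonneg
      rw [le_div_iff₀ hb]; linarith only [hb1]
    have h3 : 0 < 1000000 * C ^ 2 * K * (1 + Real.log (2 / β0)) := by (clear * - hC hK1 hl; positivity)
    have h4 := Real.log_pos hc
    linarith only [hL, h3, h4]
  have hU : ∀ k, (EE E0 k) ^ (ee k / C) ≤ Real.exp (-(k : ℝ)) := by
    intro k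
    have hc := cond hC hK hE hb hb1 hL k (hβ2 k)
    have hβ1 : (f k).β ≤ 1 := (f k).T.β1
    have hβ0 : 0 < (f k).β := (f k).T.β0
    have h3 : 1 ≤ (1 / (f k).β) ^ C := by
      apply Real.one_le_rpow _ (by linarith only [hC])
      rw [le_div_iff₀ hβ0]; linarith only [hβ1]
    have hp := Real.rpow_pos_of_pos (EE_pos hE k) (ee k / C)
    have h4 : Real.exp (C / ee k ^ 2) * (EE E0 k) ^ (ee k / C) ≤ 1 := by
      refine le_trans ?_ hc
      apply mul_le_mul_of_nonneg_right _ hp.le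
      exact le_mul_of_one_le_right (Real.exp_pos _).le h3
    have h5 : (k : ℝ) ≤ C / ee k ^ 2 := by
      have h6 : C / ee k ^ 2 = 10000 * C * ((k : ℝ) + 1) ^ 4 := by
        unfold ee; field_simp; ring
      rw [h6]
      have hk : (0 : ℝ) ≤ k := Nat.cast_nonneg k
      have h7 : (k : ℝ) + 1 ≤ ((k : ℝ) + 1) ^ 4 := le_self_pow₀ (by linarith only []) (by norm_num)
      nlinarith only [hC, h7]
    have h8 : Real.exp (k : ℝ) * (EE E0 k) ^ (ee k / C) ≤ 1 := by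
      refine le_trans ?_ h4
      exact mul_le_mul_of_nonneg_right (Real.exp_le_exp.2 h5) hp.le
    rw [Real.exp_neg, ← one_div, le_div_iff₀ (Real.exp_pos _), mul_comm]
    exact h8
  have hEE1 : ∀ k, EE E0 k ≤ 1 := by
    intro k
    exact Real.rpow_le_one hE.le hE1 (by positivity)
  have hEk : ∀ k, EE E0 k ≤ Real.exp (-(k : ℝ)) := by
    intro k
    refine le_trans ?_ (hU k)
    have ha : ee k / C ≤ 1 := by
      rw [div_le_one (by linarith only [hC])]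
      have := ee_le k
      linarith only [hC, this]
    calc EE E0 k = (EE E0 k) ^ (1 : ℝ) := (Real.rpow_one _).symm
      _ ≤ (EE E0 k) ^ (ee k / C) :=
        Real.rpow_le_rpow_of_exponent_ge (EE_pos hE k) (hEE1 k) ha
  have hexp : Summable fun k : ℕ => Real.exp (-(k : ℝ)) := Real.summable_exp_neg_nat
  -- the limit
  set F : ℕ → ℂ → ℂ := fun k ψ => (f (k + 1)).T.G ψ - (f k).T.G ψ with hF
  have hFb : ∀ k, ∀ ψ ∈ B, ‖F k ψ‖ ≤ Real.exp (-(k : ℝ)) := fun k ψ hψ =>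
    ((h2 k ψ (hsub (k + 1) hψ)).2).trans (hU k)
  have hFd : ∀ k, DifferentiableOn ℂ (F k) B := fun k =>
    ((f (k + 1)).T.dG.mono (hsub (k + 1))).sub ((f k).T.dG.mono (hsub k))
  have hgd : DifferentiableOn ℂ (fun ψ => (f 0).T.G ψ + ∑' k, F k ψ) B :=
    ((f 0).T.dG.mono (hsub 0)).add
      (Complex.differentiableOn_tsum_of_summable_norm hexp hFd Metric.isOpen_ball hFb)
  have hlim : ∀ ψ ∈ B, Tendsto (fun n => (f n).T.G ψ) atTop
      (𝓝 ((f 0).T.G ψ + ∑' k, F k ψ)) := by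
    intro ψ hψ
    have hs : Summable fun k => F k ψ :=
      Summable.of_norm_bounded hexp (fun k => hFb k ψ hψ)
    have h3 := hs.hasSum.tendsto_sum_nat
    have h4 : ∀ n, ∑ k ∈ Finset.range n, F k ψ = (f n).T.G ψ - (f 0).T.G ψ := by
      intro n
      simp only [hF]
      exact Finset.sum_range_sub (fun k => (f k).T.G ψ) n
    simp only [h4] at h3
    have h5 := h3.const_add ((f 0).T.G ψ)
    simpa only [add_sub_cancel] using h5
  have hreal : ∀ x : ℝ, (x : ℂ) ∈ B → h x = ((f 0).T.G x + ∑' k, F k x).re := by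
    intro x hx
    have h3 : Tendsto (fun n => ((f n).T.G x).re) atTop
        (𝓝 ((f 0).T.G x + ∑' k, F k x).re) :=
      (Complex.continuous_re.tendsto _).comp (hlim x hx)
    have h4 : Tendsto (fun n => ((f n).T.G x).re) atTop (𝓝 (h x)) := by
      rw [tendsto_iff_norm_sub_tendsto_zero]
      have h5 : Tendsto (fun n : ℕ => Real.exp (-(n : ℝ))) atTop (𝓝 0) :=
        Real.tendsto_exp_neg_atTop_nhds_zero.comp tendsto_natCast_atTop_atTop
      refine squeeze_zero (fun _ => norm_nonneg _) (fun n => ?_) h5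
      have h6 := ((h1 n).2.2 x).1
      unfold df at h6
      rw [Real.norm_eq_abs, abs_sub_comm]
      exact h6.trans (hEk n)
    exact tendsto_nhds_unique h4 h3
  have hga : AnalyticAt ℂ (fun ψ => (f 0).T.G ψ + ∑' k, F k ψ) (x0 : ℂ) :=
    hgd.analyticAt (Metric.ball_mem_nhds _ hr)
  have hgr : AnalyticAt ℝ (fun x : ℝ => ((f 0).T.G x + ∑' k, F k x).re) x0 := by
    have h3 : AnalyticAt ℝ (fun ψ => (f 0).T.G ψ + ∑' k, F k ψ) (Complex.ofRealCLM x0) :=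
      hga.restrictScalars
    have h4 := h3.comp (Complex.ofRealCLM.analyticAt x0)
    exact (Complex.reCLM.analyticAt _).comp h4
  refine hgr.congr ?_
  have hnhds : ∀ᶠ x : ℝ in 𝓝 x0, (x : ℂ) ∈ B :=
    (Complex.continuous_ofReal.tendsto x0).eventually (Metric.ball_mem_nhds _ hr)
  filter_upwards [hnhds] with x hx
  exact (hreal x hx).symm

lemma contDiff_deriv {h : ℝ → ℝ} (hs : ContDiff ℝ ∞ h) : ContDiff ℝ ∞ (deriv h) :=
  (contDiff_infty_iff_deriv.1 hs).2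

lemma rad_cont {h : ℝ → ℝ} (hs : ContDiff ℝ ∞ h) : Continuous (rad h) :=
  hs.continuous.add (contDiff_deriv (contDiff_deriv hs)).continuous

lemma deriv_per {h : ℝ → ℝ} {c : ℝ} (hp : ∀ x, h (x + c) = h x) (x : ℝ) :
    deriv h (x + c) = deriv h x := by
  rw [← deriv_comp_add_const]
  congr 1
  funext y
  exact hp y

lemma rad_low {h : ℝ → ℝ} (hs : ContDiff ℝ ∞ h) (hp : ∀ x, h (x + 2 * Real.pi) = h x)
    (hpos : ∀ x, 0 < rad h x) : ∃ c0 > 0, ∀ x, 2 * c0 ≤ rad h x := by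
  have hc := rad_cont hs
  have hper : Function.Periodic (rad h) (2 * Real.pi) := by
    intro x
    unfold rad
    rw [hp, deriv_per (deriv_per hp)]
  obtain ⟨x0, hx0, hmin⟩ := (isCompact_Icc (a := (0 : ℝ)) (b := 2 * Real.pi)).exists_isMinOn
    (Set.nonempty_Icc.2 (by positivity)) hc.continuousOn
  refine ⟨rad h x0 / 2, by have := hpos x0; linarith, fun x => ?_⟩
  obtain ⟨y, hy, hxy⟩ := hper.exists_mem_Ico₀ (by positivity) x
  have h2 := hmin (Set.Ico_subset_Icc_self hy)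
  simp only [Set.mem_ofPred_eq] at h2
  rw [hxy]; linarith only [h2]

theorem core {h : ℝ → ℝ} (hs : ContDiff ℝ ∞ h)
    (hp : ∀ x, h (x + 2 * Real.pi) = h x) (hpos : ∀ x, 0 < rad h x)
    (hA : ∃ C0 : ℝ, 1 ≤ C0 ∧ ∀ N : ℕ, ∃ CN : ℝ, 1 ≤ CN ∧
      ∀ n : ℕ, 1 ≤ n → ∃ G : ℂ → ℂ, Differentiable ℂ G ∧ (∀ z, G (conj z) = conj (G z)) ∧
        (∀ z, G (z + 2 * Real.pi) = G z) ∧
        (∀ i ≤ 5, ∀ z : ℂ, |z.im| ≤ 1 / n → ‖deriv^[i] G z‖ ≤ C0) ∧
        (∀ i ≤ 2, ∀ x : ℝ, |deriv^[i] h x - (deriv^[i] G x).re| ≤ CN / (n : ℝ) ^ N))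
    (hB : ∀ (C0 c0 : ℝ), 1 ≤ C0 → 0 < c0 → ∃ M : ℝ, 1 ≤ M ∧ ∃ κ > 0, ∃ b0 > 0,
      ∀ b, 0 < b → b ≤ b0 → ∀ G : ℂ → ℂ,
      Differentiable ℂ G → (∀ z, G (conj z) = conj (G z)) →
      (∀ z, G (z + 2 * Real.pi) = G z) →
      (∀ i ≤ 5, ∀ z : ℂ, |z.im| ≤ b → ‖deriv^[i] G z‖ ≤ C0) →
      (∀ x : ℝ, c0 ≤ (G x + deriv (deriv G) x).re) →
      ∃ (P : ℝ) (T : CTab M (κ * b) P), T.G = G ∧ ∀ ψ ∈ T.D, |ψ.im| < b)
    (hN : ∀ M0 : ℝ, 1 ≤ M0 → ∃ C : ℝ, 1 ≤ C ∧ NStep h M0 C) (x : ℝ) : AnalyticAt ℝ h x := by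
  obtain ⟨c0, hc0, hlow⟩ := rad_low hs hp hpos
  obtain ⟨C0, hC0, hA⟩ := hA
  obtain ⟨M, hM, κ, hκ, b0, hb0, hB⟩ := hB C0 c0 hC0 hc0
  obtain ⟨C, hC, hN⟩ := hN (M + 2) (by linarith only [hM])
  obtain ⟨K, hK1, hK⟩ := exists_K
  set A : ℝ := 1000000 * C ^ 2 * K with hAdef
  have hA1 : 1 ≤ A := by
    have h1 : 1 ≤ C ^ 2 := by nlinarith only [hC]
    have h2 : 1 ≤ C ^ 2 * K := by nlinarith only [h1, hK1]
    rw [hAdef]; linarith
  obtain ⟨N, hNA⟩ := exists_nat_ge (2 * A)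
  have hN1 : 1 ≤ N := by
    have : (1 : ℝ) ≤ N := by linarith only [hA1, hNA]
    exact_mod_cast this
  obtain ⟨CN, hCN, hA⟩ := hA N
  have hlog : Tendsto (fun n : ℕ => Real.log (n : ℝ)) atTop atTop :=
    Real.tendsto_log_atTop.comp tendsto_natCast_atTop_atTop
  obtain ⟨n, hn1, hn2, hn3, hn4⟩ : ∃ n : ℕ, 1 ≤ n ∧ 1 / b0 ≤ (n : ℝ) ∧ 2 * CN / c0 ≤ (n : ℝ) ∧
      A * (1 + Real.log (2 / κ)) + Real.log CN ≤ Real.log n := by
    have e1 := (tendsto_natCast_atTop_atTop (R := ℝ)).eventually_ge_atTop (1 / b0)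
    have e2 := (tendsto_natCast_atTop_atTop (R := ℝ)).eventually_ge_atTop (2 * CN / c0)
    have e3 := hlog.eventually_ge_atTop (A * (1 + Real.log (2 / κ)) + Real.log CN)
    exact ((eventually_ge_atTop 1).and (e1.and (e2.and e3))).exists
  have hn0 : (1 : ℝ) ≤ n := by exact_mod_cast hn1
  have hnpos : (0 : ℝ) < n := by linarith only [hn0]
  obtain ⟨G, hG1, hG2, hG3, hG4, hG5⟩ := hA n hn1
  set E0 : ℝ := CN / (n : ℝ) ^ N with hE0
  have hE0pos : 0 < E0 := by rw [hE0]; (clear * - hCN hn1; positivity)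
  have hE0c : E0 ≤ c0 / 2 := by
    rw [hE0, div_le_iff₀ (by positivity)]
    have h1 : (n : ℝ) ≤ (n : ℝ) ^ N := le_self_pow₀ hn0 (by omega)
    rw [div_le_iff₀ hc0] at hn3
    calc CN ≤ c0 / 2 * n := by linarith only [hn3]
      _ ≤ c0 / 2 * (n : ℝ) ^ N := mul_le_mul_of_nonneg_left h1 (by linarith only [hc0])
  have hrad : ∀ x : ℝ, c0 ≤ (G x + deriv (deriv G) x).re := by
    intro x
    have h1 := hG5 0 (by norm_num) x
    have h2 := hG5 2 le_rfl x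
    have h3 := hlow x
    simp only [Function.iterate_zero, id_eq] at h1
    have e2 : deriv^[2] h x = deriv (deriv h) x := rfl
    have e2' : deriv^[2] G x = deriv (deriv G) x := rfl
    rw [e2, e2'] at h2
    rw [abs_le] at h1 h2
    unfold rad at h3
    rw [add_re]
    linarith only [hE0c, h1, h2, h3]
  obtain ⟨P, T, hTG, -⟩ := hB (1 / n) (by (clear * - hn1; positivity))
    (by rw [div_le_iff₀ hnpos]; rw [div_le_iff₀ hb0] at hn2; linarith only [hn2]) G hG1 hG2 hG3 hG4 hrad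
  have hb := T.β0
  have hb1 := T.β1
  have hL : 1000000 * C ^ 2 * K * (1 + Real.log (2 / (κ * (1 / n)))) ≤ -Real.log E0 := by
    rw [← hAdef]
    have e1 : 2 / (κ * (1 / (n : ℝ))) = (2 / κ) * n := by (clear * - hn1 hκ; field_simp)
    have e2 : Real.log (2 / κ * n) = Real.log (2 / κ) + Real.log n :=
      Real.log_mul (by positivity) (by (clear * - hn1; positivity))
    have e3 : Real.log E0 = Real.log CN - N * Real.log n := by
      rw [hE0, Real.log_div (by positivity) (by positivity), Real.log_pow]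
    rw [e1, e2, e3]
    have hl0 : 0 ≤ Real.log (n : ℝ) := Real.log_nonneg hn0
    have h1 : 2 * A * Real.log n ≤ N * Real.log n := mul_le_mul_of_nonneg_right hNA hl0
    have h2 : Real.log n ≤ A * Real.log n := le_mul_of_one_le_left hl0 hA1
    (clear * - hn4 h1 h2; linarith)
  -- closeness
  have hclose : Close T h E0 := by
    have hdf : df T h = fun x : ℝ => h x - (G x).re := by
      funext x; unfold df; rw [hTG]
    have hh1 : ∀ x, HasDerivAt h (deriv h x) x := fun x =>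
      (hs.differentiable (by norm_num) x).hasDerivAt
    have hh2 : ∀ x, HasDerivAt (deriv h) (deriv (deriv h) x) x := fun x =>
      ((contDiff_deriv hs).differentiable (by norm_num) x).hasDerivAt
    have hG' : Differentiable ℂ (deriv G) := hG1.deriv
    have hg1 : ∀ x : ℝ, HasDerivAt (fun x : ℝ => (G x).re) (deriv G x).re x := fun x =>
      (hG1 x).hasDerivAt.real_of_complex
    have hg2 : ∀ x : ℝ, HasDerivAt (fun x : ℝ => (deriv G x).re) (deriv (deriv G) x).re x :=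
      fun x => (hG' x).hasDerivAt.real_of_complex
    have hd1 : deriv (df T h) = fun x : ℝ => deriv h x - (deriv G x).re := by
      funext x
      rw [hdf]
      exact ((hh1 x).sub (hg1 x)).deriv
    have hd2 : deriv (deriv (df T h)) = fun x : ℝ => deriv (deriv h) x - (deriv (deriv G) x).re := by
      funext x
      rw [hd1]
      exact ((hh2 x).sub (hg2 x)).deriv
    intro x
    rw [hd2, hd1, hdf]
    exact ⟨hG5 0 (by norm_num) x, hG5 1 (by norm_num) x, hG5 2 le_rfl x⟩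
  let s0 : Sg := ⟨M, κ * (1 / n), P, T⟩
  have h0 : Gd h M (κ * (1 / n)) E0 0 s0 := by
    refine ⟨by simp [s0], by simp only [one_div, pp, Finset.range_zero, Finset.prod_empty, mul_one, s0], ?_⟩
    have : EE E0 0 = E0 := by unfold EE; simp
    rw [this]; exact hclose
  obtain ⟨f, hf1, hf2⟩ := exists_chain hN le_rfl hC hK hE0pos hb hb1 hL s0 h0
  exact analytic_of_chain le_rfl hM hC hK1 hK hE0pos hb hb1 hL f hf1 hf2 x

end Vale.Agent.P097.Reg.R13
end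

section

/-!
# P097: regularity of tables which are rationally integrable near the boundary
-/

namespace Vale.Agent.P097.Reg

open scoped ContDiff

theorem newton_step {h : ℝ → ℝ} (hs : ContDiff ℝ ∞ h) (hp : ∀ x, h (x + 2 * Real.pi) = h x)
    (hpos : ∀ x, 0 < rad h x) {q0 : ℕ} (hcst : ∀ n, q0 ≤ n → Cst h n) (M0 : ℝ) (hM0 : 1 ≤ M0) :
    ∃ C : ℝ, 1 ≤ C ∧ ∀ (M β P : ℝ) (T : CTab M β P) (ε E : ℝ), M + 1 ≤ M0 → 0 < ε → 8 * ε ≤ 1 →
      0 < E → Close T h E → Real.exp (C / ε ^ 2) * (1 / β) ^ C * E ^ (ε / C) ≤ 1 →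
      ∃ (P' : ℝ) (T' : CTab (M + ε * β) (β - 3 * (ε * β)) P'),
        (∀ ψ ∈ T'.D, ψ ∈ T.D ∧ ‖T'.G ψ - T.G ψ‖ ≤ E ^ (ε / C)) ∧
        Close T' h (E ^ (5 / 4 : ℝ)) :=
  newton_step_of leaf_relation hs hp hpos hcst M0 hM0

theorem analytic_of_cst {h : ℝ → ℝ} (hs : ContDiff ℝ ∞ h)
    (hp : ∀ x, h (x + 2 * Real.pi) = h x) (hpos : ∀ x, 0 < rad h x) {q0 : ℕ}
    (hcst : ∀ n, q0 ≤ n → Cst h n) (x : ℝ) : AnalyticAt ℝ h x :=
  R13.core hs hp hpos (exists_approx hs hp) exists_base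
    (fun M0 hM0 => newton_step hs hp hpos hcst M0 hM0) x

end Vale.Agent.P097.Reg
end

section

/-!
# P097: finiteness on Minkowski lines
-/

namespace Vale.Agent.P097

open Real Set Filter Topology

theorem S_smul (h : ℝ → ℝ) (c a b : ℝ) : S (fun x => c * h x) a b = c * S h a b := by
  unfold S
  ring

theorem L_smul (h : ℝ → ℝ) (c : ℝ) (n : ℕ) (Z : ℕ → ℝ) :
    L (fun x => c * h x) n Z = c * L h n Z := by
  unfold L
  rw [Finset.mul_sum]
  exact Finset.sum_congr rfl fun j _ => S_smul h c _ _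

theorem mx_smul {h : ℝ → ℝ} (hc : Continuous h) {c : ℝ} (hc0 : 0 < c) (n : ℕ) (θ : ℝ) :
    mx (fun x => c * h x) n θ = c * mx h n θ := by
  obtain ⟨Z, M⟩ := exists_isMaxC hc n θ
  have M' : IsMaxC (fun x => c * h x) n θ Z := by
    refine ⟨M.1, fun Z' C' => ?_⟩
    rw [L_smul, L_smul]
    exact mul_le_mul_of_nonneg_left (M.2 Z' C') hc0.le
  have hcc : Continuous (fun x => c * h x) := continuous_const.mul hc
  rw [M'.mx_eq hcc, M.mx_eq hc, L_smul]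

theorem Cst_smul {h : ℝ → ℝ} (hc : Continuous h) {c : ℝ} (hc0 : 0 < c) {n : ℕ} (hC : Cst h n) :
    Cst (fun x => c * h x) n := by
  intro θ
  rw [mx_smul hc hc0, mx_smul hc hc0, hC θ]

theorem rad_smul {h : ℝ → ℝ} (H : An h) (c x : ℝ) : rad (fun x => c * h x) x = c * rad h x := by
  have hz : An (fun _ => (0 : ℝ)) := fun _ => analyticAt_const
  have h1 := rad_lin hz H c x
  have e : lin (fun _ => (0 : ℝ)) h c = fun x => c * h x := by
    funext x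
    simp [lin]
  rw [e] at h1
  rw [h1]
  simp [rad]

/-- extreme values of the ratio of the radii of curvature -/
theorem exists_ratio {h₀ g : ℝ → ℝ} (H0 : IsTable h₀) (hg : An g)
    (hpg : ∀ x, g (x + 2 * π) = g x) (hnc : ¬ ∃ c : ℝ, ∀ x, rad g x = c * rad h₀ x) :
    ∃ a b xa xb : ℝ, a < b ∧ (∀ x, a * rad h₀ x ≤ rad g x ∧ rad g x ≤ b * rad h₀ x) ∧
      rad g xa = a * rad h₀ xa ∧ rad g xb = b * rad h₀ xb := by
  have h0 : An h₀ := H0.1
  have hp0 := H0.2.1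
  have hpos : ∀ x, 0 < rad h₀ x := H0.2.2
  set r : ℝ → ℝ := fun x => rad g x / rad h₀ x with hr
  have hrc : Continuous r := hg.rad.continuous.div h0.rad.continuous (fun x => (hpos x).ne')
  have hrr : ∀ x, rad g x = r x * rad h₀ x := fun x => by
    simp only [hr]
    rw [div_mul_cancel₀ _ (hpos x).ne']
  have hper : Function.Periodic r (2 * π) := fun x => by
    simp only [hr, rad_per hp0, rad_per hpg]
  have hne : (Icc (0 : ℝ) (2 * π)).Nonempty := ⟨0, le_rfl, by positivity⟩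
  obtain ⟨a, _, ha⟩ := isCompact_Icc.exists_isMinOn hne hrc.continuousOn
  obtain ⟨b, _, hb⟩ := isCompact_Icc.exists_isMaxOn hne hrc.continuousOn
  have hmin : ∀ x, r a ≤ r x := by
    intro x
    obtain ⟨y, hy, he⟩ := hper.exists_mem_Ico₀ (by positivity) x
    rw [he]
    exact ha ⟨hy.1, hy.2.le⟩
  have hmax : ∀ x, r x ≤ r b := by
    intro x
    obtain ⟨y, hy, he⟩ := hper.exists_mem_Ico₀ (by positivity) x
    rw [he]
    exact hb ⟨hy.1, hy.2.le⟩
  refine ⟨r a, r b, a, b, ?_, ?_, hrr a, hrr b⟩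
  · apply lt_of_le_of_ne (hmin b)
    intro hcon
    apply hnc
    refine ⟨r a, fun x => ?_⟩
    have h1 := hmin x
    have h2 := hmax x
    have h3 : r x = r a := by linarith
    rw [hrr, h3]
  · intro x
    rw [hrr x]
    exact ⟨mul_le_mul_of_nonneg_right (hmin x) (hpos x).le,
      mul_le_mul_of_nonneg_right (hmax x) (hpos x).le⟩

/-- A nonnegative analytic radius of curvature which is not identically zero is admissible. -/
theorem adm_of_nonneg {h : ℝ → ℝ} (hAn : An h) (hp : ∀ x, h (x + 2 * π) = h x)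
    (hnn : ∀ x, 0 ≤ rad h x) {x₁ : ℝ} (hnz : rad h x₁ ≠ 0) : Adm h := by
  refine ⟨hAn, hp, hnn, ?_⟩
  intro c d hcd
  by_contra hcon
  push Not at hcon
  apply hnz
  have hz : ∀ᶠ y in 𝓝 ((c + d) / 2), rad h y = (fun _ => (0 : ℝ)) y := by
    filter_upwards [Ioo_mem_nhds (show c < (c + d) / 2 by linarith)
      (show (c + d) / 2 < d by linarith)] with y hy
    exact le_antisymm (hcon y hy) (hnn y)
  have han : AnalyticOnNhd ℝ (rad h) univ := fun x _ => hAn.rad x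
  have := han.eq_of_eventuallyEq (fun x _ => analyticAt_const) hz
  rw [this]

theorem finite_segment {e₁ d : ℝ → ℝ} (h1 : An e₁) (hd : An d)
    (hp1 : ∀ x, e₁ (x + 2 * π) = e₁ x) (hpd : ∀ x, d (x + 2 * π) = d x)
    (hJ : Ioo (0 : ℝ) 1 ⊆ JJ e₁ d) {n : ℕ} (hn0 : ¬ Cst (lin e₁ d 0) n)
    (hn1 : ¬ Cst (lin e₁ d 1) n) :
    {t | t ∈ Ioo (0 : ℝ) 1 ∧ Cst (lin e₁ d t) n}.Finite := by
  by_contra hinf
  obtain ⟨t₀, ht₀, hacc⟩ := Set.Infinite.exists_accPt_of_subset_isCompact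
    (K := Icc (0 : ℝ) 1) hinf isCompact_Icc (fun t ht => ⟨ht.1.1.le, ht.1.2.le⟩)
  have hf : ∃ᶠ t in 𝓝[≠] t₀, t ∈ {t | t ∈ Ioo (0 : ℝ) 1 ∧ Cst (lin e₁ d t) n} := by
    rwa [accPt_iff_frequently_nhdsNE] at hacc
  have hfA : ∃ᶠ t in 𝓝[≠] t₀, t ∈ AA e₁ d n := hf.mono fun t ht => ht.2
  have ht₀A : t₀ ∈ AA e₁ d n := by
    apply (isClosed_AA h1 hd n).closure_subset
    rw [mem_closure_iff_frequently]
    exact hfA.filter_mono nhdsWithin_le_nhds
  rcases eq_or_lt_of_le ht₀.1 with h0 | h0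
  · apply hn0
    rw [h0]
    exact ht₀A
  · rcases eq_or_lt_of_le ht₀.2 with h1' | h1'
    · apply hn1
      rw [← h1']
      exact ht₀A
    · apply hn0
      have hsub := JJ_subset_AA h1 hd hp1 hpd (hJ ⟨h0, h1'⟩) hfA
      apply hsub
      apply closure_mono hJ
      rw [closure_Ioo (by norm_num)]
      exact ⟨le_rfl, by norm_num⟩

theorem finite_Cst {h₀ g : ℝ → ℝ} (H0 : IsTable h₀) (hg : An g)
    (hpg : ∀ x, g (x + 2 * π) = g x) (hnc : ¬ ∃ c : ℝ, ∀ x, rad g x = c * rad h₀ x) :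
    ∀ᶠ n in atTop, {s | s ∈ JJ h₀ g ∧ Cst (lin h₀ g s) n}.Finite := by
  have h0 : An h₀ := H0.1
  have hp0 := H0.2.1
  have hpos : ∀ x, 0 < rad h₀ x := H0.2.2
  obtain ⟨a, b, xa, xb, hab, hr, hxa, hxb⟩ := exists_ratio H0 hg hpg hnc
  set e₁ : ℝ → ℝ := lin g h₀ (-a) with he₁
  set d : ℝ → ℝ := fun x => (a + b) * h₀ x + (-2) * g x with hd
  have hAe : An e₁ := hg.lin h0 (-a)
  have hAd : An d := fun x => (analyticAt_const.mul (h0 x)).add (analyticAt_const.mul (hg x))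
  have hpe : ∀ x, e₁ (x + 2 * π) = e₁ x := fun x => by simp only [he₁, lin, hp0, hpg]
  have hpd : ∀ x, d (x + 2 * π) = d x := fun x => by simp only [hd, hp0, hpg]
  have hrad_d : ∀ x, rad d x = (a + b) * rad h₀ x - 2 * rad g x := by
    intro x
    have e : d = lin (fun x => (a + b) * h₀ x) g (-2) := rfl
    have hA : An (fun x => (a + b) * h₀ x) := fun x => analyticAt_const.mul (h0 x)
    rw [e, rad_lin hA hg, rad_smul h0]
    ring
  have hrad : ∀ t x, rad (lin e₁ d t) x =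
      (1 - t) * (rad g x - a * rad h₀ x) + t * (b * rad h₀ x - rad g x) := by
    intro t x
    rw [rad_lin hAe hAd, he₁, rad_lin hg h0, hrad_d]
    ring
  have hJ : Ioo (0 : ℝ) 1 ⊆ JJ e₁ d := by
    intro t ht x
    rw [hrad]
    obtain ⟨r1, r2⟩ := hr x
    have p1 : 0 < 1 - t := by linarith [ht.2]
    have hsum : 0 < (rad g x - a * rad h₀ x) + (b * rad h₀ x - rad g x) := by
      have := mul_pos (sub_pos.2 hab) (hpos x)
      linarith
    rcases lt_or_ge 0 (rad g x - a * rad h₀ x) with h | h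
    · have := mul_pos p1 h
      have := mul_nonneg ht.1.le (sub_nonneg.2 r2)
      linarith
    · have h' : 0 < b * rad h₀ x - rad g x := by linarith
      have := mul_pos ht.1 h'
      have := mul_nonneg p1.le (sub_nonneg.2 r1)
      linarith
  -- the two endpoints
  have hA0 : Adm (lin e₁ d 0) := by
    apply adm_of_nonneg (hAe.lin hAd 0) (fun x => by simp only [lin, hpe, hpd]) _ (x₁ := xb)
    · rw [hrad, hxb]
      have := mul_pos (sub_pos.2 hab) (hpos xb)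
      have : (1 - 0) * (b * rad h₀ xb - a * rad h₀ xb) + 0 * (b * rad h₀ xb - b * rad h₀ xb)
        = (b - a) * rad h₀ xb := by ring
      rw [this]
      exact (mul_pos (sub_pos.2 hab) (hpos xb)).ne'
    · intro x
      rw [hrad]
      linarith [(hr x).1]
  have hA1 : Adm (lin e₁ d 1) := by
    apply adm_of_nonneg (hAe.lin hAd 1) (fun x => by simp only [lin, hpe, hpd]) _ (x₁ := xa)
    · rw [hrad, hxa]
      have : (1 - 1) * (a * rad h₀ xa - a * rad h₀ xa) + 1 * (b * rad h₀ xa - a * rad h₀ xa)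
        = (b - a) * rad h₀ xa := by ring
      rw [this]
      exact (mul_pos (sub_pos.2 hab) (hpos xa)).ne'
    · intro x
      rw [hrad]
      linarith [(hr x).2]
  have hz0 : rad (lin e₁ d 0) xa = 0 := by rw [hrad, hxa]; ring
  have hz1 : rad (lin e₁ d 1) xb = 0 := by rw [hrad, hxb]; ring
  filter_upwards [not_Cst_of_rad_zero hA0 hz0, not_Cst_of_rad_zero hA1 hz1] with n hn0 hn1
  have hfin := finite_segment hAe hAd hpe hpd hJ hn0 hn1
  apply Set.Finite.of_finite_image (f := fun s => (1 + s * a) / (2 + s * (a + b)))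
  · apply hfin.subset
    rintro _ ⟨s, ⟨hs, hC⟩, rfl⟩
    have q1 : 0 < 1 + s * a := by
      have h1 := hs xa
      rw [rad_lin h0 hg, hxa] at h1
      have h2 : rad h₀ xa + s * (a * rad h₀ xa) = (1 + s * a) * rad h₀ xa := by ring
      rw [h2] at h1
      exact pos_of_mul_pos_left h1 (hpos xa).le
    have q2 : 0 < 1 + s * b := by
      have h1 := hs xb
      rw [rad_lin h0 hg, hxb] at h1
      have h2 : rad h₀ xb + s * (b * rad h₀ xb) = (1 + s * b) * rad h₀ xb := by ring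
      rw [h2] at h1
      exact pos_of_mul_pos_left h1 (hpos xb).le
    have q3 : 0 < 2 + s * (a + b) := by linarith
    have q4 : 0 < b - a := sub_pos.2 hab
    refine ⟨⟨div_pos q1 q3, ?_⟩, ?_⟩
    · rw [div_lt_one q3]
      linarith
    · have hscale : lin e₁ d ((1 + s * a) / (2 + s * (a + b)))
          = fun x => ((b - a) / (2 + s * (a + b))) * lin h₀ g s x := by
        funext x
        simp only [lin, he₁, hd]
        field_simp
        ring
      rw [hscale]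
      exact Cst_smul (h0.lin hg s).continuous (div_pos q4 q3) hC
  · rintro s ⟨hs, _⟩ t ⟨ht, _⟩ hst
    have q : ∀ s ∈ JJ h₀ g, 0 < 2 + s * (a + b) := by
      intro s hs
      have q1 : 0 < 1 + s * a := by
        have h1 := hs xa
        rw [rad_lin h0 hg, hxa] at h1
        have h2 : rad h₀ xa + s * (a * rad h₀ xa) = (1 + s * a) * rad h₀ xa := by ring
        rw [h2] at h1
        exact pos_of_mul_pos_left h1 (hpos xa).le
      have q2 : 0 < 1 + s * b := by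
        have h1 := hs xb
        rw [rad_lin h0 hg, hxb] at h1
        have h2 : rad h₀ xb + s * (b * rad h₀ xb) = (1 + s * b) * rad h₀ xb := by ring
        rw [h2] at h1
        exact pos_of_mul_pos_left h1 (hpos xb).le
      linarith
    have e1 : (1 + s * a) / (2 + s * (a + b)) = (1 + t * a) / (2 + t * (a + b)) := hst
    rw [div_eq_div_iff (q s hs).ne' (q t ht).ne'] at e1
    have e2 : (s - t) * (b - a) = 0 := by linarith
    rcases mul_eq_zero.1 e2 with h | h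
    · linarith
    · linarith

theorem isTable_iff' {h₀ g : ℝ → ℝ} (H0 : IsTable h₀) (hg : An g)
    (hpg : ∀ x, g (x + 2 * π) = g x) (s : ℝ) :
    IsTable (fun x => h₀ x + s * g x) ↔ s ∈ JJ h₀ g :=
  ⟨fun H => H.2.2, fun H => ⟨An.lin H0.1 hg s, fun x => by simp only [H0.2.1, hpg], H⟩⟩

theorem Collar.mono' {h : ℝ → ℝ} {η η' : ℝ} (H : Collar h η) (hle : η' ≤ η) : Collar h η' :=
  fun ψ δ h1 h2 => H ψ δ h1 (lt_of_lt_of_le h2 hle)

theorem main_rational {h₀ g : ℝ → ℝ} (H0 : IsTable h₀) (hg : ∀ x, AnalyticAt ℝ g x)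
    (hpg : ∀ x, g (x + 2 * π) = g x)
    (hnc : ¬ ∃ c : ℝ, ∀ x, g x + deriv (deriv g) x = c * (h₀ x + deriv (deriv h₀) x)) :
    ∃ q₀ : ℕ, ∀ q ≥ q₀, {s : ℝ | IsTable (fun x => h₀ x + s * g x) ∧
      ∃ f, RatLeaf (fun x => h₀ x + s * g x) q f}.Finite := by
  obtain ⟨N, hN⟩ := eventually_atTop.1 (finite_Cst H0 hg hpg hnc)
  refine ⟨N + 1, fun q hq => ?_⟩
  obtain ⟨n, rfl⟩ : ∃ n, q = n + 1 := ⟨q - 1, by omega⟩
  apply (hN n (by omega)).subset
  rintro s ⟨hs, f, hf⟩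
  have hsJ := (isTable_iff' H0 hg hpg s).1 hs
  exact ⟨hsJ, fun θ => mx_const_of_ratLeaf hs.adm hf θ⟩

theorem main_collar {h₀ g : ℝ → ℝ} (H0 : IsTable h₀) (hg : ∀ x, AnalyticAt ℝ g x)
    (hpg : ∀ x, g (x + 2 * π) = g x)
    (hnc : ¬ ∃ c : ℝ, ∀ x, g x + deriv (deriv g) x = c * (h₀ x + deriv (deriv h₀) x))
    {η : ℝ} (hη : 0 < η) :
    {s : ℝ | IsTable (fun x => h₀ x + s * g x) ∧ Collar (fun x => h₀ x + s * g x) η}.Finite := by
  have h2 : ∀ᶠ n : ℕ in atTop, π / ((n : ℝ) + 1) < η := by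
    have ht : Tendsto (fun n : ℕ => π / ((n : ℝ) + 1)) atTop (𝓝 0) := by
      have := (tendsto_one_div_add_atTop_nhds_zero_nat (𝕜 := ℝ)).const_mul π
      rw [mul_zero] at this
      refine this.congr (fun n => ?_)
      ring
    exact ht.eventually (gt_mem_nhds hη)
  obtain ⟨n, hn1, hn2⟩ := ((finite_Cst H0 hg hpg hnc).and h2).exists
  apply hn1.subset
  rintro s ⟨hs, hC⟩
  have hsJ := (isTable_iff' H0 hg hpg s).1 hs
  exact ⟨hsJ, fun θ => mx_const_of_collar hs.adm hC hn2 θ⟩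

/-- Main theorem, all parts. -/
theorem main_all {h₀ g : ℝ → ℝ} (H0 : IsTable h₀) (hg : ∀ x, AnalyticAt ℝ g x)
    (hpg : ∀ x, g (x + 2 * π) = g x)
    (hnc : ¬ ∃ c : ℝ, ∀ x, g x + deriv (deriv g) x = c * (h₀ x + deriv (deriv h₀) x)) :
    (∃ q₀ : ℕ, ∀ q ≥ q₀, {s : ℝ | IsTable (fun x => h₀ x + s * g x) ∧
      ∃ f, RatLeaf (fun x => h₀ x + s * g x) q f}.Finite) ∧
    (∀ η > 0, {s : ℝ | IsTable (fun x => h₀ x + s * g x) ∧
      Collar (fun x => h₀ x + s * g x) η}.Finite) ∧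
    {s : ℝ | IsTable (fun x => h₀ x + s * g x) ∧
      ((∃ η > 0, Collar (fun x => h₀ x + s * g x) η) ∨
        ∀ N : ℕ, ∃ q ≥ N, ∃ f, RatLeaf (fun x => h₀ x + s * g x) q f)}.Countable := by
  have h1 := main_rational H0 hg hpg hnc
  have h2 : ∀ η > 0, {s : ℝ | IsTable (fun x => h₀ x + s * g x) ∧
      Collar (fun x => h₀ x + s * g x) η}.Finite := fun η hη => main_collar H0 hg hpg hnc hη
  refine ⟨h1, h2, ?_⟩
  obtain ⟨q₀, hq₀⟩ := h1
  have hsub : {s : ℝ | IsTable (fun x => h₀ x + s * g x) ∧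
      ((∃ η > 0, Collar (fun x => h₀ x + s * g x) η) ∨
        ∀ N : ℕ, ∃ q ≥ N, ∃ f, RatLeaf (fun x => h₀ x + s * g x) q f)} ⊆
      (⋃ k : ℕ, {s : ℝ | IsTable (fun x => h₀ x + s * g x) ∧
        Collar (fun x => h₀ x + s * g x) (1 / ((k : ℝ) + 1))}) ∪
      (⋃ q : ℕ, ⋃ _ : q₀ ≤ q, {s : ℝ | IsTable (fun x => h₀ x + s * g x) ∧
        ∃ f, RatLeaf (fun x => h₀ x + s * g x) q f}) := by
    rintro s ⟨hs1, ⟨η, hη, hs2⟩ | hs2⟩
    · obtain ⟨k, hk⟩ := exists_nat_one_div_lt hη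
      exact Or.inl (mem_iUnion.2 ⟨k, hs1, hs2.mono' hk.le⟩)
    · obtain ⟨q, hq, f, hf⟩ := hs2 q₀
      exact Or.inr (mem_iUnion.2 ⟨q, mem_iUnion.2 ⟨hq, hs1, f, hf⟩⟩)
  apply Countable.mono hsub
  apply Countable.union
  · exact countable_iUnion fun k => (h2 _ (by positivity)).countable
  · exact countable_iUnion fun q => countable_iUnion fun hq => (hq₀ q hq).countable

end Vale.Agent.P097
end

section

/-!
# P097: smooth tables, regularity and lines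
-/

namespace Vale.Agent.P097

open scoped ContDiff

theorem regularity {h : ℝ → ℝ} (H : SmoothTable h)
    (hc : (∃ η > 0, Collar h η) ∨ ∃ q₀ : ℕ, ∀ q ≥ q₀, ∃ f, RatLeaf h q f) : IsTable h := by
  obtain ⟨hs, hp, hpos⟩ := H
  have hcst : ∃ q0 : ℕ, ∀ n, q0 ≤ n → Cst h n := by
    rcases hc with ⟨η, hη, hC⟩ | ⟨q₀, hq⟩
    · obtain ⟨q0, hq0⟩ := exists_nat_gt (Real.pi / η)
      refine ⟨q0, fun n hn θ => ?_⟩
      refine Reg.mx_const_of_collar_smooth hs hp hpos hC ?_ θ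
      have hn' : (q0 : ℝ) ≤ n := by exact_mod_cast hn
      rw [div_lt_iff₀ hη] at hq0
      rw [div_lt_iff₀ (by positivity)]
      linarith only [mul_nonneg (le_of_lt (sub_pos.2 hη)) (sub_nonneg.2 hn'), hq0, hη]
    · refine ⟨q₀, fun n hn θ => ?_⟩
      obtain ⟨f, hf⟩ := hq (n + 1) (by omega)
      exact Reg.mx_const_of_ratLeaf_smooth hs hp hpos hf θ
  obtain ⟨q0, hq0⟩ := hcst
  exact ⟨Reg.analytic_of_cst hs hp hpos hq0, hp, hpos⟩

theorem arc_unique {h e : ℝ → ℝ} (H : SmoothTable h)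
    (hc : (∃ η > 0, Collar h η) ∨ ∃ q₀ : ℕ, ∀ q ≥ q₀, ∃ f, RatLeaf h q f)
    (he : ∀ x, AnalyticAt ℝ e x) {a b : ℝ} (hab : a < b) (heq : ∀ x ∈ Set.Ioo a b, h x = e x) :
    h = e := by
  have h1 : AnalyticOnNhd ℝ h Set.univ := fun x _ => (regularity H hc).1 x
  have h2 : AnalyticOnNhd ℝ e Set.univ := fun x _ => he x
  refine h1.eq_of_eventuallyEq h2 (z₀ := (a + b) / 2) ?_
  filter_upwards [Ioo_mem_nhds (show a < (a + b) / 2 by linarith)
    (show (a + b) / 2 < b by linarith)] with x hx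
  exact heq x hx

theorem smooth_lines {h₀ g : ℝ → ℝ} (H0 : SmoothTable h₀)
    (hpg : ∀ x, g (x + 2 * Real.pi) = g x)
    (hnc : ¬ ∃ c : ℝ, ∀ x, g x + deriv (deriv g) x = c * (h₀ x + deriv (deriv h₀) x)) :
    (∀ η > 0, {s : ℝ | SmoothTable (fun x => h₀ x + s * g x) ∧
      Collar (fun x => h₀ x + s * g x) η}.Finite) ∧
    {s : ℝ | SmoothTable (fun x => h₀ x + s * g x) ∧
      ((∃ η > 0, Collar (fun x => h₀ x + s * g x) η) ∨
        ∃ q₀ : ℕ, ∀ q ≥ q₀, ∃ f, RatLeaf (fun x => h₀ x + s * g x) q f)}.Countable := by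
  by_cases hsub : {s : ℝ | SmoothTable (fun x => h₀ x + s * g x) ∧
      ((∃ η > 0, Collar (fun x => h₀ x + s * g x) η) ∨
        ∃ q₀ : ℕ, ∀ q ≥ q₀, ∃ f, RatLeaf (fun x => h₀ x + s * g x) q f)}.Subsingleton
  · refine ⟨fun η hη => (hsub.anti ?_).finite, hsub.countable⟩
    rintro s ⟨h1, h2⟩
    exact ⟨h1, Or.inl ⟨η, hη, h2⟩⟩
  · rw [Set.not_subsingleton_iff] at hsub
    obtain ⟨s, ⟨hs1, hs2⟩, t, ⟨ht1, ht2⟩, hst⟩ := hsub
    have As := regularity hs1 hs2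
    have At := regularity ht1 ht2
    have hgan : ∀ x, AnalyticAt ℝ g x := by
      intro x
      have h1 := ((As.1 x).sub (At.1 x)).div_const (c := s - t)
      refine h1.congr (Filter.Eventually.of_forall fun y => ?_)
      have : s - t ≠ 0 := sub_ne_zero.2 hst
      simp only [Pi.sub_apply]
      field_simp
      ring
    have han : ∀ x, AnalyticAt ℝ h₀ x := by
      intro x
      have h1 := (As.1 x).sub ((analyticAt_const (v := s)).mul (hgan x))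
      refine h1.congr (Filter.Eventually.of_forall fun y => ?_)
      simp
    have hT : IsTable h₀ := ⟨han, H0.2⟩
    obtain ⟨m1, m2, m3⟩ := main_all hT hgan hpg hnc
    constructor
    · intro η hη
      refine (m2 η hη).subset ?_
      rintro u ⟨h1, h2⟩
      exact ⟨regularity h1 (Or.inl ⟨η, hη, h2⟩), h2⟩
    · refine m3.mono ?_
      rintro u ⟨h1, h2⟩
      refine ⟨regularity h1 h2, ?_⟩
      rcases h2 with h2 | ⟨q₀, h2⟩
      · exact Or.inl h2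
      · exact Or.inr fun N => ⟨max N q₀, le_max_left _ _, h2 _ (le_max_right _ _)⟩

end Vale.Agent.P097
end
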