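import Mathlib
import Vale.Agent.P097.Bdl.B1
import Vale.Agent.P097.Bdl.B2
import Vale.Agent.P097.Defs

attribute [-instance] ProperSMul.toContinuousSMul IsTopologicalTorsor.toContinuousSMul IdemSemiring.toCanonicallyOrderedAdd IdemSemiring.toMulLeftMono IdemSemiring.toMulRightMono AddQuantale.instAddLeftMono AddQuantale.instAddRightMono Quantale.instMulLeftMono Quantale.instMulRightMono FiniteDimensional.rclike_to_real IsScalarTower.complexToReal FiniteDimensional.complexToReal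

set_option linter.all false

section

namespace Vale.Agent.P097.Cusp

open scoped ComplexConjugate

/-- super-exponential decay -/
def Fast (a : ℕ → ℝ) : Prop := ∀ R : ℝ, Summable fun k : ℕ => |a k| * Real.exp (R * k)

/-- cosine series -/
noncomputable def CS (a : ℕ → ℝ) (z : ℂ) : ℂ := ∑' k : ℕ, (a k : ℂ) * Complex.cos (((k + 2 : ℕ) : ℂ) * z)

/-- sine series -/
noncomputable def SN (a : ℕ → ℝ) (z : ℂ) : ℂ := ∑' k : ℕ, (a k : ℂ) * Complex.sin (((k + 2 : ℕ) : ℂ) * z)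

/-- multiplication by the frequency -/
def up (a : ℕ → ℝ) (k : ℕ) : ℝ := ((k + 2 : ℕ) : ℝ) * a k

theorem Fast.up {a : ℕ → ℝ} (ha : Fast a) : Fast (up a) := by
  intro R
  have h1 := (ha (R + 1)).mul_left (Real.exp 2)
  refine Summable.of_nonneg_of_le (fun k => by positivity) (fun k => ?_) h1
  have h2 : ((k + 2 : ℕ) : ℝ) ≤ Real.exp 2 * Real.exp k := by
    rw [← Real.exp_add]
    have := Real.add_one_le_exp (2 + (k : ℝ))
    push_cast
    linarith
  have e : Real.exp ((R + 1) * k) = Real.exp k * Real.exp (R * k) := by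
    rw [← Real.exp_add]; congr 1; ring
  rw [Vale.Agent.P097.Cusp.up, abs_mul, abs_of_nonneg (by positivity : (0 : ℝ) ≤ ((k + 2 : ℕ) : ℝ)), e]
  have h3 : 0 ≤ |a k| * Real.exp (R * k) := by positivity
  linarith only [mul_nonneg (sub_nonneg.2 h2) (sub_nonneg.2 h3)]

theorem norm_cos_le (w : ℂ) : ‖Complex.cos w‖ ≤ Real.exp |w.im| := by
  rw [Complex.cos]
  have h1 : ‖Complex.exp (w * Complex.I)‖ ≤ Real.exp |w.im| := by
    rw [Complex.norm_exp]
    apply Real.exp_le_exp.2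
    have : (w * Complex.I).re = -w.im := by simp
    rw [this]
    exact neg_le_abs _
  have h2 : ‖Complex.exp (-w * Complex.I)‖ ≤ Real.exp |w.im| := by
    rw [Complex.norm_exp]
    apply Real.exp_le_exp.2
    have : (-w * Complex.I).re = w.im := by simp
    rw [this]
    exact le_abs_self _
  have h3 := norm_add_le (Complex.exp (w * Complex.I)) (Complex.exp (-w * Complex.I))
  rw [norm_div]
  have : ‖(2 : ℂ)‖ = 2 := by norm_num
  rw [this]
  linarith only [h3, h2, h1]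

theorem norm_sin_le (w : ℂ) : ‖Complex.sin w‖ ≤ Real.exp |w.im| := by
  rw [Complex.sin]
  have h1 : ‖Complex.exp (w * Complex.I)‖ ≤ Real.exp |w.im| := by
    rw [Complex.norm_exp]
    apply Real.exp_le_exp.2
    have : (w * Complex.I).re = -w.im := by simp
    rw [this]
    exact neg_le_abs _
  have h2 : ‖Complex.exp (-w * Complex.I)‖ ≤ Real.exp |w.im| := by
    rw [Complex.norm_exp]
    apply Real.exp_le_exp.2
    have : (-w * Complex.I).re = w.im := by simp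
    rw [this]
    exact le_abs_self _
  have h3 := norm_sub_le (Complex.exp (-w * Complex.I)) (Complex.exp (w * Complex.I))
  rw [norm_div, norm_mul, Complex.norm_I, mul_one]
  have : ‖(2 : ℂ)‖ = 2 := by norm_num
  rw [this]
  linarith only [h3, h2, h1]

/-- majorant -/
noncomputable def maj (a : ℕ → ℝ) (R : ℝ) (k : ℕ) : ℝ := |a k| * Real.exp (R * (k + 2))

theorem maj_summable {a : ℕ → ℝ} (ha : Fast a) (R : ℝ) : Summable (maj a R) := by
  have h1 := (ha R).mul_left (Real.exp (2 * R))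
  refine h1.congr (fun k => ?_)
  rw [maj]
  have : Real.exp (R * (k + 2)) = Real.exp (2 * R) * Real.exp (R * k) := by
    rw [← Real.exp_add]; congr 1; ring
  rw [this]; ring

theorem term_cos_le {a : ℕ → ℝ} {R : ℝ} {z : ℂ} (hz : |z.im| < R) (k : ℕ) :
    ‖(a k : ℂ) * Complex.cos (((k + 2 : ℕ) : ℂ) * z)‖ ≤ maj a R k := by
  rw [norm_mul, Complex.norm_real, Real.norm_eq_abs, maj]
  have h1 := norm_cos_le (((k + 2 : ℕ) : ℂ) * z)
  have h2 : (((k + 2 : ℕ) : ℂ) * z).im = ((k : ℝ) + 2) * z.im := by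
    rw [← Complex.ofReal_natCast, Complex.im_ofReal_mul]; push_cast; ring
  rw [h2, abs_mul, abs_of_nonneg (by positivity : (0 : ℝ) ≤ (k : ℝ) + 2)] at h1
  have h3 : Real.exp (((k : ℝ) + 2) * |z.im|) ≤ Real.exp (R * (k + 2)) := by
    apply Real.exp_le_exp.2
    have : (0 : ℝ) ≤ (k : ℝ) + 2 := by positivity
    linarith only [mul_nonneg (le_of_lt (sub_pos.2 hz)) (sub_nonneg.2 this), hz]
  exact mul_le_mul_of_nonneg_left (h1.trans h3) (abs_nonneg _)

theorem term_sin_le {a : ℕ → ℝ} {R : ℝ} {z : ℂ} (hz : |z.im| < R) (k : ℕ) :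
    ‖(a k : ℂ) * Complex.sin (((k + 2 : ℕ) : ℂ) * z)‖ ≤ maj a R k := by
  rw [norm_mul, Complex.norm_real, Real.norm_eq_abs, maj]
  have h1 := norm_sin_le (((k + 2 : ℕ) : ℂ) * z)
  have h2 : (((k + 2 : ℕ) : ℂ) * z).im = ((k : ℝ) + 2) * z.im := by
    rw [← Complex.ofReal_natCast, Complex.im_ofReal_mul]; push_cast; ring
  rw [h2, abs_mul, abs_of_nonneg (by positivity : (0 : ℝ) ≤ (k : ℝ) + 2)] at h1
  have h3 : Real.exp (((k : ℝ) + 2) * |z.im|) ≤ Real.exp (R * (k + 2)) := by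
    apply Real.exp_le_exp.2
    have : (0 : ℝ) ≤ (k : ℝ) + 2 := by positivity
    linarith only [mul_nonneg (le_of_lt (sub_pos.2 hz)) (sub_nonneg.2 this), hz]
  exact mul_le_mul_of_nonneg_left (h1.trans h3) (abs_nonneg _)

theorem strip_open (R : ℝ) : IsOpen {z : ℂ | |z.im| < R} :=
  isOpen_lt (continuous_abs.comp Complex.continuous_im) continuous_const

theorem CS_summable {a : ℕ → ℝ} (ha : Fast a) (z : ℂ) :
    Summable fun k : ℕ => (a k : ℂ) * Complex.cos (((k + 2 : ℕ) : ℂ) * z) :=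
  Summable.of_norm_bounded (maj_summable ha (|z.im| + 1)) (term_cos_le (by linarith))

theorem SN_summable {a : ℕ → ℝ} (ha : Fast a) (z : ℂ) :
    Summable fun k : ℕ => (a k : ℂ) * Complex.sin (((k + 2 : ℕ) : ℂ) * z) :=
  Summable.of_norm_bounded (maj_summable ha (|z.im| + 1)) (term_sin_le (by linarith))

theorem CS_diff {a : ℕ → ℝ} (ha : Fast a) : Differentiable ℂ (CS a) := by
  intro z
  have h1 := Complex.differentiableOn_tsum_of_summable_norm
    (F := fun (k : ℕ) (z : ℂ) => (a k : ℂ) * Complex.cos (((k + 2 : ℕ) : ℂ) * z))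
    (maj_summable ha (|z.im| + 1)) (fun k => by fun_prop) (strip_open (|z.im| + 1))
    (fun k w hw => term_cos_le hw k)
  exact (h1 z (by show |z.im| < |z.im| + 1; linarith)).differentiableAt
    ((strip_open _).mem_nhds (by show |z.im| < |z.im| + 1; linarith))

theorem CS_deriv {a : ℕ → ℝ} (ha : Fast a) : deriv (CS a) = fun z => -SN (up a) z := by
  funext z
  have h1 := Complex.hasSum_deriv_of_summable_norm
    (F := fun (k : ℕ) (z : ℂ) => (a k : ℂ) * Complex.cos (((k + 2 : ℕ) : ℂ) * z))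
    (maj_summable ha (|z.im| + 1)) (fun k => by fun_prop) (strip_open (|z.im| + 1))
    (fun k w hw => term_cos_le hw k) (show z ∈ {w : ℂ | |w.im| < |z.im| + 1} by
      show |z.im| < |z.im| + 1; linarith)
  have h2 := h1.tsum_eq
  show deriv (fun w => ∑' k : ℕ, (a k : ℂ) * Complex.cos (((k + 2 : ℕ) : ℂ) * w)) z = _
  rw [← h2, SN, ← tsum_neg]
  congr 1
  funext k
  have e : HasDerivAt (fun z : ℂ => ((k + 2 : ℕ) : ℂ) * z) ((k + 2 : ℕ) : ℂ) z := by
    simpa using (hasDerivAt_id z).const_mul ((k + 2 : ℕ) : ℂ)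
  have h3 := ((Complex.hasDerivAt_cos (((k + 2 : ℕ) : ℂ) * z)).comp z e).const_mul (a k : ℂ)
  have h4 : HasDerivAt (fun z : ℂ => (a k : ℂ) * Complex.cos (((k + 2 : ℕ) : ℂ) * z))
    ((a k : ℂ) * (-Complex.sin (((k + 2 : ℕ) : ℂ) * z) * ((k + 2 : ℕ) : ℂ))) z := h3
  rw [h4.deriv, up]
  push_cast
  ring

theorem SN_deriv {a : ℕ → ℝ} (ha : Fast a) : deriv (SN a) = fun z => CS (up a) z := by
  funext z
  have h1 := Complex.hasSum_deriv_of_summable_norm
    (F := fun (k : ℕ) (z : ℂ) => (a k : ℂ) * Complex.sin (((k + 2 : ℕ) : ℂ) * z))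
    (maj_summable ha (|z.im| + 1)) (fun k => by fun_prop) (strip_open (|z.im| + 1))
    (fun k w hw => term_sin_le hw k) (show z ∈ {w : ℂ | |w.im| < |z.im| + 1} by
      show |z.im| < |z.im| + 1; linarith)
  have h2 := h1.tsum_eq
  show deriv (fun w => ∑' k : ℕ, (a k : ℂ) * Complex.sin (((k + 2 : ℕ) : ℂ) * w)) z = _
  rw [← h2, CS]
  congr 1
  funext k
  have e : HasDerivAt (fun z : ℂ => ((k + 2 : ℕ) : ℂ) * z) ((k + 2 : ℕ) : ℂ) z := by
    simpa using (hasDerivAt_id z).const_mul ((k + 2 : ℕ) : ℂ)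
  have h3 := ((Complex.hasDerivAt_sin (((k + 2 : ℕ) : ℂ) * z)).comp z e).const_mul (a k : ℂ)
  have h4 : HasDerivAt (fun z : ℂ => (a k : ℂ) * Complex.sin (((k + 2 : ℕ) : ℂ) * z))
    ((a k : ℂ) * (Complex.cos (((k + 2 : ℕ) : ℂ) * z) * ((k + 2 : ℕ) : ℂ))) z := h3
  rw [h4.deriv, up]
  push_cast
  ring

/-- coefficients of the radius of curvature -/
def cc (a : ℕ → ℝ) (k : ℕ) : ℝ := (((k + 2 : ℕ) : ℝ) ^ 2 - 1) * a k

theorem cc_eq (a : ℕ → ℝ) : cc a = fun k => up (up a) k - a k := by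
  funext k
  rw [cc, up, up]
  ring

theorem Fast.cc {a : ℕ → ℝ} (ha : Fast a) : Fast (cc a) := by
  intro R
  have h1 := (ha.up.up R).add (ha R)
  refine Summable.of_nonneg_of_le (fun k => by positivity) (fun k => ?_) h1
  rw [cc_eq, ← add_mul]
  exact mul_le_mul_of_nonneg_right (abs_sub _ _) (Real.exp_pos _).le

/-- complex support function -/
noncomputable def hser (b : ℝ) (a : ℕ → ℝ) (z : ℂ) : ℂ := b + CS a z

theorem hser_diff {a : ℕ → ℝ} (ha : Fast a) (b : ℝ) : Differentiable ℂ (hser b a) :=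
  (CS_diff ha).const_add (b : ℂ)

theorem hser_rho {a : ℕ → ℝ} (ha : Fast a) (b : ℝ) (z : ℂ) :
    rho (hser b a) z = b - CS (cc a) z := by
  have e1 : deriv (hser b a) = fun z => -SN (up a) z := by
    have : hser b a = fun z => (b : ℂ) + CS a z := rfl
    rw [this]
    funext z
    have h1 := ((CS_diff ha z).hasDerivAt.const_add (b : ℂ)).deriv
    rw [h1, CS_deriv ha]
  have e2 : deriv (deriv (hser b a)) z = -CS (up (up a)) z := by
    rw [e1]
    have h1 : deriv (fun z => -SN (up a) z) z = -deriv (SN (up a)) z := deriv.fun_neg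
    rw [h1, SN_deriv ha.up]
  rw [rho, e2, hser]
  have h3 : CS (cc a) z = CS (up (up a)) z - CS a z := by
    rw [CS, CS, CS, ← (CS_summable ha.up.up z).tsum_sub (CS_summable ha z)]
    congr 1
    funext k
    rw [cc_eq]
    push_cast
    ring
  rw [h3]
  ring

end Vale.Agent.P097.Cusp
end

section

/-!
# P097: existence, uniqueness and symmetry of the rational leaf
-/

namespace Vale.Agent.P097

open Real Set Filter Topology

theorem eventually_lt_mx' {h : ℝ → ℝ} (hc : Continuous h) {n : ℕ} {θ₀ : ℝ}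
    {y₀ : Fin n → ℝ} (huniq : ∀ y ∈ Dom n, IsMaxC h n θ₀ (fun j => θ₀ + ext n y j) → y = y₀)
    {O : Set (Fin n → ℝ)} (hO2 : IsOpen O) (hO3 : y₀ ∈ O) :
    ∀ᶠ θ in 𝓝 θ₀, ∀ y ∈ Dom n \ O, W h n θ y < mx h n θ := by
  have hK : IsCompact (Dom n \ O) := (isCompact_Dom n).diff hO2
  apply hK.eventually_forall_of_forall_eventually
  intro y hy
  have c1 : ContinuousAt (fun q : ℝ × (Fin n → ℝ) => W h n q.1 q.2) (θ₀, y) :=
    (continuous_W hc n).continuousAt
  have c2 : ContinuousAt (fun q : ℝ × (Fin n → ℝ) => mx h n q.1) (θ₀, y) :=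
    ((continuous_mx hc n).comp continuous_fst).continuousAt
  apply c1.eventually_lt c2
  apply lt_of_le_of_ne (le_mx hc (Dom_cfg hy.1 θ₀))
  intro hcon
  have := huniq y hy.1 (isMaxC_of_eq hc (Dom_cfg hy.1 θ₀) (le_of_eq hcon.symm))
  rw [this] at hy
  exact hy.2 hO3

/-- The map sending a direction to the next direction of the maximal configuration. -/
theorem exists_u {h : ℝ → ℝ} (H : Adm h) {n : ℕ} (hn : 1 ≤ n) (hC : Cst h n) :
    ∃ u : ℝ → ℝ, (∀ θ Z, IsMaxC h n θ Z → ∀ j ≤ n + 1, u^[j] θ = Z j) ∧ Continuous u ∧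
      (∀ θ, u (θ + 2 * π) = u θ + 2 * π) ∧ StrictMono u ∧ (∀ θ, u^[n + 1] θ = θ + 2 * π) ∧
      (∀ θ, θ < u θ ∧ u θ < θ + 2 * π) := by
  have hc := H.an.continuous
  choose Y hY hYm hYW using fun θ => exists_max_dom hc n θ
  set u : ℝ → ℝ := fun θ => θ + ext n (Y θ) 1 with hu
  have hval : ∀ θ Z, IsMaxC h n θ Z → u θ = Z 1 := fun θ Z M =>
    (hYm θ).unique H hC M 1 (by omega)
  -- shift of a maximal configuration
  have hshift : ∀ θ Z, IsMaxC h n θ Z →
      IsMaxC h n (Z 1) (fun j => if j ≤ n then Z (j + 1) else Z 1 + 2 * π) := by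
    intro θ Z M
    have hcfg : Cfg n (Z 1) (fun j => if j ≤ n then Z (j + 1) else Z 1 + 2 * π) := by
      refine ⟨by simp only [zero_le, ↓reduceIte, zero_add], by simp only [add_le_iff_nonpos_right, nonpos_iff_eq_zero, one_ne_zero, ↓reduceIte], fun j hj => ?_⟩
      rcases Nat.lt_or_ge j n with h1 | h1
      · simp only [hj, if_true, if_pos (show j + 1 ≤ n by omega)]
        exact M.1.2.2 (j + 1) (by omega)
      · have : j = n := by (clear * - hj h1; omega)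
        subst this
        simp only [le_rfl, if_true, if_neg (show ¬ j + 1 ≤ j by omega)]
        have h2 := M.1.2.2 0 (by (clear * - hn; omega))
        rw [M.1.2.1]
        rw [M.1.1, zero_add] at h2
        linarith only [h2]
    apply isMaxC_of_eq hc hcfg
    have hL : L h n (fun j => if j ≤ n then Z (j + 1) else Z 1 + 2 * π) = L h n Z := by
      unfold L
      rw [Finset.sum_range_succ, Finset.sum_range_succ' (fun j => S h (Z j) (Z (j + 1)))]
      congr 1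
      · apply Finset.sum_congr rfl
        intro j hj
        rw [Finset.mem_range] at hj
        simp only [if_pos (show j ≤ n by omega), if_pos (show j + 1 ≤ n by omega)]
      · simp only [le_rfl, if_true, if_neg (show ¬ n + 1 ≤ n by omega)]
        rw [M.1.2.1, ← M.1.1, S_per H.per, zero_add]
    rw [hL, ← M.mx_eq hc, hC (Z 1), hC θ]
  have hiter : ∀ j ≤ n + 1, ∀ θ Z, IsMaxC h n θ Z → u^[j] θ = Z j := by
    intro j
    induction j with
    | zero => intro _ θ Z M; exact M.1.1.symm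
    | succ k ih =>
      intro hk θ Z M
      rw [Function.iterate_succ_apply, hval θ Z M, ih (by omega) _ _ (hshift θ Z M)]
      simp only [if_pos (show k ≤ n by omega)]
  have hper : ∀ θ, u^[n + 1] θ = θ + 2 * π := by
    intro θ
    rw [hiter (n + 1) le_rfl θ _ (hYm θ)]
    exact (hYm θ).1.2.1
  have hu2 : ∀ θ, u (θ + 2 * π) = u θ + 2 * π := by
    intro θ
    have M : IsMaxC h n (θ + 2 * π) (fun j => (θ + ext n (Y θ) j) + 2 * π) := by
      apply isMaxC_of_eq hc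
      · exact (hYm θ).1.rot (2 * π)
      · have hL : L h n (fun j => (θ + ext n (Y θ) j) + 2 * π) = L h n (fun j => θ + ext n (Y θ) j) := by
          unfold L
          exact Finset.sum_congr rfl fun j _ => S_per H.per _ _
        rw [hL, ← (hYm θ).mx_eq hc, mx_per H.per]
    exact hval _ _ M
  have hcont : Continuous u := by
    rw [continuous_iff_continuousAt]
    intro θ₀
    have hY1 : ∀ θ, u θ = θ + Y θ ⟨0, by omega⟩ := by
      intro θ
      simp only [hu]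
      rw [← ext_mid (Y θ) ⟨0, by omega⟩]
    have huniq : ∀ y ∈ Dom n, IsMaxC h n θ₀ (fun j => θ₀ + ext n y j) → y = Y θ₀ := by
      intro y _ M
      have := M.unique H hC (hYm θ₀)
      funext i
      have := this (i + 1) (by omega)
      rw [ext_mid, ext_mid] at this
      linarith only [this]
    have hYc : ContinuousAt (fun θ => Y θ ⟨0, by omega⟩) θ₀ := by
      rw [Metric.continuousAt_iff']
      intro ε hε
      have hO : IsOpen {y : Fin n → ℝ | dist (y ⟨0, by omega⟩) (Y θ₀ ⟨0, by omega⟩) < ε} :=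
        isOpen_lt ((continuous_apply _).dist continuous_const) continuous_const
      have := eventually_lt_mx' hc huniq hO (by simpa only [mem_ofPred_eq, dist_self, gt_iff_lt] using hε)
      filter_upwards [this] with θ hθ
      by_contra hcon
      exact (hθ (Y θ) ⟨hY θ, hcon⟩).ne (hYW θ)
    have : u = fun θ => θ + Y θ ⟨0, by omega⟩ := funext hY1
    rw [this]
    exact continuousAt_id.add hYc
  have hinj : Function.Injective u := by
    intro a b hab
    have : u^[n + 1] a = u^[n + 1] b := by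
      rw [Function.iterate_succ_apply, Function.iterate_succ_apply, hab]
    rw [hper, hper] at this
    linarith only [this]
  refine ⟨u, fun θ Z M j hj => hiter j hj θ Z M, hcont, hu2, strictMono_of_shift hcont hu2 hinj,
    hper, fun θ => ?_⟩
  have M := hYm θ
  have hp := M.pos H
  have e := hval θ _ M
  rw [e]
  constructor
  · have := hp 0 (by omega)
    rw [ext_zero] at this
    simpa using this
  · have h1 := hp n le_rfl
    have h2 := M.1.mono (show 1 ≤ n by omega) (by omega)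
    rw [ext_last] at h1
    linarith only [h1, h2]

/-- Existence of the rational leaf. -/
theorem exists_ratLeaf {h : ℝ → ℝ} (HT : IsTable h) {n : ℕ} (hn : 1 ≤ n) (hC : Cst h n) :
    ∃ f, RatLeaf h (n + 1) f := by
  have H := HT.adm
  have hc := H.an.continuous
  obtain ⟨u, hu1, hu2, hu3, hu4, hu5, hu6⟩ := exists_u H hn hC
  set P : ℝ → ℝ := fun θ => (θ + u θ) / 2 with hP
  have hPm : StrictMono P := by
    intro a b hab
    have := hu4 hab
    simp only [hP]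
    linarith only [hab, this]
  have hPc : Continuous P := (continuous_id.add hu2).div_const 2
  have hPs : Function.Surjective P := surjective_of_shift hPc (fun x => by
    simp only [hP, hu3]
    ring)
  set Q : ℝ → ℝ := fun x => (StrictMono.orderIsoOfSurjective P hPm hPs).symm x with hQ
  have hQc : Continuous Q := (StrictMono.orderIsoOfSurjective P hPm hPs).symm.continuous
  have hPQ : ∀ x, P (Q x) = x := fun x =>
    (StrictMono.orderIsoOfSurjective P hPm hPs).apply_symm_apply x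
  have hQP : ∀ x, Q (P x) = x := fun x =>
    (StrictMono.orderIsoOfSurjective P hPm hPs).symm_apply_apply x
  have hfP : ∀ θ, P θ - Q (P θ) = (u θ - θ) / 2 := by
    intro θ
    rw [hQP]
    simp only [hP]
    ring
  have hstep : ∀ θ, Step h (P θ) ((u θ - θ) / 2) (P (u θ)) ((u (u θ) - u θ) / 2) := by
    intro θ
    obtain ⟨Z, M⟩ := exists_isMaxC hc n θ
    have hZ1 : u θ = Z 1 := hu1 θ Z M 1 (by omega)
    have hZ2 : u (u θ) = Z 2 := hu1 θ Z M 2 (by omega)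
    have hcr := M.crit H (k := 0) (by omega)
    have b1 := hu6 θ
    have b2 := hu6 (u θ)
    have e1 : P θ = mid Z 0 := by simp only [hP, mid, zero_add, hZ1, M.1.1]
    have e2 : P (u θ) = mid Z 1 := by
      simp only [hP, mid]
      rw [hZ2, hZ1]
    have e3 : P θ + (u θ - θ) / 2 = u θ := by simp only [hP]; ring
    apply step_of_K HT.1 HT.2.1 HT.2.2
    · linarith only [b1]
    · linarith only [b1]
    · linarith only [b2]
    · linarith only [b2]
    · simp only [hP]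
      ring
    · rw [e3, e1, e2, hZ1]
      exact hcr
  have hG : InvGraph h (fun x => x - Q x) := by
    refine ⟨continuous_id.sub hQc, ?_, ?_, ?_⟩
    · intro x
      have : Q (x + 2 * π) = Q x + 2 * π := by
        apply hPm.injective
        rw [hPQ]
        simp only [hP, hu3]
        have := hPQ x
        simp only [hP] at this
        linarith
      simp only [this]
      ring
    · intro x
      have e : x - Q x = (u (Q x) - Q x) / 2 := by
        have := hfP (Q x)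
        rwa [hPQ] at this
      have := hu6 (Q x)
      simp only [e]
      constructor <;> linarith only [this]
    · intro x
      refine ⟨P (u (Q x)), ?_⟩
      have e : x - Q x = (u (Q x) - Q x) / 2 := by
        have := hfP (Q x)
        rwa [hPQ] at this
      have e2 := hfP (u (Q x))
      have := hstep (Q x)
      rw [hPQ] at this
      simp only [e, e2]
      exact this
  refine ⟨fun x => x - Q x, hG, ?_⟩
  intro x hx
  have key : ∀ j, x j = P (u^[j] (Q (x 0))) := by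
    intro j
    induction j with
    | zero => simp [hPQ]
    | succ k ih =>
      have s1 := hx k
      have e : x k - Q (x k) = (u (u^[k] (Q (x 0))) - u^[k] (Q (x 0))) / 2 := by
        rw [ih]
        exact hfP _
      have s2 := hstep (u^[k] (Q (x 0)))
      simp only [e] at s1
      rw [ih] at s1
      have := s1.unique H s2
      rw [this, Function.iterate_succ_apply']
  rw [key (n + 1), hu5]
  have : P (Q (x 0) + 2 * π) = P (Q (x 0)) + 2 * π := by
    simp only [hP, hu3]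
    ring
  rw [this, hPQ]

theorem exists_ratLeaf_of_collar {h : ℝ → ℝ} (HT : IsTable h) {η : ℝ} (hη : Collar h η) {n : ℕ}
    (hn1 : 1 ≤ n) (hn : π / (n + 1) < η) : ∃ f, RatLeaf h (n + 1) f :=
  exists_ratLeaf HT hn1 (fun θ => mx_const_of_collar HT.adm hη hn θ)

/-- Uniqueness of the rational leaf. -/
theorem RatLeaf.unique {h f f' : ℝ → ℝ} (H : Adm h) {n : ℕ} (R : RatLeaf h (n + 1) f)
    (R' : RatLeaf h (n + 1) f') : f = f' := by
  funext x
  obtain ⟨Z, M⟩ := exists_isMaxC H.an.continuous n (x - f x)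
  have h1 := M.on_ratLeaf H R
  have h2 := M.on_ratLeaf H R'
  have e0 : Z 1 - mid Z 0 = mid Z 0 - Z 0 := by simp only [mid]; ring
  have hx : mid Z 0 = x := by
    apply R.1.inj H (z := x - f x)
    · rw [h1, e0, M.1.1]
    · ring
  rw [hx] at h1 h2
  rw [h1, h2]

theorem InvGraph.rot {h f : ℝ → ℝ} (G : InvGraph h f) {c : ℝ} (hp : ∀ x, h (x + c) = h x) :
    InvGraph h (fun x => f (x + c)) := by
  refine ⟨G.1.comp (continuous_id.add continuous_const), fun x => ?_, fun x => G.2.2.1 _,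
    fun ψ => ?_⟩
  · have : x + 2 * π + c = x + c + 2 * π := by ring
    simp only [this, G.2.1]
  · obtain ⟨ψ', hS⟩ := G.2.2.2 (ψ + c)
    refine ⟨ψ' - c, ?_⟩
    apply Step.rot hp
    simp only [sub_add_cancel]
    exact hS

theorem step_rot' {h : ℝ → ℝ} {c : ℝ} (hp : ∀ x, h (x + c) = h x) {ψ δ ψ' δ' : ℝ}
    (hS : Step h ψ δ ψ' δ') : Step h (ψ + c) δ (ψ' + c) δ' := by
  have hp' : ∀ x, h (x + -c) = h x := fun x => by
    have := hp (x + -c)
    rw [neg_add_cancel_right] at this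
    exact this.symm
  apply Step.rot hp'
  simp only [add_neg_cancel_right]
  exact hS

/-- The rational leaf has the symmetries of the table. -/
theorem RatLeaf.symm {h f : ℝ → ℝ} (H : Adm h) {n : ℕ} (R : RatLeaf h (n + 1) f) {c : ℝ}
    (hp : ∀ x, h (x + c) = h x) (x : ℝ) : f (x + c) = f x := by
  have R' : RatLeaf h (n + 1) (fun x => f (x + c)) := by
    refine ⟨R.1.rot hp, fun x hx => ?_⟩
    have := R.2 (fun j => x j + c) (fun j => step_rot' hp (hx j))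
    linarith
  have := R.unique H R'
  exact (congrFun this x).symm

/-- An increasing map some iterate of which is the identity is the identity. -/
theorem eq_id_of_iterate {G : ℝ → ℝ} (hG : StrictMono G) {N : ℕ} (hN : 1 ≤ N)
    (hid : ∀ x, G^[N] x = x) (x : ℝ) : G x = x := by
  rcases lt_trichotomy (G x) x with h | h | h
  · exfalso
    have key : ∀ k, 1 ≤ k → G^[k] x < x := by
      intro k hk
      induction k, hk using Nat.le_induction with
      | base => simpa using h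
      | succ m _ ih =>
        rw [Function.iterate_succ_apply']
        exact (hG ih).trans h
    have := key N hN
    rw [hid] at this
    exact lt_irrefl _ this
  · exact h
  · exfalso
    have key : ∀ k, 1 ≤ k → x < G^[k] x := by
      intro k hk
      induction k, hk using Nat.le_induction with
      | base => simpa using h
      | succ m _ ih =>
        rw [Function.iterate_succ_apply']
        exact h.trans (hG ih)
    have := key N hN
    rw [hid] at this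
    exact lt_irrefl _ this

/-- On a table with `N`-fold symmetry the orbits on the `1/(kN)` leaf move by `2π/N` in `k`
bounces. -/
theorem RatLeaf.symm_orbit {h f : ℝ → ℝ} (H : Adm h) {N k : ℕ} (hN : 1 ≤ N) (hk : 1 ≤ k)
    (hp : ∀ x, h (x + 2 * π / N) = h x) (R : RatLeaf h (k * N) f) {x : ℕ → ℝ}
    (hx : ∀ j, Step h (x j) (f (x j)) (x (j + 1)) (f (x (j + 1)))) :
    x k = x 0 + 2 * π / N := by
  obtain ⟨n, hn⟩ : ∃ n, k * N = n + 1 := ⟨k * N - 1, by
    have : 1 ≤ k * N := Nat.one_le_iff_ne_zero.2 (Nat.mul_ne_zero (by omega) (by omega))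
    omega⟩
  rw [hn] at R
  have hf := fun x => R.symm H hp x
  obtain ⟨F, hS, h1, h2, hm, _⟩ := R.1.exists_F' H
  set c : ℝ := 2 * π / N with hc
  have hFc : ∀ x, F (x + c) = F x + c := by
    intro x
    have s1 := hS (x + c)
    have s2 := step_rot' hp (hS x)
    rw [hf x] at s1
    exact s1.unique H s2
  have hiter : ∀ m x, F^[m] (x + c) = F^[m] x + c := by
    intro m
    induction m with
    | zero => intro x; rfl
    | succ m ih =>
      intro x
      rw [Function.iterate_succ_apply, Function.iterate_succ_apply, hFc, ih]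
  have hq : ∀ x, F^[n + 1] x = x + 2 * π := by
    intro x
    have := R.2 (fun j => F^[j] x) (fun j => by
      simp only [Function.iterate_succ_apply']
      exact hS _)
    simpa only [Function.iterate_succ, Function.comp_apply, Function.iterate_zero, id_eq] using this
  set G : ℝ → ℝ := fun x => F^[k] x - c with hG
  have hGm : StrictMono G := by
    intro a b hab
    simp only [hG]
    have := (hm.iterate k) hab
    linarith only [this]
  have hGi : ∀ (m : ℕ) (x : ℝ), G^[m] x = F^[k * m] x - m * c := by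
    intro m
    induction m with
    | zero => intro x; simp
    | succ m ih =>
      intro x
      have hmc : ∀ (j : ℕ) (y : ℝ), F^[k] (y - j * c) = F^[k] y - j * c := by
        intro j
        induction j with
        | zero => intro y; simp only [CharP.cast_eq_zero, zero_mul, sub_zero]
        | succ j ihj =>
          intro y
          have e := hiter k (y - ((j + 1 : ℕ) : ℝ) * c)
          have e2 : y - ((j + 1 : ℕ) : ℝ) * c + c = y - j * c := by push_cast; ring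
          rw [e2, ihj] at e
          push_cast at e ⊢
          linarith only [e]
      rw [Function.iterate_succ_apply', ih]
      simp only [hG]
      rw [hmc m, ← Function.iterate_add_apply]
      have : k + k * m = k * (m + 1) := by ring
      rw [this]
      push_cast
      ring
  have hNpos : (0 : ℝ) < N := by exact_mod_cast hN
  have hGN : ∀ x, G^[N] x = x := by
    intro x
    rw [hGi, hn, hq, hc]
    field_simp
    ring
  have hGid := eq_id_of_iterate hGm hN hGN (x 0)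
  have hxF : ∀ j, x j = F^[j] (x 0) := by
    intro j
    induction j with
    | zero => rfl
    | succ j ih =>
      rw [Function.iterate_succ_apply']
      have s1 := hx j
      have s2 := hS (x j)
      rw [← ih]
      exact s1.unique H s2
  rw [hxF k]
  simp only [hG] at hGid
  linarith only [hGid]

/-- The rational leaves converge to the boundary. -/
theorem ratLeaf_small {h : ℝ → ℝ} (H : Adm h) (x : ℝ) {c : ℝ} (hc : 0 < c) :
    ∀ᶠ q in atTop, ∀ f, RatLeaf h q f → f x < c := by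
  have hs := small_gaps H (x - c / 2) hc
  have : ∀ᶠ n in atTop, ∀ f, RatLeaf h (n + 1) f → f x < c := by
    filter_upwards [hs] with n hn
    intro f R
    by_contra hcon
    push Not at hcon
    obtain ⟨Z, M⟩ := exists_isMaxC H.an.continuous n (x - c / 2)
    obtain ⟨g1, _⟩ := hn Z M
    have h1 := M.on_ratLeaf H R
    have e0 : Z 1 - mid Z 0 = mid Z 0 - Z 0 := by simp only [mid]; ring
    obtain ⟨F, hS, _, _, _, ha, hb, _⟩ := R.1.exists_data H
    have h2 : x < mid Z 0 := by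
      apply ha.lt_iff_lt.1
      rw [h1, e0, M.1.1]
      linarith only [hcon, hc]
    have h3 := hb h2
    simp only at h3
    rw [h1] at h3
    have hZ0 := M.1.1
    linarith only [hc, hcon, g1, h3, hZ0]
  rw [eventually_atTop] at this ⊢
  obtain ⟨n₀, hn₀⟩ := this
  refine ⟨n₀ + 1, fun q hq => ?_⟩
  obtain ⟨n, rfl⟩ : ∃ n, q = n + 1 := ⟨q - 1, by omega⟩
  exact hn₀ n (by omega)

end Vale.Agent.P097
end

section

namespace Vale.Agent.P097.Cusp

open Complex Filter Topology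
open scoped ComplexConjugate

section sym

variable {h : ℂ → ℂ}

theorem deriv_of_real (hr : ∀ z, h (conj z) = conj (h z)) (z : ℂ) :
    deriv h (conj z) = conj (deriv h z) := by
  have e : (conj ∘ h ∘ conj : ℂ → ℂ) = h := by
    funext w
    simp only [Function.comp_apply]
    rw [hr, Complex.conj_conj]
  have h1 := congrFun (deriv_conj_conj (f := h)) z
  rw [e] at h1
  simp only [Function.comp_apply] at h1
  rw [h1, Complex.conj_conj]

theorem deriv_of_even (he : ∀ z, h (-z) = h z) (z : ℂ) : deriv h (-z) = -deriv h z := by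
  have e : (fun w => h (-w)) = h := by funext w; rw [he]
  have h1 := deriv_comp_neg h z
  rw [e] at h1
  rw [h1, neg_neg]

theorem deriv_of_odd (he : ∀ z, h (-z) = -h z) (z : ℂ) : deriv h (-z) = deriv h z := by
  have e : (fun w => h (-w)) = fun w => -h w := by funext w; rw [he]
  have h1 := deriv_comp_neg h z
  rw [e, deriv.fun_neg] at h1
  exact (neg_injective h1).symm

theorem deriv_of_per {c : ℂ} (hp : ∀ z, h (z + c) = h z) (z : ℂ) :
    deriv h (z + c) = deriv h z := by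
  have e : (fun w => h (w + c)) = h := by funext w; rw [hp]
  have h1 := deriv_comp_add_const h c z
  rw [e] at h1
  rw [h1]

end sym

namespace CuspTable

variable {h : ℂ → ℂ} {H Y τ : ℝ} (T : CuspTable h H Y τ)
include T

end CuspTable

end Vale.Agent.P097.Cusp
end

section

namespace Vale.Agent.P097.Cusp

open Complex Filter Topology
open scoped ComplexConjugate

/-- The region to the right of a thin wedge below the cusp. -/
def Om (H Y t σ : ℝ) : Set ℂ :=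
  {z | t * (z.im - Y) < z.re ∧ z.re < H + σ ∧ -σ < z.im ∧ z.im < Y + σ}

/-- the cube root of `rho` -/
noncomputable def qq (h : ℂ → ℂ) (z : ℂ) : ℂ := (rho h z) ^ (1 / 3 : ℂ)

theorem exists_lower {K : Set ℂ} (hK : IsCompact K) {f : ℂ → ℂ} (hf : ContinuousOn f K)
    (h0 : ∀ z ∈ K, f z ≠ 0) : ∃ c : ℝ, 0 < c ∧ ∀ z ∈ K, c ≤ ‖f z‖ := by
  rcases K.eq_empty_or_nonempty with he | hne
  · exact ⟨1, one_pos, by simp [he]⟩
  · obtain ⟨z0, hz0, hmin⟩ := hK.exists_isMinOn hne hf.norm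
    exact ⟨‖f z0‖, norm_pos_iff.2 (h0 z0 hz0), fun z hz => hmin hz⟩

theorem near_real {w : ℂ} {r e : ℝ} (hr : 0 < r) (he : e ≤ 1 / 200) (hw : ‖w - r‖ ≤ e * r) :
    0 < w.re ∧ |w.im| ≤ 1 / 100 * w.re ∧ r / 2 ≤ ‖w‖ := by
  have h1 : |w.re - r| ≤ e * r := by
    have := (Complex.abs_re_le_norm (w - r)).trans hw
    simpa only [ge_iff_le, sub_re, ofReal_re] using this
  have h2 : |w.im| ≤ e * r := by
    have := (Complex.abs_im_le_norm (w - r)).trans hw
    simpa only [ge_iff_le, sub_im, ofReal_im, sub_zero] using this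
  have h3 := abs_le.1 h1
  have h4 : e * r ≤ 1 / 200 * r := by gcongr
  have h5 : r / 2 ≤ w.re := by linarith
  refine ⟨by linarith only [hr, h3, h4], by linarith only [h2, h3, h4], ?_⟩
  exact h5.trans ((le_abs_self _).trans (Complex.abs_re_le_norm w))

namespace CuspTable

variable {h : ℂ → ℂ} {H Y τ : ℝ} (T : CuspTable h H Y τ)
include T

end CuspTable

end Vale.Agent.P097.Cusp
end

section

namespace Vale.Agent.P097.Cusp

open Complex Filter Topology
open scoped ComplexConjugate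

/-- The symmetries of the table and the simple zero on the imaginary axis. -/
structure SymTable (h : ℂ → ℂ) (H Y : ℝ) : Prop where
  ent : Differentiable ℂ h
  real : ∀ z, h (conj z) = conj (h z)
  even : ∀ z, h (-z) = h z
  per : ∀ z, h (z + 2 * H) = h z
  Hpos : 0 < H
  Ypos : 0 < Y
  pos : ∀ x : ℝ, 0 < (rho h x).re
  zero : rho h (Y * I) = 0
  simple : deriv (rho h) (Y * I) ≠ 0

theorem CuspTable.sym {h : ℂ → ℂ} {H Y τ : ℝ} (T : CuspTable h H Y τ) : SymTable h H Y :=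
  ⟨T.ent, T.real, T.even, T.per, T.Hpos, T.Ypos, T.pos, T.zero, T.simple⟩

namespace SymTable

variable {h : ℂ → ℂ} {H Y : ℝ} (T : SymTable h H Y)
include T

theorem rho_conj (z : ℂ) : rho h (conj z) = conj (rho h z) := by
  simp only [rho]
  rw [T.real, deriv_of_real (deriv_of_real T.real), map_add]

theorem rho_neg (z : ℂ) : rho h (-z) = rho h z := by
  simp only [rho]
  rw [T.even, deriv_of_odd (deriv_of_even T.even)]

theorem rho_per (z : ℂ) : rho h (z + 2 * H) = rho h z := by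
  simp only [rho]
  rw [T.per, deriv_of_per (deriv_of_per T.per)]

theorem rho_neg_conj (z : ℂ) : rho h (-conj z) = conj (rho h z) := by
  rw [T.rho_neg, T.rho_conj]

theorem rho_refl (z : ℂ) : rho h (2 * H - z) = rho h z := by
  have : (2 * H - z : ℂ) = -z + 2 * H := by ring
  rw [this, T.rho_per, T.rho_neg]

theorem rho_refl_conj (z : ℂ) : rho h (2 * H - conj z) = conj (rho h z) := by
  rw [T.rho_refl, T.rho_conj]

theorem diff_rho : Differentiable ℂ (rho h) := differentiable_rho T.ent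

theorem rho_real_im (x : ℝ) : (rho h x).im = 0 := by
  have h1 := T.rho_conj x
  rw [Complex.conj_ofReal] at h1
  exact Complex.conj_eq_iff_im.1 h1.symm

theorem rho_imag_im (y : ℝ) : (rho h (y * I)).im = 0 := by
  have h1 := T.rho_neg_conj (y * I)
  have e : -conj ((y : ℂ) * I) = y * I := by
    simp
  rw [e] at h1
  exact Complex.conj_eq_iff_im.1 h1.symm

theorem deriv_re : (deriv (rho h) (Y * I)).re = 0 := by
  have h1 := deriv_of_real T.rho_conj ((Y : ℂ) * I)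
  have h2 := deriv_of_even T.rho_neg (conj ((Y : ℂ) * I))
  have e : -conj ((Y : ℂ) * I) = Y * I := by simp
  rw [e, h1] at h2
  have h3 := congrArg Complex.re h2
  rw [Complex.neg_re, Complex.conj_re] at h3
  linarith only [h3]

end SymTable

/-- The condition on the argument of `rho` used in the region. -/
def Good (w : ℂ) : Prop := w ≠ 0 ∧ (0 < w.im ∨ -(1 / 100) * ‖w‖ < w.re)

theorem q_bounds2 {w : ℂ} (hw : Good w) :
    w ∈ slitPlane ∧ ‖w ^ (1 / 3 : ℂ)‖ / 2 ≤ (w ^ (1 / 3 : ℂ)).re ∧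
      -(51 / 100) * ‖w ^ (1 / 3 : ℂ)‖ ≤ (w ^ (1 / 3 : ℂ)).im := by
  obtain ⟨hw0, hw⟩ := hw
  have hwn := norm_pos_iff.2 hw0
  have hs : w ∈ slitPlane := by
    rw [Complex.mem_slitPlane_iff]
    by_contra hcon
    push Not at hcon
    obtain ⟨h1, h2⟩ := hcon
    rcases hw with h | h
    · linarith only [h2, h]
    · have h3 : ‖w‖ = |w.re| := by
        have : w = ((w.re : ℝ) : ℂ) := Complex.ext (by simp) (by simp [h2])
        rw [this, Complex.norm_real, Real.norm_eq_abs, Complex.ofReal_re]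
      rw [abs_of_nonpos h1] at h3
      linarith only [h3, h, hwn]
  refine ⟨hs, ?_⟩
  have e1 : w ^ (1 / 3 : ℂ) = exp (log w / 3) := by
    rw [Complex.cpow_def_of_ne_zero hw0]; congr 1; ring
  have e2 : (log w / 3).re = (log w).re / 3 := by
    have := Complex.div_ofNat_re (log w) 3
    simpa using this
  have e3 : (log w / 3).im = arg w / 3 := by
    have := Complex.div_ofNat_im (log w) 3
    rw [← Complex.log_im]
    simpa using this
  have hn : ‖w ^ (1 / 3 : ℂ)‖ = Real.exp ((log w).re / 3) := by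
    rw [e1, Complex.norm_exp, e2]
  have hre : (w ^ (1 / 3 : ℂ)).re = Real.exp ((log w).re / 3) * Real.cos (arg w / 3) := by
    rw [e1, Complex.exp_re, e2, e3]
  have him : (w ^ (1 / 3 : ℂ)).im = Real.exp ((log w).re / 3) * Real.sin (arg w / 3) := by
    rw [e1, Complex.exp_im, e2, e3]
  rw [hn, hre, him]
  have hpos := Real.exp_pos ((log w).re / 3)
  have hpi := Real.pi_pos
  have hcos : 1 / 2 ≤ Real.cos (arg w / 3) := by
    rw [← Real.cos_pi_div_three, ← Real.cos_abs (arg w / 3)]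
    apply Real.cos_le_cos_of_nonneg_of_le_pi (abs_nonneg _) (by linarith only [hpi])
    have := Complex.abs_arg_le_pi w
    rw [abs_div, abs_of_pos (by norm_num : (0 : ℝ) < 3)]
    linarith only [this]
  have hsin : -(51 / 100) ≤ Real.sin (arg w / 3) := by
    rcases le_or_gt 0 (arg w) with h0 | h0
    · have : 0 ≤ Real.sin (arg w / 3) := by
        apply Real.sin_nonneg_of_nonneg_of_le_pi (by (clear * - h0; positivity))
        have := Complex.arg_le_pi w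
        linarith only [hpi, this]
      linarith only [this]
    · rcases hw with h | h
      · exact absurd h0 (not_lt.2 (Complex.arg_nonneg_iff.2 h.le))
      · by_contra hcon
        push Not at hcon
        have h3 : -(1 / 100) < Real.cos (arg w) := by
          rw [Complex.cos_arg hw0, lt_div_iff₀ hwn]; exact h
        have h4 : Real.cos (arg w) = 4 * Real.cos (arg w / 3) ^ 3 - 3 * Real.cos (arg w / 3) := by
          rw [← Real.cos_three_mul]; congr 1; ring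
        have h5 := Real.sin_sq_add_cos_sq (arg w / 3)
        generalize Real.sin (arg w / 3) = s at *
        generalize Real.cos (arg w / 3) = c at *
        have h6 : c ^ 2 < 74 / 100 := by nlinarith only [hcon, h5]
        have h7 : 4 * c ^ 3 - 3 * c = c * (4 * c ^ 2 - 3) := by ring
        have h8 : c * (4 * c ^ 2 - 3) ≤ 1 / 2 * (4 * c ^ 2 - 3) := by
          apply mul_le_mul_of_nonpos_right hcos; linarith only [h6]
        rw [h4, h7] at h3
        linarith only [h3, h6, h8]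
  constructor
  · linarith only [mul_nonneg (le_of_lt (sub_pos.2 hpos)) (sub_nonneg.2 hcos)]
  · linarith only [mul_nonneg (le_of_lt (sub_pos.2 hpos)) (sub_nonneg.2 hsin)]

end Vale.Agent.P097.Cusp
end

section

namespace Vale.Agent.P097.Cusp

open Complex Filter Topology
open scoped ComplexConjugate

theorem Om_eq (H Y t σ : ℝ) : Om H Y t σ =
    (({z : ℂ | t * z.im - z.re < t * Y} ∩ {z | z.re < H + σ}) ∩ {z | -σ < z.im})
      ∩ {z | z.im < Y + σ} := by
  ext z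
  simp only [Om, Set.mem_ofPred_eq, Set.mem_inter_iff]
  constructor
  · rintro ⟨h1, h2, h3, h4⟩
    exact ⟨⟨⟨by linarith only [h1], h2⟩, h3⟩, h4⟩
  · rintro ⟨⟨⟨h1, h2⟩, h3⟩, h4⟩
    exact ⟨by linarith only [h1], h2, h3, h4⟩

theorem Om_convex (H Y t σ : ℝ) : Convex ℝ (Om H Y t σ) := by
  rw [Om_eq]
  have hl : IsLinearMap ℝ (fun z : ℂ => t * z.im - z.re) :=
    { map_add := fun x y => by simp only [add_im, add_re]; ring
      map_smul := fun a x => by simp; ring }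
  exact (((convex_halfSpace_lt hl _).inter (convex_halfSpace_re_lt _)).inter
    (convex_halfSpace_im_gt _)).inter (convex_halfSpace_im_lt _)

theorem Om_open (H Y t σ : ℝ) : IsOpen (Om H Y t σ) := by
  rw [Om_eq]
  have c1 := Complex.continuous_re
  have c2 := Complex.continuous_im
  exact (((isOpen_lt (by fun_prop) continuous_const).inter (isOpen_lt c1 continuous_const)).inter
    (isOpen_lt continuous_const c2)).inter (isOpen_lt c2 continuous_const)

/-- Mean value theorem for a real functional of a primitive along a segment. -/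
theorem seg_mvt {Ω : Set ℂ} (hc : Convex ℝ Ω) {X q : ℂ → ℂ}
    (hX : ∀ z ∈ Ω, HasDerivAt X (q z) z) {z w : ℂ} (hz : z ∈ Ω) (hw : w ∈ Ω) (a : ℂ) :
    ∃ s : ℝ, 0 < s ∧ s < 1 ∧ z + s * (w - z) ∈ Ω ∧
      (a * (X w - X z)).re = (a * (q (z + s * (w - z)) * (w - z))).re := by
  have hmem : ∀ s : ℝ, 0 ≤ s → s ≤ 1 → z + (s : ℂ) * (w - z) ∈ Ω := by
    intro s h0 h1
    have := hc hz hw (sub_nonneg.2 h1) h0 (by ring)
    simp only [Complex.real_smul] at this
    convert! this using 1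
    push_cast; ring
  have hder : ∀ s : ℝ, 0 ≤ s → s ≤ 1 →
      HasDerivAt (fun s : ℝ => (a * X (z + (s : ℂ) * (w - z))).re)
        (a * (q (z + s * (w - z)) * (w - z))).re s := by
    intro s h0 h1
    have h2 : HasDerivAt (fun s : ℂ => z + s * (w - z)) (w - z) (s : ℂ) := by
      simpa only [hasDerivAt_const_add_iff, id_eq, one_mul] using     ((hasDerivAt_id (s : ℂ)).mul_const (w - z)).const_add z
    have h3 := (hX _ (hmem s h0 h1)).comp (s : ℂ) h2
    have h4 := (h3.const_mul a).real_of_complex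
    exact h4
  obtain ⟨s, hs, hs2⟩ := exists_hasDerivAt_eq_slope
    (fun s : ℝ => (a * X (z + (s : ℂ) * (w - z))).re)
    (fun s : ℝ => (a * (q (z + s * (w - z)) * (w - z))).re) (a := 0) (b := 1) one_pos
    (fun s hs => (hder s hs.1 hs.2).continuousAt.continuousWithinAt)
    (fun s hs => hder s hs.1.le hs.2.le)
  refine ⟨s, hs.1, hs.2, hmem s hs.1.le hs.2.le, ?_⟩
  rw [hs2]
  simp only [Complex.ofReal_one, Complex.ofReal_zero, one_mul, zero_mul, add_zero, sub_zero,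
    div_one]
  rw [mul_sub, Complex.sub_re]
  congr 3
  ring_nf

theorem qq_cube (h : ℂ → ℂ) (z : ℂ) : qq h z ^ 3 = rho h z := by
  rw [qq]
  have := Complex.cpow_nat_inv_pow (rho h z) (n := 3) (by norm_num)
  rw [show (1 / 3 : ℂ) = ((3 : ℕ) : ℂ)⁻¹ by norm_num]
  exact this

theorem norm_qq_cube (h : ℂ → ℂ) (z : ℂ) : ‖qq h z‖ ^ 3 = ‖rho h z‖ := by
  rw [← norm_pow, qq_cube]

theorem qq_lower {h : ℂ → ℂ} {z : ℂ} {m : ℝ} (hm : m ≤ ‖rho h z‖) (hm1 : m ≤ 1) :
    m ≤ ‖qq h z‖ := by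
  rcases le_or_gt 1 ‖qq h z‖ with h1 | h1
  · exact hm1.trans h1
  · have h2 := norm_qq_cube h z
    have h3 : ‖qq h z‖ ^ 3 ≤ ‖qq h z‖ := by
      have := pow_le_pow_of_le_one (norm_nonneg (qq h z)) h1.le (show 1 ≤ 3 by norm_num)
      simpa only [ge_iff_le, pow_one] using this
    linarith only [hm, h2, h3]

theorem qq_conj {h : ℂ → ℂ} {z z' : ℂ} (hz : rho h z ∈ slitPlane)
    (he : rho h z' = conj (rho h z)) : qq h z' = conj (qq h z) := by
  have h3 : conj (1 / 3 : ℂ) = 1 / 3 := by rw [map_div₀, map_one, map_ofNat]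
  rw [qq, qq, he, Complex.conj_cpow _ _ (Complex.slitPlane_arg_ne_pi hz), h3]

/-- Everything we need about the region. -/
structure Setup (h : ℂ → ℂ) (H Y : ℝ) where
  T : SymTable h H Y
  (t σ c B M Lx κ : ℝ)
  X : ℂ → ℂ
  t0 : 0 < t
  t1 : t ≤ 1 / 100
  σ0 : 0 < σ
  σ1 : σ ≤ 1 / 100
  σH : σ ≤ H / 2
  c0 : 0 < c
  bnd : Bnd h B M
  BΩ : ∀ z ∈ Om H Y t σ, ‖z‖ + 3 ≤ B
  reg : ∀ z ∈ Om H Y t σ, c * ‖z - Y * I‖ ≤ ‖rho h z‖
  sl : ∀ z ∈ Om H Y t σ, rho h z ∈ slitPlane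
  qre : ∀ z ∈ Om H Y t σ, ‖qq h z‖ / 2 ≤ (qq h z).re
  qim : ∀ z ∈ Om H Y t σ, -(51 / 100) * ‖qq h z‖ ≤ (qq h z).im
  XD : ∀ z ∈ Om H Y t σ, HasDerivAt X (qq h z) z
  X0 : X 0 = 0
  Lx0 : 0 < Lx
  Xneg : ∀ z ∈ Om H Y t σ, -conj z ∈ Om H Y t σ → X (-conj z) = -conj (X z)
  Xrefl : ∀ z ∈ Om H Y t σ, 2 * H - conj z ∈ Om H Y t σ → X (2 * H - conj z) = Lx - conj (X z)
  Xconj : ∀ z ∈ Om H Y t σ, conj z ∈ Om H Y t σ → X (conj z) = conj (X z)
  κ0 : 0 < κ
  Xright : ∀ z ∈ Om H Y t σ, H + σ / 2 ≤ z.re → Lx / 2 + κ ≤ (X z).re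
  Xleft : ∀ z ∈ Om H Y t σ, z.re ≤ H - σ / 2 → (X z).re ≤ Lx / 2 - κ
  Xbot : ∀ z ∈ Om H Y t σ, z.im ≤ -(σ / 2) → (X z).im ≤ -κ
  Xtop : ∀ z ∈ Om H Y t σ, Y + σ / 2 ≤ z.im → ∀ y : ℝ, 0 ≤ y → y < Y →
    (X (y * I)).im + κ ≤ (X z).im
  Xinj : Set.InjOn X (Om H Y t σ)

/-- constancy along an antiholomorphic reflection -/
theorem refl_const {Ω : Set ℂ} (hc : Convex ℝ Ω) (ho : IsOpen Ω) {X q : ℂ → ℂ}
    (hX : ∀ z ∈ Ω, HasDerivAt X (q z) z) (a e : ℝ)
    (hq : ∀ z ∈ Ω, q (a + e * conj z) = conj (q z)) {z w : ℂ} (hz : z ∈ Ω)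
    (hz' : (a : ℂ) + e * conj z ∈ Ω) (hw : w ∈ Ω) (hw' : (a : ℂ) + e * conj w ∈ Ω) :
    conj (X (a + e * conj z)) - e * X z = conj (X (a + e * conj w)) - e * X w := by
  set V : Set ℂ := Ω ∩ {z : ℂ | (a : ℂ) + e * conj z ∈ Ω} with hV
  have hVo : IsOpen V := by
    refine ho.inter (ho.preimage ?_)
    exact continuous_const.add (continuous_const.mul Complex.continuous_conj)
  have hVc : Convex ℝ V := by
    refine hc.inter ?_
    have h1 := hc.translate_preimage_right (a : ℂ)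
    have hl : IsLinearMap ℝ (fun z : ℂ => (e : ℂ) * conj z) :=
      { map_add := fun x y => by simp only [map_add]; ring
        map_smul := fun r x => by simp only [real_smul, map_mul, conj_ofReal]; ring }
    exact h1.is_linear_preimage hl
  have hd : ∀ z ∈ V, HasDerivAt (fun z => conj (X (a + e * conj z)) - e * X z) 0 z := by
    rintro z ⟨h1, h2⟩
    have d1 : HasDerivAt (fun z : ℂ => (a : ℂ) + e * z) (e : ℂ) z := by
      simpa using ((hasDerivAt_id z).const_mul (e : ℂ)).const_add (a : ℂ)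
    have d2 := (hX _ h2).conj_conj
    have e3 : conj ((a : ℂ) + e * conj z) = a + e * z := by simp
    rw [e3] at d2
    have d4 := d2.comp z d1
    have d5 := d4.sub ((hX z h1).const_mul (e : ℂ))
    rw [hq z h1, Complex.conj_conj] at d5
    have e4 : q z * (e : ℂ) - e * q z = 0 := by ring
    rw [e4] at d5
    refine d5.congr_of_eventuallyEq (Eventually.of_forall fun x => ?_)
    simp only [Function.comp_apply, Pi.sub_apply]
    congr 3
    simp only [map_add, conj_ofReal, map_mul]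
  exact hVo.is_const_of_deriv_eq_zero hVc.isPreconnected
    (fun z hz => (hd z hz).differentiableAt.differentiableWithinAt)
    (fun z hz => (hd z hz).deriv) ⟨hz, hz'⟩ ⟨hw, hw'⟩

/-- The region together with the primitive of the cube root. -/
structure Pre (h : ℂ → ℂ) (H Y : ℝ) where
  T : SymTable h H Y
  (t σ c B M : ℝ)
  X : ℂ → ℂ
  t0 : 0 < t
  t1 : t ≤ 1 / 100
  σ0 : 0 < σ
  σ1 : σ ≤ 1 / 100
  σH : σ ≤ H / 2
  c0 : 0 < c
  bnd : Bnd h B M
  BΩ : ∀ z ∈ Om H Y t σ, ‖z‖ + 3 ≤ B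
  reg : ∀ z ∈ Om H Y t σ, c * ‖z - Y * I‖ ≤ ‖rho h z‖
  sl : ∀ z ∈ Om H Y t σ, rho h z ∈ slitPlane
  qre : ∀ z ∈ Om H Y t σ, ‖qq h z‖ / 2 ≤ (qq h z).re
  qim : ∀ z ∈ Om H Y t σ, -(51 / 100) * ‖qq h z‖ ≤ (qq h z).im
  XD : ∀ z ∈ Om H Y t σ, HasDerivAt X (qq h z) z
  X0 : X 0 = 0

/-- The output of the region lemmas. -/
structure RegData (h : ℂ → ℂ) (H Y t σ c : ℝ) : Prop where
  t0 : 0 < t
  t1 : t ≤ 1 / 100
  σ0 : 0 < σ
  σ1 : σ ≤ 1 / 100
  σH : σ ≤ H / 2
  c0 : 0 < c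
  reg : ∀ z ∈ Om H Y t σ, c * ‖z - Y * I‖ ≤ ‖rho h z‖
  good : ∀ z ∈ Om H Y t σ, Good (rho h z)

theorem exists_pre {h : ℂ → ℂ} {H Y t σ c : ℝ} (T : SymTable h H Y)
    (R : RegData h H Y t σ c) : ∃ P : Pre h H Y, P.t = t ∧ P.σ = σ ∧ P.c = c := by
  have hH := T.Hpos
  have hY := T.Ypos
  obtain ⟨ht0, ht1, hσ0, hσ1, hσH, hc, hreg, hgood⟩ := R
  set Ω := Om H Y t σ with hΩ
  have hc1 : Convex ℝ Ω := Om_convex H Y t σ
  have ho : IsOpen Ω := Om_open H Y t σ
  have hBΩ : ∀ z ∈ Ω, ‖z‖ + 3 ≤ H + 2 * Y + 9 := by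
    rintro z ⟨z1, z2, z3, z4⟩
    have h1 := Complex.norm_le_abs_re_add_abs_im z
    have h2 : |z.re| ≤ H + Y + 1 := by
      rw [abs_le]; constructor <;> nlinarith
    have h3 : |z.im| ≤ Y + 1 := by
      rw [abs_le]; constructor <;> linarith only [hY, hσ1, z3, z4]
    linarith only [h1, h2, h3]
  obtain ⟨M, hM⟩ := exists_bound T.ent (H + 2 * Y + 9)
  have hqb : ∀ z ∈ Ω, rho h z ∈ slitPlane ∧ ‖qq h z‖ / 2 ≤ (qq h z).re ∧
      -(51 / 100) * ‖qq h z‖ ≤ (qq h z).im := fun z hz => q_bounds2 (hgood z hz)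
  have hqd : DifferentiableOn ℂ (qq h) Ω := by
    intro z hz
    have h1 := (T.diff_rho z).hasDerivAt.cpow_const (c := (1 / 3 : ℂ)) (hqb z hz).1
    exact h1.differentiableAt.differentiableWithinAt
  obtain ⟨X', hX'⟩ := hc1.exists_forall_hasDerivWithinAt hqd
  have hX : ∀ z ∈ Ω, HasDerivAt (fun z => X' z - X' 0) (qq h z) z := by
    intro z hz
    exact ((hX' z hz).hasDerivAt (ho.mem_nhds hz)).sub_const _
  exact ⟨{ T := T, t := t, σ := σ, c := c, B := H + 2 * Y + 9, M := M,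
            X := fun z => X' z - X' 0, t0 := ht0, t1 := ht1, σ0 := hσ0, σ1 := hσ1,
            σH := hσH,
            c0 := hc, bnd := hM, BΩ := hBΩ, reg := hreg,
            sl := fun z hz => (hqb z hz).1, qre := fun z hz => (hqb z hz).2.1,
            qim := fun z hz => (hqb z hz).2.2, XD := hX, X0 := by simp }, rfl, rfl, rfl⟩

namespace Pre

variable {h : ℂ → ℂ} {H Y : ℝ} (P : Pre h H Y)

/-- the region -/
def Ω : Set ℂ := Om H Y P.t P.σ

theorem cvx : Convex ℝ P.Ω := Om_convex _ _ _ _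

theorem opn : IsOpen P.Ω := Om_open _ _ _ _

theorem zero_mem : (0 : ℂ) ∈ P.Ω := by
  have hH := P.T.Hpos
  have hY := P.T.Ypos
  have ht := P.t0
  have hσ := P.σ0
  refine ⟨?_, ?_, ?_, ?_⟩ <;> simp only [zero_im, zero_sub, mul_neg, zero_re, Left.neg_neg_iff] <;> nlinarith

theorem H_mem : (H : ℂ) ∈ P.Ω := by
  have hH := P.T.Hpos
  have hY := P.T.Ypos
  have ht := P.t0
  have hσ := P.σ0
  refine ⟨?_, ?_, ?_, ?_⟩ <;> simp <;> nlinarith

theorem neg {z : ℂ} (hz : z ∈ P.Ω) (hz' : -conj z ∈ P.Ω) : P.X (-conj z) = -conj (P.X z) := by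
  have h1 := refl_const P.cvx P.opn P.XD 0 (-1) (fun z hz => by
    have := qq_conj (P.sl z hz) (P.T.rho_neg_conj z)
    simpa only [ofReal_zero, ofReal_neg, ofReal_one, neg_mul, one_mul, zero_add] using this) (z := z) (w := 0) hz (by simpa only [ofReal_zero, ofReal_neg, ofReal_one, neg_mul, one_mul, zero_add] using hz') P.zero_mem
    (by simpa using P.zero_mem)
  simp only [P.X0, Complex.ofReal_zero, zero_add, Complex.ofReal_neg, Complex.ofReal_one,
    map_zero, mul_zero, sub_zero, neg_mul, one_mul, sub_neg_eq_add] at h1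
  have h2 := congrArg conj h1
  simp only [map_add, Complex.conj_conj, map_zero] at h2
  exact eq_neg_of_add_eq_zero_left h2

theorem cj {z : ℂ} (hz : z ∈ P.Ω) (hz' : conj z ∈ P.Ω) : P.X (conj z) = conj (P.X z) := by
  have h1 := refl_const P.cvx P.opn P.XD 0 1 (fun z hz => by
    have := qq_conj (P.sl z hz) (P.T.rho_conj z)
    simpa only [ofReal_zero, ofReal_one, one_mul, zero_add] using this) (z := z) (w := 0) hz (by simpa using hz') P.zero_mem
    (by simpa using P.zero_mem)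
  simp only [P.X0, Complex.ofReal_zero, zero_add, Complex.ofReal_one,
    map_zero, mul_zero, sub_zero, one_mul] at h1
  have h2 := congrArg conj h1
  simp only [map_sub, conj_conj, map_zero] at h2
  exact sub_eq_zero.1 h2

/-- the length of a period in the uniformising coordinate -/
noncomputable def Lx : ℝ := 2 * (P.X H).re

theorem refl {z : ℂ} (hz : z ∈ P.Ω) (hz' : 2 * H - conj z ∈ P.Ω) :
    P.X (2 * H - conj z) = P.Lx - conj (P.X z) := by
  have e : ((2 * H : ℝ) : ℂ) + ((-1 : ℝ) : ℂ) * conj (H : ℂ) = H := by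
    rw [Complex.conj_ofReal]; push_cast; ring
  have e2 : ((2 * H : ℝ) : ℂ) + ((-1 : ℝ) : ℂ) * conj z = 2 * H - conj z := by
    push_cast; ring
  have h1 := refl_const P.cvx P.opn P.XD (2 * H) (-1) (fun z hz => by
    have := qq_conj (P.sl z hz) (P.T.rho_refl_conj z)
    simpa only [ofReal_mul, ofReal_ofNat, ofReal_neg, ofReal_one, neg_mul, one_mul, sub_eq_add_neg] using this) (z := z) (w := H) hz
    (by rw [e2]; exact hz') P.H_mem (by rw [e]; exact P.H_mem)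
  rw [e, e2] at h1
  have h2 := congrArg conj h1
  simp only [map_sub, conj_conj, map_mul, conj_ofReal] at h2
  have e3 : P.X (H : ℂ) + conj (P.X (H : ℂ)) = (P.Lx : ℂ) := by
    rw [Complex.add_conj, Lx]
  rw [← e3]
  push_cast at h2 ⊢
  linear_combination h2

theorem qlow {z : ℂ} (hz : z ∈ P.Ω) {m : ℝ} (hm1 : m ≤ 1) (hm2 : m ≤ P.c * ‖z - Y * I‖) :
    m ≤ ‖qq h z‖ :=
  qq_lower (hm2.trans (P.reg z hz)) hm1

theorem q_ne {z : ℂ} (hz : z ∈ P.Ω) : qq h z ≠ 0 := by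
  intro h0
  have h1 := qq_cube h z
  rw [h0] at h1
  apply Complex.slitPlane_ne_zero (P.sl z hz)
  rw [← h1]
  ring

theorem q_re_pos {z : ℂ} (hz : z ∈ P.Ω) : 0 < (qq h z).re :=
  lt_of_lt_of_le (half_pos (norm_pos_iff.2 (P.q_ne hz))) (P.qre z hz)

theorem reX {y : ℝ} (h1 : -P.σ < y) (h2 : y < Y + P.σ) :
    (H : ℂ) + y * I ∈ P.Ω ∧ (P.X (H + y * I)).re = (P.X H).re := by
  have hH := P.T.Hpos
  have hY := P.T.Ypos
  have ht := P.t0
  have ht1 := P.t1
  have hσ := P.σ0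
  have hσH := P.σH
  have hm : (H : ℂ) + y * I ∈ P.Ω := by
    refine ⟨?_, ?_, ?_, ?_⟩ <;> simp <;> nlinarith only [h1, h2, ht, hH, ht1, hσH, hσ]
  refine ⟨hm, ?_⟩
  have e : 2 * H - conj ((H : ℂ) + y * I) = H + y * I := by simp only [map_add, conj_ofReal, map_mul, conj_I, mul_neg]; ring
  have h3 := P.refl hm (by rw [e]; exact hm)
  rw [e] at h3
  have h4 := congrArg Complex.re h3
  simp only [Complex.sub_re, Complex.ofReal_re, Complex.conj_re, Lx] at h4
  linarith only [h4]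

theorem imX {x : ℝ} (hm : (x : ℂ) ∈ P.Ω) : (P.X x).im = 0 := by
  have h3 := P.cj hm (by rw [Complex.conj_ofReal]; exact hm)
  rw [Complex.conj_ofReal] at h3
  exact Complex.conj_eq_iff_im.1 h3.symm

theorem XH_pos : 0 < (P.X H).re := by
  obtain ⟨s, hs0, hs1, hsΩ, hs⟩ := seg_mvt P.cvx P.XD P.zero_mem P.H_mem 1
  rw [P.X0, sub_zero, one_mul, one_mul] at hs
  rw [hs]
  have e : (qq h (0 + s * ((H : ℂ) - 0)) * ((H : ℂ) - 0)).re
      = (qq h (0 + s * ((H : ℂ) - 0))).re * H := by simp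
  rw [e]
  exact mul_pos (P.q_re_pos hsΩ) P.T.Hpos

theorem inj : Set.InjOn P.X P.Ω := by
  intro z hz w hw hzw
  by_contra hne
  obtain ⟨s, hs0, hs1, hsΩ, hs⟩ := seg_mvt P.cvx P.XD hz hw (conj (w - z))
  rw [hzw, sub_self, mul_zero, Complex.zero_re] at hs
  have e : conj (w - z) * (qq h (z + s * (w - z)) * (w - z))
      = ((Complex.normSq (w - z) : ℝ) : ℂ) * qq h (z + s * (w - z)) := by
    rw [← Complex.mul_conj]; ring
  rw [e, Complex.re_ofReal_mul] at hs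
  have h5 := P.q_re_pos hsΩ
  have h6 : 0 < Complex.normSq (w - z) :=
    Complex.normSq_pos.2 (sub_ne_zero.2 (fun h => hne h.symm))
  have := mul_pos h6 h5
  linarith only [hs, this]

theorem right {m : ℝ} (hm0 : 0 < m) (hm1 : m ≤ 1) (hmH : m ≤ P.c * (H / 2)) {z : ℂ}
    (hz : z ∈ P.Ω) (hzr : H + P.σ / 2 ≤ z.re) : P.Lx / 2 + m * P.σ / 16 ≤ (P.X z).re := by
  have hH := P.T.Hpos
  have hσ := P.σ0
  have hc := P.c0
  obtain ⟨z1, z2, z3, z4⟩ := hz
  obtain ⟨hw, hwX⟩ := P.reX z3 z4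
  obtain ⟨s, hs0, hs1, hsΩ, hs⟩ := seg_mvt P.cvx P.XD hw ⟨z1, z2, z3, z4⟩ 1
  rw [one_mul, one_mul, Complex.sub_re, hwX] at hs
  have e : z - ((H : ℂ) + z.im * I) = ((z.re - H : ℝ) : ℂ) :=
    Complex.ext (by simp) (by simp)
  rw [e] at hs hsΩ
  set p := (H : ℂ) + z.im * I + s * ((z.re - H : ℝ) : ℂ) with hp
  rw [Complex.re_mul_ofReal] at hs
  have hpr : H ≤ p.re := by
    have : p.re = H + s * (z.re - H) := by rw [hp]; simp
    rw [this]; nlinarith only [hzr, hs0, hσ]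
  have h1 : m ≤ ‖qq h p‖ := by
    apply P.qlow hsΩ hm1
    have h2 := Complex.abs_re_le_norm (p - Y * I)
    have h3 : (p - Y * I).re = p.re := by simp
    rw [h3, abs_of_nonneg (by linarith only [hH, hpr])] at h2
    calc m ≤ P.c * (H / 2) := hmH
      _ ≤ P.c * ‖p - Y * I‖ := by gcongr; linarith only [h2, hpr, hH]
  have h2 := P.qre p hsΩ
  have h3 : m / 2 * (P.σ / 2) ≤ (qq h p).re * (z.re - H) :=
    mul_le_mul (by linarith only [h1, h2]) (by linarith only [hzr]) (by positivity) (by linarith only [hm0, h1, h2])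
  rw [Lx]
  linarith only [mul_pos (sub_pos.2 hm0) (sub_pos.2 hσ), h3, hs]

theorem left {m : ℝ} (hm0 : 0 < m) (hm1 : m ≤ 1) (hmH : m ≤ P.c * (H / 2)) {z : ℂ}
    (hz : z ∈ P.Ω) (hzr : z.re ≤ H - P.σ / 2) : (P.X z).re ≤ P.Lx / 2 - m * P.σ / 16 := by
  have hH := P.T.Hpos
  have hY := P.T.Ypos
  have hσ := P.σ0
  have hσ1 := P.σ1
  have hσH := P.σH
  have ht := P.t0
  have ht1 := P.t1
  have hc := P.c0
  obtain ⟨z1, z2, z3, z4⟩ := hz
  have hwm : ((H - P.σ / 2 : ℝ) : ℂ) + z.im * I ∈ P.Ω := by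
    refine ⟨?_, ?_, ?_, ?_⟩ <;> simp <;> nlinarith
  obtain ⟨hw, hwX⟩ := P.reX z3 z4
  have hA : (P.X (((H - P.σ / 2 : ℝ) : ℂ) + z.im * I)).re ≤ (P.X H).re - m * P.σ / 16 := by
    obtain ⟨s, hs0, hs1, hsΩ, hs⟩ := seg_mvt P.cvx P.XD hwm hw 1
    rw [one_mul, one_mul, Complex.sub_re, hwX] at hs
    have e : (H : ℂ) + z.im * I - (((H - P.σ / 2 : ℝ) : ℂ) + z.im * I) = ((P.σ / 2 : ℝ) : ℂ) := by
      push_cast; ring
    rw [e] at hs hsΩ
    set p := ((H - P.σ / 2 : ℝ) : ℂ) + z.im * I + s * ((P.σ / 2 : ℝ) : ℂ) with hp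
    rw [Complex.re_mul_ofReal] at hs
    have hpr : H / 2 ≤ p.re := by
      have : p.re = (H - P.σ / 2) + s * (P.σ / 2) := by rw [hp]; simp
      rw [this]; linarith only [mul_pos (sub_pos.2 hσ) (sub_pos.2 hs0), hσ, hσH]
    have h1 : m ≤ ‖qq h p‖ := by
      apply P.qlow hsΩ hm1
      have h2 := Complex.abs_re_le_norm (p - Y * I)
      have h3 : (p - Y * I).re = p.re := by simp
      rw [h3, abs_of_nonneg (by linarith only [hσ, hσH, hpr])] at h2
      calc m ≤ P.c * (H / 2) := hmH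
        _ ≤ P.c * ‖p - Y * I‖ := by gcongr; linarith only [h2, hpr]
    have h2 := P.qre p hsΩ
    have h3 : m / 2 * (P.σ / 2) ≤ (qq h p).re * (P.σ / 2) := by
      have : m / 2 ≤ (qq h p).re := by linarith only [h1, h2]
      (clear * - this hσ; gcongr)
    linarith only [mul_pos (sub_pos.2 hm0) (sub_pos.2 hσ), h3, hs]
  have hB : (P.X z).re ≤ (P.X (((H - P.σ / 2 : ℝ) : ℂ) + z.im * I)).re := by
    obtain ⟨s, hs0, hs1, hsΩ, hs⟩ := seg_mvt P.cvx P.XD ⟨z1, z2, z3, z4⟩ hwm 1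
    rw [one_mul, one_mul, Complex.sub_re] at hs
    have e : ((H - P.σ / 2 : ℝ) : ℂ) + z.im * I - z = ((H - P.σ / 2 - z.re : ℝ) : ℂ) :=
      Complex.ext (by simp only [ofReal_sub, ofReal_div, ofReal_ofNat, sub_re, add_re, ofReal_re, div_ofNat_re, mul_re, I_re, mul_zero, ofReal_im, I_im, mul_one, sub_self, add_zero]) (by simp only [ofReal_sub, ofReal_div, ofReal_ofNat, sub_im, add_im, ofReal_im, div_ofNat_im, zero_div, sub_self, mul_im, ofReal_re, I_im, mul_one, I_re, mul_zero, add_zero, zero_add])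
    rw [e] at hs hsΩ
    rw [Complex.re_mul_ofReal] at hs
    have h3 := (P.q_re_pos hsΩ).le
    have h4 : 0 ≤ H - P.σ / 2 - z.re := by linarith only [hzr]
    have := mul_nonneg h3 h4
    linarith only [hs, this]
  rw [Lx]
  linarith only [hB, hA]

theorem bot {m : ℝ} (hm0 : 0 < m) (hm1 : m ≤ 1) (hmY : m ≤ P.c * (Y / 2)) {z : ℂ}
    (hz : z ∈ P.Ω) (hzi : z.im ≤ -(P.σ / 2)) : (P.X z).im ≤ -(m * P.σ / 16) := by
  have hH := P.T.Hpos
  have hY := P.T.Ypos
  have hσ := P.σ0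
  have hσ1 := P.σ1
  have ht := P.t0
  have ht1 := P.t1
  have hc := P.c0
  obtain ⟨z1, z2, z3, z4⟩ := hz
  have hlow : ∀ p ∈ P.Ω, p.im ≤ 0 → m ≤ ‖qq h p‖ := by
    intro p hp hpi
    apply P.qlow hp hm1
    have h2 := Complex.abs_im_le_norm (p - Y * I)
    have h3 : (p - Y * I).im = p.im - Y := by simp
    rw [h3, abs_of_nonpos (by linarith only [hY, hpi])] at h2
    calc m ≤ P.c * (Y / 2) := hmY
      _ ≤ P.c * ‖p - Y * I‖ := by gcongr; linarith only [hY, hpi, h2]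
  have hms := mul_pos hm0 hσ
  rcases le_or_gt 0 z.re with hzr | hzr
  · have hw : (z.re : ℂ) ∈ P.Ω := by
      refine ⟨?_, ?_, ?_, ?_⟩ <;> simp <;> nlinarith only [hzi, hY, z3, hzr, ht, z2]
    have hwX := P.imX hw
    obtain ⟨s, hs0, hs1, hsΩ, hs⟩ := seg_mvt P.cvx P.XD hw ⟨z1, z2, z3, z4⟩ (-I)
    have e : z - (z.re : ℂ) = z.im * I := Complex.ext (by simp) (by simp)
    rw [e] at hs hsΩ
    set p := (z.re : ℂ) + s * (z.im * I) with hp
    have e1 : (-I * (P.X z - P.X z.re)).re = (P.X z).im := by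
      simp only [neg_mul, neg_re, mul_re, I_re, sub_re, zero_mul, I_im, sub_im, hwX, sub_zero, one_mul, zero_sub, neg_neg]
    have e2 : (-I * (qq h p * (z.im * I))).re = (qq h p).re * z.im := by
      simp only [neg_mul, neg_re, mul_re, I_re, ofReal_re, mul_zero, ofReal_im, I_im, mul_one, sub_self, mul_im, add_zero, zero_sub, mul_neg, zero_mul, neg_zero, one_mul, neg_neg]
    rw [e1, e2] at hs
    have hpi : p.im ≤ 0 := by
      have : p.im = s * z.im := by rw [hp]; simp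
      rw [this]; linarith only [mul_pos (sub_pos.2 hs0) (sub_pos.2 hσ), mul_nonneg (sub_nonneg.2 hzi) (le_of_lt (sub_pos.2 hs0))]
    have h1 := hlow p hsΩ hpi
    have h2 := P.qre p hsΩ
    have h3 : m / 2 * (P.σ / 2) ≤ (qq h p).re * (-z.im) :=
      mul_le_mul (by linarith only [h1, h2]) (by linarith only [hzi]) (by positivity) (by linarith only [hm0, h1, h2])
    linarith only [h3, hs, hms]
  · have hx' : -(P.t * Y) < z.re - P.t * z.im := by linarith only [z1]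
    have hwΩ : ((z.re - P.t * z.im : ℝ) : ℂ) ∈ P.Ω := by
      refine ⟨?_, ?_, ?_, ?_⟩ <;> simp <;> nlinarith
    have hwX := P.imX hwΩ
    obtain ⟨s, hs0, hs1, hsΩ, hs⟩ := seg_mvt P.cvx P.XD hwΩ ⟨z1, z2, z3, z4⟩ (-I)
    have e : z - ((z.re - P.t * z.im : ℝ) : ℂ) = z.im * (P.t + I) :=
      Complex.ext (by simp only [ofReal_sub, ofReal_mul, sub_re, ofReal_re, mul_re, ofReal_im, mul_zero, sub_zero, sub_sub_cancel, add_re, I_re, add_zero, add_im, I_im, zero_add, mul_one]; ring) (by simp)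
    rw [e] at hs hsΩ
    set p := ((z.re - P.t * z.im : ℝ) : ℂ) + s * (z.im * (P.t + I)) with hp
    have e1 : (-I * (P.X z - P.X ((z.re - P.t * z.im : ℝ) : ℂ))).re = (P.X z).im := by
      simp only [Complex.neg_re, Complex.mul_re, Complex.I_re, Complex.I_im,
        Complex.sub_re, Complex.sub_im, hwX]
      simp only [neg_zero, ofReal_sub, ofReal_mul, zero_mul, neg_im, I_im, sub_zero, neg_mul, one_mul, sub_neg_eq_add, zero_add]
    have e2 : (-I * (qq h p * (z.im * (P.t + I)))).re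
        = ((qq h p).re + P.t * (qq h p).im) * z.im := by
      simp only [neg_mul, neg_re, mul_re, I_re, ofReal_re, add_re, add_zero, ofReal_im, add_im, I_im, zero_add, mul_one, sub_zero, mul_im, zero_mul, one_mul, zero_sub, neg_add_rev, neg_neg]; ring
    rw [e1, e2] at hs
    have hpi : p.im ≤ 0 := by
      have : p.im = s * z.im := by rw [hp]; simp
      rw [this]; nlinarith only [hzi, hs0, hσ]
    have h1 := hlow p hsΩ hpi
    have h2 := P.qre p hsΩ
    have h3 := P.qim p hsΩ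
    have h4 : P.t * (-(51 / 100) * ‖qq h p‖) ≤ P.t * (qq h p).im := by (clear * - h3 ht; gcongr)
    have h5 : P.t * ‖qq h p‖ ≤ 1 / 100 * ‖qq h p‖ := by (clear * - ht1; gcongr)
    have h6 : (1 / 4) * m ≤ (qq h p).re + P.t * (qq h p).im := by linarith only [h5, h4, h2, h1, hm0]
    have h7 : (1 / 4) * m * (P.σ / 2) ≤ ((qq h p).re + P.t * (qq h p).im) * (-z.im) :=
      mul_le_mul (by linarith only [hm0, h1, h2, h4, h5]) (by linarith only [hzi]) (by positivity) (by linarith only [h5, h4, h2, h1, hm0])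
    linarith only [h7, hs, hms]

/-- comparison of cube roots -/
theorem q_comp {a b : ℂ} (ha : 0 < a.re) (hb : 0 < b.re) (hbi : b.im = 0)
    (h3 : (b ^ 3).re ≤ (a ^ 3).re) : b.re ≤ a.re := by
  have e1 : (a ^ 3).re = a.re ^ 3 - 3 * a.re * a.im ^ 2 := by simp only [pow_succ, pow_zero, one_mul, mul_re, mul_im]; ring
  have e2 : (b ^ 3).re = b.re ^ 3 := by simp [pow_succ, hbi]
  rw [e1, e2] at h3
  have h4 : b.re ^ 3 ≤ a.re ^ 3 := by
    have : 0 ≤ 3 * a.re * a.im ^ 2 := by (clear * - ha; positivity)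
    linarith
  exact le_of_pow_le_pow_left₀ (by norm_num) ha.le h4

theorem topD (hdom : ∀ x y : ℝ, 0 < x → x < 2 * H → 0 ≤ y → y ≤ Y →
      (rho h (y * I)).re < (rho h (x + y * I)).re)
    {m : ℝ} (hm0 : 0 < m) (hm1 : m ≤ 1) (hmt : m ≤ P.c * (P.t * P.σ / 8)) {z : ℂ}
    (hz : z ∈ P.Ω) (hzi : Y + P.σ / 2 ≤ z.im) {y : ℝ} (hy0 : 0 ≤ y)
    (hy1 : y < Y) : (P.X (y * I)).im + m * P.σ / 16 ≤ (P.X z).im := by
  have hH := P.T.Hpos
  have hY := P.T.Ypos
  have hσ0 := P.σ0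
  have hσH := P.σH
  have ht0 := P.t0
  have ht1 := P.t1
  have hc := P.c0
  have hz' := hz
  obtain ⟨z1, z2, z3, z4⟩ := hz
  have hts := mul_pos ht0 hσ0
  obtain ⟨x, hx⟩ : ∃ x : ℝ, x = z.re := ⟨_, rfl⟩
  have hzr0 : P.t * P.σ / 2 < x := by rw [hx]; linarith only [mul_nonneg (sub_nonneg.2 hzi) (le_of_lt (sub_pos.2 ht0)), z1]
  have hx0 : 0 < x := by linarith only [hts, hzr0]
  have hx1 : x < H + P.σ := by rw [hx]; exact z2
  have hmem : ∀ b : ℝ, 0 ≤ b → b ≤ z.im → (x : ℂ) + b * I ∈ P.Ω := by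
    intro b hb0 hb1
    refine ⟨?_, ?_, ?_, ?_⟩ <;> simp <;> nlinarith only [hzi, z4, hb0, z1, hx, ht0, hb1, z2]
  have hmem0 : ∀ b : ℝ, 0 ≤ b → b < Y → (b : ℂ) * I ∈ P.Ω := by
    intro b hb0 hb1
    refine ⟨?_, ?_, ?_, ?_⟩ <;> simp only [mul_im, ofReal_re, I_im, mul_one, ofReal_im, I_re, mul_zero, add_zero, mul_re, sub_self] <;> nlinarith only [ht0, hb1, hzi, hσH, z4, hb0]
  -- first comparison
  have hA : (P.X (y * I)).im ≤ (P.X (x + y * I)).im := by
    have hX0 : (P.X (x : ℂ)).im = 0 := by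
      apply P.imX
      have := hmem 0 le_rfl (by linarith only [hzi, hy0, hy1, z4])
      simpa using this
    rcases hy0.eq_or_lt with h0 | h0
    · rw [← h0]; simp [hX0, P.X0]
    · have hd : ∀ b : ℝ, 0 ≤ b → b ≤ y → HasDerivAt
          (fun b : ℝ => (P.X ((x : ℂ) + b * I)).im - (P.X ((b : ℂ) * I)).im)
          ((qq h ((x : ℂ) + b * I)).re - (qq h ((b : ℂ) * I)).re) b := by
        intro b hb0 hb1
        have d1 : HasDerivAt (fun s : ℂ => -I * P.X ((x : ℂ) + s * I))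
            (-I * (qq h ((x : ℂ) + b * I) * I)) (b : ℂ) := by
          have e1 : HasDerivAt (fun s : ℂ => (x : ℂ) + s * I) I (b : ℂ) := by
            simpa using ((hasDerivAt_id (b : ℂ)).mul_const I).const_add (x : ℂ)
          exact ((P.XD _ (hmem b hb0 (by linarith only [hb1, z4, hy1, hzi]))).comp (b : ℂ) e1).const_mul (-I)
        have d2 : HasDerivAt (fun s : ℂ => -I * P.X (s * I))
            (-I * (qq h ((b : ℂ) * I) * I)) (b : ℂ) := by
          have e1 : HasDerivAt (fun s : ℂ => s * I) I (b : ℂ) := by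
            simpa using (hasDerivAt_id (b : ℂ)).mul_const I
          exact ((P.XD _ (hmem0 b hb0 (by linarith only [hy1, hb1]))).comp (b : ℂ) e1).const_mul (-I)
        have d3 := d1.real_of_complex.sub d2.real_of_complex
        have e2 : ∀ w : ℂ, (-I * w).re = w.im := fun w => by simp
        have e3 : ∀ w : ℂ, (w * I).im = w.re := fun w => by simp
        simp only [e2, e3] at d3
        exact d3
      obtain ⟨b, hb, hb2⟩ := exists_hasDerivAt_eq_slope _ _ h0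
        (fun b hb => (hd b hb.1 hb.2).continuousAt.continuousWithinAt)
        (fun b hb => hd b hb.1.le hb.2.le)
      simp only [Complex.ofReal_zero, zero_mul, add_zero, hX0, P.X0, Complex.zero_im,
        sub_zero] at hb2
      have hbY : b < Y := by linarith only [hy1, hb.2]
      have m1 := hmem b hb.1.le (by linarith only [hzi, z4, hbY])
      have m2 := hmem0 b hb.1.le hbY
      have hcomp : (qq h ((b : ℂ) * I)).re ≤ (qq h ((x : ℂ) + b * I)).re := by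
        refine q_comp (P.q_re_pos m1) (P.q_re_pos m2) ?_ ?_
        · have e4 : -conj ((b : ℂ) * I) = (b : ℂ) * I := by simp only [map_mul, conj_ofReal, conj_I, mul_neg, neg_neg]
          have h5 := qq_conj (z' := (b : ℂ) * I) (P.sl _ m2) (by
            have := P.T.rho_neg_conj ((b : ℂ) * I)
            rwa [e4] at this)
          exact Complex.conj_eq_iff_im.1 h5.symm
        · rw [qq_cube, qq_cube]
          exact (hdom x b hx0 (by linarith only [hx, z4, z2, hσH, hzi]) hb.1.le hbY.le).le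
      rw [eq_div_iff h0.ne'] at hb2
      have h6 := mul_nonneg (sub_nonneg.2 hcomp) h0.le
      linarith only [hb2, h6]
  -- vertical monotonicity
  have hV : ∀ (b1 b2 : ℝ), 0 ≤ b1 → b1 < b2 → b2 ≤ z.im → ∀ m' : ℝ,
      (∀ p ∈ P.Ω, p.re = x → m' ≤ ‖qq h p‖) →
      (P.X (x + b1 * I)).im + m' / 2 * (b2 - b1) ≤ (P.X (x + b2 * I)).im := by
    intro b1 b2 hb1 hb2 hb3 m' hm'
    obtain ⟨s, hs0, hs1, hsΩ, hs⟩ := seg_mvt P.cvx P.XD (hmem b1 hb1 (by linarith only [hb2, hb3]))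
      (hmem b2 (by linarith only [hb1, hb2]) hb3) (-I)
    have e : (x : ℂ) + b2 * I - (x + b1 * I) = ((b2 - b1 : ℝ) : ℂ) * I := by
      push_cast; ring
    rw [e] at hs hsΩ
    obtain ⟨p, hp⟩ : ∃ p : ℂ, p = (x : ℂ) + b1 * I + s * (((b2 - b1 : ℝ) : ℂ) * I) := ⟨_, rfl⟩
    rw [← hp] at hs hsΩ
    have e1 : (-I * (P.X (x + b2 * I) - P.X (x + b1 * I))).re
        = (P.X (x + b2 * I)).im - (P.X (x + b1 * I)).im := by simp
    have e2 : (-I * (qq h p * (((b2 - b1 : ℝ) : ℂ) * I))).re = (qq h p).re * (b2 - b1) := by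
      have : -I * (qq h p * (((b2 - b1 : ℝ) : ℂ) * I)) = qq h p * ((b2 - b1 : ℝ) : ℂ) := by
        linear_combination (-(qq h p * ((b2 - b1 : ℝ) : ℂ))) * Complex.I_mul_I
      rw [this, Complex.re_mul_ofReal]
    rw [e1, e2] at hs
    have hpr : p.re = x := by rw [hp]; simp
    have h7 := P.qre p hsΩ
    have h8 := hm' p hsΩ hpr
    have h9 : m' / 2 * (b2 - b1) ≤ (qq h p).re * (b2 - b1) :=
      mul_le_mul_of_nonneg_right (by linarith only [h7, h8]) (by linarith only [hb2])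
    linarith only [h9, hs]
  have hB := hV y Y hy0 hy1 (by linarith only [hzi, z4]) 0 (fun p _ _ => norm_nonneg _)
  have hC := hV Y z.im hY.le (by linarith only [hzi, z4]) le_rfl m (fun p hp hpr => by
    apply P.qlow hp hm1
    have h2 := Complex.abs_re_le_norm (p - Y * I)
    have h3 : (p - Y * I).re = p.re := by simp
    rw [h3, hpr, abs_of_pos hx0] at h2
    have h4 : P.t * P.σ / 8 ≤ ‖p - Y * I‖ := by linarith only [hts, hzr0, h2]
    exact hmt.trans (mul_le_mul_of_nonneg_left h4 hc.le))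
  have e : (x : ℂ) + z.im * I = z := by rw [hx]; exact Complex.re_add_im z
  rw [e] at hC
  have h4 : m / 2 * (P.σ / 2) ≤ m / 2 * (z.im - Y) :=
    mul_le_mul_of_nonneg_left (by linarith only [hzi]) (by positivity)
  have hms := mul_pos hm0 hσ0
  linarith only [hA, hB, hC, h4, hms]

end Pre

theorem setup_of_pre {h : ℂ → ℂ} {H Y : ℝ} (P : Pre h H Y)
    (htop : ∀ m : ℝ, 0 < m → m ≤ 1 → m ≤ P.c * (P.t * P.σ / 8) → ∀ z ∈ P.Ω,
      Y + P.σ / 2 ≤ z.im → ∀ y : ℝ, 0 ≤ y → y < Y →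
        (P.X (y * I)).im + m * P.σ / 16 ≤ (P.X z).im) :
    Nonempty (Setup h H Y) := by
  have hH := P.T.Hpos
  have hY := P.T.Ypos
  have hσ0 := P.σ0
  have ht0 := P.t0
  have hc := P.c0
  obtain ⟨m, hm0, hm1, hmH, hmY, hmt⟩ : ∃ m : ℝ, 0 < m ∧ m ≤ 1 ∧ m ≤ P.c * (H / 2) ∧
      m ≤ P.c * (Y / 2) ∧ m ≤ P.c * (P.t * P.σ / 8) := by
    refine ⟨min (min 1 (P.c * (H / 2))) (min (P.c * (Y / 2)) (P.c * (P.t * P.σ / 8))),
      by positivity, ?_, ?_, ?_, ?_⟩
    · exact (min_le_left _ _).trans (min_le_left _ _)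
    · exact (min_le_left _ _).trans (min_le_right _ _)
    · exact (min_le_right _ _).trans (min_le_left _ _)
    · exact (min_le_right _ _).trans (min_le_right _ _)
  exact ⟨{ T := P.T, t := P.t, σ := P.σ, c := P.c, B := P.B, M := P.M, Lx := P.Lx,
            κ := m * P.σ / 16, X := P.X, t0 := P.t0, t1 := P.t1, σ0 := P.σ0, σ1 := P.σ1,
            σH := P.σH,
            c0 := P.c0, bnd := P.bnd, BΩ := P.BΩ, reg := P.reg, sl := P.sl, qre := P.qre,
            qim := P.qim, XD := P.XD, X0 := P.X0,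
            Lx0 := by have := P.XH_pos; rw [Pre.Lx]; linarith only [this],
            Xneg := fun z hz hz' => P.neg hz hz', Xrefl := fun z hz hz' => P.refl hz hz',
            Xconj := fun z hz hz' => P.cj hz hz', κ0 := by positivity,
            Xright := fun z hz h1 => P.right hm0 hm1 hmH hz h1,
            Xleft := fun z hz h1 => P.left hm0 hm1 hmH hz h1,
            Xbot := fun z hz h1 => P.bot hm0 hm1 hmY hz h1,
            Xtop := fun z hz h1 y hy0 hy1 => htop m hm0 hm1 hmt z hz h1 y hy0 hy1,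
            Xinj := P.inj }⟩

end Vale.Agent.P097.Cusp
end

section

namespace Vale.Agent.P097.Cusp

open Complex Filter Topology
open scoped ComplexConjugate

/-- a number close to the positive real axis -/
def Sec (w : ℂ) : Prop := 97 / 100 * ‖w‖ ≤ w.re ∧ |w.im| ≤ 3 / 100 * ‖w‖

/-- a monotone potential along orbits -/
def pot (Y : ℝ) (z : ℂ) : ℝ := z.re - z.im + Y

/-- a cone containing the orbits -/
def Cone (Y : ℝ) (z : ℂ) : Prop := z.im - Y < 7 / 10 * z.re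

theorem cube_aux {ζ : ℂ} (hζ : 0 ≤ ζ.re) : ‖ζ - 1‖ ≤ 6 / 5 * ‖ζ ^ 3 - 1‖ := by
  have e : ζ ^ 3 - 1 = (ζ - 1) * (ζ ^ 2 + ζ + 1) := by ring
  rw [e, norm_mul]
  have h1 : 5 / 6 ≤ ‖ζ ^ 2 + ζ + 1‖ := by
    have h2 : (5 / 6 : ℝ) ^ 2 ≤ ‖ζ ^ 2 + ζ + 1‖ ^ 2 := by
      rw [← Complex.normSq_eq_norm_sq, Complex.normSq_apply]
      have hr : (ζ ^ 2 + ζ + 1).re = ζ.re ^ 2 - ζ.im ^ 2 + ζ.re + 1 := by
        simp [pow_two]
      have hi : (ζ ^ 2 + ζ + 1).im = 2 * ζ.re * ζ.im + ζ.im := by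
        simp only [pow_two, add_im, mul_im, one_im, add_zero, add_left_inj]; ring
      rw [hr, hi]
      obtain ⟨x, hx⟩ : ∃ x, x = ζ.re := ⟨_, rfl⟩
      obtain ⟨y, hy⟩ : ∃ y, y = ζ.im := ⟨_, rfl⟩
      rw [← hx] at hζ
      rw [← hx, ← hy]
      have e2 : (x ^ 2 - y ^ 2 + x + 1) * (x ^ 2 - y ^ 2 + x + 1)
          + (2 * x * y + y) * (2 * x * y + y)
          = (x ^ 2 + x + 1 + y ^ 2) ^ 2 - 3 * y ^ 2 := by ring
      rw [e2]
      have h3 : 1 + y ^ 2 ≤ x ^ 2 + x + 1 + y ^ 2 := by nlinarith only [hζ]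
      have h4 : (1 + y ^ 2) ^ 2 ≤ (x ^ 2 + x + 1 + y ^ 2) ^ 2 := by (clear * - h3; gcongr)
      linarith only [sq_nonneg (y ^ 2 - 1 / 2), h4]
    exact le_of_sq_le_sq h2 (norm_nonneg _)
  nlinarith [norm_nonneg (ζ - 1)]

theorem cube_aux2 {ζ : ℂ} (hζ : -(1 / 40) * ‖ζ‖ ≤ ζ.re) : ‖ζ - 1‖ ≤ 5 / 4 * ‖ζ ^ 3 - 1‖ := by
  have e : ζ ^ 3 - 1 = (ζ - 1) * (ζ ^ 2 + ζ + 1) := by ring
  rw [e, norm_mul]
  have h1 : 4 / 5 ≤ ‖ζ ^ 2 + ζ + 1‖ := by
    have h2 : (4 / 5 : ℝ) ^ 2 ≤ ‖ζ ^ 2 + ζ + 1‖ ^ 2 := by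
      have hn : ‖ζ‖ ^ 2 = ζ.re ^ 2 + ζ.im ^ 2 := by
        rw [← Complex.normSq_eq_norm_sq, Complex.normSq_apply]; ring
      have hn0 := norm_nonneg ζ
      rw [← Complex.normSq_eq_norm_sq (ζ ^ 2 + ζ + 1), Complex.normSq_apply]
      have hr : (ζ ^ 2 + ζ + 1).re = ζ.re ^ 2 - ζ.im ^ 2 + ζ.re + 1 := by
        simp [pow_two]
      have hi : (ζ ^ 2 + ζ + 1).im = 2 * ζ.re * ζ.im + ζ.im := by
        simp only [pow_two, add_im, mul_im, one_im, add_zero, add_left_inj]; ring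
      rw [hr, hi]
      generalize ζ.re = x at *
      generalize ζ.im = y at *
      generalize ‖ζ‖ = n at *
      have e2 : (x ^ 2 - y ^ 2 + x + 1) * (x ^ 2 - y ^ 2 + x + 1)
          + (2 * x * y + y) * (2 * x * y + y)
          = (n ^ 2 + 1 + x) ^ 2 - 3 * y ^ 2 := by rw [hn]; ring
      rw [e2]
      have h3 : 0 ≤ n ^ 2 + 1 - n / 40 := by nlinarith only []
      have h4 : (n ^ 2 + 1 - n / 40) ^ 2 ≤ (n ^ 2 + 1 + x) ^ 2 := by
        apply pow_le_pow_left₀ h3; linarith only [hζ]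
      have h5 : 3 * y ^ 2 ≤ 3 * n ^ 2 := by nlinarith only [hn]
      have h6 : (4 / 5 : ℝ) ^ 2 ≤ (n ^ 2 + 1 - n / 40) ^ 2 - 3 * n ^ 2 := by
        rcases le_or_gt n 1 with h7 | h7
        · nlinarith only [h7, sq_nonneg (n ^ 2 - 1 / 2)]
        · nlinarith only [h7, mul_pos (mul_pos (lt_trans one_pos h7) (lt_trans one_pos h7)) (sub_pos.2 h7)]
      linarith only [h4, h5, h6]
    exact le_of_sq_le_sq h2 (norm_nonneg _)
  nlinarith only [h1, norm_nonneg (ζ - 1)]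

theorem re_mul_conj_low {a b : ℂ} (ha : a ≠ 0) (hb : b ≠ 0) (ha1 : ‖a‖ / 2 ≤ a.re)
    (hb1 : ‖b‖ / 2 ≤ b.re) (ha2 : -(51 / 100) * ‖a‖ ≤ a.im) (hb2 : -(51 / 100) * ‖b‖ ≤ b.im) :
    -(1 / 40) * ‖b / a‖ ≤ (b / a).re := by
  have hA := norm_pos_iff.2 ha
  have hB := norm_pos_iff.2 hb
  have hAB := mul_pos hA hB
  -- estimates for one factor
  have aux : ∀ c : ℂ, 0 < ‖c‖ → ‖c‖ / 2 ≤ c.re → c.im ≤ 8661 / 10000 * ‖c‖ := by
    intro c hc0 hc
    have h1 : c.im ^ 2 ≤ (8661 / 10000 * ‖c‖) ^ 2 := by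
      have hn : ‖c‖ ^ 2 = c.re ^ 2 + c.im ^ 2 := by
        rw [← Complex.normSq_eq_norm_sq, Complex.normSq_apply]; ring
      linarith only [mul_nonneg (sub_nonneg.2 hc) (sub_nonneg.2 hc), mul_nonneg (le_of_lt (sub_pos.2 hc0)) (sub_nonneg.2 hc), mul_pos (sub_pos.2 hc0) (sub_pos.2 hc0), hn]
    exact le_of_abs_le (abs_le_of_sq_le_sq h1 (by (clear * - hc0; positivity)))
  have aux2 : ∀ c : ℂ, 0 < ‖c‖ → ‖c‖ / 2 ≤ c.re → -(51 / 100) * ‖c‖ ≤ c.im → c.im < 0 →
      86 / 100 * ‖c‖ ≤ c.re := by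
    intro c hc0 hc hc2 hc3
    have hn : ‖c‖ ^ 2 = c.re ^ 2 + c.im ^ 2 := by
      rw [← Complex.normSq_eq_norm_sq, Complex.normSq_apply]; ring
    have h1 : c.im ^ 2 ≤ (51 / 100 * ‖c‖) ^ 2 := by
      apply sq_le_sq'
      · linarith only [hc2]
      · linarith only [hc3, hc2]
    have h2 : (86 / 100 * ‖c‖) ^ 2 ≤ c.re ^ 2 := by nlinarith only [hn, h1]
    exact le_of_sq_le_sq h2 (by linarith only [hc, hc2, hc3])
  have key : ∀ c d : ℂ, 0 < ‖c‖ → 0 < ‖d‖ → ‖c‖ / 2 ≤ c.re → ‖d‖ / 2 ≤ d.re →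
      -(51 / 100) * ‖d‖ ≤ d.im → 0 ≤ c.im → d.im < 0 →
      -(1 / 40) * (‖c‖ * ‖d‖) ≤ d.re * c.re + d.im * c.im := by
    intro c d hc0 hd0 hc hd hd2 hci hdi
    have h1 := aux c hc0 hc
    have h2 := aux2 d hd0 hd hd2 hdi
    have h3 : 86 / 100 * ‖d‖ * (‖c‖ / 2) ≤ d.re * c.re :=
      mul_le_mul h2 hc (by (clear * - hc0; positivity)) (by linarith only [hd2, hdi, h2])
    have h4 : -(51 / 100) * ‖d‖ * (8661 / 10000 * ‖c‖) ≤ d.im * c.im := by
      have h5 : -d.im * c.im ≤ 51 / 100 * ‖d‖ * (8661 / 10000 * ‖c‖) :=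
        mul_le_mul (by linarith only [hd2]) h1 hci (by (clear * - hd0; positivity))
      linarith only [h5]
    have := mul_pos hc0 hd0
    (clear * - h3 h4 this; linarith)
  have h1 : -(1 / 40) * (‖a‖ * ‖b‖) ≤ b.re * a.re + b.im * a.im := by
    have hp : 0 ≤ b.re * a.re := mul_nonneg (by linarith only [hb1, hB]) (by linarith only [ha1, hA])
    rcases le_or_gt 0 a.im with h4 | h4
    · rcases le_or_gt 0 b.im with h5 | h5
      · have := mul_nonneg h5 h4; linarith only [hAB, hp, this]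
      · exact key a b hA hB ha1 hb1 hb2 h4 h5
    · rcases le_or_gt 0 b.im with h5 | h5
      · have := key b a hB hA hb1 ha1 ha2 h5 h4
        (clear * - this; linarith)
      · have := mul_pos_of_neg_of_neg h5 h4; linarith only [hAB, hp, this]
  rw [Complex.div_re, ← add_div, norm_div, le_div_iff₀ (Complex.normSq_pos.2 ha),
    Complex.normSq_eq_norm_sq]
  have e : -(1 / 40) * (‖b‖ / ‖a‖) * ‖a‖ ^ 2 = -(1 / 40) * (‖a‖ * ‖b‖) := by
    field_simp
  rw [e]
  exact h1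

namespace Setup

variable {h : ℂ → ℂ} {H Y : ℝ} (S : Setup h H Y)

/-- the region -/
def Ω : Set ℂ := Om H Y S.t S.σ

theorem cvx : Convex ℝ S.Ω := Om_convex _ _ _ _

theorem opn : IsOpen S.Ω := Om_open _ _ _ _

theorem M1 : 1 ≤ S.M := S.bnd.1

theorem rho_ne {z : ℂ} (hz : z ∈ S.Ω) : rho h z ≠ 0 := Complex.slitPlane_ne_zero (S.sl z hz)

theorem q_ne {z : ℂ} (hz : z ∈ S.Ω) : qq h z ≠ 0 := by
  intro h0
  have h1 := qq_cube h z
  rw [h0] at h1
  apply S.rho_ne hz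
  rw [← h1]
  ring

theorem zero_mem : (0 : ℂ) ∈ S.Ω := by
  have hH := S.T.Hpos
  have hY := S.T.Ypos
  have ht := S.t0
  have hσ := S.σ0
  refine ⟨?_, ?_, ?_, ?_⟩ <;> simp <;> nlinarith

theorem BY : ‖(Y : ℂ) * I‖ ≤ S.B := by
  have hH := S.T.Hpos
  have hY := S.T.Ypos
  have ht := S.t0
  have hσ := S.σ0
  have hσH := S.σH
  have ht1 := S.t1
  have hm : ((H / 2 : ℝ) : ℂ) + Y * I ∈ Om H Y S.t S.σ := by
    refine ⟨?_, ?_, ?_, ?_⟩ <;> simp <;> nlinarith
  have h1 := S.BΩ _ hm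
  have h2 := Complex.abs_im_le_norm (((H / 2 : ℝ) : ℂ) + Y * I)
  have h3 : (((H / 2 : ℝ) : ℂ) + Y * I).im = Y := by simp
  rw [h3, abs_of_pos hY] at h2
  rw [norm_mul, Complex.norm_I, mul_one, Complex.norm_real, Real.norm_eq_abs, abs_of_pos hY]
  linarith only [h1, h2]

theorem lip {z w : ℂ} (hz : ‖z‖ ≤ S.B) (hw : ‖w‖ ≤ S.B) :
    ‖rho h z - rho h w‖ ≤ S.M * ‖z - w‖ :=
  mvt_ball (fun x => (S.T.diff_rho x).hasDerivAt) (fun x hx => (S.bnd.2 x hx).2.1) hw hz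

theorem rho_upper {z : ℂ} (hz : z ∈ S.Ω) : ‖rho h z‖ ≤ S.M * ‖z - Y * I‖ := by
  have h1 := S.lip (z := z) (w := Y * I) (by linarith [S.BΩ z hz]) S.BY
  rwa [S.T.zero, sub_zero] at h1

theorem c_le_M : S.c ≤ S.M := by
  have h1 := S.reg 0 S.zero_mem
  have h2 := S.rho_upper S.zero_mem
  have h3 : 0 < ‖(0 : ℂ) - Y * I‖ := by
    rw [norm_pos_iff, zero_sub, neg_ne_zero]
    have := S.T.Ypos
    simp [this.ne']
  exact le_of_mul_le_mul_right (h1.trans h2) h3

theorem geo {z : ℂ} (hz : z ∈ S.Ω) (hc : Cone Y z) :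
    0 < pot Y z ∧ ‖z - Y * I‖ ≤ 6 * pot Y z := by
  obtain ⟨z1, z2, z3, z4⟩ := hz
  have ht := S.t0
  have ht1 := S.t1
  have hn := Complex.norm_le_abs_re_add_abs_im (z - Y * I)
  have e1 : (z - Y * I).re = z.re := by simp
  have e2 : (z - Y * I).im = z.im - Y := by simp
  rw [e1, e2] at hn
  rw [Cone] at hc
  rw [pot]
  rcases le_or_gt 0 z.re with h1 | h1
  · rw [abs_of_nonneg h1] at hn
    rcases le_or_gt z.im Y with h2 | h2
    · rw [abs_of_nonpos (by linarith only [h2])] at hn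
      constructor
      · rcases h1.eq_or_lt with h3 | h3
        · rw [← h3] at hc; linarith only [hc, h1]
        · linarith only [h2, h3]
      · linarith only [h1, hn, hc]
    · rw [abs_of_pos (by linarith only [h2])] at hn
      constructor <;> linarith only [hc, h2, hn]
  · have h2 : z.im < Y := by linarith only [hc, h1]
    rw [abs_of_neg h1, abs_of_neg (by linarith only [h2])] at hn
    have h3 : S.t * (z.im - Y) ≥ 1 / 100 * (z.im - Y) := by nlinarith only [hc, ht1, h1]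
    constructor <;> linarith only [z1, h1, h3, hn]

theorem pot_le (z : ℂ) : pot Y z ≤ 2 * ‖z - Y * I‖ := by
  have h1 := Complex.abs_re_le_norm (z - Y * I)
  have h2 := Complex.abs_im_le_norm (z - Y * I)
  have e1 : (z - Y * I).re = z.re := by simp only [sub_re, mul_re, ofReal_re, I_re, mul_zero, ofReal_im, I_im, mul_one, sub_self, sub_zero]
  have e2 : (z - Y * I).im = z.im - Y := by simp
  rw [e1] at h1
  rw [e2] at h2
  rw [pot]
  have h3 := (abs_le.1 h1).2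
  have h4 := (abs_le.1 h2).1
  linarith only [h3, h4]

theorem rho_low {z : ℂ} (hz : z ∈ S.Ω) : S.c / 2 * pot Y z ≤ ‖rho h z‖ := by
  have h1 := S.reg z hz
  have h2 := pot_le (Y := Y) z
  have := S.c0
  linarith only [mul_nonneg (sub_nonneg.2 h2) (le_of_lt (sub_pos.2 this)), h1]

theorem q_ratio {z w : ℂ} (hz : z ∈ S.Ω) (hw : w ∈ S.Ω) :
    ‖qq h w - qq h z‖ ≤ 5 / 4 * ‖rho h w - rho h z‖ / ‖rho h z‖ * ‖qq h z‖ := by
  have hz0 := S.q_ne hz
  have hw0 := S.q_ne hw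
  have h1 := re_mul_conj_low hz0 hw0 (S.qre z hz) (S.qre w hw) (S.qim z hz) (S.qim w hw)
  have h2 := cube_aux2 h1
  have hr0 := S.rho_ne hz
  have e1 : (qq h w / qq h z) ^ 3 - 1 = (rho h w - rho h z) / rho h z := by
    rw [div_pow, qq_cube, qq_cube]; (clear * - hr0; field_simp)
  have e2 : qq h w / qq h z - 1 = (qq h w - qq h z) / qq h z := by field_simp
  rw [e1, e2, norm_div, norm_div, div_le_iff₀ (norm_pos_iff.2 hz0)] at h2
  calc ‖qq h w - qq h z‖ ≤ 5 / 4 * (‖rho h w - rho h z‖ / ‖rho h z‖) * ‖qq h z‖ := h2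
    _ = _ := by ring

/-- direction of a step -/
theorem dir {z δ : ℂ} (hz : z ∈ S.Ω) (hs : Sec (qq h z * δ)) :
    45 / 100 * ‖δ‖ ≤ δ.re ∧ 28 / 100 * ‖δ‖ ≤ δ.re - δ.im ∧
      4 / 100 * ‖δ‖ ≤ 7 / 10 * δ.re - δ.im := by
  obtain ⟨h1, h2⟩ := hs
  have hq0 := S.q_ne hz
  have hq := norm_pos_iff.2 hq0
  have h3 := S.qre z hz
  have h4 := S.qim z hz
  have hqi := abs_le.1 (Complex.abs_im_le_norm (qq h z))
  have hqr := abs_le.1 (Complex.abs_re_le_norm (qq h z))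
  have hqn : ‖qq h z‖ ^ 2 = (qq h z).re ^ 2 + (qq h z).im ^ 2 := by
    rw [← Complex.normSq_eq_norm_sq, Complex.normSq_apply]; ring
  obtain ⟨w, hw⟩ : ∃ w, w = qq h z * δ := ⟨_, rfl⟩
  rw [← hw] at h1 h2
  have hn : ‖w‖ = ‖qq h z‖ * ‖δ‖ := by rw [hw, norm_mul]
  have hδ : δ * ((‖qq h z‖ ^ 2 : ℝ) : ℂ) = w * conj (qq h z) := by
    rw [hw, ← Complex.normSq_eq_norm_sq, ← Complex.mul_conj]
    ring
  have hre : δ.re * ‖qq h z‖ ^ 2 = w.re * (qq h z).re + w.im * (qq h z).im := by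
    have h5 := congrArg Complex.re hδ
    rw [Complex.re_mul_ofReal] at h5
    rw [h5]; simp
  have him : δ.im * ‖qq h z‖ ^ 2 = w.im * (qq h z).re - w.re * (qq h z).im := by
    have h5 := congrArg Complex.im hδ
    rw [Complex.im_mul_ofReal] at h5
    rw [h5]; simp only [mul_im, conj_im, mul_neg, conj_re]; ring
  have hwn := norm_nonneg w
  have hw0 : 0 ≤ w.re := le_trans (by (clear * -; positivity)) h1
  have hQ : 0 < ‖qq h z‖ ^ 2 := by positivity
  have hsum : 34 / 100 * ‖qq h z‖ ≤ (qq h z).re + (qq h z).im ∧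
      9 / 100 * ‖qq h z‖ ≤ 7 / 10 * (qq h z).re + (qq h z).im := by
    generalize (qq h z).re = a at *
    generalize (qq h z).im = b at *
    generalize ‖qq h z‖ = n at *
    rcases le_or_gt 0 b with h5 | h5
    · constructor
      · linarith only [h5, h3, hq]
      · linarith only [hq, h3, h5]
    · have h6 : b ^ 2 ≤ (51 / 100 * n) ^ 2 := by
        apply sq_le_sq'
        · linarith only [h4]
        · linarith only [h4, h5]
      have h7 : (86 / 100 * n) ^ 2 ≤ a ^ 2 := by linarith only [h6, hqn, hQ]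
      have h8 : 86 / 100 * n ≤ a := le_of_sq_le_sq h7 (by linarith only [h3, h4, h5])
      constructor <;> linarith only [h4, h5, h8]
  have aux : ∀ u v k l : ℝ, k * ‖qq h z‖ ≤ u → |v| ≤ l * ‖qq h z‖ → 0 ≤ k → 0 ≤ l →
      (97 / 100 * k - 3 / 100 * l) * (‖δ‖ * ‖qq h z‖ ^ 2) ≤ w.re * u + w.im * v := by
    intro u v k l hu hv hk hl
    have h5 : 97 / 100 * ‖w‖ * (k * ‖qq h z‖) ≤ w.re * u :=
      mul_le_mul h1 hu (by (clear * - hk hq0; positivity)) hw0
    have h6 : -(3 / 100 * ‖w‖ * (l * ‖qq h z‖)) ≤ w.im * v := by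
      have : |w.im * v| ≤ 3 / 100 * ‖w‖ * (l * ‖qq h z‖) := by
        rw [abs_mul]
        exact mul_le_mul h2 hv (abs_nonneg _) (by (clear * -; positivity))
      exact (abs_le.1 this).1
    have e : (97 / 100 * k - 3 / 100 * l) * (‖δ‖ * ‖qq h z‖ ^ 2)
        = 97 / 100 * ‖w‖ * (k * ‖qq h z‖) - 3 / 100 * ‖w‖ * (l * ‖qq h z‖) := by
      rw [hn]; ring
    rw [e]; linarith only [h5, h6]
  refine ⟨?_, ?_, ?_⟩
  · have h5 := aux (qq h z).re (qq h z).im (1 / 2) 1 (by linarith only [h3])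
      (by rw [one_mul]; exact Complex.abs_im_le_norm _) (by norm_num) (by norm_num)
    have h7 : 45 / 100 * ‖δ‖ * ‖qq h z‖ ^ 2 ≤ δ.re * ‖qq h z‖ ^ 2 := by
      rw [hre]
      have : 0 ≤ ‖δ‖ * ‖qq h z‖ ^ 2 := by (clear * - hq0; positivity)
      linarith only [h5, this]
    exact le_of_mul_le_mul_right h7 hQ
  · have h5 := aux ((qq h z).re + (qq h z).im) ((qq h z).im - (qq h z).re) (34 / 100) (16 / 10)
      hsum.1 (by
        rw [abs_le]
        constructor <;> linarith [norm_nonneg (qq h z)]) (by norm_num) (by norm_num)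
    have h7 : 28 / 100 * ‖δ‖ * ‖qq h z‖ ^ 2 ≤ (δ.re - δ.im) * ‖qq h z‖ ^ 2 := by
      rw [sub_mul, hre, him]
      have : 0 ≤ ‖δ‖ * ‖qq h z‖ ^ 2 := by (clear * - hq0; positivity)
      linarith only [this, h5]
    exact le_of_mul_le_mul_right h7 hQ
  · have h5 := aux (7 / 10 * (qq h z).re + (qq h z).im) (7 / 10 * (qq h z).im - (qq h z).re)
      (9 / 100) (14 / 10) hsum.2 (by
        rw [abs_le]
        constructor <;> linarith only [h3, hqi, h4, hqr]) (by norm_num) (by norm_num)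
    have h7 : 4 / 100 * ‖δ‖ * ‖qq h z‖ ^ 2 ≤ (7 / 10 * δ.re - δ.im) * ‖qq h z‖ ^ 2 := by
      rw [sub_mul, mul_assoc (7 / 10) δ.re, hre, him]
      have : 0 ≤ ‖δ‖ * ‖qq h z‖ ^ 2 := by (clear * - hq0; positivity)
      linarith only [this, h5]
    exact le_of_mul_le_mul_right h7 hQ

theorem u_small {z δ : ℂ} (hA : Adm h S.B S.M z δ) :
    ‖nextU h z δ‖ ≤ 3 * (S.M * (‖δ‖ / ‖rho h z‖)) ∧ ‖nextU h z δ‖ ≤ 1 / 100 := by
  have h1 := (step_est S.T.ent S.bnd hA).1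
  have h2 := (est S.T.ent S.bnd hA).Mε
  exact ⟨h1, by linarith⟩

theorem nextP_sub (z δ : ℂ) : nextP h z δ - z = δ * (2 + nextU h z δ) := by
  rw [nextP, nextD]; ring

theorem norm_nextP_sub {z δ : ℂ} (hA : Adm h S.B S.M z δ) :
    ‖nextP h z δ - z‖ ≤ 201 / 100 * ‖δ‖ := by
  rw [nextP_sub, norm_mul, mul_comm]
  have h1 := (S.u_small hA).2
  have h2 := norm_add_le (2 : ℂ) (nextU h z δ)
  have h3 : ‖(2 : ℂ)‖ = 2 := by norm_num
  have h4 : ‖2 + nextU h z δ‖ ≤ 201 / 100 := by linarith only [h3, h2, h1]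
  (clear * - h4; gcongr)

/-- geometry of a step -/
theorem step_geo {z δ : ℂ} (hz : z ∈ S.Ω) (hs : Sec (qq h z * δ)) (hA : Adm h S.B S.M z δ) :
    89 / 100 * ‖δ‖ ≤ (nextP h z δ).re - z.re ∧
    1 / 2 * ‖δ‖ ≤ ((nextP h z δ).re - z.re) - ((nextP h z δ).im - z.im) ∧
    (nextP h z δ).im - z.im ≤ 7 / 10 * ((nextP h z δ).re - z.re) := by
  obtain ⟨h1, h2, h2'⟩ := S.dir hz hs
  obtain ⟨-, h3⟩ := S.u_small hA
  have e : nextP h z δ - z = 2 * δ + nextU h z δ * δ := by rw [nextP_sub]; ring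
  have hu : ‖nextU h z δ * δ‖ ≤ 1 / 100 * ‖δ‖ := by rw [norm_mul]; gcongr
  have hr := congrArg Complex.re e
  have hi := congrArg Complex.im e
  have h4 := abs_le.1 ((Complex.abs_re_le_norm _).trans hu)
  have h5 := abs_le.1 ((Complex.abs_im_le_norm _).trans hu)
  have e1 : (2 * δ : ℂ).re = 2 * δ.re := by simp
  have e2 : (2 * δ : ℂ).im = 2 * δ.im := by simp
  have hn := norm_nonneg δ
  rw [Complex.sub_re, Complex.add_re, e1] at hr
  rw [Complex.sub_im, Complex.add_im, e2] at hi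
  refine ⟨by (clear * - h1 hr h4; linarith), by linarith only [h2, hr, hi, h4, h5], by linarith⟩

theorem step_w {z δ : ℂ} (hz : z ∈ S.Ω) (hA : Adm h S.B S.M z δ) (hz' : nextP h z δ ∈ S.Ω) :
    ‖qq h (nextP h z δ) * nextD h z δ - qq h z * δ‖
      ≤ 240 * (S.M * (‖δ‖ / ‖rho h z‖)) ^ 2 * ‖qq h z * δ‖ ∧
    ‖S.X (nextP h z δ) - S.X z - 2 * (qq h z * δ)‖
      ≤ 10 * (S.M * (‖δ‖ / ‖rho h z‖)) * ‖qq h z * δ‖ := by
  have hE := est S.T.ent S.bnd hA
  have hx1 := hE.Mε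
  have hR := hE.Rpos
  obtain ⟨hu, hu2⟩ := S.u_small hA
  have hP := step_P S.T.ent S.bnd hA
  have hn := S.norm_nextP_sub hA
  have hq0 := S.q_ne hz
  have hδ0 : δ ≠ 0 := hA.2.1
  have hM1 := S.M1
  obtain ⟨x, hx⟩ : ∃ x, x = S.M * (‖δ‖ / ‖rho h z‖) := ⟨_, rfl⟩
  have hx0 : 0 ≤ x := by rw [hx]; (clear * - hM1 hδ0 hR; positivity)
  have hMd : S.M * ‖δ‖ = x * ‖rho h z‖ := by rw [hx]; (clear * - hR hδ0 hM1; field_simp)
  rw [← hx] at hx1 hu hP ⊢
  -- q nearby
  have hnear : ∀ p ∈ S.Ω, ‖p - z‖ ≤ 201 / 100 * ‖δ‖ → ‖qq h p - qq h z‖ ≤ 3 * x * ‖qq h z‖ := by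
    intro p hp hpz
    have h1 := S.q_ratio hz hp
    have h2 := S.lip (z := p) (w := z) (by linarith only [S.BΩ p hp]) (by linarith only [S.BΩ z hz])
    have h3 : ‖rho h p - rho h z‖ ≤ 201 / 100 * (x * ‖rho h z‖) := by
      calc ‖rho h p - rho h z‖ ≤ S.M * ‖p - z‖ := h2
        _ ≤ S.M * (201 / 100 * ‖δ‖) := by gcongr
        _ = 201 / 100 * (S.M * ‖δ‖) := by ring
        _ = _ := by rw [hMd]
    have h4 : 5 / 4 * ‖rho h p - rho h z‖ / ‖rho h z‖ ≤ 3 * x := by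
      rw [div_le_iff₀ hR]
      linarith only [mul_nonneg (sub_nonneg.2 hx0) (le_of_lt (sub_pos.2 hR)), h3]
    calc ‖qq h p - qq h z‖ ≤ 5 / 4 * ‖rho h p - rho h z‖ / ‖rho h z‖ * ‖qq h z‖ := h1
      _ ≤ 3 * x * ‖qq h z‖ := by (clear * - h4 hq0; gcongr)
  constructor
  · -- the cube root of the invariant
    obtain ⟨ζ, hζ⟩ : ∃ ζ, ζ = qq h (nextP h z δ) * nextD h z δ / (qq h z * δ) := ⟨_, rfl⟩
    have hw0 : qq h z * δ ≠ 0 := mul_ne_zero hq0 hδ0
    have e1 : ζ ^ 3 - 1 = rho h (nextP h z δ) * nextD h z δ ^ 3 / (rho h z * δ ^ 3) - 1 := by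
      rw [hζ, div_pow, mul_pow, mul_pow, qq_cube, qq_cube]
    have e2 : ζ = (1 + (qq h (nextP h z δ) - qq h z) / qq h z) * (1 + nextU h z δ) := by
      rw [hζ, nextD]; field_simp; ring
    have h1 : ‖(qq h (nextP h z δ) - qq h z) / qq h z‖ ≤ 3 * x := by
      rw [norm_div, div_le_iff₀ (norm_pos_iff.2 hq0)]
      exact hnear _ hz' hn
    have h2 : ‖ζ - 1‖ ≤ 1 / 2 := by
      obtain ⟨a, ha⟩ : ∃ a, a = (qq h (nextP h z δ) - qq h z) / qq h z := ⟨_, rfl⟩
      rw [← ha] at h1 e2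
      have e3 : ζ - 1 = a + nextU h z δ + a * nextU h z δ := by rw [e2]; ring
      rw [e3]
      calc ‖a + nextU h z δ + a * nextU h z δ‖ ≤ ‖a + nextU h z δ‖ + ‖a * nextU h z δ‖ :=
            norm_add_le _ _
        _ ≤ ‖a‖ + ‖nextU h z δ‖ + ‖a‖ * ‖nextU h z δ‖ := by
            rw [norm_mul]; gcongr; exact norm_add_le _ _
        _ ≤ 3 * x + 3 * x + (3 * x) * (1 / 100) := by (clear * - h1 hu hu2 hx0; gcongr)
        _ ≤ 1 / 2 := by linarith only [hx1]
    have h3 : 0 ≤ ζ.re := by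
      have h4 := abs_le.1 ((Complex.abs_re_le_norm _).trans h2)
      simp only [one_div, sub_re, one_re, neg_le_sub_iff_le_add, tsub_le_iff_right] at h4
      linarith only [h4]
    have h5 := cube_aux h3
    rw [e1] at h5
    have e4 : qq h (nextP h z δ) * nextD h z δ - qq h z * δ = (ζ - 1) * (qq h z * δ) := by
      rw [hζ]; (clear * - hδ0 hq0; field_simp)
    rw [e4, norm_mul]
    gcongr
    linarith only [hP, h5]
  · -- the uniformising coordinate
    have hconv : Convex ℝ (S.Ω ∩ Metric.closedBall z (201 / 100 * ‖δ‖)) :=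
      S.cvx.inter (convex_closedBall _ _)
    have h1 := hconv.norm_image_sub_le_of_norm_hasDerivWithin_le
      (f := fun p => S.X p - qq h z * p) (f' := fun p => qq h p - qq h z)
      (C := 3 * x * ‖qq h z‖) (x := z) (y := nextP h z δ)
      (fun p hp => by
        have d1 := S.XD p hp.1
        have d2 := (hasDerivAt_id p).const_mul (qq h z)
        exact ((d1.sub d2).congr_deriv (by simp)).hasDerivWithinAt)
      (fun p hp => hnear p hp.1 (by simpa only [Metric.mem_closedBall, dist_eq_norm] using hp.2))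
      ⟨hz, by simp only [Metric.mem_closedBall, dist_self, Nat.ofNat_pos, div_pos_iff_of_pos_left, mul_nonneg_iff_of_pos_left, norm_nonneg]⟩ ⟨hz', by simpa only [Metric.mem_closedBall, dist_eq_norm] using hn⟩
    have e : S.X (nextP h z δ) - S.X z - 2 * (qq h z * δ)
        = ((S.X (nextP h z δ) - qq h z * nextP h z δ) - (S.X z - qq h z * z))
          + nextU h z δ * (qq h z * δ) := by
      have := nextP_sub (h := h) z δ
      linear_combination qq h z * this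
    rw [e]
    calc _ ≤ ‖(S.X (nextP h z δ) - qq h z * nextP h z δ) - (S.X z - qq h z * z)‖
          + ‖nextU h z δ * (qq h z * δ)‖ := norm_add_le _ _
      _ ≤ 3 * x * ‖qq h z‖ * ‖nextP h z δ - z‖ + ‖nextU h z δ‖ * ‖qq h z * δ‖ := by
          rw [norm_mul (nextU h z δ)]; (clear * - h1; gcongr)
      _ ≤ 3 * x * ‖qq h z‖ * (201 / 100 * ‖δ‖) + 3 * x * ‖qq h z * δ‖ := by (clear * - hn hx0 hq0 hu; gcongr)
      _ = (3 * (201 / 100) + 3) * x * ‖qq h z * δ‖ := by rw [norm_mul]; ring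
      _ ≤ 10 * x * ‖qq h z * δ‖ := by
          have := mul_nonneg hx0 (norm_nonneg (qq h z * δ))
          linarith only [this]

end Setup

end Vale.Agent.P097.Cusp
end

section

namespace Vale.Agent.P097.Cusp

open Complex Filter Topology
open scoped ComplexConjugate

/-- the orbit -/
noncomputable def orb (h : ℂ → ℂ) (ψ δ : ℂ) (k : ℕ) : ℂ × ℂ :=
  (fun p : ℂ × ℂ => (nextP h p.1 p.2, nextD h p.1 p.2))^[k] (ψ, δ)

theorem orb_zero (h : ℂ → ℂ) (ψ δ : ℂ) : orb h ψ δ 0 = (ψ, δ) := rfl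

theorem orb_succ (h : ℂ → ℂ) (ψ δ : ℂ) (k : ℕ) : orb h ψ δ (k + 1) =
    (nextP h (orb h ψ δ k).1 (orb h ψ δ k).2, nextD h (orb h ψ δ k).1 (orb h ψ δ k).2) :=
  Function.iterate_succ_apply' _ _ _

theorem orb_add (h : ℂ → ℂ) (ψ δ : ℂ) (j k : ℕ) : orb h ψ δ (j + k) =
    orb h (orb h ψ δ j).1 (orb h ψ δ j).2 k := by
  simp only [orb]
  rw [add_comm, Function.iterate_add_apply]

namespace Setup

variable {h : ℂ → ℂ} {H Y : ℝ} (S : Setup h H Y)

/-- constants -/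
noncomputable def C4 : ℝ := 2 * (1 + 12 * S.M / S.c)

/-- constants -/
noncomputable def K : ℝ := 4000 * S.M ^ 2 * S.C4 / S.c ^ 2

/-- constants -/
noncomputable def c1 : ℝ := min (1 / (100 * S.K)) (S.c / (800 * S.M ^ 2 * S.C4))

theorem C4_ge : 2 ≤ S.C4 := by
  have := S.M1
  have := S.c0
  rw [C4]
  have : 0 ≤ 12 * S.M / S.c := by positivity
  linarith only [this]

theorem K_pos : 0 < S.K := by
  have h1 := S.M1
  have h2 := S.c0
  have h3 := S.C4_ge
  rw [K]; positivity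

theorem c1_pos : 0 < S.c1 := by
  have h1 := S.M1
  have h2 := S.c0
  have h3 := S.C4_ge
  have h4 := S.K_pos
  rw [c1]; positivity

theorem c1_K : S.K * S.c1 ≤ 1 / 100 := by
  have h4 := S.K_pos
  calc S.K * S.c1 ≤ S.K * (1 / (100 * S.K)) := by
        apply mul_le_mul_of_nonneg_left (min_le_left _ _) h4.le
    _ = 1 / 100 := by (clear * - h4; field_simp)

theorem c1_adm : 800 * S.M ^ 2 * S.C4 * S.c1 ≤ S.c := by
  have h1 := S.M1
  have h2 := S.c0
  have h3 := S.C4_ge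
  have h5 : 0 < 800 * S.M ^ 2 * S.C4 := by positivity
  calc 800 * S.M ^ 2 * S.C4 * S.c1 ≤ 800 * S.M ^ 2 * S.C4 * (S.c / (800 * S.M ^ 2 * S.C4)) := by
        apply mul_le_mul_of_nonneg_left (min_le_right _ _) h5.le
    _ = S.c := by (clear * - h1 h3 h2; field_simp)

theorem c1_C4 : 3 * S.C4 * S.c1 ≤ 1 / 100 := by
  have h1 := S.M1
  have h2 := S.c0
  have h3 := S.C4_ge
  have h4 := S.c1_adm
  have h5 := S.c_le_M
  have h6 := S.c1_pos
  have h7 : S.M * (800 * S.C4 * S.c1) ≤ S.M * 1 := by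
    have : S.M * (800 * S.C4 * S.c1) ≤ S.M ^ 2 * (800 * S.C4 * S.c1) := by
      apply mul_le_mul_of_nonneg_right _ (by positivity)
      nlinarith only [h1]
    linarith only [h4, h5, this]
  have h8 := le_of_mul_le_mul_left h7 (by linarith)
  linarith only [h8]

/-- starting data of an orbit -/
structure Start (ψ δ : ℂ) : Prop where
  mem : ψ ∈ S.Ω
  cone : Cone Y ψ
  ne : δ ≠ 0
  small : ‖δ‖ ≤ S.c1 * pot Y ψ
  re : 99 / 100 * ‖qq h ψ * δ‖ ≤ (qq h ψ * δ).re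
  im : |(qq h ψ * δ).im| ≤ 1 / 100 * ‖qq h ψ * δ‖

variable {S}

theorem cons {ψ δ z d : ℂ} (hs : S.Start ψ δ) (hz : z ∈ S.Ω) (hc : Cone Y z)
    (hp : pot Y ψ ≤ pot Y z)
    (hw : ‖qq h z * d - qq h ψ * δ‖ ≤ 1 / 100 * ‖qq h ψ * δ‖) :
    Sec (qq h z * d) ∧ ‖qq h z * d‖ ≤ 101 / 100 * ‖qq h ψ * δ‖ ∧ ‖d‖ ≤ S.C4 * ‖δ‖ ∧
      Adm h S.B S.M z d ∧
      S.M * (‖d‖ / ‖rho h z‖) ≤ 2 * S.M / S.c * (‖d‖ / pot Y z) := by
  have hM := S.M1
  have hc0 := S.c0
  obtain ⟨hp0, -⟩ := S.geo hs.mem hs.cone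
  obtain ⟨hpz, -⟩ := S.geo hz hc
  have hq0 := S.q_ne hs.mem
  have hqz := S.q_ne hz
  have hqz' := norm_pos_iff.2 hqz
  have hq0' := norm_pos_iff.2 hq0
  have hδ := norm_pos_iff.2 hs.ne
  have hrz := norm_pos_iff.2 (S.rho_ne hz)
  obtain ⟨w0, hw0⟩ : ∃ w0, w0 = qq h ψ * δ := ⟨_, rfl⟩
  obtain ⟨w, hwd⟩ : ∃ w, w = qq h z * d := ⟨_, rfl⟩
  have hre := hs.re
  have him := hs.im
  rw [← hw0] at hw hre him ⊢
  rw [← hwd] at hw ⊢
  have hw0p : 0 < ‖w0‖ := by rw [hw0, norm_mul]; (clear * - hq0 hδ; positivity)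
  have a1 : ‖w‖ ≤ 101 / 100 * ‖w0‖ := by
    have := norm_le_insert' w w0
    linarith only [hw, this]
  have a2 : 99 / 100 * ‖w0‖ ≤ ‖w‖ := by
    have := norm_le_insert w w0
    linarith only [hw, this]
  have a3 : 98 / 100 * ‖w0‖ ≤ w.re := by
    have := abs_le.1 ((Complex.abs_re_le_norm _).trans hw)
    rw [Complex.sub_re] at this
    linarith only [hre, this]
  have a4 : |w.im| ≤ 2 / 100 * ‖w0‖ := by
    have h1 := abs_le.1 ((Complex.abs_im_le_norm _).trans hw)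
    rw [Complex.sub_im] at h1
    have h2 := abs_le.1 him
    rw [abs_le]; constructor <;> linarith only [h1, h2]
  have hsec : Sec w := ⟨by linarith only [hw0p, a1, a3], by linarith only [hw0p, a2, a4]⟩
  have hd4 : ‖d‖ ≤ S.C4 * ‖δ‖ := by
    -- ratio of the cube roots
    have b1 : ‖qq h ψ‖ ≤ (1 + 12 * S.M / S.c) * ‖qq h z‖ := by
      have b2 : ‖qq h ψ‖ ^ 3 ≤ ((1 + 12 * S.M / S.c) * ‖qq h z‖) ^ 3 := by
        have c1 : ‖rho h ψ‖ ≤ 6 * S.M * pot Y ψ := by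
          have := S.rho_upper hs.mem
          have := (S.geo hs.mem hs.cone).2
          (clear z d hz hc hp hc0 hp0 hpz hq0 hqz hqz' hq0' hδ hrz w0 hw0 w hw hwd hre him hw0p a1 a2 a3 a4 hsec; nlinarith)
        have c2 := S.rho_low hz
        have c3 : ‖rho h ψ‖ ≤ (12 * S.M / S.c) * ‖rho h z‖ := by
          calc ‖rho h ψ‖ ≤ 6 * S.M * pot Y ψ := c1
            _ ≤ 6 * S.M * pot Y z := by (clear * - hp hM; gcongr)
            _ = (12 * S.M / S.c) * (S.c / 2 * pot Y z) := by field_simp; norm_num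
            _ ≤ (12 * S.M / S.c) * ‖rho h z‖ := by (clear * - c2 hM hc0; gcongr)
        rw [mul_pow, norm_qq_cube, norm_qq_cube]
        have c4 : 0 ≤ 12 * S.M / S.c := by (clear * - hM hc0; positivity)
        have c5 : 12 * S.M / S.c ≤ (1 + 12 * S.M / S.c) ^ 3 := by
          nlinarith only [c4, sq_nonneg (12 * S.M / S.c)]
        calc ‖rho h ψ‖ ≤ (12 * S.M / S.c) * ‖rho h z‖ := c3
          _ ≤ (1 + 12 * S.M / S.c) ^ 3 * ‖rho h z‖ := by (clear * - c5 hrz; gcongr)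
      exact le_of_pow_le_pow_left₀ (by norm_num) (by positivity) b2
    have b3 : ‖qq h z‖ * ‖d‖ ≤ ‖qq h z‖ * (S.C4 * ‖δ‖) := by
      calc ‖qq h z‖ * ‖d‖ = ‖w‖ := by rw [hwd, norm_mul]
        _ ≤ 101 / 100 * ‖w0‖ := a1
        _ = 101 / 100 * (‖qq h ψ‖ * ‖δ‖) := by rw [hw0, norm_mul]
        _ ≤ 101 / 100 * ((1 + 12 * S.M / S.c) * ‖qq h z‖ * ‖δ‖) := by (clear * - b1 hδ; gcongr)
        _ ≤ ‖qq h z‖ * (S.C4 * ‖δ‖) := by
            rw [C4]
            have : 0 ≤ (1 + 12 * S.M / S.c) * ‖qq h z‖ * ‖δ‖ := by positivity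
            linarith only [this]
    exact le_of_mul_le_mul_left b3 hqz'
  refine ⟨hsec, a1, hd4, ⟨S.BΩ z hz, ?_, ?_⟩, ?_⟩
  · intro h0
    rw [h0, mul_zero] at hwd
    rw [hwd, norm_zero] at a2
    linarith only [hw0p, a2]
  · have c2 := S.rho_low hz
    have c3 := S.c1_adm
    have c4 := hs.small
    have c5 := S.C4_ge
    calc 400 * S.M ^ 2 * ‖d‖ ≤ 400 * S.M ^ 2 * (S.C4 * ‖δ‖) := by (clear * - hd4 hM; gcongr)
      _ ≤ 400 * S.M ^ 2 * (S.C4 * (S.c1 * pot Y ψ)) := by (clear * - c4 c5 hM; gcongr)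
      _ = (800 * S.M ^ 2 * S.C4 * S.c1) / 2 * pot Y ψ := by ring
      _ ≤ S.c / 2 * pot Y ψ := by (clear * - c3 hp0; gcongr)
      _ ≤ S.c / 2 * pot Y z := by gcongr
      _ ≤ ‖rho h z‖ := c2
  · have c2 := S.rho_low hz
    rw [show 2 * S.M / S.c * (‖d‖ / pot Y z) = S.M * (‖d‖ / (S.c / 2 * pot Y z)) by
      (clear * - hpz hc0 hM; field_simp)]
    (clear * - hc0 hpz c2 hM; gcongr)

theorem tele {p p' d : ℝ} (hp : 0 < p) (hd : 0 ≤ d) (h1 : p + 1 / 2 * d ≤ p') (h2 : p' ≤ 2 * p) :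
    d / p ^ 2 ≤ 4 * (1 / p - 1 / p') := by
  have hp' : 0 < p' := by (clear * - hp hd h1; linarith only [h1, hd, hp])
  have e : 4 * (1 / p - 1 / p') = 4 * (p' - p) / (p * p') := by field_simp
  rw [e, div_le_div_iff₀ (by positivity) (by positivity)]
  have h3 : d * (p * p') ≤ d * (p * (2 * p)) := by gcongr
  have h4 : 4 * (1 / 2 * d) * p ^ 2 ≤ 4 * (p' - p) * p ^ 2 := by
    gcongr
    linarith only [h1]
  linarith only [h4, h3]

theorem pot_step {z d : ℂ} (hz : z ∈ S.Ω) (hsec : Sec (qq h z * d)) (hA : Adm h S.B S.M z d)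
    (hds : 3 * ‖d‖ ≤ pot Y z) :
    pot Y z + 1 / 2 * ‖d‖ ≤ pot Y (nextP h z d) ∧ pot Y (nextP h z d) ≤ 2 * pot Y z := by
  obtain ⟨g1, g2, -⟩ := S.step_geo hz hsec hA
  constructor
  · simp only [pot]; linarith only [g2]
  · have h4 : ‖nextP h z d - z‖ ≤ 201 / 100 * ‖d‖ := S.norm_nextP_sub hA
    have h5 : (nextP h z d - z).re - (nextP h z d - z).im ≤ 3 * ‖d‖ := by
      have h6 : ((nextP h z d - z).re - (nextP h z d - z).im) ^ 2
          ≤ 2 * ‖nextP h z d - z‖ ^ 2 := by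
        rw [← Complex.normSq_eq_norm_sq, Complex.normSq_apply]
        linarith only [sq_nonneg ((nextP h z d - z).re + (nextP h z d - z).im)]
      have h7 : 2 * ‖nextP h z d - z‖ ^ 2 ≤ (3 * ‖d‖) ^ 2 := by
        have : ‖nextP h z d - z‖ ^ 2 ≤ (201 / 100 * ‖d‖) ^ 2 := by gcongr
        nlinarith only [this]
      exact le_of_abs_le (abs_le_of_sq_le_sq (h6.trans h7) (by (clear * -; positivity)))
    rw [Complex.sub_re, Complex.sub_im] at h5
    simp only [pot] at hds ⊢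
    linarith only [hds, h5]

theorem weak {ψ δ z d : ℂ} (hs : S.Start ψ δ) (hpz : 0 < pot Y z)
    (i3 : ‖qq h z * d - qq h ψ * δ‖
      ≤ ‖qq h ψ * δ‖ * (S.K * ‖δ‖ * (1 / pot Y ψ - 1 / pot Y z))) :
    ‖qq h z * d - qq h ψ * δ‖ ≤ ‖qq h ψ * δ‖ * (S.K * (‖δ‖ / pot Y ψ)) ∧
    ‖qq h z * d - qq h ψ * δ‖ ≤ 1 / 100 * ‖qq h ψ * δ‖ := by
  have hK := S.K_pos
  obtain ⟨hp0, -⟩ := S.geo hs.mem hs.cone
  have hw0n := norm_nonneg (qq h ψ * δ)
  have i3' : ‖qq h z * d - qq h ψ * δ‖ ≤ ‖qq h ψ * δ‖ * (S.K * (‖δ‖ / pot Y ψ)) := by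
    refine i3.trans (mul_le_mul_of_nonneg_left ?_ hw0n)
    have : 0 ≤ 1 / pot Y z := by positivity
    calc S.K * ‖δ‖ * (1 / pot Y ψ - 1 / pot Y z) ≤ S.K * ‖δ‖ * (1 / pot Y ψ) :=
          mul_le_mul_of_nonneg_left (by linarith only [this]) (by (clear * - hK; positivity))
      _ = S.K * (‖δ‖ / pot Y ψ) := by ring
  refine ⟨i3', i3'.trans ?_⟩
  have h1 : ‖δ‖ / pot Y ψ ≤ S.c1 := by rw [div_le_iff₀ hp0]; exact hs.small
  have hKe : S.K * (‖δ‖ / pot Y ψ) ≤ 1 / 100 :=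
    (mul_le_mul_of_nonneg_left h1 hK.le).trans S.c1_K
  calc ‖qq h ψ * δ‖ * (S.K * (‖δ‖ / pot Y ψ)) ≤ ‖qq h ψ * δ‖ * (1 / 100) :=
        mul_le_mul_of_nonneg_left hKe hw0n
    _ = _ := by ring

theorem core_step {ψ δ z d : ℂ} (hs : S.Start ψ δ) (hz : z ∈ S.Ω) (i1 : Cone Y z)
    (i2 : pot Y ψ ≤ pot Y z)
    (i3 : ‖qq h z * d - qq h ψ * δ‖
      ≤ ‖qq h ψ * δ‖ * (S.K * ‖δ‖ * (1 / pot Y ψ - 1 / pot Y z)))
    (hz' : nextP h z d ∈ S.Ω) :
    Cone Y (nextP h z d) ∧ pot Y z ≤ pot Y (nextP h z d) ∧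
    ‖qq h (nextP h z d) * nextD h z d - qq h z * d‖
        ≤ ‖qq h ψ * δ‖ * (S.K * ‖δ‖ * (1 / pot Y z - 1 / pot Y (nextP h z d))) ∧
    ‖S.X (nextP h z d) - S.X z - 2 * (qq h z * d)‖
        ≤ S.K * (‖δ‖ / pot Y ψ) * ‖qq h ψ * δ‖ := by
  have hM := S.M1
  have hc0 := S.c0
  have hK := S.K_pos
  have hC4 := S.C4_ge
  obtain ⟨hp0, -⟩ := S.geo hs.mem hs.cone
  obtain ⟨hpz, -⟩ := S.geo hz i1
  have hδ := norm_pos_iff.2 hs.ne
  have hw0n := norm_nonneg (qq h ψ * δ)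
  obtain ⟨-, hw⟩ := weak hs hpz i3
  obtain ⟨hsec, hwn, hd4, hA, hx⟩ := cons hs hz i1 i2 hw
  obtain ⟨g1, g3, g2⟩ := S.step_geo hz hsec hA
  obtain ⟨w1, w2⟩ := S.step_w hz hA hz'
  have hdn := norm_nonneg d
  have hds : 3 * ‖d‖ ≤ pot Y z := by
    have h1 := hs.small
    have h2 := S.c1_C4
    calc 3 * ‖d‖ ≤ 3 * (S.C4 * ‖δ‖) := by (clear * - hd4; gcongr)
      _ ≤ 3 * (S.C4 * (S.c1 * pot Y ψ)) := by (clear * - h1 hC4; gcongr)
      _ = (3 * S.C4 * S.c1) * pot Y ψ := by ring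
      _ ≤ 1 * pot Y ψ := by gcongr; linarith only [h2]
      _ ≤ pot Y z := by linarith only [i2]
  obtain ⟨hpot1, hpot2⟩ := pot_step hz hsec hA hds
  have htele := tele hpz hdn hpot1 hpot2
  have hx0 : 0 ≤ S.M * (‖d‖ / ‖rho h z‖) := by (clear * - hM; positivity)
  have hW0 : 0 ≤ ‖qq h z * d‖ := norm_nonneg _
  clear hs i3 hw hsec hA hz' hds
  refine ⟨?_, by linarith only [hpot1, hdn], ?_, ?_⟩
  · simp only [Cone] at i1 ⊢
    linarith only [i1, g2]
  · generalize ‖qq h ψ * δ‖ = W0 at *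
    generalize ‖qq h z * d‖ = W at *
    generalize S.M * (‖d‖ / ‖rho h z‖) = x at *
    generalize pot Y (nextP h z d) = p' at *
    generalize pot Y z = p at *
    have hT : 0 ≤ 1 / p - 1 / p' := by
      have : 0 ≤ ‖d‖ / p ^ 2 := by (clear * - hpz; positivity)
      linarith only [htele, this]
    have s1 : 240 * x ^ 2 * W ≤ 240 * (2 * S.M / S.c * (‖d‖ / p)) ^ 2 * (101 / 100 * W0) := by
      (clear * - hx0 hx hwn hW0; gcongr)
    have s2 : 240 * (2 * S.M / S.c * (‖d‖ / p)) ^ 2 * (101 / 100 * W0)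
        = W0 * (4848 / 5 * (S.M ^ 2 / S.c ^ 2) * (‖d‖ * (‖d‖ / p ^ 2))) := by
      field_simp; ring
    have s3 : ‖d‖ * (‖d‖ / p ^ 2) ≤ (S.C4 * ‖δ‖) * (4 * (1 / p - 1 / p')) :=
      mul_le_mul hd4 htele (by (clear * - hpz; positivity)) (by positivity)
    have s4 : W0 * (4848 / 5 * (S.M ^ 2 / S.c ^ 2) * (‖d‖ * (‖d‖ / p ^ 2)))
        ≤ W0 * (4848 / 5 * (S.M ^ 2 / S.c ^ 2) *
          ((S.C4 * ‖δ‖) * (4 * (1 / p - 1 / p')))) :=
      mul_le_mul_of_nonneg_left (mul_le_mul_of_nonneg_left s3 (by positivity)) hw0n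
    have s5 : S.K * ‖δ‖ * (1 / p - 1 / p')
        = 4000 * (S.M ^ 2 / S.c ^ 2) * ((S.C4 * ‖δ‖) * (1 / p - 1 / p')) := by
      rw [K]; ring
    have s6 : 0 ≤ (S.M ^ 2 / S.c ^ 2) * ((S.C4 * ‖δ‖) * (1 / p - 1 / p')) := by (clear * - hM hc0 hC4 hδ hT; positivity)
    have s7 : 4848 / 5 * (S.M ^ 2 / S.c ^ 2) * ((S.C4 * ‖δ‖) * (4 * (1 / p - 1 / p')))
        ≤ S.K * ‖δ‖ * (1 / p - 1 / p') := by
      rw [s5]; linarith only [s6]
    have s8 := mul_le_mul_of_nonneg_left s7 hw0n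
    linarith only [w1, s1, s2, s4, s8]
  · refine w2.trans ?_
    have h1 : ‖d‖ / pot Y z ≤ S.C4 * (‖δ‖ / pot Y ψ) := by
      rw [← mul_div_assoc]
      (clear * - hC4 hδ hd4 hp0 i2; gcongr)
    generalize ‖qq h ψ * δ‖ = W0 at *
    generalize ‖qq h z * d‖ = W at *
    generalize S.M * (‖d‖ / ‖rho h z‖) = x at *
    have h0 : 0 ≤ ‖δ‖ / pot Y ψ := by positivity
    generalize ‖δ‖ / pot Y ψ = e at *
    have h1' : x ≤ 2 * S.M / S.c * (S.C4 * e) :=
      hx.trans (mul_le_mul_of_nonneg_left h1 (by positivity))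
    have s1 : 10 * x * W ≤ 10 * (2 * S.M / S.c * (S.C4 * e)) * (101 / 100 * W0) := by
      gcongr
    have h2 : 1 ≤ S.M / S.c := by rw [le_div_iff₀ hc0]; linarith only [S.c_le_M]
    have s2 : 10 * (2 * S.M / S.c * (S.C4 * e)) * (101 / 100 * W0)
        = (101 / 5) * (S.M / S.c) * (S.C4 * e * W0) := by ring
    have s3 : S.K * e * W0 = 4000 * (S.M / S.c) ^ 2 * (S.C4 * e * W0) := by
      rw [K, div_pow]; ring
    have s4 : (101 / 5) * (S.M / S.c) ≤ 4000 * (S.M / S.c) ^ 2 := by nlinarith only [h2]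
    have s5 : 0 ≤ S.C4 * e * W0 := by (clear * - hC4 h0 hw0n; positivity)
    have s6 := mul_le_mul_of_nonneg_right s4 s5
    rw [s3]
    linarith only [s1, s2, s6]

theorem core {ψ δ : ℂ} (hs : S.Start ψ δ) (k : ℕ) (hΩ : ∀ j ≤ k, (orb h ψ δ j).1 ∈ S.Ω) :
    Cone Y (orb h ψ δ k).1 ∧ pot Y ψ ≤ pot Y (orb h ψ δ k).1 ∧
    ‖qq h (orb h ψ δ k).1 * (orb h ψ δ k).2 - qq h ψ * δ‖
      ≤ ‖qq h ψ * δ‖ * (S.K * ‖δ‖ * (1 / pot Y ψ - 1 / pot Y (orb h ψ δ k).1)) ∧
    ‖S.X (orb h ψ δ k).1 - S.X ψ - 2 * k * (qq h ψ * δ)‖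
      ≤ k * (3 * S.K * (‖δ‖ / pot Y ψ)) * ‖qq h ψ * δ‖ := by
  induction k with
  | zero =>
    refine ⟨hs.cone, le_rfl, ?_, ?_⟩
    · simp [orb_zero]
    · simp [orb_zero]
  | succ k ih =>
    obtain ⟨i1, i2, i3, i4⟩ := ih (fun j hj => hΩ j (by omega))
    have hz := hΩ k (by omega)
    have hz' := hΩ (k + 1) le_rfl
    rw [orb_succ] at hz' ⊢
    simp only at hz' ⊢
    obtain ⟨z, hzdef⟩ : ∃ z, z = (orb h ψ δ k).1 := ⟨_, rfl⟩
    obtain ⟨d, hddef⟩ : ∃ d, d = (orb h ψ δ k).2 := ⟨_, rfl⟩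
    rw [← hzdef] at i1 i2 i3 i4 hz hz' ⊢
    rw [← hddef] at i3 hz' ⊢
    obtain ⟨hpz, -⟩ := S.geo hz i1
    obtain ⟨hw1, -⟩ := weak hs hpz i3
    obtain ⟨c1, c2, c3, c4⟩ := core_step hs hz i1 i2 i3 hz'
    refine ⟨c1, by linarith only [i2, c2], ?_, ?_⟩
    · calc ‖qq h (nextP h z d) * nextD h z d - qq h ψ * δ‖
          = ‖(qq h (nextP h z d) * nextD h z d - qq h z * d) + (qq h z * d - qq h ψ * δ)‖ := by
            congr 1; ring
        _ ≤ _ := norm_add_le _ _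
        _ ≤ ‖qq h ψ * δ‖ * (S.K * ‖δ‖ * (1 / pot Y z - 1 / pot Y (nextP h z d)))
            + ‖qq h ψ * δ‖ * (S.K * ‖δ‖ * (1 / pot Y ψ - 1 / pot Y z)) := add_le_add c3 i3
        _ = _ := by ring
    · have e : S.X (nextP h z d) - S.X ψ - 2 * ((k + 1 : ℕ) : ℂ) * (qq h ψ * δ)
          = (S.X (nextP h z d) - S.X z - 2 * (qq h z * d))
            + (S.X z - S.X ψ - 2 * k * (qq h ψ * δ)) + 2 * (qq h z * d - qq h ψ * δ) := by
        push_cast; ring
      rw [e]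
      have n2 : ‖(2 : ℂ)‖ = 2 := by norm_num
      calc _ ≤ ‖(S.X (nextP h z d) - S.X z - 2 * (qq h z * d))
            + (S.X z - S.X ψ - 2 * k * (qq h ψ * δ))‖ + ‖2 * (qq h z * d - qq h ψ * δ)‖ :=
            norm_add_le _ _
        _ ≤ ‖S.X (nextP h z d) - S.X z - 2 * (qq h z * d)‖
            + ‖S.X z - S.X ψ - 2 * k * (qq h ψ * δ)‖ + 2 * ‖qq h z * d - qq h ψ * δ‖ := by
            rw [norm_mul, n2]
            exact add_le_add_left (norm_add_le _ _) _
        _ ≤ S.K * (‖δ‖ / pot Y ψ) * ‖qq h ψ * δ‖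
            + k * (3 * S.K * (‖δ‖ / pot Y ψ)) * ‖qq h ψ * δ‖
            + 2 * (‖qq h ψ * δ‖ * (S.K * (‖δ‖ / pot Y ψ))) :=
            add_le_add (add_le_add c4 i4) (mul_le_mul_of_nonneg_left hw1 (by norm_num))
        _ = ((k + 1 : ℕ) : ℝ) * (3 * S.K * (‖δ‖ / pot Y ψ)) * ‖qq h ψ * δ‖ := by
            push_cast; ring

end Setup

end Vale.Agent.P097.Cusp
end

section

namespace Vale.Agent.P097.Cusp

open Complex Filter Topology
open scoped ComplexConjugate

namespace Setup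

variable {h : ℂ → ℂ} {H Y : ℝ} (S : Setup h H Y)

/-- constants -/
noncomputable def c2 : ℝ :=
  min S.c1 (min (S.κ / (16 * S.K * S.Lx)) (S.σ / (20 * S.C4 * (4 * S.B))))

/-- constants -/
noncomputable def r1 : ℝ := min (1 / 200) (S.κ / (4 * S.Lx))

theorem B_pos : 0 < S.B := by
  have h1 := S.BΩ 0 S.zero_mem
  rw [norm_zero] at h1
  linarith only [h1]

theorem c2_pos : 0 < S.c2 := by
  have h1 := S.c1_pos
  have h2 := S.κ0
  have h3 := S.K_pos
  have h4 := S.Lx0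
  have h5 := S.σ0
  have h6 := S.C4_ge
  have h7 := S.B_pos
  rw [c2]; positivity

theorem r1_pos : 0 < S.r1 := by
  have h2 := S.κ0
  have h4 := S.Lx0
  rw [r1]; positivity

theorem c2_le_c1 : S.c2 ≤ S.c1 := min_le_left _ _

theorem c2_κ : S.K * S.c2 * S.Lx ≤ S.κ / 16 := by
  have h3 := S.K_pos
  have h4 := S.Lx0
  have h5 : S.c2 ≤ S.κ / (16 * S.K * S.Lx) := (min_le_right _ _).trans (min_le_left _ _)
  calc S.K * S.c2 * S.Lx ≤ S.K * (S.κ / (16 * S.K * S.Lx)) * S.Lx := by gcongr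
    _ = S.κ / 16 := by field_simp

theorem c2_σ : S.C4 * S.c2 * (4 * S.B) ≤ S.σ / 20 := by
  have h6 := S.C4_ge
  have h7 := S.B_pos
  have h5 : S.c2 ≤ S.σ / (20 * S.C4 * (4 * S.B)) := (min_le_right _ _).trans (min_le_right _ _)
  calc S.C4 * S.c2 * (4 * S.B) ≤ S.C4 * (S.σ / (20 * S.C4 * (4 * S.B))) * (4 * S.B) := by
        (clear * - h5 h6 h7; gcongr)
    _ = S.σ / 20 := by field_simp

theorem r1_κ : S.r1 * S.Lx ≤ S.κ / 4 := by
  have h4 := S.Lx0
  calc S.r1 * S.Lx ≤ S.κ / (4 * S.Lx) * S.Lx := by gcongr; exact min_le_right _ _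
    _ = S.κ / 4 := by field_simp

theorem r1_le : S.r1 ≤ 1 / 200 := min_le_left _ _

/-- the approximate value of the invariant -/
noncomputable def p0 (m : ℕ) : ℝ := S.Lx / (4 * m)

theorem p0_pos {m : ℕ} (hm : 0 < m) : 0 < S.p0 m := by
  have h4 := S.Lx0
  rw [p0]; (clear * - h4 hm; positivity)

theorem m_p0 {m : ℕ} (hm : 0 < m) : 2 * m * S.p0 m = S.Lx / 2 := by
  rw [p0]
  have : (m : ℝ) ≠ 0 := by positivity
  field_simp; ring

/-- starting data for the half orbit of `m` steps -/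
structure Start2 (m : ℕ) (ψ δ : ℂ) : Prop where
  mem : ψ ∈ S.Ω
  cone : Cone Y ψ
  small : ‖δ‖ ≤ S.c2 * pot Y ψ
  p : ‖qq h ψ * δ - S.p0 m‖ ≤ S.r1 * S.p0 m
  Xre : |(S.X ψ).re| ≤ S.κ / 8
  Xbot : -(S.κ / 8) ≤ (S.X ψ).im
  Xtop : ∃ y : ℝ, 0 ≤ y ∧ y < Y ∧ (S.X ψ).im ≤ (S.X (y * I)).im + S.κ / 8

variable {S}

theorem Start2.norm {m : ℕ} {ψ δ : ℂ} (hs : S.Start2 m ψ δ) (hm : 0 < m) :
    199 / 200 * S.p0 m ≤ ‖qq h ψ * δ‖ ∧ ‖qq h ψ * δ‖ ≤ 201 / 200 * S.p0 m := by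
  have hp := S.p0_pos hm
  have h1 := hs.p
  have h2 : ‖qq h ψ * δ - S.p0 m‖ ≤ 1 / 200 * S.p0 m :=
    h1.trans (mul_le_mul_of_nonneg_right S.r1_le hp.le)
  have h3 : ‖(S.p0 m : ℂ)‖ = S.p0 m := by
    rw [Complex.norm_real, Real.norm_eq_abs, abs_of_pos hp]
  have h4 := norm_le_insert' (qq h ψ * δ) (S.p0 m : ℂ)
  have h5 := norm_le_insert (qq h ψ * δ) (S.p0 m : ℂ)
  rw [h3] at h4 h5
  constructor <;> linarith

theorem Start2.start {m : ℕ} {ψ δ : ℂ} (hs : S.Start2 m ψ δ) (hm : 0 < m) : S.Start ψ δ := by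
  have hp := S.p0_pos hm
  obtain ⟨n1, n2⟩ := hs.norm hm
  have h2 : ‖qq h ψ * δ - S.p0 m‖ ≤ 1 / 200 * S.p0 m :=
    hs.p.trans (mul_le_mul_of_nonneg_right S.r1_le hp.le)
  have h3 := abs_le.1 ((Complex.abs_re_le_norm _).trans h2)
  have h4 := abs_le.1 ((Complex.abs_im_le_norm _).trans h2)
  rw [Complex.sub_re, Complex.ofReal_re] at h3
  rw [Complex.sub_im, Complex.ofReal_im, sub_zero] at h4
  obtain ⟨hpot, -⟩ := S.geo hs.mem hs.cone
  refine ⟨hs.mem, hs.cone, ?_, ?_, ?_, ?_⟩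
  · intro h0
    rw [h0, mul_zero, norm_zero] at n1
    linarith only [hp, n1]
  · exact hs.small.trans (mul_le_mul_of_nonneg_right S.c2_le_c1 hpot.le)
  · linarith only [n2, h3]
  · rw [abs_le]; constructor <;> linarith only [n1, h4]

/-- the inner region -/
def Inn (S : Setup h H Y) (z : ℂ) : Prop :=
  z ∈ S.Ω ∧ -(S.σ / 2) < z.im ∧ z.im < Y + S.σ / 2 ∧ z.re < H + S.σ / 2

theorem core_X {m : ℕ} {ψ δ : ℂ} (hs : S.Start2 m ψ δ) (hm : 0 < m) {k : ℕ} (hk : k ≤ m)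
    (hΩ : ∀ j ≤ k, (orb h ψ δ j).1 ∈ S.Ω) :
    ‖S.X (orb h ψ δ k).1 - S.X ψ - 2 * k * (S.p0 m : ℂ)‖ ≤ S.κ / 4 := by
  have hp := S.p0_pos hm
  have hK := S.K_pos
  have hκ := S.κ0
  have hL := S.Lx0
  have hc2 := S.c2_pos
  obtain ⟨hpot, -⟩ := S.geo hs.mem hs.cone
  have h1 := (core (hs.start hm) k hΩ).2.2.2
  have n2 := (hs.norm hm).2
  have hD : ‖δ‖ / pot Y ψ ≤ S.c2 := by rw [div_le_iff₀ hpot]; exact hs.small
  have hkm : (k : ℝ) ≤ m := by exact_mod_cast hk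
  have h2 : ‖S.X (orb h ψ δ k).1 - S.X ψ - 2 * k * (qq h ψ * δ)‖ ≤ S.κ / 8 := by
    have h3 : 3 * S.K * (‖δ‖ / pot Y ψ) ≤ 3 * S.K * S.c2 := by (clear * - hD hK; gcongr)
    calc _ ≤ (k : ℝ) * (3 * S.K * (‖δ‖ / pot Y ψ)) * ‖qq h ψ * δ‖ := h1
      _ ≤ (m : ℝ) * (3 * S.K * S.c2) * (201 / 200 * S.p0 m) := by (clear * - hkm h3 hK hpot hm n2 hc2; gcongr)
      _ = (603 / 400) * S.K * S.c2 * (2 * m * S.p0 m) := by ring
      _ = (603 / 800) * (S.K * S.c2 * S.Lx) := by rw [S.m_p0 hm]; ring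
      _ ≤ (603 / 800) * (S.κ / 16) := by gcongr; exact S.c2_κ
      _ ≤ S.κ / 8 := by linarith only [hκ]
  have h3 : ‖2 * (k : ℂ) * (qq h ψ * δ - S.p0 m)‖ ≤ S.κ / 8 := by
    rw [norm_mul, norm_mul]
    have e : ‖(2 : ℂ)‖ = 2 := by norm_num
    have e' : ‖(k : ℂ)‖ = k := by simp
    rw [e, e']
    calc 2 * (k : ℝ) * ‖qq h ψ * δ - S.p0 m‖ ≤ 2 * (m : ℝ) * (S.r1 * S.p0 m) := by
          have := hs.p
          (clear * - hkm this hm; gcongr)
      _ = S.r1 * (2 * m * S.p0 m) := by ring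
      _ = (S.r1 * S.Lx) / 2 := by rw [S.m_p0 hm]; ring
      _ ≤ (S.κ / 4) / 2 := by gcongr; exact S.r1_κ
      _ = S.κ / 8 := by ring
  have e : S.X (orb h ψ δ k).1 - S.X ψ - 2 * k * (S.p0 m : ℂ)
      = (S.X (orb h ψ δ k).1 - S.X ψ - 2 * k * (qq h ψ * δ))
        + 2 * (k : ℂ) * (qq h ψ * δ - S.p0 m) := by ring
  rw [e]
  calc _ ≤ _ := norm_add_le _ _
    _ ≤ S.κ / 8 + S.κ / 8 := add_le_add h2 h3
    _ = S.κ / 4 := by ring

theorem inn_of_X {m : ℕ} {ψ δ : ℂ} (hs : S.Start2 m ψ δ) (hm : 0 < m) {k : ℕ} (hk : k ≤ m)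
    (hΩ : ∀ j ≤ k, (orb h ψ δ j).1 ∈ S.Ω) : S.Inn (orb h ψ δ k).1 := by
  have hκ := S.κ0
  have hp := S.p0_pos hm
  have hkm : (k : ℝ) ≤ m := by exact_mod_cast hk
  have h1 := core_X hs hm hk hΩ
  have h2 := abs_le.1 ((Complex.abs_re_le_norm _).trans h1)
  have h3 := abs_le.1 ((Complex.abs_im_le_norm _).trans h1)
  have e1 : (2 * (k : ℂ) * (S.p0 m : ℂ)).re = 2 * k * S.p0 m := by
    have : (2 * (k : ℂ) * (S.p0 m : ℂ)) = ((2 * k * S.p0 m : ℝ) : ℂ) := by push_cast; ring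
    rw [this, Complex.ofReal_re]
  have e2 : (2 * (k : ℂ) * (S.p0 m : ℂ)).im = 0 := by
    have : (2 * (k : ℂ) * (S.p0 m : ℂ)) = ((2 * k * S.p0 m : ℝ) : ℂ) := by push_cast; ring
    rw [this, Complex.ofReal_im]
  rw [Complex.sub_re, Complex.sub_re, e1] at h2
  rw [Complex.sub_im, Complex.sub_im, e2] at h3
  have h4 : 2 * (k : ℝ) * S.p0 m ≤ S.Lx / 2 := by
    rw [← S.m_p0 hm]; gcongr
  have h5 := abs_le.1 hs.Xre
  have h6 := hs.Xbot
  obtain ⟨y, hy0, hy1, h7⟩ := hs.Xtop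
  have hz := hΩ k le_rfl
  refine ⟨hz, ?_, ?_, ?_⟩
  · by_contra hcon
    have := S.Xbot _ hz (not_lt.1 hcon)
    (clear * - hκ h3 h6 this; linarith)
  · by_contra hcon
    have := S.Xtop _ hz (not_lt.1 hcon) y hy0 hy1
    linarith only [hκ, h3, h7, this]
  · by_contra hcon
    have := S.Xright _ hz (not_lt.1 hcon)
    linarith only [hκ, h2, h4, h5, this]

/-- data at a point of the orbit -/
theorem at_k {m : ℕ} {ψ δ : ℂ} (hs : S.Start2 m ψ δ) (hm : 0 < m) {k : ℕ}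
    (hΩ : ∀ j ≤ k, (orb h ψ δ j).1 ∈ S.Ω) :
    Sec (qq h (orb h ψ δ k).1 * (orb h ψ δ k).2) ∧ ‖(orb h ψ δ k).2‖ ≤ S.C4 * ‖δ‖ ∧
      Adm h S.B S.M (orb h ψ δ k).1 (orb h ψ δ k).2 ∧
      ‖(orb h ψ δ k).2‖ ≤ S.σ / 20 := by
  have hst := hs.start hm
  obtain ⟨c1, c2, c3, c4⟩ := core hst k hΩ
  have hz := hΩ k le_rfl
  obtain ⟨hpz, -⟩ := S.geo hz c1
  obtain ⟨hpot, -⟩ := S.geo hs.mem hs.cone
  obtain ⟨-, w2⟩ := weak hst hpz c3
  obtain ⟨d1, d2, d3, d4, d5⟩ := cons hst hz c1 c2 w2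
  refine ⟨d1, d3, d4, d3.trans ?_⟩
  have h1 : pot Y ψ ≤ 4 * S.B := by
    have h2 := pot_le (Y := Y) ψ
    have h3 := norm_sub_le ψ (Y * I)
    have h4 := S.BΩ ψ hs.mem
    have h5 := S.BY
    linarith only [h2, h3, h4, h5]
  have hC := S.C4_ge
  have hc := S.c2_pos
  calc S.C4 * ‖δ‖ ≤ S.C4 * (S.c2 * pot Y ψ) := by
        have := hs.small
        (clear * - this hC; gcongr)
    _ ≤ S.C4 * (S.c2 * (4 * S.B)) := by gcongr
    _ = S.C4 * S.c2 * (4 * S.B) := by ring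
    _ ≤ S.σ / 20 := S.c2_σ

theorem stay {m : ℕ} {ψ δ : ℂ} (hs : S.Start2 m ψ δ) (hm : 0 < m) {k : ℕ} (hk : k ≤ m) :
    ∀ j ≤ k, S.Inn (orb h ψ δ j).1 := by
  induction k with
  | zero =>
    intro j hj
    obtain rfl : j = 0 := by omega
    refine inn_of_X hs hm (Nat.zero_le _) (fun j hj => ?_)
    obtain rfl : j = 0 := by omega
    rw [orb_zero]; exact hs.mem
  | succ k ih =>
    have ih' := ih (by omega)
    have hΩk : ∀ j ≤ k, (orb h ψ δ j).1 ∈ S.Ω := fun j hj => (ih' j hj).1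
    have hnew : (orb h ψ δ (k + 1)).1 ∈ S.Ω := by
      obtain ⟨a1, a2, a3, a4⟩ := at_k hs hm hΩk
      obtain ⟨i1, i2, i3, i4⟩ := ih' k le_rfl
      obtain ⟨g1, -, g2⟩ := S.step_geo i1 a1 a3
      have g3 := S.norm_nextP_sub a3
      have g4 := abs_le.1 ((Complex.abs_re_le_norm _).trans g3)
      have g5 := abs_le.1 ((Complex.abs_im_le_norm _).trans g3)
      rw [Complex.sub_re] at g4
      rw [Complex.sub_im] at g5
      have ht := S.t0
      have ht1 := S.t1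
      have hσ := S.σ0
      have hn := norm_nonneg (orb h ψ δ k).2
      rw [orb_succ]
      refine ⟨?_, ?_, ?_, ?_⟩
      · have h0 := i1.1
        have h1 : S.t * ((nextP h (orb h ψ δ k).1 (orb h ψ δ k).2).im - (orb h ψ δ k).1.im)
            ≤ 7 / 10 * ((nextP h (orb h ψ δ k).1 (orb h ψ δ k).2).re - (orb h ψ δ k).1.re) := by
          have h2 : S.t * ((nextP h (orb h ψ δ k).1 (orb h ψ δ k).2).im - (orb h ψ δ k).1.im)
              ≤ S.t * (7 / 10 *
                ((nextP h (orb h ψ δ k).1 (orb h ψ δ k).2).re - (orb h ψ δ k).1.re)) := by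
            (clear * - g2 ht; gcongr)
          have h3 : S.t * (7 / 10 *
                ((nextP h (orb h ψ δ k).1 (orb h ψ δ k).2).re - (orb h ψ δ k).1.re))
              ≤ 1 * (7 / 10 *
                ((nextP h (orb h ψ δ k).1 (orb h ψ δ k).2).re - (orb h ψ δ k).1.re)) := by
            apply mul_le_mul_of_nonneg_right (by linarith only [ht1]); (clear * - g1 g4; linarith)
          linarith only [h2, h3]
        show S.t * ((nextP h (orb h ψ δ k).1 (orb h ψ δ k).2).im - Y)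
            < (nextP h (orb h ψ δ k).1 (orb h ψ δ k).2).re
        have e : S.t * ((nextP h (orb h ψ δ k).1 (orb h ψ δ k).2).im - Y)
            = S.t * ((orb h ψ δ k).1.im - Y)
              + S.t * ((nextP h (orb h ψ δ k).1 (orb h ψ δ k).2).im - (orb h ψ δ k).1.im) := by
          ring
        rw [e]
        linarith only [g1, g4, h0, h1]
      · show (nextP h (orb h ψ δ k).1 (orb h ψ δ k).2).re < H + S.σ
        linarith only [a4, i4, g4]
      · show -S.σ < (nextP h (orb h ψ δ k).1 (orb h ψ δ k).2).im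
        linarith only [a4, i2, g5]
      · show (nextP h (orb h ψ δ k).1 (orb h ψ δ k).2).im < Y + S.σ
        linarith only [a4, i3, g2, g4]
    have hΩk1 : ∀ j ≤ k + 1, (orb h ψ δ j).1 ∈ S.Ω := by
      intro j hj
      rcases Nat.lt_or_ge j (k + 1) with h1 | h1
      · exact hΩk j (by omega)
      · obtain rfl : j = k + 1 := by omega
        exact hnew
    intro j hj
    exact inn_of_X hs hm (by omega) (fun i hi => hΩk1 i (by omega))

theorem stay_mem {m : ℕ} {ψ δ : ℂ} (hs : S.Start2 m ψ δ) (hm : 0 < m) {k : ℕ} (hk : k ≤ m) :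
    (orb h ψ δ k).1 ∈ S.Ω := (stay hs hm hk k le_rfl).1

theorem orb_holo {m : ℕ} (hm : 0 < m) {U : Set ℂ} (hU : IsOpen U) {ψ δ : ℂ → ℂ}
    (hψ : DifferentiableOn ℂ ψ U) (hδ : DifferentiableOn ℂ δ U)
    (hs : ∀ z ∈ U, S.Start2 m (ψ z) (δ z)) {k : ℕ} (hk : k ≤ m) :
    DifferentiableOn ℂ (fun z => (orb h (ψ z) (δ z) k).1) U ∧
    DifferentiableOn ℂ (fun z => (orb h (ψ z) (δ z) k).2) U := by
  induction k with
  | zero => exact ⟨hψ, hδ⟩
  | succ k ih =>
    obtain ⟨i1, i2⟩ := ih (by omega)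
    have hA : ∀ z ∈ U, Adm h S.B S.M (orb h (ψ z) (δ z) k).1 (orb h (ψ z) (δ z) k).2 :=
      fun z hz => (at_k (hs z hz) hm (fun j hj => stay_mem (hs z hz) hm (by omega))).2.2.1
    constructor
    · refine (nextP_differentiableOn S.T.ent S.bnd hU i1 i2 hA).congr (fun z hz => ?_)
      rw [orb_succ]
    · refine (nextD_differentiableOn S.T.ent S.bnd hU i1 i2 hA).congr (fun z hz => ?_)
      rw [orb_succ]

end Setup

end Vale.Agent.P097.Cusp
end

section

namespace Vale.Agent.P097.Cusp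

open Complex Filter Topology
open scoped ComplexConjugate

theorem lip_of_bound {f : ℂ → ℂ} {r C : ℝ} (hr : 0 < r)
    (hf : DifferentiableOn ℂ f (Metric.ball 0 r)) (hC : ∀ z ∈ Metric.ball (0 : ℂ) r, ‖f z‖ ≤ C)
    {a b : ℂ} (ha : ‖a‖ ≤ r / 2) (hb : ‖b‖ ≤ r / 2) : ‖f b - f a‖ ≤ 4 * C / r * ‖b - a‖ := by
  refine (convex_closedBall (0 : ℂ) (r / 2)).norm_image_sub_le_of_norm_hasDerivWithin_le
    (f := f) (f' := deriv f) (fun z hz => ?_) (fun z hz => ?_) (by simpa only [Metric.mem_closedBall, dist_zero_right] using ha)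
    (by simpa only [Metric.mem_closedBall, dist_zero_right] using hb)
  · have hz' : z ∈ Metric.ball (0 : ℂ) r := by
      simp only [Metric.mem_closedBall, dist_zero_right] at hz
      simp only [Metric.mem_ball, dist_zero_right]
      linarith only [hr, hz]
    exact ((hf z hz').differentiableAt (Metric.isOpen_ball.mem_nhds hz')).hasDerivAt.hasDerivWithinAt
  · simp only [Metric.mem_closedBall, dist_zero_right] at hz
    have hsub : Metric.closedBall z (r / 4) ⊆ Metric.ball (0 : ℂ) r := by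
      intro w hw
      simp only [Metric.mem_closedBall, dist_eq_norm] at hw
      simp only [Metric.mem_ball, dist_zero_right]
      have := norm_le_insert' w z
      linarith only [hr, hz, hw, this]
    have h1 : DiffContOnCl ℂ f (Metric.ball z (r / 4)) := by
      refine DifferentiableOn.diffContOnCl_ball (U := Metric.ball 0 r) hf hsub
    have h2 := Complex.norm_deriv_le_of_forall_mem_sphere_norm_le (c := z) (R := r / 4)
      (C := C) (by positivity) h1 (fun w hw => hC w (hsub (Metric.sphere_subset_closedBall hw)))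
    calc ‖deriv f z‖ ≤ C / (r / 4) := h2
      _ = 4 * C / r := by (clear * - hr; field_simp)

/-- conjugation by the reflection in the imaginary axis preserves holomorphy -/
theorem diff_refl {f : ℂ → ℂ} {U : Set ℂ} (hU : IsOpen U) (hs : ∀ z ∈ U, -conj z ∈ U)
    (hf : DifferentiableOn ℂ f U) : DifferentiableOn ℂ (fun z => conj (f (-conj z))) U := by
  intro z hz
  have h1 := hs z hz
  have h2 := ((hf _ h1).differentiableAt (hU.mem_nhds h1)).conj_conj
  have e : conj (-conj z) = -z := by simp only [map_neg, RingHomCompTriple.comp_apply, RingHom.id_apply]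
  rw [e] at h2
  have h3 : DifferentiableAt ℂ (fun z : ℂ => -z) z := differentiableAt_id.neg
  have h4 := h2.comp z h3
  refine (h4.congr_of_eventuallyEq (Eventually.of_forall fun w => ?_)).differentiableWithinAt
  simp only [Function.comp, map_neg]

namespace Setup

variable {h : ℂ → ℂ} {H Y : ℝ} (S : Setup h H Y)

/-- constants -/
noncomputable def c3 : ℝ := min S.c2 (min (S.r1 / (400 * S.K)) (S.c1 / S.C4))

theorem c3_pos : 0 < S.c3 := by
  have h1 := S.c1_pos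
  have h2 := S.c2_pos
  have h3 := S.K_pos
  have h4 := S.r1_pos
  have h6 := S.C4_ge
  rw [c3]; (clear * - h2 h4 h3 h1 h6; positivity)

theorem c3_le_c2 : S.c3 ≤ S.c2 := min_le_left _ _

theorem c3_K : S.K * S.c3 ≤ S.r1 / 400 := by
  have h3 := S.K_pos
  have h5 : S.c3 ≤ S.r1 / (400 * S.K) := (min_le_right _ _).trans (min_le_left _ _)
  calc S.K * S.c3 ≤ S.K * (S.r1 / (400 * S.K)) := by gcongr
    _ = _ := by (clear * - h3; field_simp)

theorem c3_C4 : S.C4 * S.c3 ≤ S.c1 := by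
  have h6 := S.C4_ge
  have h5 : S.c3 ≤ S.c1 / S.C4 := (min_le_right _ _).trans (min_le_right _ _)
  calc S.C4 * S.c3 ≤ S.C4 * (S.c1 / S.C4) := by gcongr
    _ = _ := by (clear * - h6; field_simp)

/-- admissible starting points -/
structure Gd (m : ℕ) (z : ℂ) : Prop where
  mem : z ∈ S.Ω
  cone : Cone Y z
  small : 2 * S.p0 m ≤ S.c3 * pot Y z * ‖qq h z‖
  Xre : |(S.X z).re| ≤ S.κ / 8
  Xbot : -(S.κ / 8) ≤ (S.X z).im
  Xtop : ∃ y : ℝ, 0 ≤ y ∧ y < Y ∧ (S.X z).im ≤ (S.X (y * I)).im + S.κ / 8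

/-- the initial half step -/
noncomputable def dl (m : ℕ) (z a : ℂ) : ℂ := (S.p0 m : ℂ) * (1 + a) / qq h z

/-- the end point of the half orbit -/
noncomputable def AP (m : ℕ) (z a : ℂ) : ℂ := (orb h z (S.dl m z a) m).1

/-- the last half step of the half orbit -/
noncomputable def AD (m : ℕ) (z a : ℂ) : ℂ := (orb h z (S.dl m z a) m).2

/-- normalised error in position -/
noncomputable def EE (m : ℕ) (z a : ℂ) : ℂ :=
  2 * (S.X (S.AP m z a) - S.X z - 2 * m * ((S.p0 m : ℂ) * (1 + a))) / S.Lx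

/-- normalised error in the invariant -/
noncomputable def ee (m : ℕ) (z a : ℂ) : ℂ :=
  (qq h (S.AP m z a) * S.AD m z a - (S.p0 m : ℂ) * (1 + a)) / S.p0 m

variable {S}

theorem Gd.q_dl {m : ℕ} {z : ℂ} (hz : S.Gd m z) (a : ℂ) :
    qq h z * S.dl m z a = (S.p0 m : ℂ) * (1 + a) := by
  have := S.q_ne hz.mem
  rw [dl]; field_simp

theorem norm_one_add {a : ℂ} (ha : ‖a‖ ≤ S.r1) : ‖1 + a‖ ≤ 201 / 200 := by
  have h1 := norm_add_le (1 : ℂ) a
  rw [norm_one] at h1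
  linarith only [S.r1_le, h1, ha]

theorem Gd.dl_small {m : ℕ} (hm : 0 < m) {z : ℂ} (hz : S.Gd m z) {a : ℂ} (ha : ‖a‖ ≤ S.r1) :
    ‖S.dl m z a‖ ≤ S.c3 * pot Y z := by
  have hq := norm_pos_iff.2 (S.q_ne hz.mem)
  have hp := S.p0_pos hm
  have h1 : ‖qq h z * S.dl m z a‖ ≤ 2 * S.p0 m := by
    rw [hz.q_dl, norm_mul, Complex.norm_real, Real.norm_eq_abs, abs_of_pos hp]
    have := norm_one_add ha
    (clear * - hp this; nlinarith)
  rw [norm_mul] at h1
  have h2 : ‖qq h z‖ * ‖S.dl m z a‖ ≤ ‖qq h z‖ * (S.c3 * pot Y z) := by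
    have := hz.small
    linarith only [h1, this]
  exact le_of_mul_le_mul_left h2 hq

theorem Gd.start2 {m : ℕ} (hm : 0 < m) {z : ℂ} (hz : S.Gd m z) {a : ℂ} (ha : ‖a‖ ≤ S.r1) :
    S.Start2 m z (S.dl m z a) := by
  obtain ⟨hpot, -⟩ := S.geo hz.mem hz.cone
  have hp := S.p0_pos hm
  refine ⟨hz.mem, hz.cone, (hz.dl_small hm ha).trans
    (mul_le_mul_of_nonneg_right S.c3_le_c2 hpot.le), ?_, hz.Xre, hz.Xbot, hz.Xtop⟩
  rw [hz.q_dl]
  have e : (S.p0 m : ℂ) * (1 + a) - S.p0 m = S.p0 m * a := by ring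
  rw [e, norm_mul, Complex.norm_real, Real.norm_eq_abs, abs_of_pos hp, mul_comm]
  gcongr

theorem Gd.bounds {m : ℕ} (hm : 0 < m) {z : ℂ} (hz : S.Gd m z) {a : ℂ} (ha : ‖a‖ ≤ S.r1) :
    ‖S.EE m z a‖ ≤ S.r1 / 200 ∧ ‖S.ee m z a‖ ≤ S.r1 / 200 := by
  have hp := S.p0_pos hm
  have hK := S.K_pos
  have hL := S.Lx0
  have hc3 := S.c3_pos
  have hr1 := S.r1_pos
  have hs := hz.start2 hm ha
  obtain ⟨hpot, -⟩ := S.geo hz.mem hz.cone
  obtain ⟨k1, k2, k3, k4⟩ := core (hs.start hm) m (fun j hj => stay_mem hs hm hj)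
  obtain ⟨w1, -⟩ := weak (hs.start hm) (S.geo (stay_mem hs hm le_rfl) k1).1 k3
  rw [hz.q_dl] at w1 k4
  have hD : ‖S.dl m z a‖ / pot Y z ≤ S.c3 := by
    rw [div_le_iff₀ hpot]; exact hz.dl_small hm ha
  have hn : ‖(S.p0 m : ℂ) * (1 + a)‖ ≤ 201 / 200 * S.p0 m := by
    rw [norm_mul, Complex.norm_real, Real.norm_eq_abs, abs_of_pos hp, mul_comm]
    gcongr
    exact norm_one_add ha
  have hKc := S.c3_K
  have hKD : S.K * (‖S.dl m z a‖ / pot Y z) ≤ S.r1 / 400 :=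
    (mul_le_mul_of_nonneg_left hD hK.le).trans hKc
  have hKD0 : 0 ≤ S.K * (‖S.dl m z a‖ / pot Y z) := by (clear * - hK hpot; positivity)
  constructor
  · rw [EE, norm_div, norm_mul, Complex.norm_real, Real.norm_eq_abs, abs_of_pos hL,
      div_le_iff₀ hL]
    have n2 : ‖(2 : ℂ)‖ = 2 := by norm_num
    rw [n2]
    have h1 : ‖S.X (S.AP m z a) - S.X z - 2 * m * ((S.p0 m : ℂ) * (1 + a))‖
        ≤ m * (3 * (S.r1 / 400)) * (201 / 200 * S.p0 m) := by
      refine k4.trans ?_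
      rw [show 3 * S.K * (‖S.dl m z a‖ / pot Y z) = 3 * (S.K * (‖S.dl m z a‖ / pot Y z)) by ring]
      gcongr
    have h2 : m * (3 * (S.r1 / 400)) * (201 / 200 * S.p0 m)
        = (603 / 160000) * S.r1 * (2 * m * S.p0 m) := by ring
    rw [h2, S.m_p0 hm] at h1
    have := mul_pos hr1 hL
    linarith only [h1, this]
  · rw [ee, norm_div, Complex.norm_real, Real.norm_eq_abs, abs_of_pos hp, div_le_iff₀ hp]
    refine w1.trans ?_
    calc ‖(S.p0 m : ℂ) * (1 + a)‖ * (S.K * (‖S.dl m z a‖ / pot Y z))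
        ≤ (201 / 200 * S.p0 m) * (S.r1 / 400) := by (clear * - hn hKD hK hpot hp; gcongr)
      _ ≤ S.r1 / 200 * S.p0 m := by
          have := mul_pos hr1 hp
          linarith only [this]

theorem holo {m : ℕ} (hm : 0 < m) {U : Set ℂ} (hU : IsOpen U) {z a : ℂ → ℂ}
    (hz : DifferentiableOn ℂ z U) (ha : DifferentiableOn ℂ a U)
    (hg : ∀ s ∈ U, S.Gd m (z s)) (hb : ∀ s ∈ U, ‖a s‖ ≤ S.r1) :
    DifferentiableOn ℂ (fun s => S.EE m (z s) (a s)) U ∧
    DifferentiableOn ℂ (fun s => S.ee m (z s) (a s)) U := by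
  have hq : DifferentiableOn ℂ (fun s => qq h (z s)) U := by
    intro s hs
    have h1 := (S.T.diff_rho (z s)).hasDerivAt.cpow_const (c := (1 / 3 : ℂ)) (S.sl _ (hg s hs).mem)
    exact h1.differentiableAt.comp_differentiableWithinAt s (hz s hs)
  have hd : DifferentiableOn ℂ (fun s => S.dl m (z s) (a s)) U :=
    ((ha.const_add 1).const_mul _).div hq (fun s hs => S.q_ne (hg s hs).mem)
  obtain ⟨o1, o2⟩ := orb_holo hm hU hz hd (fun s hs => (hg s hs).start2 hm (hb s hs)) le_rfl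
  have hqA : DifferentiableOn ℂ (fun s => qq h (S.AP m (z s) (a s))) U := by
    intro s hs
    have h0 := stay_mem ((hg s hs).start2 hm (hb s hs)) hm le_rfl
    have h1 := (S.T.diff_rho _).hasDerivAt.cpow_const (c := (1 / 3 : ℂ)) (S.sl _ h0)
    exact h1.differentiableAt.comp_differentiableWithinAt s (o1 s hs)
  have hXA : DifferentiableOn ℂ (fun s => S.X (S.AP m (z s) (a s))) U := by
    intro s hs
    have h0 := stay_mem ((hg s hs).start2 hm (hb s hs)) hm le_rfl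
    exact (S.XD _ h0).differentiableAt.comp_differentiableWithinAt s (o1 s hs)
  have hXz : DifferentiableOn ℂ (fun s => S.X (z s)) U := by
    intro s hs
    exact (S.XD _ (hg s hs).mem).differentiableAt.comp_differentiableWithinAt s (hz s hs)
  constructor
  · simp only [EE]
    exact (((hXA.sub hXz).sub (((ha.const_add 1).const_mul _).const_mul _)).const_mul _).div_const _
  · simp only [ee]
    exact ((hqA.mul o2).sub ((ha.const_add 1).const_mul _)).div_const _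

/-- the two matching equations -/
def Eqs (S : Setup h H Y) (m : ℕ) (z a b : ℂ) : Prop :=
  a + b + S.EE m z a + conj (S.EE m (-conj z) (conj b)) = 0 ∧
  a + S.ee m z a = b + conj (S.ee m (-conj z) (conj b))

/-- the contraction -/
noncomputable def gg (S : Setup h H Y) (m : ℕ) (z : ℂ) (u : ℂ × ℂ) : ℂ × ℂ :=
  ((-(S.EE m z u.1 + conj (S.EE m (-conj z) (conj u.2)))
      + (conj (S.ee m (-conj z) (conj u.2)) - S.ee m z u.1)) / 2,
   (-(S.EE m z u.1 + conj (S.EE m (-conj z) (conj u.2)))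
      - (conj (S.ee m (-conj z) (conj u.2)) - S.ee m z u.1)) / 2)

theorem gg_iff (m : ℕ) (z : ℂ) (u : ℂ × ℂ) : gg S m z u = u ↔ Eqs S m z u.1 u.2 := by
  rw [gg, Eqs, Prod.ext_iff]
  simp only
  constructor
  · rintro ⟨h1, h2⟩
    constructor
    · linear_combination -h1 - h2
    · linear_combination -h1 + h2
  · rintro ⟨h1, h2⟩
    constructor
    · linear_combination -(1 / 2) * h1 - (1 / 2) * h2
    · linear_combination -(1 / 2) * h1 + (1 / 2) * h2

theorem half_add {x y : ℂ} {C : ℝ} (hx : ‖x‖ ≤ C) (hy : ‖y‖ ≤ C) : ‖(x + y) / 2‖ ≤ C := by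
  rw [norm_div]
  have : ‖(2 : ℂ)‖ = 2 := by norm_num
  rw [this]
  have := norm_add_le x y
  linarith

theorem gg_bound {m : ℕ} {z : ℂ} {u u' : ℂ × ℂ} {C : ℝ}
    (h1 : ‖S.EE m z u.1 - S.EE m z u'.1‖ ≤ C)
    (h2 : ‖S.EE m (-conj z) (conj u.2) - S.EE m (-conj z) (conj u'.2)‖ ≤ C)
    (h3 : ‖S.ee m z u.1 - S.ee m z u'.1‖ ≤ C)
    (h4 : ‖S.ee m (-conj z) (conj u.2) - S.ee m (-conj z) (conj u'.2)‖ ≤ C) :
    ‖gg S m z u - gg S m z u'‖ ≤ 2 * C := by
  have h2' : ‖conj (S.EE m (-conj z) (conj u.2)) - conj (S.EE m (-conj z) (conj u'.2))‖ ≤ C := by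
    rw [← map_sub, Complex.norm_conj]; exact h2
  have h4' : ‖conj (S.ee m (-conj z) (conj u.2)) - conj (S.ee m (-conj z) (conj u'.2))‖ ≤ C := by
    rw [← map_sub, Complex.norm_conj]; exact h4
  rw [Prod.norm_def]
  simp only [gg, Prod.fst_sub, Prod.snd_sub]
  generalize conj (S.EE m (-conj z) (conj u.2)) = B1 at *
  generalize conj (S.EE m (-conj z) (conj u'.2)) = B2 at *
  generalize conj (S.ee m (-conj z) (conj u.2)) = D1 at *
  generalize conj (S.ee m (-conj z) (conj u'.2)) = D2 at *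
  generalize S.EE m z u.1 = A1 at *
  generalize S.EE m z u'.1 = A2 at *
  generalize S.ee m z u.1 = C1 at *
  generalize S.ee m z u'.1 = C2 at *
  have hs : ‖(A1 - A2) + (B1 - B2)‖ ≤ 2 * C := by
    have := norm_add_le (A1 - A2) (B1 - B2); linarith only [h2', h1, this]
  have ht : ‖(D1 - D2) - (C1 - C2)‖ ≤ 2 * C := by
    have := norm_sub_le (D1 - D2) (C1 - C2); linarith only [h4', h3, this]
  refine max_le ?_ ?_
  · have e : (-(A1 + B1) + (D1 - C1)) / 2 - (-(A2 + B2) + (D2 - C2)) / 2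
        = (-((A1 - A2) + (B1 - B2)) + ((D1 - D2) - (C1 - C2))) / 2 := by ring
    rw [e]
    exact half_add (by rw [norm_neg]; exact hs) ht
  · have e : (-(A1 + B1) - (D1 - C1)) / 2 - (-(A2 + B2) - (D2 - C2)) / 2
        = (-((A1 - A2) + (B1 - B2)) + -((D1 - D2) - (C1 - C2))) / 2 := by ring
    rw [e]
    exact half_add (by rw [norm_neg]; exact hs) (by rw [norm_neg]; exact ht)

theorem lip_EE {m : ℕ} (hm : 0 < m) {z : ℂ} (hz : S.Gd m z) {a b : ℂ} (ha : ‖a‖ ≤ S.r1 / 2)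
    (hb : ‖b‖ ≤ S.r1 / 2) : ‖S.EE m z b - S.EE m z a‖ ≤ 1 / 50 * ‖b - a‖ ∧
      ‖S.ee m z b - S.ee m z a‖ ≤ 1 / 50 * ‖b - a‖ := by
  have hr := S.r1_pos
  have hle : ∀ a ∈ Metric.ball (0 : ℂ) S.r1, ‖a‖ ≤ S.r1 := by
    intro a ha
    simp only [Metric.mem_ball, dist_zero_right] at ha
    exact ha.le
  obtain ⟨d1, d2⟩ := holo hm (U := Metric.ball (0 : ℂ) S.r1) Metric.isOpen_ball
    (z := fun _ => z) (a := fun a => a) (differentiableOn_const _) differentiableOn_id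
    (fun _ _ => hz) hle
  have e : 4 * (S.r1 / 200) / S.r1 = 1 / 50 := by field_simp; norm_num
  constructor
  · have := lip_of_bound hr d1 (fun a ha => (hz.bounds hm (hle a ha)).1) ha hb
    rwa [e] at this
  · have := lip_of_bound hr d2 (fun a ha => (hz.bounds hm (hle a ha)).2) ha hb
    rwa [e] at this

theorem glue {m : ℕ} (hm : 0 < m) {U : Set ℂ} (hU : IsOpen U) (hsym : ∀ z ∈ U, -conj z ∈ U)
    (hg : ∀ z ∈ U, S.Gd m z) :
    ∃ a b : ℂ → ℂ, DifferentiableOn ℂ a U ∧ DifferentiableOn ℂ b U ∧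
      ∀ z ∈ U, ‖a z‖ ≤ S.r1 / 2 ∧ ‖b z‖ ≤ S.r1 / 2 ∧ Eqs S m z (a z) (b z) ∧
        ∀ a' b' : ℂ, ‖a'‖ ≤ S.r1 / 2 → ‖b'‖ ≤ S.r1 / 2 → Eqs S m z a' b' →
          a' = a z ∧ b' = b z := by
  have hr := S.r1_pos
  obtain ⟨u, hu1, hu2⟩ := holFix (E := ℂ × ℂ) hU (S.r1 / 2) (by positivity)
    (fun z u => gg S m z u) (1 / 2) (by norm_num) (by norm_num)
    (fun z hz u hu => by
      have h1 : ‖u.1‖ ≤ S.r1 := (norm_fst_le u).trans (hu.trans (by linarith only [hr]))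
      have h2 : ‖conj u.2‖ ≤ S.r1 := by
        rw [Complex.norm_conj]; exact (norm_snd_le u).trans (hu.trans (by linarith only [hr]))
      obtain ⟨b1, b2⟩ := (hg z hz).bounds hm h1
      obtain ⟨b3, b4⟩ := (hg _ (hsym z hz)).bounds hm h2
      have b3' : ‖conj (S.EE m (-conj z) (conj u.2))‖ ≤ S.r1 / 200 := by
        rw [Complex.norm_conj]; exact b3
      have b4' : ‖conj (S.ee m (-conj z) (conj u.2))‖ ≤ S.r1 / 200 := by
        rw [Complex.norm_conj]; exact b4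
      simp only [gg]
      rw [Prod.norm_def]
      have c1 : ‖-(S.EE m z u.1 + conj (S.EE m (-conj z) (conj u.2)))‖ ≤ S.r1 / 100 := by
        rw [norm_neg]; have := norm_add_le (S.EE m z u.1) (conj (S.EE m (-conj z) (conj u.2)))
        linarith only [this, b3', b1]
      have c2 : ‖conj (S.ee m (-conj z) (conj u.2)) - S.ee m z u.1‖ ≤ S.r1 / 100 := by
        have := norm_sub_le (conj (S.ee m (-conj z) (conj u.2))) (S.ee m z u.1)
        linarith only [b2, b4', this]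
      refine max_le ?_ ?_
      · exact (half_add c1 c2).trans (by linarith only [hr])
      · have c2' : ‖-(conj (S.ee m (-conj z) (conj u.2)) - S.ee m z u.1)‖ ≤ S.r1 / 100 := by
          rw [norm_neg]; exact c2
        have c3 := half_add c1 c2'
        rw [← sub_eq_add_neg] at c3
        exact c3.trans (by linarith only [hr]))
    (fun z hz u v hu hv => by
      have h1 : ‖u.1‖ ≤ S.r1 / 2 := (norm_fst_le u).trans hu
      have h1' : ‖v.1‖ ≤ S.r1 / 2 := (norm_fst_le v).trans hv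
      have h2 : ‖conj u.2‖ ≤ S.r1 / 2 := by
        rw [Complex.norm_conj]; exact (norm_snd_le u).trans hu
      have h2' : ‖conj v.2‖ ≤ S.r1 / 2 := by
        rw [Complex.norm_conj]; exact (norm_snd_le v).trans hv
      obtain ⟨b1, b2⟩ := lip_EE hm (hg z hz) h1' h1
      obtain ⟨b3, b4⟩ := lip_EE hm (hg _ (hsym z hz)) h2' h2
      rw [← map_sub, Complex.norm_conj] at b3 b4
      have n1 : ‖u.1 - v.1‖ ≤ ‖u - v‖ := norm_fst_le (u - v)
      have n2 : ‖u.2 - v.2‖ ≤ ‖u - v‖ := norm_snd_le (u - v)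
      have := gg_bound (S := S) (m := m) (z := z) (u := u) (u' := v) (C := 1 / 50 * ‖u - v‖)
        (b1.trans (by (clear * - n1; gcongr))) (b3.trans (by (clear * - n2; gcongr))) (b2.trans (by (clear * - n1; gcongr)))
        (b4.trans (by (clear * - n2; gcongr)))
      have := norm_nonneg (u - v)
      (clear hm U hU hsym hg hr hz hu hv h1 h1' h2 h2'; linarith))
    (by
      intro u hu hub
      have u1 : DifferentiableOn ℂ (fun z => (u z).1) U := hu.fst
      have u2 : DifferentiableOn ℂ (fun z => (u z).2) U := hu.snd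
      have hb1 : ∀ z ∈ U, ‖(u z).1‖ ≤ S.r1 := fun z hz =>
        (norm_fst_le (u z)).trans ((hub z hz).trans (by linarith only [hr]))
      have u2' : DifferentiableOn ℂ (fun z => conj ((u (-conj z)).2)) U :=
        diff_refl hU hsym u2
      have hb2 : ∀ z ∈ U, ‖conj ((u (-conj z)).2)‖ ≤ S.r1 := fun z hz => by
        rw [Complex.norm_conj]
        exact (norm_snd_le (u _)).trans ((hub _ (hsym z hz)).trans (by linarith only [hr]))
      obtain ⟨o1, o2⟩ := holo hm hU (z := fun z => z) (a := fun z => (u z).1)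
        differentiableOn_id u1 hg hb1
      obtain ⟨o3, o4⟩ := holo hm hU (z := fun z => z) (a := fun z => conj ((u (-conj z)).2))
        differentiableOn_id u2' hg hb2
      have o3' := diff_refl hU hsym o3
      have o4' := diff_refl hU hsym o4
      have e : ∀ z : ℂ, -conj (-conj z) = z := by intro z; simp only [map_neg, RingHomCompTriple.comp_apply, RingHom.id_apply, neg_neg]
      simp only [e] at o3' o4'
      simp only [gg]
      exact (((o1.add o3').neg.add (o4'.sub o2)).div_const 2).prodMk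
        (((o1.add o3').neg.sub (o4'.sub o2)).div_const 2))
  refine ⟨fun z => (u z).1, fun z => (u z).2, hu1.fst, hu1.snd, fun z hz => ?_⟩
  obtain ⟨a1, a2, a3⟩ := hu2 z hz
  refine ⟨(norm_fst_le _).trans a1, (norm_snd_le _).trans a1, (gg_iff m z (u z)).1 a2, ?_⟩
  intro a' b' ha' hb' he
  have h1 := a3 (a', b') (by rw [Prod.norm_def]; exact max_le ha' hb')
    ((gg_iff m z (a', b')).2 he)
  exact ⟨congrArg Prod.fst h1, congrArg Prod.snd h1⟩

end Setup

end Vale.Agent.P097.Cusp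
end

section

namespace Vale.Agent.P097.Cusp

open Complex Filter Topology
open scoped ComplexConjugate

/-- a real orbit segment of the billiard in the angle coordinates -/
structure RealOrb (h : ℂ → ℂ) (n : ℕ) (Xs Ds : ℕ → ℝ) : Prop where
  pos : ∀ k ≤ n, 0 < Ds k ∧ Ds k < Real.pi
  step : ∀ k < n, Xs (k + 1) = Xs k + Ds k + Ds (k + 1) ∧
    lp h ((Xs k + Ds k : ℝ) : ℂ) ((Ds (k + 1) : ℝ) : ℂ)
      = lp h ((Xs k + Ds k : ℝ) : ℂ) ((-(Ds k) : ℝ) : ℂ)

theorem lp_conj {h : ℂ → ℂ} (hr : ∀ z, h (conj z) = conj (h z)) (φ x : ℂ) :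
    lp h (conj φ) (conj x) = conj (lp h φ x) := by
  simp only [lp]
  rw [← map_add, hr, deriv_of_real hr, map_sub, map_mul, map_mul, Complex.cos_conj,
    Complex.sin_conj]

namespace SymTable

variable {h : ℂ → ℂ} {H Y : ℝ} (T : SymTable h H Y)
include T

theorem lp_refl (φ x : ℂ) : lp h (2 * H - φ) x = lp h φ (-x) := by
  have e : (2 * H - φ + x : ℂ) = -(φ + -x) + 2 * H := by ring
  simp only [lp]
  rw [e, T.per, T.even, deriv_of_per T.per, deriv_of_even T.even, Complex.cos_neg,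
    Complex.sin_neg]
  ring

theorem refl_orb {n : ℕ} {Xs Ds : ℕ → ℝ} (ho : RealOrb h n Xs Ds) :
    RealOrb h n (fun k => 2 * H - Xs (n - k)) (fun k => Ds (n - k)) := by
  refine ⟨fun k _ => ho.pos _ (by omega), fun k hk => ?_⟩
  obtain ⟨j, hj⟩ : ∃ j, j = n - (k + 1) := ⟨_, rfl⟩
  have e1 : n - (k + 1) = j := hj.symm
  have e2 : n - k = j + 1 := by omega
  simp only [e1, e2]
  obtain ⟨s1, s2⟩ := ho.step j (by omega)
  constructor
  · rw [s1]; ring
  · have e3 : ((2 * H - Xs (j + 1) + Ds (j + 1) : ℝ) : ℂ)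
        = 2 * H - ((Xs j + Ds j : ℝ) : ℂ) := by
      rw [s1]; push_cast; ring
    rw [e3, T.lp_refl, T.lp_refl]
    have e4 : -((Ds j : ℝ) : ℂ) = ((-(Ds j) : ℝ) : ℂ) := by push_cast; ring
    have e5 : -((-(Ds (j + 1)) : ℝ) : ℂ) = ((Ds (j + 1) : ℝ) : ℂ) := by push_cast; ring
    rw [e4, e5]
    exact s2.symm

/-- uniqueness of the real bounce -/
theorem real_unique {φ a b : ℝ} (ha : 0 < a) (ha' : a < Real.pi) (hb : 0 < b)
    (hb' : b < Real.pi) (he : lp h (φ : ℂ) (a : ℂ) = lp h (φ : ℂ) (b : ℂ)) : a = b := by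
  wlog hab : a < b generalizing a b with Hw
  · rcases lt_trichotomy a b with h1 | h1 | h1
    · exact absurd h1 hab
    · exact h1
    · exact (Hw hb hb' ha ha' he.symm h1).symm
  exfalso
  have hd : ∀ x : ℝ, HasDerivAt (fun x : ℝ => (lp h (φ : ℂ) (x : ℂ)).re)
      (-(rho h ((φ + x : ℝ) : ℂ)).re * Real.sin x) x := by
    intro x
    have h1 := (hasDerivAt_lp T.ent (φ : ℂ) (x : ℂ)).real_of_complex
    refine h1.congr_deriv ?_
    have e1 : ((φ + x : ℝ) : ℂ) = (φ : ℂ) + x := by push_cast; ring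
    have e2 := T.rho_real_im (φ + x)
    rw [e1] at e2 ⊢
    rw [Complex.neg_re, Complex.mul_re, e2, ← Complex.ofReal_sin, Complex.ofReal_re]
    ring
  obtain ⟨c, hc, hc2⟩ := exists_hasDerivAt_eq_slope
    (fun x : ℝ => (lp h (φ : ℂ) (x : ℂ)).re)
    (fun x : ℝ => -(rho h ((φ + x : ℝ) : ℂ)).re * Real.sin x) hab
    (fun x _ => (hd x).continuousAt.continuousWithinAt) (fun x _ => hd x)
  rw [he, sub_self, zero_div] at hc2
  have h1 := T.pos (φ + c)
  have h2 := Real.sin_pos_of_pos_of_lt_pi (by linarith [hc.1]) (by linarith [hc.2] : c < Real.pi)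
  have := mul_pos h1 h2
  linarith

theorem q_refl (x : ℝ) : qq h ((2 * H - x : ℝ) : ℂ) = qq h (x : ℂ) := by
  have : rho h ((2 * H - x : ℝ) : ℂ) = rho h (x : ℂ) := by
    have := T.rho_refl (x : ℂ)
    rw [← this]; push_cast; rfl
  rw [qq, this, qq]

theorem q_neg (x : ℝ) : qq h ((-x : ℝ) : ℂ) = qq h (x : ℂ) := by
  have : rho h ((-x : ℝ) : ℂ) = rho h (x : ℂ) := by
    have := T.rho_neg (x : ℂ)
    rw [← this]; push_cast; rfl
  rw [qq, this, qq]

theorem real_step {B M : ℝ} (hB : Bnd h B M) {ψ δ δ' : ℝ} (hA : Adm h B M (ψ : ℂ) (δ : ℂ))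
    (hδ : 0 < δ) (hδ' : 0 < δ') (hδ'' : δ' < Real.pi)
    (he : lp h ((ψ + δ : ℝ) : ℂ) (δ' : ℂ) = lp h ((ψ + δ : ℝ) : ℂ) ((-δ : ℝ) : ℂ)) :
    nextD h (ψ : ℂ) (δ : ℂ) = (δ' : ℂ) := by
  obtain ⟨hu, hu2⟩ := nextU_spec T.ent hB hA
  have hds := (est T.ent hB hA).dsmall
  -- the solution is real
  have hreal : conj (nextU h (ψ : ℂ) (δ : ℂ)) = nextU h (ψ : ℂ) (δ : ℂ) := by
    refine nextU_unique T.ent hB hA (by rw [Complex.norm_conj]; exact hu) ?_
    have h1 := congrArg conj hu2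
    rw [← lp_conj T.real, ← lp_conj T.real, nextD] at h1
    simpa using h1
  obtain ⟨u, hudef⟩ : ∃ u : ℝ, nextU h (ψ : ℂ) (δ : ℂ) = (u : ℂ) :=
    ⟨_, (Complex.conj_eq_iff_re.1 hreal).symm⟩
  rw [nextD, hudef] at hu2 ⊢
  rw [hudef, Complex.norm_real, Real.norm_eq_abs] at hu
  have hu' := abs_le.1 hu
  rw [Complex.norm_real, Real.norm_eq_abs, abs_of_pos hδ] at hds
  have hpi := Real.pi_gt_three
  have e1 : (δ : ℂ) * (1 + (u : ℂ)) = ((δ * (1 + u) : ℝ) : ℂ) := by push_cast; ring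
  have e2 : (ψ : ℂ) + δ = ((ψ + δ : ℝ) : ℂ) := by push_cast; ring
  have e3 : -(δ : ℂ) = ((-δ : ℝ) : ℂ) := by push_cast; ring
  rw [e1] at hu2 ⊢
  rw [e2, e3, ← he] at hu2
  have := T.real_unique (φ := ψ + δ) (a := δ * (1 + u)) (b := δ') (by nlinarith) (by nlinarith)
    hδ' hδ'' hu2
  rw [this]

end SymTable

namespace Setup

variable {h : ℂ → ℂ} {H Y : ℝ} {S : Setup h H Y}

theorem real_orbit {n : ℕ} {Xs Ds : ℕ → ℝ} (ho : RealOrb h n Xs Ds)
    (hs : S.Start ((Xs 0 : ℝ) : ℂ) ((Ds 0 : ℝ) : ℂ)) {k : ℕ} (hk : k ≤ n)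
    (hΩ : ∀ j < k, ((Xs j : ℝ) : ℂ) ∈ S.Ω) :
    ∀ j ≤ k, orb h ((Xs 0 : ℝ) : ℂ) ((Ds 0 : ℝ) : ℂ) j = (((Xs j : ℝ) : ℂ), ((Ds j : ℝ) : ℂ)) := by
  induction k with
  | zero =>
    intro j hj
    obtain rfl : j = 0 := by omega
    rw [orb_zero]
  | succ k ih =>
    have ih' := ih (by omega) (fun j hj => hΩ j (by omega))
    intro j hj
    rcases Nat.lt_or_ge j (k + 1) with h1 | h1
    · exact ih' j (by omega)
    · obtain rfl : j = k + 1 := by omega
      have hΩ' : ∀ j ≤ k, (orb h ((Xs 0 : ℝ) : ℂ) ((Ds 0 : ℝ) : ℂ) j).1 ∈ S.Ω := by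
        intro j hj
        rw [ih' j hj]
        exact hΩ j (by omega)
      obtain ⟨c1, c2, c3, c4⟩ := core hs k hΩ'
      have hz := hΩ' k le_rfl
      obtain ⟨-, w2⟩ := weak hs (S.geo hz c1).1 c3
      obtain ⟨-, -, -, hA, -⟩ := cons hs hz c1 c2 w2
      rw [ih' k le_rfl] at hA
      simp only at hA
      obtain ⟨s1, s2⟩ := ho.step k (by omega)
      have h3 := S.T.real_step S.bnd hA (ho.pos k (by omega)).1 (ho.pos (k + 1) (by omega)).1
        (ho.pos (k + 1) (by omega)).2 s2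
      rw [orb_succ, ih' k le_rfl]
      simp only
      rw [nextP, h3, s1]
      simp only [Complex.ofReal_add]

/-- the real points of the region -/
theorem real_mem {x : ℝ} (h1 : -(S.t * Y) < x) (h2 : x < H + S.σ) : (x : ℂ) ∈ S.Ω := by
  have hY := S.T.Ypos
  have hσ := S.σ0
  refine ⟨?_, ?_, ?_, ?_⟩ <;> simp <;> linarith

theorem q_real {x : ℝ} (hx : (x : ℂ) ∈ S.Ω) : conj (qq h (x : ℂ)) = qq h (x : ℂ) := by
  have h1 := qq_conj (z' := (x : ℂ)) (S.sl _ hx) (by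
    have := S.T.rho_conj (x : ℂ)
    rwa [Complex.conj_ofReal] at this)
  exact h1.symm

theorem q_real' {x : ℝ} (hx : (x : ℂ) ∈ S.Ω) :
    qq h (x : ℂ) = ((‖qq h (x : ℂ)‖ : ℝ) : ℂ) := by
  have h1 := Complex.conj_eq_iff_re.1 (q_real hx)
  have h2 := S.qre _ hx
  have h3 : 0 < ‖qq h (x : ℂ)‖ := norm_pos_iff.2 (S.q_ne hx)
  have h4 : ‖qq h (x : ℂ)‖ = (qq h (x : ℂ)).re := by
    rw [← h1, Complex.norm_real, Complex.ofReal_re, Real.norm_eq_abs, abs_of_pos (by linarith)]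
  rw [h4, h1]

theorem X_real {x : ℝ} (hx : (x : ℂ) ∈ S.Ω) : conj (S.X (x : ℂ)) = S.X (x : ℂ) := by
  have := S.Xconj _ hx (by rw [Complex.conj_ofReal]; exact hx)
  rw [Complex.conj_ofReal] at this
  exact this.symm

theorem real_start {x D : ℝ} (hx : (x : ℂ) ∈ S.Ω) (hc : Cone Y (x : ℂ)) (hD : 0 < D)
    (hs : D ≤ S.c1 * pot Y (x : ℂ)) : S.Start (x : ℂ) (D : ℂ) := by
  have h1 := q_real' hx
  have h2 : qq h (x : ℂ) * (D : ℂ) = ((‖qq h (x : ℂ)‖ * D : ℝ) : ℂ) := by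
    rw [Complex.ofReal_mul, ← h1]
  have h3 : 0 < ‖qq h (x : ℂ)‖ := norm_pos_iff.2 (S.q_ne hx)
  refine ⟨hx, hc, by exact_mod_cast hD.ne', ?_, ?_, ?_⟩
  · rw [Complex.norm_real, Real.norm_eq_abs, abs_of_pos hD]; exact hs
  · rw [h2, Complex.norm_real, Complex.ofReal_re, Real.norm_eq_abs, abs_of_pos (by positivity)]
    have : 0 < ‖qq h (x : ℂ)‖ * D := by positivity
    linarith
  · rw [h2, Complex.ofReal_im, abs_zero]; positivity

end Setup

end Vale.Agent.P097.Cusp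
end

section

namespace Vale.Agent.P097.Cusp

open Complex Filter Topology
open scoped ComplexConjugate

namespace Setup

variable {h : ℂ → ℂ} {H Y : ℝ} {S : Setup h H Y}

theorem real_half {m n : ℕ} (hm : 0 < m) (hmn : m ≤ n) {Xs Ds : ℕ → ℝ}
    (ho : RealOrb h n Xs Ds) (hs : S.Start2 m ((Xs 0 : ℝ) : ℂ) ((Ds 0 : ℝ) : ℂ)) :
    ∀ j ≤ m, orb h ((Xs 0 : ℝ) : ℂ) ((Ds 0 : ℝ) : ℂ) j = (((Xs j : ℝ) : ℂ), ((Ds j : ℝ) : ℂ)) := by
  have key : ∀ k ≤ m, ∀ j ≤ k,
      orb h ((Xs 0 : ℝ) : ℂ) ((Ds 0 : ℝ) : ℂ) j = (((Xs j : ℝ) : ℂ), ((Ds j : ℝ) : ℂ)) := by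
    intro k
    induction k with
    | zero =>
      intro _ j hj
      obtain rfl : j = 0 := by omega
      rw [orb_zero]
    | succ k ih =>
      intro hk
      have ih' := ih (by omega)
      refine real_orbit ho (hs.start hm) (by omega) (fun j hj => ?_)
      have h1 := stay_mem hs hm (k := j) (by omega)
      rw [ih' j (by omega)] at h1
      exact h1
  exact key m le_rfl

theorem mono_seq {n : ℕ} {Xs Ds : ℕ → ℝ} (ho : RealOrb h n Xs Ds) {i j : ℕ} (hij : i ≤ j)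
    (hj : j ≤ n) : Xs i ≤ Xs j := by
  induction j with
  | zero =>
    obtain rfl : i = 0 := by omega
    exact le_rfl
  | succ j ih =>
    rcases Nat.lt_or_ge i (j + 1) with h1 | h1
    · have h2 := ih (by omega) (by omega)
      have h3 := (ho.step j (by omega)).1
      have h4 := (ho.pos j (by omega)).1
      have h5 := (ho.pos (j + 1) hj).1
      linarith only [h2, h3, h4, h5]
    · obtain rfl : i = j + 1 := by omega
      exact le_rfl

/-- The adiabatic estimate for a real orbit segment. -/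
theorem real_seg {n : ℕ} {Xs Ds : ℕ → ℝ} (ho : RealOrb h n Xs Ds)
    (hx : ((Xs 0 : ℝ) : ℂ) ∈ S.Ω) (hc : Cone Y ((Xs 0 : ℝ) : ℂ))
    (hs : Ds 0 ≤ S.c3 * pot Y ((Xs 0 : ℝ) : ℂ)) {k : ℕ} (hk : k ≤ n)
    (hΩ : ∀ j ≤ k, ((Xs j : ℝ) : ℂ) ∈ S.Ω) :
    ‖S.X ((Xs k : ℝ) : ℂ) - S.X ((Xs 0 : ℝ) : ℂ)
        - ((2 * k * (‖qq h ((Xs 0 : ℝ) : ℂ)‖ * Ds 0) : ℝ) : ℂ)‖
      ≤ k * (3 * (S.r1 / 400)) * (‖qq h ((Xs 0 : ℝ) : ℂ)‖ * Ds 0) ∧ Ds k ≤ S.σ / 20 := by
  have hD := (ho.pos 0 (by omega)).1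
  obtain ⟨hpot, -⟩ := S.geo hx hc
  have hK := S.K_pos
  have hC := S.C4_ge
  have hc3 := S.c3_pos
  have hst : S.Start ((Xs 0 : ℝ) : ℂ) ((Ds 0 : ℝ) : ℂ) :=
    real_start hx hc hD (hs.trans (mul_le_mul_of_nonneg_right
      (S.c3_le_c2.trans S.c2_le_c1) hpot.le))
  have horb := real_orbit ho hst hk (fun j hj => hΩ j hj.le)
  have hΩ' : ∀ j ≤ k, (orb h ((Xs 0 : ℝ) : ℂ) ((Ds 0 : ℝ) : ℂ) j).1 ∈ S.Ω := by
    intro j hj
    rw [horb j hj]
    exact hΩ j hj
  obtain ⟨c1, c2, c3, c4⟩ := core hst k hΩ'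
  have hz := hΩ' k le_rfl
  obtain ⟨-, w2⟩ := weak hst (S.geo hz c1).1 c3
  obtain ⟨-, -, d3, -, -⟩ := cons hst hz c1 c2 w2
  rw [horb k le_rfl] at c4 d3
  simp only at c4 d3
  have hq := q_real' hx
  have hq0 : 0 < ‖qq h ((Xs 0 : ℝ) : ℂ)‖ := norm_pos_iff.2 (S.q_ne hx)
  have e1 : qq h ((Xs 0 : ℝ) : ℂ) * ((Ds 0 : ℝ) : ℂ)
      = ((‖qq h ((Xs 0 : ℝ) : ℂ)‖ * Ds 0 : ℝ) : ℂ) := by
    rw [Complex.ofReal_mul, ← hq]
  have hDn : ‖((Ds 0 : ℝ) : ℂ)‖ = Ds 0 := by
    rw [Complex.norm_real, Real.norm_eq_abs, abs_of_pos hD]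
  have hDk : ‖((Ds k : ℝ) : ℂ)‖ = Ds k := by
    rw [Complex.norm_real, Real.norm_eq_abs, abs_of_pos (ho.pos k hk).1]
  rw [e1, hDn] at c4
  rw [hDn, hDk] at d3
  constructor
  · have e2 : S.X ((Xs k : ℝ) : ℂ) - S.X ((Xs 0 : ℝ) : ℂ)
        - ((2 * k * (‖qq h ((Xs 0 : ℝ) : ℂ)‖ * Ds 0) : ℝ) : ℂ)
        = S.X ((Xs k : ℝ) : ℂ) - S.X ((Xs 0 : ℝ) : ℂ)
        - 2 * k * ((‖qq h ((Xs 0 : ℝ) : ℂ)‖ * Ds 0 : ℝ) : ℂ) := by push_cast; ring
    rw [e2]
    refine c4.trans ?_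
    rw [Complex.norm_real, Real.norm_eq_abs, abs_of_pos (by (clear * - hq0 hD; positivity))]
    have h1 : Ds 0 / pot Y ((Xs 0 : ℝ) : ℂ) ≤ S.c3 := by rw [div_le_iff₀ hpot]; exact hs
    have h2 : 3 * S.K * (Ds 0 / pot Y ((Xs 0 : ℝ) : ℂ)) ≤ 3 * (S.r1 / 400) := by
      have := (mul_le_mul_of_nonneg_left h1 hK.le).trans S.c3_K
      linarith only [this]
    have h3 : 0 < ‖qq h ((Xs 0 : ℝ) : ℂ)‖ * Ds 0 := by (clear * - hq0 hD; positivity)
    (clear * - h2 hq0 hD; gcongr)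
  · have h1 : pot Y ((Xs 0 : ℝ) : ℂ) ≤ 4 * S.B := by
      have h2 := pot_le (Y := Y) ((Xs 0 : ℝ) : ℂ)
      have h3 := norm_sub_le ((Xs 0 : ℝ) : ℂ) (Y * I)
      have h4 := S.BΩ _ hx
      have h5 := S.BY
      linarith only [h2, h3, h4, h5]
    have hc2 := S.c2_pos
    calc Ds k ≤ S.C4 * Ds 0 := d3
      _ ≤ S.C4 * (S.c3 * pot Y ((Xs 0 : ℝ) : ℂ)) := by (clear * - hs hC; gcongr)
      _ ≤ S.C4 * (S.c2 * (4 * S.B)) := by
          have := S.c3_le_c2
          (clear * - this h1 hpot hc2 hC; gcongr)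
      _ = S.C4 * S.c2 * (4 * S.B) := by ring
      _ ≤ S.σ / 20 := S.c2_σ

/-- The invariant of a closed real orbit is close to the adiabatic value. -/
theorem real_w {m : ℕ} (hm : 0 < m) {Xs Ds : ℕ → ℝ} (ho : RealOrb h (2 * m) Xs Ds)
    (hxe : Xs (2 * m) = Xs 0 + 2 * H) (hDe : Ds (2 * m) = Ds 0) (hxH : |Xs 0| ≤ H / 2)
    (hx : ((Xs 0 : ℝ) : ℂ) ∈ S.Ω) (hc : Cone Y ((Xs 0 : ℝ) : ℂ))
    (hs : Ds 0 ≤ S.c3 * pot Y ((Xs 0 : ℝ) : ℂ))
    (hx' : ((-Xs 0 : ℝ) : ℂ) ∈ S.Ω) (hc' : Cone Y ((-Xs 0 : ℝ) : ℂ))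
    (hs' : Ds 0 ≤ S.c3 * pot Y ((-Xs 0 : ℝ) : ℂ)) :
    |‖qq h ((Xs 0 : ℝ) : ℂ)‖ * Ds 0 / S.p0 m - 1| ≤ S.r1 / 2 := by
  classical
  have hH := S.T.Hpos
  have hσ := S.σ0
  have hσH := S.σH
  have hr1 := S.r1_pos
  have hr1' := S.r1_le
  have hL := S.Lx0
  have hp := S.p0_pos hm
  have hxa := abs_le.1 hxH
  have hY := S.T.Ypos
  have hD := (ho.pos 0 (by (clear * - hm; omega))).1
  -- the index where the orbit passes the middle
  obtain ⟨ks, hks⟩ : ∃ ks, ks = Nat.findGreatest (fun k => Xs k ≤ H) (2 * m) := ⟨_, rfl⟩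
  have hk1 : Xs ks ≤ H := by
    rw [hks]
    exact Nat.findGreatest_spec (P := fun k => Xs k ≤ H) (Nat.zero_le _) (by linarith only [hxa])
  have hk2 : ks < 2 * m := by
    have h1 : ks ≤ 2 * m := by rw [hks]; exact Nat.findGreatest_le _
    rcases h1.eq_or_lt with h2 | h2
    · rw [h2, hxe] at hk1; linarith only [hσ, hσH, hxa, hk1]
    · exact h2
  have hk3 : H < Xs (ks + 1) := by
    by_contra hcon
    have := Nat.findGreatest_is_greatest (P := fun k => Xs k ≤ H) (n := 2 * m) (k := ks + 1)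
      (by rw [← hks]; omega) (by omega)
    exact this (not_lt.1 hcon)
  have hlow : -(S.t * Y) < Xs 0 := by
    have := hx.1; simp at this; linarith only [this]
  have hlow' : -(S.t * Y) < -Xs 0 := by
    have := hx'.1; simp at this; linarith only [this]
  have hmem1 : ∀ j ≤ ks, ((Xs j : ℝ) : ℂ) ∈ S.Ω := by
    intro j hj
    have h1 := mono_seq ho (Nat.zero_le j) (by omega)
    have h2 := mono_seq ho hj (by omega)
    exact real_mem (by linarith only [hlow, h1]) (by linarith only [hσ, hk1, h2])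
  have hDk := (real_seg ho hx hc hs (k := ks) (by omega) hmem1).2
  -- the next point
  have horb : ((Xs (ks + 1) : ℝ) : ℂ) ∈ S.Ω := by
    have h1 := (ho.step ks hk2).1
    have hst : S.Start ((Xs 0 : ℝ) : ℂ) ((Ds 0 : ℝ) : ℂ) :=
      real_start hx hc hD (hs.trans (mul_le_mul_of_nonneg_right
        (S.c3_le_c2.trans S.c2_le_c1) (S.geo hx hc).1.le))
    have ho1 := real_orbit ho hst (k := ks + 1) (by omega) (fun j hj => hmem1 j (by omega))
    have hΩ' : ∀ j ≤ ks, (orb h ((Xs 0 : ℝ) : ℂ) ((Ds 0 : ℝ) : ℂ) j).1 ∈ S.Ω := by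
      intro j hj
      rw [ho1 j (by omega)]
      exact hmem1 j hj
    obtain ⟨c1, c2, c3, c4⟩ := core hst ks hΩ'
    have hz := hΩ' ks le_rfl
    obtain ⟨-, w2⟩ := weak hst (S.geo hz c1).1 c3
    obtain ⟨-, -, d3, dA, -⟩ := cons hst hz c1 c2 w2
    have h2 := S.norm_nextP_sub dA
    have h3 : nextP h (orb h ((Xs 0 : ℝ) : ℂ) ((Ds 0 : ℝ) : ℂ) ks).1
        (orb h ((Xs 0 : ℝ) : ℂ) ((Ds 0 : ℝ) : ℂ) ks).2 = ((Xs (ks + 1) : ℝ) : ℂ) := by
      have h4 := ho1 (ks + 1) le_rfl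
      rw [orb_succ] at h4
      exact congrArg Prod.fst h4
    rw [h3, ho1 ks (by omega)] at h2
    simp only at h2
    rw [← Complex.ofReal_sub, Complex.norm_real, Complex.norm_real, Real.norm_eq_abs,
      Real.norm_eq_abs, abs_of_pos (ho.pos ks (by omega)).1] at h2
    have h5 := (abs_le.1 h2).2
    have h6 := mono_seq ho (Nat.zero_le (ks + 1)) (by omega)
    exact real_mem (by linarith only [hxa, hk3, hlow]) (by linarith only [hk1, hk3, hDk, h5])
  have hmem2 : ∀ j ≤ ks + 1, ((Xs j : ℝ) : ℂ) ∈ S.Ω := by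
    intro j hj
    rcases Nat.lt_or_ge j (ks + 1) with h1 | h1
    · exact hmem1 j (by omega)
    · obtain rfl : j = ks + 1 := by omega
      exact horb
  have hA := (real_seg ho hx hc hs (k := ks + 1) (by omega) hmem2).1
  -- the reflected orbit
  have ho' := S.T.refl_orb ho
  obtain ⟨Xr, hXr⟩ : ∃ Xr : ℕ → ℝ, Xr = fun k => 2 * H - Xs (2 * m - k) := ⟨_, rfl⟩
  obtain ⟨Dr, hDr⟩ : ∃ Dr : ℕ → ℝ, Dr = fun k => Ds (2 * m - k) := ⟨_, rfl⟩
  rw [← hXr, ← hDr] at ho'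
  have hXr0 : Xr 0 = -Xs 0 := by rw [hXr]; simp only [Nat.sub_zero]; rw [hxe]; ring
  have hDr0 : Dr 0 = Ds 0 := by rw [hDr]; simp only [Nat.sub_zero]; exact hDe
  have hmem3 : ∀ j ≤ 2 * m - (ks + 1), ((Xr j : ℝ) : ℂ) ∈ S.Ω := by
    intro j hj
    have h1 := mono_seq ho' (Nat.zero_le j) (by omega)
    rw [hXr0] at h1
    have h2 : Xr j = 2 * H - Xs (2 * m - j) := by rw [hXr]
    have h3 : Xs (ks + 1) ≤ Xs (2 * m - j) := mono_seq ho (by omega) (by omega)
    exact real_mem (by linarith only [hlow', h1]) (by linarith only [hσ, hk3, h2, h3])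
  have hB := (real_seg ho' (by rw [hXr0]; exact hx') (by rw [hXr0]; exact hc')
    (by rw [hXr0, hDr0]; exact hs') (k := 2 * m - (ks + 1)) (by omega) hmem3).1
  have hXre : Xr (2 * m - (ks + 1)) = 2 * H - Xs (ks + 1) := by
    rw [hXr]
    simp only
    congr 2
    omega
  rw [hXr0, hDr0, hXre, S.T.q_neg] at hB
  -- combine
  have hx1 : S.X ((-Xs 0 : ℝ) : ℂ) = -S.X ((Xs 0 : ℝ) : ℂ) := by
    have e : ((-Xs 0 : ℝ) : ℂ) = -conj ((Xs 0 : ℝ) : ℂ) := by
      rw [Complex.conj_ofReal]; push_cast; ring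
    rw [e, S.Xneg _ hx (by rw [← e]; exact hx'), X_real hx]
  have hmem4 : ((2 * H - Xs (ks + 1) : ℝ) : ℂ) ∈ S.Ω := by
    have := hmem3 (2 * m - (ks + 1)) le_rfl
    rwa [hXre] at this
  have hx2 : S.X ((2 * H - Xs (ks + 1) : ℝ) : ℂ) = S.Lx - S.X ((Xs (ks + 1) : ℝ) : ℂ) := by
    have e : ((2 * H - Xs (ks + 1) : ℝ) : ℂ) = 2 * H - conj ((Xs (ks + 1) : ℝ) : ℂ) := by
      rw [Complex.conj_ofReal]; push_cast; ring
    rw [e, S.Xrefl _ horb (by rw [← e]; exact hmem4), X_real horb]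
  rw [hx1, hx2] at hB
  obtain ⟨w, hw⟩ : ∃ w, w = ‖qq h ((Xs 0 : ℝ) : ℂ)‖ * Ds 0 := ⟨_, rfl⟩
  rw [← hw] at hA hB ⊢
  have hw0 : 0 < w := by
    rw [hw]; exact mul_pos (norm_pos_iff.2 (S.q_ne hx)) hD
  have hcast : (((2 * m - (ks + 1) : ℕ)) : ℝ) = 2 * m - (ks + 1) := by
    rw [Nat.cast_sub (by omega)]; push_cast; ring
  rw [hcast] at hB
  have hsum : |S.Lx - 4 * m * w| ≤ 2 * m * (3 * (S.r1 / 400)) * w := by
    have e : ((S.Lx - 4 * m * w : ℝ) : ℂ)
        = (S.X ((Xs (ks + 1) : ℝ) : ℂ) - S.X ((Xs 0 : ℝ) : ℂ)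
            - ((2 * ((ks + 1 : ℕ) : ℝ) * w : ℝ) : ℂ))
          + (S.Lx - S.X ((Xs (ks + 1) : ℝ) : ℂ) - -S.X ((Xs 0 : ℝ) : ℂ)
            - ((2 * (2 * m - (ks + 1)) * w : ℝ) : ℂ)) := by
      push_cast; ring
    have h1 := norm_add_le (S.X ((Xs (ks + 1) : ℝ) : ℂ) - S.X ((Xs 0 : ℝ) : ℂ)
            - ((2 * ((ks + 1 : ℕ) : ℝ) * w : ℝ) : ℂ))
          (S.Lx - S.X ((Xs (ks + 1) : ℝ) : ℂ) - -S.X ((Xs 0 : ℝ) : ℂ)
            - ((2 * (2 * m - (ks + 1)) * w : ℝ) : ℂ))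
    rw [← e, Complex.norm_real, Real.norm_eq_abs] at h1
    refine h1.trans ((add_le_add hA hB).trans (le_of_eq ?_))
    push_cast; ring
  have hm' : (0 : ℝ) < m := by exact_mod_cast hm
  have hpL : S.Lx = 4 * m * S.p0 m := by
    have := S.m_p0 hm
    linarith only [this]
  rw [hpL, ← mul_sub, abs_mul, abs_of_pos (by positivity : (0 : ℝ) < 4 * m)] at hsum
  have h2 : |S.p0 m - w| ≤ 3 / 800 * S.r1 * w := by
    have e : 2 * m * (3 * (S.r1 / 400)) * w = 4 * m * (3 / 800 * S.r1 * w) := by ring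
    rw [e] at hsum
    exact le_of_mul_le_mul_left hsum (by positivity)
  have h3 := abs_le.1 h2
  have h4 : 3 / 800 * S.r1 * w ≤ 1 / 100 * w := by nlinarith only [hw0, hr1']
  have h5 : w ≤ 2 * S.p0 m := by linarith only [h3, h4]
  have e : w / S.p0 m - 1 = (w - S.p0 m) / S.p0 m := by (clear * - hp; field_simp)
  rw [e, abs_div, abs_of_pos hp, div_le_iff₀ hp, abs_sub_comm]
  refine h2.trans ?_
  nlinarith only [hp, h3, h4]

theorem real_match {m : ℕ} (hm : 0 < m) {Xs Ds : ℕ → ℝ} (ho : RealOrb h (2 * m) Xs Ds)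
    (hxe : Xs (2 * m) = Xs 0 + 2 * H) (hDe : Ds (2 * m) = Ds 0) (hxH : |Xs 0| ≤ H / 2)
    (hg : S.Gd m ((Xs 0 : ℝ) : ℂ)) (hg' : S.Gd m ((-Xs 0 : ℝ) : ℂ))
    (hs : Ds 0 ≤ S.c3 * pot Y ((Xs 0 : ℝ) : ℂ))
    (hs' : Ds 0 ≤ S.c3 * pot Y ((-Xs 0 : ℝ) : ℂ)) :
    ∃ a : ℝ, |a| ≤ S.r1 / 2 ∧ Eqs S m ((Xs 0 : ℝ) : ℂ) (a : ℂ) (a : ℂ) := by
  have hr1 := S.r1_pos
  have hL := S.Lx0
  have hp := S.p0_pos hm
  have hw := real_w hm ho hxe hDe hxH hg.mem hg.cone hs hg'.mem hg'.cone hs'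
  obtain ⟨a, ha⟩ : ∃ a, a = ‖qq h ((Xs 0 : ℝ) : ℂ)‖ * Ds 0 / S.p0 m - 1 := ⟨_, rfl⟩
  rw [← ha] at hw
  refine ⟨a, hw, ?_⟩
  have haC : ‖(a : ℂ)‖ ≤ S.r1 := by
    rw [Complex.norm_real, Real.norm_eq_abs]; (clear * - hr1 hw; linarith)
  have hpa : S.p0 m * (1 + a) = ‖qq h ((Xs 0 : ℝ) : ℂ)‖ * Ds 0 := by
    rw [ha]; field_simp; ring
  have hpaC : (S.p0 m : ℂ) * (1 + a) = qq h ((Xs 0 : ℝ) : ℂ) * ((Ds 0 : ℝ) : ℂ) := by
    rw [q_real' hg.mem, ← Complex.ofReal_mul, ← hpa]; push_cast; ring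
  have hq := S.q_ne hg.mem
  have hd1 : S.dl m ((Xs 0 : ℝ) : ℂ) (a : ℂ) = ((Ds 0 : ℝ) : ℂ) := by
    rw [dl, hpaC]; (clear * - hq; field_simp)
  have hd2 : S.dl m ((-Xs 0 : ℝ) : ℂ) (a : ℂ) = ((Ds 0 : ℝ) : ℂ) := by
    rw [dl, hpaC, S.T.q_neg]; field_simp
  have hst1 := hg.start2 hm haC
  have hst2 := hg'.start2 hm haC
  -- forward half
  have hor1 := real_half hm (by omega : m ≤ 2 * m) ho (by rw [← hd1]; exact hst1) m le_rfl
  -- reflected half
  have ho' := S.T.refl_orb ho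
  obtain ⟨Xr, hXr⟩ : ∃ Xr : ℕ → ℝ, Xr = fun k => 2 * H - Xs (2 * m - k) := ⟨_, rfl⟩
  obtain ⟨Dr, hDr⟩ : ∃ Dr : ℕ → ℝ, Dr = fun k => Ds (2 * m - k) := ⟨_, rfl⟩
  rw [← hXr, ← hDr] at ho'
  have hXr0 : Xr 0 = -Xs 0 := by rw [hXr]; simp only [Nat.sub_zero]; rw [hxe]; ring
  have hDr0 : Dr 0 = Ds 0 := by rw [hDr]; simp only [Nat.sub_zero]; exact hDe
  have hor2 := real_half hm (by omega : m ≤ 2 * m) ho'
    (by rw [hXr0, hDr0, ← hd2]; exact hst2) m le_rfl
  have hXrm : Xr m = 2 * H - Xs m := by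
    rw [hXr]; simp only; congr 2; (clear * - hm; omega)
  have hDrm : Dr m = Ds m := by
    rw [hDr]; simp only; congr 1; omega
  rw [hXr0, hDr0, hXrm, hDrm] at hor2
  have hP1 : S.AP m ((Xs 0 : ℝ) : ℂ) (a : ℂ) = ((Xs m : ℝ) : ℂ) := by
    rw [AP, hd1, hor1]
  have hQ1 : S.AD m ((Xs 0 : ℝ) : ℂ) (a : ℂ) = ((Ds m : ℝ) : ℂ) := by
    rw [AD, hd1, hor1]
  have hP2 : S.AP m ((-Xs 0 : ℝ) : ℂ) (a : ℂ) = ((2 * H - Xs m : ℝ) : ℂ) := by
    rw [AP, hd2, hor2]
  have hQ2 : S.AD m ((-Xs 0 : ℝ) : ℂ) (a : ℂ) = ((Ds m : ℝ) : ℂ) := by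
    rw [AD, hd2, hor2]
  have hm1 : ((Xs m : ℝ) : ℂ) ∈ S.Ω := by
    have := stay_mem hst1 hm le_rfl
    rwa [hd1, hor1] at this
  have hm2 : ((2 * H - Xs m : ℝ) : ℂ) ∈ S.Ω := by
    have := stay_mem hst2 hm le_rfl
    rwa [hd2, hor2] at this
  have hx1 : S.X ((-Xs 0 : ℝ) : ℂ) = -S.X ((Xs 0 : ℝ) : ℂ) := by
    have e : ((-Xs 0 : ℝ) : ℂ) = -conj ((Xs 0 : ℝ) : ℂ) := by
      rw [Complex.conj_ofReal]; push_cast; ring
    rw [e, S.Xneg _ hg.mem (by rw [← e]; exact hg'.mem), X_real hg.mem]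
  have hx2 : S.X ((2 * H - Xs m : ℝ) : ℂ) = S.Lx - S.X ((Xs m : ℝ) : ℂ) := by
    have e : ((2 * H - Xs m : ℝ) : ℂ) = 2 * H - conj ((Xs m : ℝ) : ℂ) := by
      rw [Complex.conj_ofReal]; push_cast; ring
    rw [e, S.Xrefl _ hm1 (by rw [← e]; exact hm2), X_real hm1]
  have e0 : -conj ((Xs 0 : ℝ) : ℂ) = ((-Xs 0 : ℝ) : ℂ) := by
    rw [Complex.conj_ofReal]; push_cast; ring
  have hL' : (S.Lx : ℂ) ≠ 0 := by exact_mod_cast hL.ne'
  have hmp : (2 : ℂ) * m * (S.p0 m : ℂ) = S.Lx / 2 := by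
    have := S.m_p0 hm
    have h2 : ((2 * m * S.p0 m : ℝ) : ℂ) = ((S.Lx / 2 : ℝ) : ℂ) := by rw [this]
    push_cast at h2
    exact h2
  refine ⟨?_, ?_⟩
  · rw [e0, Complex.conj_ofReal]
    simp only [EE]
    rw [hP1, hP2, hx1, hx2]
    have hc1 : conj (2 * ((S.Lx : ℂ) - S.X ((Xs m : ℝ) : ℂ) - -S.X ((Xs 0 : ℝ) : ℂ)
        - 2 * m * ((S.p0 m : ℂ) * (1 + a))) / S.Lx)
        = 2 * ((S.Lx : ℂ) - S.X ((Xs m : ℝ) : ℂ) - -S.X ((Xs 0 : ℝ) : ℂ)
        - 2 * m * ((S.p0 m : ℂ) * (1 + a))) / S.Lx := by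
      simp only [map_div₀, map_mul, map_sub, map_neg, Complex.conj_ofReal, map_ofNat, map_add,
        map_one, map_natCast, X_real hm1, X_real hg.mem]
    have hP : (2 : ℂ) * m * ((S.p0 m : ℂ) * (1 + a)) = S.Lx / 2 * (1 + a) := by
      rw [← mul_assoc, hmp]
    rw [hc1, hP]
    field_simp
    ring
  · rw [e0, Complex.conj_ofReal]
    simp only [ee]
    rw [hP1, hP2, hQ1, hQ2, S.T.q_refl]
    have hc1 : conj ((qq h ((Xs m : ℝ) : ℂ) * ((Ds m : ℝ) : ℂ) - (S.p0 m : ℂ) * (1 + a)) / S.p0 m)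
        = (qq h ((Xs m : ℝ) : ℂ) * ((Ds m : ℝ) : ℂ) - (S.p0 m : ℂ) * (1 + a)) / S.p0 m := by
      simp only [map_div₀, map_sub, map_mul, q_real hm1, conj_ofReal, map_add, map_one]
    rw [hc1]

end Setup

end Vale.Agent.P097.Cusp
end

section

namespace Vale.Agent.P097.Cusp

open Complex Filter Topology
open scoped ComplexConjugate

/-- Real orbits advancing by the angle `2 H` in `2 m` bounces through all points near `0`. -/
def Per (h : ℂ → ℂ) (H : ℝ) (m : ℕ) (c : ℝ) : Prop :=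
  ∃ ε > 0, ∀ x : ℝ, |x| < ε → ∃ Xs Ds : ℕ → ℝ, RealOrb h (2 * m) Xs Ds ∧ Xs 0 = x ∧
    Xs (2 * m) = x + 2 * H ∧ Ds (2 * m) = Ds 0 ∧ Ds 0 < c

namespace Setup

variable {h : ℂ → ℂ} {H Y : ℝ} (S : Setup h H Y)

theorem iy_mem {y : ℝ} (h0 : 0 ≤ y) (h1 : y < Y) : (y : ℂ) * I ∈ S.Ω := by
  have hH := S.T.Hpos
  have ht := S.t0
  have hσ := S.σ0
  refine ⟨?_, ?_, ?_, ?_⟩ <;> simp <;> nlinarith

theorem iy_conj (y : ℝ) : -conj ((y : ℂ) * I) = (y : ℂ) * I := by simp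

theorem X_iy_re {y : ℝ} (h0 : 0 ≤ y) (h1 : y < Y) : (S.X ((y : ℂ) * I)).re = 0 := by
  have hm := S.iy_mem h0 h1
  have h2 := S.Xneg _ hm (by rw [iy_conj]; exact hm)
  rw [iy_conj] at h2
  have h3 := congrArg Complex.re h2
  rw [Complex.neg_re, Complex.conj_re] at h3
  linarith only [h3]

theorem q_re_pos {z : ℂ} (hz : z ∈ S.Ω) : 0 < (qq h z).re :=
  lt_of_lt_of_le (half_pos (norm_pos_iff.2 (S.q_ne hz))) (S.qre z hz)

theorem X_iy_im {y : ℝ} (h0 : 0 ≤ y) (h1 : y < Y) : 0 ≤ (S.X ((y : ℂ) * I)).im := by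
  have hm := S.iy_mem h0 h1
  obtain ⟨s, hs0, hs1, hsΩ, hs⟩ := seg_mvt S.cvx S.XD S.zero_mem hm (-I)
  rw [S.X0, sub_zero, sub_zero] at hs
  have e1 : (-I * S.X ((y : ℂ) * I)).re = (S.X ((y : ℂ) * I)).im := by simp
  have e2 : (-I * (qq h (0 + s * ((y : ℂ) * I)) * ((y : ℂ) * I))).re
      = (qq h (0 + s * ((y : ℂ) * I))).re * y := by simp only [zero_add, neg_mul, neg_re, mul_re, I_re, ofReal_re, mul_zero, ofReal_im, I_im, mul_one, sub_self, mul_im, add_zero, zero_sub, mul_neg, zero_mul, neg_zero, one_mul, neg_neg]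
  rw [e1, e2] at hs
  rw [hs]
  rw [sub_zero] at hsΩ
  exact mul_nonneg (S.q_re_pos hsΩ).le h0

include S in
theorem q_iy {y : ℝ} (h0 : 0 ≤ y) (h1 : y < Y) :
    qq h ((y : ℂ) * I) = ((‖qq h ((y : ℂ) * I)‖ : ℝ) : ℂ) := by
  have hm := S.iy_mem h0 h1
  have h1 := qq_conj (z' := (y : ℂ) * I) (S.sl _ hm) (by
    have := S.T.rho_neg_conj ((y : ℂ) * I)
    rwa [iy_conj] at this)
  have h2 := Complex.conj_eq_iff_re.1 h1.symm
  have h3 := S.q_re_pos hm
  have h4 : ‖qq h ((y : ℂ) * I)‖ = (qq h ((y : ℂ) * I)).re := by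
    rw [← h2, Complex.norm_real, Complex.ofReal_re, Real.norm_eq_abs, abs_of_pos h3]
  rw [h4, h2]

theorem pot_iy (y : ℝ) : pot Y ((y : ℂ) * I) = Y - y := by
  simp only [pot, mul_re, ofReal_re, I_re, mul_zero, ofReal_im, I_im, mul_one, sub_self, mul_im, add_zero, zero_sub]; ring

theorem q_cont {z : ℂ} (hz : z ∈ S.Ω) : ContinuousAt (qq h) z :=
  ((S.T.diff_rho z).hasDerivAt.cpow_const (c := (1 / 3 : ℂ)) (S.sl _ hz)).continuousAt

theorem gd_nhds {m : ℕ} {y : ℝ} (h0 : 0 ≤ y) (h1 : y < Y)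
    (hs : 2 * S.p0 m < S.c3 * (Y - y) * ‖qq h ((y : ℂ) * I)‖) :
    ∀ᶠ z in 𝓝 ((y : ℂ) * I), S.Gd m z := by
  have hm := S.iy_mem h0 h1
  have hκ := S.κ0
  have cX : ContinuousAt S.X ((y : ℂ) * I) := (S.XD _ hm).continuousAt
  have cq := S.q_cont hm
  have cre := Complex.continuous_re
  have cim := Complex.continuous_im
  have cpot : Continuous (pot Y) := by
    unfold pot
    exact (cre.sub cim).add continuous_const
  have a1 : ∀ᶠ z in 𝓝 ((y : ℂ) * I), z ∈ S.Ω := S.opn.mem_nhds hm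
  have a2 : ∀ᶠ z in 𝓝 ((y : ℂ) * I), z.im - Y < 7 / 10 * z.re := by
    have c : ContinuousAt (fun z : ℂ => 7 / 10 * z.re - (z.im - Y)) ((y : ℂ) * I) :=
      ((continuous_const.mul cre).sub (cim.sub continuous_const)).continuousAt
    have := c.eventually (lt_mem_nhds (a := 0) (by simp only [mul_re, ofReal_re, I_re, mul_zero, ofReal_im, I_im, mul_one, sub_self, mul_im, add_zero, zero_sub, neg_sub, sub_pos]; exact h1))
    filter_upwards [this] with z hz
    linarith only [hz]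
  have a3 : ∀ᶠ z in 𝓝 ((y : ℂ) * I), 2 * S.p0 m < S.c3 * pot Y z * ‖qq h z‖ := by
    have c : ContinuousAt (fun z : ℂ => S.c3 * pot Y z * ‖qq h z‖) ((y : ℂ) * I) :=
      (cpot.continuousAt.const_mul _).mul cq.norm
    exact c.eventually (lt_mem_nhds (by
      show 2 * S.p0 m < S.c3 * pot Y ((y : ℂ) * I) * ‖qq h ((y : ℂ) * I)‖
      rw [pot_iy]; exact hs))
  have a4 : ∀ᶠ z in 𝓝 ((y : ℂ) * I), |(S.X z).re| < S.κ / 8 := by
    have c : ContinuousAt (fun z : ℂ => |(S.X z).re|) ((y : ℂ) * I) :=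
      (cre.continuousAt.comp cX).abs
    exact c.eventually (gt_mem_nhds (by
      show |(S.X ((y : ℂ) * I)).re| < S.κ / 8
      rw [S.X_iy_re h0 h1, abs_zero]; positivity))
  have a5 : ∀ᶠ z in 𝓝 ((y : ℂ) * I), -(S.κ / 8) < (S.X z).im :=
    (cim.continuousAt.comp cX).eventually (lt_mem_nhds (by
      have := S.X_iy_im h0 h1
      simp only [Function.comp_apply]
      linarith only [hκ, this]))
  have a6 : ∀ᶠ z in 𝓝 ((y : ℂ) * I), (S.X z).im < (S.X ((y : ℂ) * I)).im + S.κ / 8 :=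
    (cim.continuousAt.comp cX).eventually (gt_mem_nhds (by
      simp only [Function.comp_apply]
      linarith))
  filter_upwards [a1, a2, a3, a4, a5, a6] with z b1 b2 b3 b4 b5 b6
  exact ⟨b1, b2, b3.le, b4.le, b5.le, y, h0, h1, b6.le⟩

theorem exists_rect {m : ℕ} {y1 : ℝ} (h0 : 0 ≤ y1) (h1 : y1 < Y)
    (hs : ∀ y : ℝ, 0 ≤ y → y ≤ y1 → 2 * S.p0 m < S.c3 * (Y - y) * ‖qq h ((y : ℂ) * I)‖) :
    ∃ e : ℝ, 0 < e ∧ ∀ z : ℂ, |z.re| < e → -e < z.im → z.im < y1 + e → S.Gd m z := by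
  have hK : IsCompact ((fun y : ℝ => (y : ℂ) * I) '' Set.Icc 0 y1) :=
    isCompact_Icc.image (by fun_prop)
  obtain ⟨e, he, hsub⟩ := hK.exists_thickening_subset_open
    (isOpen_interior (s := {z | S.Gd m z})) (by
      rintro _ ⟨y, hy, rfl⟩
      rw [mem_interior_iff_mem_nhds]
      exact S.gd_nhds hy.1 (lt_of_le_of_lt hy.2 h1) (hs y hy.1 hy.2))
  refine ⟨e / 2, by positivity, fun z hz1 hz2 hz3 => ?_⟩
  have : z ∈ Metric.thickening e ((fun y : ℝ => (y : ℂ) * I) '' Set.Icc 0 y1) := by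
    rw [Metric.mem_thickening_iff]
    obtain ⟨y, hy, hyd⟩ : ∃ y ∈ Set.Icc 0 y1, |z.im - y| < e / 2 := by
      rcases lt_or_ge z.im 0 with h2 | h2
      · exact ⟨0, ⟨le_rfl, h0⟩, by rw [sub_zero, abs_of_neg h2]; linarith only [hz2]⟩
      · rcases le_or_gt z.im y1 with h3 | h3
        · exact ⟨z.im, ⟨h2, h3⟩, by rw [sub_self, abs_zero]; positivity⟩
        · exact ⟨y1, ⟨h0, le_rfl⟩, by rw [abs_of_pos (by linarith only [h3])]; linarith only [hz3]⟩
    refine ⟨(y : ℂ) * I, ⟨y, hy, rfl⟩, ?_⟩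
    rw [dist_eq_norm]
    have h4 := Complex.norm_le_abs_re_add_abs_im (z - y * I)
    have e1 : (z - y * I).re = z.re := by simp
    have e2 : (z - y * I).im = z.im - y := by simp
    rw [e1, e2] at h4
    linarith only [hz1, hyd, h4]
  have := interior_subset (hsub this)
  exact this

theorem Eqs_symm {m : ℕ} {z a b : ℂ} (hE : Eqs S m z a b) :
    Eqs S m (-conj z) (conj b) (conj a) := by
  obtain ⟨h1, h2⟩ := hE
  have e : -conj (-conj z) = z := by simp only [map_neg, RingHomCompTriple.comp_apply, RingHom.id_apply, neg_neg]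
  refine ⟨?_, ?_⟩
  · have h3 := congrArg conj h1
    simp only [map_add, conj_conj, map_zero] at h3
    rw [e, Complex.conj_conj]
    linear_combination h3
  · have h3 := congrArg conj h2
    simp only [map_add, conj_conj] at h3
    rw [e, Complex.conj_conj]
    exact h3.symm

/-- The analytic continuation of the family of closed orbits to the imaginary axis. -/
theorem curve {m : ℕ} (hm : 0 < m) (hper : Per h H m (S.c3 * Y / 2)) {y1 : ℝ} (h0 : 0 ≤ y1)
    (h1 : y1 < Y)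
    (hs : ∀ y : ℝ, 0 ≤ y → y ≤ y1 → 2 * S.p0 m < S.c3 * (Y - y) * ‖qq h ((y : ℂ) * I)‖) :
    ∃ a : ℝ → ℝ, ContinuousOn a (Set.Icc 0 y1) ∧ ∀ y ∈ Set.Icc 0 y1,
      S.Gd m ((y : ℂ) * I) ∧ |a y| ≤ S.r1 / 2 ∧
      (qq h (S.AP m ((y : ℂ) * I) (a y)) * S.AD m ((y : ℂ) * I) (a y)).im = 0 := by
  have hH := S.T.Hpos
  have hY := S.T.Ypos
  have hc3 := S.c3_pos
  obtain ⟨e, he, hG⟩ := S.exists_rect h0 h1 hs
  obtain ⟨U, hUdef⟩ : ∃ U : Set ℂ, U = ((({z : ℂ | z.re < e} ∩ {z | -e < z.re})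
      ∩ {z | -e < z.im}) ∩ {z | z.im < y1 + e}) := ⟨_, rfl⟩
  have hUm : ∀ z : ℂ, z ∈ U ↔ |z.re| < e ∧ -e < z.im ∧ z.im < y1 + e := by
    intro z
    rw [hUdef]
    simp only [Set.mem_inter_iff, Set.mem_ofPred_eq, abs_lt]
    (clear * -; tauto)
  have hUo : IsOpen U := by
    rw [hUdef]
    have c1 := Complex.continuous_re
    have c2 := Complex.continuous_im
    exact (((isOpen_lt c1 continuous_const).inter (isOpen_lt continuous_const c1)).inter
      (isOpen_lt continuous_const c2)).inter (isOpen_lt c2 continuous_const)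
  have hUc : Convex ℝ U := by
    rw [hUdef]
    exact (((convex_halfSpace_re_lt _).inter (convex_halfSpace_re_gt _)).inter
      (convex_halfSpace_im_gt _)).inter (convex_halfSpace_im_lt _)
  have hUs : ∀ z ∈ U, -conj z ∈ U := by
    intro z hz
    rw [hUm] at hz ⊢
    simpa only [neg_re, conj_re, abs_neg, neg_im, conj_im, neg_neg] using hz
  have hUG : ∀ z ∈ U, S.Gd m z := by
    intro z hz
    rw [hUm] at hz
    exact hG z hz.1 hz.2.1 hz.2.2
  obtain ⟨a, b, ha, hb, hab⟩ := glue hm hUo hUs hUG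
  have h0U : (0 : ℂ) ∈ U := by rw [hUm]; simp only [zero_re, abs_zero, zero_im, Left.neg_neg_iff, and_self_left]; exact ⟨he, by linarith only [h0, he]⟩
  -- equality on the real axis
  obtain ⟨ε, hε, hε2⟩ := hper
  have hreal : ∀ x : ℝ, |x| < ε → |x| < e → |x| ≤ H / 2 → |x| ≤ Y / 2 →
      a (x : ℂ) = b (x : ℂ) := by
    intro x x1 x2 x3 x4
    obtain ⟨Xs, Ds, ho, hX0, hXe, hDe, hDc⟩ := hε2 x x1
    have hxU : (x : ℂ) ∈ U := by rw [hUm]; simp only [ofReal_re, ofReal_im, Left.neg_neg_iff]; exact ⟨x2, he, by linarith only [h0, he]⟩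
    have hxU' : ((-x : ℝ) : ℂ) ∈ U := by
      rw [hUm]; simp only [ofReal_neg, neg_re, ofReal_re, abs_neg, neg_im, ofReal_im, neg_zero, Left.neg_neg_iff]; exact ⟨x2, he, by linarith only [h0, he]⟩
    have hx4 := abs_le.1 x4
    have hp1 : S.c3 * Y / 2 ≤ S.c3 * pot Y ((x : ℝ) : ℂ) := by
      have : pot Y ((x : ℝ) : ℂ) = x + Y := by simp [pot]
      rw [this]; nlinarith only [hc3, hx4]
    have hp2 : S.c3 * Y / 2 ≤ S.c3 * pot Y ((-x : ℝ) : ℂ) := by
      have : pot Y ((-x : ℝ) : ℂ) = -x + Y := by simp [pot]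
      rw [this]; nlinarith only [hc3, hx4]
    obtain ⟨a', ha', hE⟩ := real_match (S := S) hm ho (by rw [hX0]; exact hXe) hDe
      (by rw [hX0]; exact x3) (by rw [hX0]; exact hUG _ hxU) (by rw [hX0]; exact hUG _ hxU')
      (by rw [hX0]; linarith only [hDc, hp1]) (by rw [hX0]; linarith only [hDc, hp2])
    rw [hX0] at hE
    obtain ⟨-, -, -, hun⟩ := hab _ hxU
    have ha'' : ‖(a' : ℂ)‖ ≤ S.r1 / 2 := by
      rw [Complex.norm_real, Real.norm_eq_abs]; exact ha'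
    obtain ⟨u1, u2⟩ := hun _ _ ha'' ha'' hE
    rw [← u1, ← u2]
  have heq : Set.EqOn a b U := by
    refine AnalyticOnNhd.eqOn_of_preconnected_of_frequently_eq
      (ha.analyticOnNhd hUo) (hb.analyticOnNhd hUo) hUc.isPreconnected h0U ?_
    have ht : Tendsto (fun x : ℝ => (x : ℂ)) (𝓝[≠] (0 : ℝ)) (𝓝[≠] (0 : ℂ)) := by
      refine tendsto_nhdsWithin_of_tendsto_nhds_of_eventually_within _ ?_ ?_
      · have := Complex.continuous_ofReal.tendsto (0 : ℝ)
        rw [Complex.ofReal_zero] at this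
        exact this.mono_left nhdsWithin_le_nhds
      · filter_upwards [self_mem_nhdsWithin] with x hx
        simpa using hx
    refine ht.frequently (Eventually.frequently ?_)
    have hev : ∀ r : ℝ, 0 < r → ∀ᶠ x in 𝓝[≠] (0 : ℝ), |x| < r := by
      intro r hr
      have : ∀ᶠ x in 𝓝 (0 : ℝ), |x| < r :=
        continuous_abs.continuousAt.eventually (gt_mem_nhds (by simpa using hr))
      exact this.filter_mono nhdsWithin_le_nhds
    filter_upwards [hev ε hε, hev e he, hev (H / 2) (by positivity), hev (Y / 2) (by positivity)]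
      with x x1 x2 x3 x4
    exact hreal x x1 x2 x3.le x4.le
  refine ⟨fun y => (a ((y : ℂ) * I)).re, ?_, ?_⟩
  · have hmaps : Set.MapsTo (fun y : ℝ => (y : ℂ) * I) (Set.Icc 0 y1) U := by
      intro y hy
      rw [hUm]; simp only [mul_re, ofReal_re, I_re, mul_zero, ofReal_im, I_im, mul_one, sub_self, abs_zero, mul_im, add_zero]; exact ⟨he, by linarith only [he, hy.1], by linarith only [he, hy.2]⟩
    have c1 : ContinuousOn (fun y : ℝ => (y : ℂ) * I) (Set.Icc 0 y1) := by (clear * -; fun_prop)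
    exact Complex.continuous_re.comp_continuousOn (ha.continuousOn.comp c1 hmaps)
  · intro y hy
    have hyU : (y : ℂ) * I ∈ U := by
      rw [hUm]; simp only [mul_re, ofReal_re, I_re, mul_zero, ofReal_im, I_im, mul_one, sub_self, abs_zero, mul_im, add_zero]; exact ⟨he, by linarith only [he, hy.1], by linarith only [he, hy.2]⟩
    obtain ⟨n1, n2, hE, hun⟩ := hab _ hyU
    have hE' := S.Eqs_symm hE
    rw [iy_conj] at hE'
    obtain ⟨u1, u2⟩ := hun _ _ (by rw [Complex.norm_conj]; exact n2)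
      (by rw [Complex.norm_conj]; exact n1) hE'
    have hab' := heq hyU
    rw [← hab'] at u1
    have hreal : a ((y : ℂ) * I) = (((a ((y : ℂ) * I)).re : ℝ) : ℂ) :=
      (Complex.conj_eq_iff_re.1 u1).symm
    refine ⟨hUG _ hyU, ?_, ?_⟩
    · exact (Complex.abs_re_le_norm _).trans n1
    · have hE2 := hE.2
      rw [iy_conj, ← hab', u1] at hE2
      have h3 : S.ee m ((y : ℂ) * I) (a ((y : ℂ) * I))
          = conj (S.ee m ((y : ℂ) * I) (a ((y : ℂ) * I))) := by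
        linear_combination hE2
      rw [← hreal]
      obtain ⟨A, hA⟩ : ∃ A, A = a ((y : ℂ) * I) := ⟨_, rfl⟩
      rw [← hA] at h3 hreal ⊢
      have hp := S.p0_pos hm
      have hp' : (S.p0 m : ℂ) ≠ 0 := by exact_mod_cast hp.ne'
      have h4 : qq h (S.AP m ((y : ℂ) * I) A) * S.AD m ((y : ℂ) * I) A
          = S.p0 m * (S.ee m ((y : ℂ) * I) A + 1 + A) := by
        rw [ee]; field_simp; ring
      rw [h4, Complex.im_ofReal_mul]
      have h5 : (S.ee m ((y : ℂ) * I) A).im = 0 := Complex.conj_eq_iff_im.1 h3.symm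
      have h6 : A.im = 0 := by rw [hreal]; simp
      simp [h5, h6]

end Setup

end Vale.Agent.P097.Cusp
end

section

namespace Vale.Agent.P097.Cusp

open Complex Filter Topology
open scoped ComplexConjugate

section scaling

variable {ι : Type} {l : Filter ι} {h : ℂ → ℂ} {B M : ℝ} {p : ℂ}

theorem to_p {d : ι → ℝ} (hd : Tendsto d l (𝓝 0)) (hd0 : ∀ᶠ i in l, 0 < d i) {ψ : ι → ℂ} {V : ℂ}
    (hψ : Tendsto (fun i => (ψ i - p) / d i) l (𝓝 V)) : Tendsto ψ l (𝓝 p) := by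
  have h1 : Tendsto (fun i => (ψ i - p) / d i * (d i : ℂ) + p) l (𝓝 (V * ((0 : ℝ) : ℂ) + p)) :=
    (hψ.mul ((Complex.continuous_ofReal.tendsto 0).comp hd)).add_const p
  rw [Complex.ofReal_zero, mul_zero, zero_add] at h1
  refine h1.congr' ?_
  filter_upwards [hd0] with i hi
  have : (d i : ℂ) ≠ 0 := by exact_mod_cast hi.ne'
  rw [div_mul_cancel₀ _ this]; ring

theorem rho_lim (hh : Differentiable ℂ h) (h0 : rho h p = 0) {d : ι → ℝ}
    (hd : Tendsto d l (𝓝 0)) (hd0 : ∀ᶠ i in l, 0 < d i) {ψ : ι → ℂ} {V : ℂ}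
    (hψ : Tendsto (fun i => (ψ i - p) / d i) l (𝓝 V)) :
    Tendsto (fun i => rho h (ψ i) / d i) l (𝓝 (deriv (rho h) p * V)) := by
  have h1 := to_p hd hd0 hψ
  have h2 : ContinuousAt (dslope (rho h) p) p :=
    continuousAt_dslope_same.2 (differentiable_rho hh p)
  have h3 : Tendsto (fun i => dslope (rho h) p (ψ i)) l (𝓝 (deriv (rho h) p)) := by
    have := h2.tendsto.comp h1
    rwa [dslope_same] at this
  refine (h3.mul hψ).congr (fun i => ?_)
  have h4 := sub_smul_dslope (rho h) p (ψ i)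
  rw [h0, sub_zero, smul_eq_mul] at h4
  rw [← h4]; ring

theorem scal_step [NeBot l] (hh : Differentiable ℂ h) (hB : Bnd h B M) (h0 : rho h p = 0)
    (hg : deriv (rho h) p ≠ 0) {d : ι → ℝ} (hd : Tendsto d l (𝓝 0)) (hd0 : ∀ᶠ i in l, 0 < d i)
    {ψ δ : ι → ℂ} {V ξ : ℂ} (hV : V ≠ 0) (hξ : 0 ≤ ξ.re)
    (hψ : Tendsto (fun i => (ψ i - p) / d i) l (𝓝 V))
    (hδ : Tendsto (fun i => δ i / d i) l (𝓝 (2 / 3 * ξ * V)))
    (hA : ∀ᶠ i in l, Adm h B M (ψ i) (δ i)) :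
    Tendsto (fun i => (nextP h (ψ i) (δ i) - p) / d i) l (𝓝 (rr ξ * V)) ∧
    Tendsto (fun i => nextD h (ψ i) (δ i) / d i) l (𝓝 (2 / 3 * MM ξ * (rr ξ * V))) := by
  have hr := rr_re hξ
  obtain ⟨n1, n2, n3, n4⟩ := aux_ne hr
  have n5 := sq_ne hr
  have hxi := xi_eq hξ
  have hMM : MM ξ = (rr ξ - 1) * (rr ξ + 2) / (2 * rr ξ * (rr ξ + 1)) := rfl
  obtain ⟨r, hrdef⟩ : ∃ r, r = rr ξ := ⟨_, rfl⟩
  rw [← hrdef] at hr n1 n2 n3 n4 n5 hxi hMM ⊢
  have n2' : (1 : ℂ) + r ≠ 0 := by rwa [add_comm]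
  -- limit of the contact point
  have hφ : Tendsto (fun i => (ψ i + δ i - p) / d i) l (𝓝 (V + 2 / 3 * ξ * V)) := by
    refine (hψ.add hδ).congr (fun i => ?_)
    ring
  have hφp := to_p hd hd0 hφ
  have hρ := rho_lim hh h0 hd hd0 hφ
  have hne : V + 2 / 3 * ξ * V ≠ 0 := by
    have : V + 2 / 3 * ξ * V = V * (1 + 2 / 3 * ξ) := by ring
    rw [this]
    refine mul_ne_zero hV ?_
    intro h1
    have h2 := congrArg Complex.re h1
    have e : (1 + 2 / 3 * ξ).re = 1 + 2 / 3 * ξ.re := by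
      have : (2 / 3 : ℂ) = ((2 / 3 : ℝ) : ℂ) := by push_cast; ring
      rw [Complex.add_re, this, Complex.re_ofReal_mul, Complex.one_re]
    rw [e, Complex.zero_re] at h2
    linarith only [hξ, h2]
  have hκ : Tendsto (fun i => deriv (rho h) (ψ i + δ i) * δ i / rho h (ψ i + δ i)) l
      (𝓝 ((2 * r + 1) * (r - 1) / (2 * (r ^ 2 + r + 1)))) := by
    have c1 := (differentiable_deriv (differentiable_rho hh)).continuous
    have h1 : Tendsto (fun i => deriv (rho h) (ψ i + δ i) * (δ i / d i)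
        / (rho h (ψ i + δ i) / d i)) l
        (𝓝 (deriv (rho h) p * (2 / 3 * ξ * V) / (deriv (rho h) p * (V + 2 / 3 * ξ * V)))) :=
      (((c1.tendsto p).comp hφp).mul hδ).div hρ (mul_ne_zero hg hne)
    have e : deriv (rho h) p * (2 / 3 * ξ * V) / (deriv (rho h) p * (V + 2 / 3 * ξ * V))
        = (2 * r + 1) * (r - 1) / (2 * (r ^ 2 + r + 1)) := by
      rw [div_eq_div_iff (mul_ne_zero hg hne) (mul_ne_zero two_ne_zero n5)]
      have h2 : ξ * (2 * (1 + r)) = (2 * r + 1) * (r - 1) := by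
        rw [hxi]; (clear * - n2' n3; field_simp)
      linear_combination (deriv (rho h) p * V) * h2
    rw [← e]
    refine h1.congr' ?_
    filter_upwards [hd0] with i hi
    have : (d i : ℂ) ≠ 0 := by exact_mod_cast hi.ne'
    rw [mul_div_assoc', div_div_div_cancel_right₀ this]
  have hκb : ‖(2 * r + 1) * (r - 1) / (2 * (r ^ 2 + r + 1))‖ ≤ 1 / 200 := by
    refine le_of_tendsto hκ.norm ?_
    filter_upwards [hA] with i hi
    have hE := est hh hB hi
    have := hE.k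
    have := hE.Mε
    linarith
  have hus := us_norm hr hκb
  have hfix := us_eq hr
  have hδ0 : Tendsto δ l (𝓝 0) := by
    have h1 : Tendsto (fun i => δ i / d i * (d i : ℂ)) l (𝓝 (2 / 3 * ξ * V * ((0 : ℝ) : ℂ))) :=
      hδ.mul ((Complex.continuous_ofReal.tendsto 0).comp hd)
    rw [Complex.ofReal_zero, mul_zero] at h1
    refine h1.congr' ?_
    filter_upwards [hd0] with i hi
    have : (d i : ℂ) ≠ 0 := by exact_mod_cast hi.ne'
    rw [div_mul_cancel₀ _ this]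
  have hu : Tendsto (fun i => nextU h (ψ i) (δ i)) l (𝓝 ((1 - r) / (2 * r + 1))) := by
    rw [tendsto_iff_norm_sub_tendsto_zero]
    have hb : Tendsto (fun i => 2 * (‖deriv (rho h) (ψ i + δ i) * δ i / rho h (ψ i + δ i)
        - (2 * r + 1) * (r - 1) / (2 * (r ^ 2 + r + 1))‖ + ‖δ i‖)) l (𝓝 (2 * (0 + ‖(0 : ℂ)‖))) :=
      ((tendsto_iff_norm_sub_tendsto_zero.1 hκ).add hδ0.norm).const_mul 2
    rw [norm_zero, add_zero, mul_zero] at hb
    refine squeeze_zero' (Eventually.of_forall fun i => norm_nonneg _) ?_ hb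
    filter_upwards [hA] with i hi
    obtain ⟨a1, a2⟩ := nextU_spec hh hB hi
    have a3 := (gmap_fixed_iff hh hB hi _).2 a2
    rw [gmap_eq hh hB hi] at a3
    have hE := est hh hB hi
    have hkk : ‖deriv (rho h) (ψ i + δ i) * δ i / rho h (ψ i + δ i)‖ ≤ 1 / 200 := by
      have := hE.k
      have := hE.Mε
      linarith
    refine (u_stab a1 hus hkk a3.symm hfix).trans ?_
    have := rem_small hh hB hi a1
    linarith only [this]
  have hD : Tendsto (fun i => nextD h (ψ i) (δ i) / d i) l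
      (𝓝 (2 / 3 * ξ * V * (1 + (1 - r) / (2 * r + 1)))) := by
    refine (hδ.mul (hu.const_add 1)).congr (fun i => ?_)
    rw [nextD]; ring
  have e1 : 2 / 3 * ξ * V * (1 + (1 - r) / (2 * r + 1)) = 2 / 3 * MM ξ * (r * V) := by
    rw [hMM, hxi]
    field_simp
    ring
  rw [e1] at hD
  refine ⟨?_, hD⟩
  have e2 : V + 2 / 3 * ξ * V + 2 / 3 * MM ξ * (r * V) = r * V := by
    rw [hMM, hxi]
    field_simp
    ring
  rw [← e2]
  refine (hφ.add hD).congr (fun i => ?_)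
  rw [nextP]; ring

/-- the limit of the rescaled orbit -/
noncomputable def vv (n : ℕ) (ξ : ℂ) : ℂ := ∏ j ∈ Finset.range n, rr (MM^[j] ξ)

theorem vv_ne {ξ : ℂ} (hξ : 0 ≤ ξ.re) (h0 : ξ ≠ 0) (n : ℕ) : vv n ξ ≠ 0 := by
  rw [vv, Finset.prod_ne_zero_iff]
  intro j _
  exact (aux_ne (rr_re (iter hξ h0 j).1)).1

theorem PPi_vv (n : ℕ) (ξ : ℂ) : PPi n ξ = vv n ξ ^ 4 * (MM^[n] ξ) ^ 3 := rfl

theorem scal_orb [NeBot l] (hh : Differentiable ℂ h) (hB : Bnd h B M) (h0 : rho h p = 0)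
    (hg : deriv (rho h) p ≠ 0) {d : ι → ℝ} (hd : Tendsto d l (𝓝 0)) (hd0 : ∀ᶠ i in l, 0 < d i)
    {ψ δ : ι → ℂ} {V ξ : ℂ} (hV : V ≠ 0) (hξ : 0 ≤ ξ.re) (hξ0 : ξ ≠ 0)
    (hψ : Tendsto (fun i => (ψ i - p) / d i) l (𝓝 V))
    (hδ : Tendsto (fun i => δ i / d i) l (𝓝 (2 / 3 * ξ * V))) (n : ℕ)
    (hA : ∀ k < n, ∀ᶠ i in l, Adm h B M (orb h (ψ i) (δ i) k).1 (orb h (ψ i) (δ i) k).2) :
    Tendsto (fun i => ((orb h (ψ i) (δ i) n).1 - p) / d i) l (𝓝 (vv n ξ * V)) ∧
    Tendsto (fun i => (orb h (ψ i) (δ i) n).2 / d i) l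
      (𝓝 (2 / 3 * MM^[n] ξ * (vv n ξ * V))) := by
  induction n with
  | zero =>
    simp only [orb_zero, vv, Finset.range_zero, Finset.prod_empty, one_mul,
      Function.iterate_zero, id_eq]
    exact ⟨hψ, hδ⟩
  | succ n ih =>
    obtain ⟨i1, i2⟩ := ih (fun k hk => hA k (by omega))
    have h1 := scal_step hh hB h0 hg hd hd0 (mul_ne_zero (vv_ne hξ hξ0 n) hV)
      (iter hξ hξ0 n).1 i1 i2 (hA n (by omega))
    have e : vv (n + 1) ξ = rr (MM^[n] ξ) * vv n ξ := by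
      rw [vv, Finset.prod_range_succ, mul_comm]; rfl
    rw [e, Function.iterate_succ_apply', mul_assoc]
    simp only [orb_succ]
    exact h1

end scaling

end Vale.Agent.P097.Cusp
end

section

namespace Vale.Agent.P097.Cusp

open Complex Filter Topology
open scoped ComplexConjugate

theorem im_cube (w : ℂ) : |(w ^ 3).im| ≤ 3 * |w.im| * ‖w‖ ^ 2 := by
  have e : (w ^ 3).im = w.im * (3 * w.re ^ 2 - w.im ^ 2) := by
    simp only [pow_succ, pow_zero, one_mul, mul_im, mul_re]; ring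
  have e2 : ‖w‖ ^ 2 = w.re ^ 2 + w.im ^ 2 := by
    rw [← Complex.normSq_eq_norm_sq, Complex.normSq_apply]; ring
  rw [e, abs_mul, e2]
  have h1 : |3 * w.re ^ 2 - w.im ^ 2| ≤ 3 * (w.re ^ 2 + w.im ^ 2) := by
    rw [abs_le]; constructor <;> nlinarith only []
  linarith only [mul_nonneg (sub_nonneg.2 h1) (sub_nonneg.2 (abs_nonneg w.im))]

namespace Setup

variable {h : ℂ → ℂ} {H Y : ℝ} {S : Setup h H Y}

theorem start_n {m n : ℕ} (hm : 0 < m) (hn : n ≤ m) {z : ℂ} (hz : S.Gd m z) {a : ℝ}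
    (ha : |a| ≤ S.r1 / 2) :
    S.Start (orb h z (S.dl m z a) n).1 (orb h z (S.dl m z a) n).2 := by
  have hr1 := S.r1_pos
  have hr1' := S.r1_le
  have hp := S.p0_pos hm
  have hc1 := S.c1_pos
  have hK := S.K_pos
  have hC4 := S.C4_ge
  have ha' : ‖(a : ℂ)‖ ≤ S.r1 := by
    rw [Complex.norm_real, Real.norm_eq_abs]; linarith only [ha, hr1]
  have hs := hz.start2 hm ha'
  have hΩ : ∀ j ≤ n, (orb h z (S.dl m z a) j).1 ∈ S.Ω := fun j hj => stay_mem hs hm (by omega)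
  obtain ⟨k1, k2, k3, -⟩ := core (hs.start hm) n hΩ
  obtain ⟨a1, a2, a3, -⟩ := at_k hs hm hΩ
  obtain ⟨hpot, -⟩ := S.geo hz.mem hz.cone
  obtain ⟨hpn, -⟩ := S.geo (hΩ n le_rfl) k1
  obtain ⟨w1, -⟩ := weak (hs.start hm) hpn k3
  have hds := hz.dl_small hm ha'
  have hw0 : qq h z * S.dl m z a = ((S.p0 m * (1 + a) : ℝ) : ℂ) := by
    rw [hz.q_dl]; push_cast; ring
  have hpos : 0 < S.p0 m * (1 + a) := by
    have := (abs_le.1 ha).1
    apply mul_pos hp; linarith only [hr1', this]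
  have hD : S.K * (‖S.dl m z a‖ / pot Y z) ≤ 1 / 80000 := by
    have h1 : ‖S.dl m z a‖ / pot Y z ≤ S.c3 := by rw [div_le_iff₀ hpot]; exact hds
    calc S.K * (‖S.dl m z a‖ / pot Y z) ≤ S.K * S.c3 := by (clear * - h1 hK; gcongr)
      _ ≤ S.r1 / 400 := S.c3_K
      _ ≤ 1 / 80000 := by linarith only [hr1']
  refine ⟨hΩ n le_rfl, k1, a3.2.1, ?_, ?_, ?_⟩
  · calc ‖(orb h z (S.dl m z a) n).2‖ ≤ S.C4 * ‖S.dl m z a‖ := a2
      _ ≤ S.C4 * (S.c3 * pot Y z) := by (clear * - hds hC4; gcongr)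
      _ = (S.C4 * S.c3) * pot Y z := by ring
      _ ≤ S.c1 * pot Y (orb h z (S.dl m z a) n).1 := by
          gcongr
          exact S.c3_C4
  all_goals
    rw [hw0, Complex.norm_real, Real.norm_eq_abs, abs_of_pos hpos] at w1
    have w2 : ‖qq h (orb h z (S.dl m z a) n).1 * (orb h z (S.dl m z a) n).2
        - ((S.p0 m * (1 + a) : ℝ) : ℂ)‖ ≤ S.p0 m * (1 + a) * (1 / 80000) :=
      w1.trans (mul_le_mul_of_nonneg_left hD hpos.le)
    generalize qq h (orb h z (S.dl m z a) n).1 * (orb h z (S.dl m z a) n).2 = w at w2 ⊢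
    generalize S.p0 m * (1 + a) = P at w2 hpos
    have r1 := abs_le.1 ((Complex.abs_re_le_norm _).trans w2)
    have r2 := (Complex.abs_im_le_norm _).trans w2
    rw [Complex.sub_re, Complex.ofReal_re] at r1
    rw [Complex.sub_im, Complex.ofReal_im, sub_zero] at r2
    have r3 := norm_le_insert' w (P : ℂ)
    have r4 := norm_le_insert w (P : ℂ)
    rw [Complex.norm_real, Real.norm_eq_abs, abs_of_pos hpos] at r3 r4
  · linarith only [w2, r1, r3]
  · linarith only [w2, hpos, r2, r4]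

theorem outer {m n : ℕ} (hm : 0 < m) (hn : n ≤ m) {z : ℂ} (hz : S.Gd m z) {a : ℝ}
    (ha : |a| ≤ S.r1 / 2) (hw : (qq h (S.AP m z a) * S.AD m z a).im = 0) :
    |(rho h (orb h z (S.dl m z a) n).1 * (orb h z (S.dl m z a) n).2 ^ 3).im|
      ≤ 18 * S.K * (‖(orb h z (S.dl m z a) n).2‖ / ‖(orb h z (S.dl m z a) n).1 - Y * I‖)
        * ‖rho h (orb h z (S.dl m z a) n).1 * (orb h z (S.dl m z a) n).2 ^ 3‖ := by
  have hK := S.K_pos
  have ha' : ‖(a : ℂ)‖ ≤ S.r1 := by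
    have := S.r1_pos
    rw [Complex.norm_real, Real.norm_eq_abs]; linarith only [ha, this]
  have hs := hz.start2 hm ha'
  have hst := start_n hm hn hz ha
  obtain ⟨k, rfl⟩ := Nat.exists_eq_add_of_le hn
  have hΩ : ∀ j ≤ k, (orb h (orb h z (S.dl (n + k) z a) n).1
      (orb h z (S.dl (n + k) z a) n).2 j).1 ∈ S.Ω := by
    intro j hj
    rw [← orb_add]
    exact stay_mem hs hm (by omega)
  obtain ⟨c1, c2, c3, -⟩ := core hst k hΩ
  obtain ⟨hpk, -⟩ := S.geo (hΩ k le_rfl) c1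
  obtain ⟨w1, -⟩ := weak hst hpk c3
  have e : orb h (orb h z (S.dl (n + k) z a) n).1 (orb h z (S.dl (n + k) z a) n).2 k
      = orb h z (S.dl (n + k) z a) (n + k) := (orb_add _ _ _ _ _).symm
  rw [e] at w1
  obtain ⟨hpn, hgn⟩ := S.geo hst.mem hst.cone
  have hYn : 0 < ‖(orb h z (S.dl (n + k) z a) n).1 - Y * I‖ := by
    have := pot_le (Y := Y) (orb h z (S.dl (n + k) z a) n).1
    linarith only [hpn, this]
  have hP : rho h (orb h z (S.dl (n + k) z a) n).1 * (orb h z (S.dl (n + k) z a) n).2 ^ 3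
      = (qq h (orb h z (S.dl (n + k) z a) n).1 * (orb h z (S.dl (n + k) z a) n).2) ^ 3 := by
    rw [mul_pow, qq_cube]
  rw [hP]
  rw [AP, AD] at hw
  have him : |(qq h (orb h z (S.dl (n + k) z a) n).1 * (orb h z (S.dl (n + k) z a) n).2).im|
      ≤ ‖qq h (orb h z (S.dl (n + k) z a) n).1 * (orb h z (S.dl (n + k) z a) n).2‖ *
        (S.K * (‖(orb h z (S.dl (n + k) z a) n).2‖ / pot Y (orb h z (S.dl (n + k) z a) n).1)) := by
    have := (Complex.abs_im_le_norm _).trans w1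
    rw [Complex.sub_im, hw, zero_sub, abs_neg] at this
    exact this
  have hdiv : ‖(orb h z (S.dl (n + k) z a) n).2‖ / pot Y (orb h z (S.dl (n + k) z a) n).1
      ≤ 6 * (‖(orb h z (S.dl (n + k) z a) n).2‖
        / ‖(orb h z (S.dl (n + k) z a) n).1 - Y * I‖) := by
    rw [mul_div_assoc', div_le_div_iff₀ hpn hYn]
    have := norm_nonneg (orb h z (S.dl (n + k) z a) n).2
    linarith only [mul_nonneg (sub_nonneg.2 hgn) (sub_nonneg.2 this)]
  refine (im_cube _).trans ?_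
  rw [norm_pow]
  generalize qq h (orb h z (S.dl (n + k) z a) n).1 * (orb h z (S.dl (n + k) z a) n).2 = w at *
  generalize ‖(orb h z (S.dl (n + k) z a) n).2‖ / pot Y (orb h z (S.dl (n + k) z a) n).1 = A at *
  generalize ‖(orb h z (S.dl (n + k) z a) n).2‖
    / ‖(orb h z (S.dl (n + k) z a) n).1 - Y * I‖ = B' at *
  have hw0 := norm_nonneg w
  calc 3 * |w.im| * ‖w‖ ^ 2 ≤ 3 * (‖w‖ * (S.K * (6 * B'))) * ‖w‖ ^ 2 := by
        have : |w.im| ≤ ‖w‖ * (S.K * (6 * B')) := by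
          refine him.trans ?_
          (clear * - hdiv hK; gcongr)
        (clear * - this; gcongr)
    _ = 18 * S.K * B' * ‖w‖ ^ 3 := by ring

end Setup

end Vale.Agent.P097.Cusp
end

section

namespace Vale.Agent.P097.Cusp

open Complex Filter Topology
open scoped ComplexConjugate

namespace Setup

variable {h : ℂ → ℂ} {H Y : ℝ} (S : Setup h H Y)

/-- auxiliary function -/
noncomputable def FF (Y : ℝ) (h : ℂ → ℂ) (y : ℝ) : ℝ := (Y - y) * ‖qq h ((y : ℂ) * I)‖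

include S in
theorem FF_pos {y : ℝ} (h0 : 0 ≤ y) (h1 : y < Y) : 0 < FF Y h y :=
  mul_pos (by linarith only [h1]) (norm_pos_iff.2 (S.q_ne (S.iy_mem h0 h1)))

include S in
theorem FF_cont {y1 : ℝ} (h1 : y1 < Y) : ContinuousOn (FF Y h) (Set.Icc 0 y1) := by
  have c1 : ContinuousOn (fun y : ℝ => (y : ℂ) * I) (Set.Icc 0 y1) := by (clear * -; fun_prop)
  have c2 : ContinuousOn (qq h) S.Ω := fun z hz => (S.q_cont hz).continuousWithinAt
  have hmaps : Set.MapsTo (fun y : ℝ => (y : ℂ) * I) (Set.Icc 0 y1) S.Ω := fun y hy =>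
    S.iy_mem hy.1 (lt_of_le_of_lt hy.2 h1)
  have c3 : ContinuousOn (fun y : ℝ => Y - y) (Set.Icc 0 y1) := by fun_prop
  exact c3.mul (c2.comp c1 hmaps).norm

include S in
theorem FF_small {b : ℝ} (hb : 0 < b) {Y' : ℝ} (hY' : Y' < Y) (h0 : 0 ≤ Y') :
    ∃ y, Y' < y ∧ y < Y ∧ FF Y h y ≤ b := by
  have hM := S.M1
  have hY := S.T.Ypos
  obtain ⟨y, hy⟩ : ∃ y, y = max ((Y' + Y) / 2) (Y - b / S.M) := ⟨_, rfl⟩
  have hyb : 0 < b / S.M := by (clear * - hb hM; positivity)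
  have y1 : Y' < y := by
    rw [hy]; exact lt_of_lt_of_le (by linarith only [hY']) (le_max_left _ _)
  have y2 : y < Y := by
    rw [hy]; exact max_lt (by linarith only [hY']) (by linarith only [hyb])
  have y3 : Y - b / S.M ≤ y := by rw [hy]; exact le_max_right _ _
  refine ⟨y, y1, y2, ?_⟩
  have hmem := S.iy_mem (by linarith only [h0, y1] : 0 ≤ y) y2
  have hq : ‖qq h ((y : ℂ) * I)‖ ≤ S.M := by
    have h1 : ‖qq h ((y : ℂ) * I)‖ ^ 3 ≤ S.M := by
      rw [← norm_pow, qq_cube]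
      exact (S.bnd.2 _ (by linarith only [S.BΩ _ hmem])).1
    by_contra hcon
    push Not at hcon
    have h2 : S.M ^ 3 < ‖qq h ((y : ℂ) * I)‖ ^ 3 := by (clear * - hcon hM; gcongr)
    have h3 : S.M ≤ S.M ^ 3 := le_self_pow₀ hM (by norm_num)
    linarith only [h1, h2, h3]
  calc FF Y h y ≤ (b / S.M) * S.M := by
        rw [FF]
        have h3 := norm_nonneg (qq h ((y : ℂ) * I))
        have h4 : Y - y ≤ b / S.M := by linarith only [y3]
        have h5 : 0 ≤ Y - y := by linarith only [y2]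
        (clear * - h4 hq hb hM; gcongr)
    _ = b := by field_simp

theorem p0_lim : Tendsto S.p0 atTop (𝓝 0) := by
  have h1 : Tendsto (fun m : ℕ => S.Lx / 4 * ((m : ℝ)⁻¹)) atTop (𝓝 (S.Lx / 4 * 0)) :=
    tendsto_inv_atTop_nhds_zero_nat.const_mul _
  rw [mul_zero] at h1
  refine h1.congr (fun m => ?_)
  rw [p0]
  rcases Nat.eq_zero_or_pos m with rfl | hm
  · simp
  · have : (m : ℝ) ≠ 0 := by positivity
    (clear * - this; field_simp)

theorem exists_d (hper : ∀ m₀ : ℕ, ∃ m ≥ m₀, Per h H m (S.c3 * Y / 2)) {η : ℝ} (hη : 0 < η)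
    (hη1 : η < S.c3 / 5) (n : ℕ) {ε : ℝ} (hε : 0 < ε) :
    ∃ d : ℝ, 0 < d ∧ d < ε ∧ ∃ m : ℕ, 0 < m ∧ n ≤ m ∧ ∃ a : ℝ, |a| ≤ S.r1 / 2 ∧
      S.Gd m (((Y - d : ℝ) : ℂ) * I) ∧
      S.dl m (((Y - d : ℝ) : ℂ) * I) a = ((η * d : ℝ) : ℂ) ∧
      (qq h (S.AP m (((Y - d : ℝ) : ℂ) * I) a) * S.AD m (((Y - d : ℝ) : ℂ) * I) a).im = 0 := by
  have hY := S.T.Ypos
  have hc3 := S.c3_pos
  have hr1 := S.r1_pos
  have hr1' := S.r1_le
  obtain ⟨Y', hY'⟩ : ∃ Y', Y' = max 0 (Y - ε / 2) := ⟨_, rfl⟩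
  have Y0 : 0 ≤ Y' := by rw [hY']; exact le_max_left _ _
  have Y1 : Y' < Y := by rw [hY']; exact max_lt hY (by linarith only [hε])
  have Y2 : Y - ε < Y' := by
    rw [hY']; exact lt_of_lt_of_le (by linarith only [hε]) (le_max_right _ _)
  -- minimum on the first part
  obtain ⟨y0, hy0, hmin⟩ := isCompact_Icc.exists_isMinOn (Set.nonempty_Icc.2 Y0)
    (S.FF_cont Y1)
  have hF0 := S.FF_pos hy0.1 (lt_of_le_of_lt hy0.2 Y1)
  obtain ⟨F0, hF0def⟩ : ∃ F0, F0 = FF Y h y0 := ⟨_, rfl⟩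
  rw [← hF0def] at hF0
  have hmin' : ∀ y ∈ Set.Icc 0 Y', F0 ≤ FF Y h y := fun y hy => by
    rw [hF0def]; exact hmin hy
  -- choice of m
  have hev : ∀ᶠ m in atTop, S.p0 m < min (S.c3 * F0 / 4) (η * F0 / 2) :=
    S.p0_lim.eventually (gt_mem_nhds (by (clear * - hc3 hF0 hη; positivity)))
  obtain ⟨m₁, hm₁⟩ := eventually_atTop.1 hev
  obtain ⟨m, hm, hPer⟩ := hper (max m₁ (max 1 n))
  have hm1 : m₁ ≤ m := (le_max_left _ _).trans hm
  have hm2 : 0 < m := lt_of_lt_of_le Nat.one_pos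
    ((le_max_left _ _).trans ((le_max_right _ _).trans hm))
  have hm3 : n ≤ m := (le_max_right _ _).trans ((le_max_right _ _).trans hm)
  have hp := S.p0_pos hm2
  have hpm := hm₁ m hm1
  have hpa : S.p0 m < S.c3 * F0 / 4 := lt_of_lt_of_le hpm (min_le_left _ _)
  have hpb : S.p0 m < η * F0 / 2 := lt_of_lt_of_le hpm (min_le_right _ _)
  obtain ⟨b, hb⟩ : ∃ b, b = 4 * S.p0 m / S.c3 := ⟨_, rfl⟩
  have hb0 : 0 < b := by rw [hb]; positivity
  have hbF : b < F0 := by rw [hb, div_lt_iff₀ hc3]; linarith only [hpa]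
  obtain ⟨Y'', z1, z2, z3⟩ := S.FF_small hb0 Y1 Y0
  -- the first point where F equals b
  have hivt : ∀ y : ℝ, 0 ≤ y → y < Y → FF Y h y ≤ b → ∃ y' ∈ Set.Icc 0 y, FF Y h y' = b := by
    intro y y0' y1' hyb
    have h1 := intermediate_value_Icc' y0' (S.FF_cont y1')
    have h2 : b ∈ Set.Icc (FF Y h y) (FF Y h 0) :=
      ⟨hyb, hbF.le.trans (hmin' 0 ⟨le_rfl, Y0⟩)⟩
    obtain ⟨y', hy', e⟩ := h1 h2
    exact ⟨y', hy', e⟩
  have hne : ({y | y ∈ Set.Icc 0 Y'' ∧ FF Y h y ∈ ({b} : Set ℝ)}).Nonempty := by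
    obtain ⟨y', hy', e⟩ := hivt Y'' (by linarith only [Y0, z1]) z2 z3
    exact ⟨y', hy', e⟩
  have hcl : IsClosed {y | y ∈ Set.Icc 0 Y'' ∧ FF Y h y ∈ ({b} : Set ℝ)} :=
    (S.FF_cont z2).preimage_isClosed_of_isClosed isClosed_Icc isClosed_singleton
  have hcpt : IsCompact {y | y ∈ Set.Icc 0 Y'' ∧ FF Y h y ∈ ({b} : Set ℝ)} :=
    isCompact_Icc.of_isClosed_subset hcl (fun y hy => hy.1)
  obtain ⟨y1, ⟨hy1, hy1b⟩, hleast⟩ := hcpt.exists_isLeast hne
  rw [Set.mem_singleton_iff] at hy1b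
  have hy1Y : y1 < Y := lt_of_le_of_lt hy1.2 z2
  have hlow : ∀ y : ℝ, 0 ≤ y → y ≤ y1 → b ≤ FF Y h y := by
    intro y g0 g1
    by_contra hcon
    push Not at hcon
    obtain ⟨y', hy', e⟩ := hivt y g0 (by linarith only [hy1Y, g1]) hcon.le
    have h5 := hleast (a := y') ⟨⟨hy'.1, by linarith only [g1, hy'.2, hy1.2]⟩, e⟩
    have h6 : y' = y := le_antisymm hy'.2 (g1.trans h5)
    rw [← h6, e] at hcon
    exact lt_irrefl _ hcon
  have hY'y1 : Y' < y1 := by
    by_contra hcon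
    push Not at hcon
    have := hmin' y1 ⟨hy1.1, hcon⟩
    rw [hy1b] at this
    linarith only [hbF, this]
  obtain ⟨a, hac, ha⟩ := S.curve hm2 hPer hy1.1 hy1Y (by
    intro y g0 g1
    have h1 := hlow y g0 g1
    rw [hb, div_le_iff₀ hc3, FF] at h1
    have h2 : S.c3 * (Y - y) * ‖qq h ((y : ℂ) * I)‖
      = (Y - y) * ‖qq h ((y : ℂ) * I)‖ * S.c3 := by ring
    rw [h2]
    linarith only [hp, h1])
  -- intermediate value
  have hgc : ContinuousOn (fun y => S.p0 m * (1 + a y) / FF Y h y) (Set.Icc Y' y1) := by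
    have hsub : Set.Icc Y' y1 ⊆ Set.Icc 0 y1 := Set.Icc_subset_Icc_left Y0
    refine ((continuousOn_const.add (hac.mono hsub)).const_mul _ |>.div
      ((S.FF_cont hy1Y).mono hsub) ?_)
    intro y hy
    exact (S.FF_pos (Y0.trans hy.1) (lt_of_le_of_lt hy.2 hy1Y)).ne'
  have hg1 : S.p0 m * (1 + a Y') / FF Y h Y' ≤ η := by
    have hb1 := abs_le.1 (ha Y' ⟨Y0, hY'y1.le⟩).2.1
    have hF := hmin' Y' ⟨Y0, le_rfl⟩
    have hFp : 0 < FF Y h Y' := lt_of_lt_of_le hF0 hF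
    rw [div_le_iff₀ hFp]
    calc S.p0 m * (1 + a Y') ≤ S.p0 m * 2 := by
          apply mul_le_mul_of_nonneg_left _ hp.le; linarith only [hr1', hb1]
      _ ≤ η * F0 := by linarith only [hpb]
      _ ≤ η * FF Y h Y' := by (clear * - hF hη; gcongr)
  have hg2 : η ≤ S.p0 m * (1 + a y1) / FF Y h y1 := by
    have hb1 := abs_le.1 (ha y1 ⟨hy1.1, le_rfl⟩).2.1
    rw [hy1b, le_div_iff₀ hb0]
    have h1 : η * b ≤ S.c3 / 5 * b := by (clear * - hη1 hb0; gcongr)
    have h2 : S.c3 / 5 * b = S.p0 m * (4 / 5) := by rw [hb]; (clear * - hc3 hp; field_simp)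
    have h3 : S.p0 m * (4 / 5) ≤ S.p0 m * (1 + a y1) := by
      apply mul_le_mul_of_nonneg_left _ hp.le; linarith only [hr1', hb1]
    linarith only [h1, h2, h3]
  obtain ⟨y, hy, hyη⟩ := intermediate_value_Icc hY'y1.le hgc ⟨hg1, hg2⟩
  have hyy : y ∈ Set.Icc 0 y1 := ⟨Y0.trans hy.1, hy.2⟩
  have hyY : y < Y := lt_of_le_of_lt hy.2 hy1Y
  obtain ⟨e1, e2, e3⟩ := ha y hyy
  refine ⟨Y - y, by linarith only [hyY], by linarith only [Y2, hy.1], m, hm2, hm3, a y, e2, ?_, ?_, ?_⟩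
  · rw [sub_sub_cancel]; exact e1
  · rw [sub_sub_cancel, dl, S.q_iy hyy.1 hyY]
    have hF := S.FF_pos hyy.1 hyY
    simp only at hyη
    rw [div_eq_iff hF.ne', FF] at hyη
    have hq : ‖qq h ((y : ℂ) * I)‖ ≠ 0 := (norm_pos_iff.2 (S.q_ne (S.iy_mem hyy.1 hyY))).ne'
    have hq' : ((‖qq h ((y : ℂ) * I)‖ : ℝ) : ℂ) ≠ 0 := by exact_mod_cast hq
    rw [div_eq_iff hq']
    have := congrArg (fun x : ℝ => (x : ℂ)) hyη
    push_cast at this ⊢
    linear_combination this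
  · rw [sub_sub_cancel]; exact e3

end Setup

end Vale.Agent.P097.Cusp
end

section

namespace Vale.Agent.P097.Cusp

open Complex Filter Topology
open scoped ComplexConjugate

theorem per_int {f : ℂ → ℂ} {a : ℂ} (hp : ∀ z, f (z + a) = f z) (n : ℤ) (z : ℂ) :
    f (z + n * a) = f z := by
  induction n using Int.induction_on with
  | zero => simp
  | succ n ih =>
    push_cast
    rw [show z + ((n : ℂ) + 1) * a = (z + n * a) + a by ring, hp]
    push_cast at ih; exact ih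
  | pred n ih =>
    push_cast
    rw [← hp, show z + (-(n : ℂ) - 1) * a + a = z + -(n : ℂ) * a by ring]
    push_cast at ih; exact ih

theorem DomTable.sym {h : ℂ → ℂ} {H Y : ℝ} (T : DomTable h H Y) : SymTable h H Y := by
  refine ⟨T.ent, T.real, T.even, T.per, T.Hpos, T.Ypos, ?_, T.zero, T.simple⟩
  intro x
  have hH := T.Hpos
  have h0 : 0 < (rho h 0).re := by simpa only [ofReal_zero, zero_mul] using T.posI 0 le_rfl T.Ypos
  have hper : ∀ z, rho h (z + 2 * H) = rho h z := fun z => by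
    simp only [rho]
    rw [T.per, deriv_of_per (deriv_of_per T.per)]
  obtain ⟨n, hn⟩ : ∃ n : ℤ, n = ⌊x / (2 * H)⌋ := ⟨_, rfl⟩
  obtain ⟨y, hy⟩ : ∃ y : ℝ, y = x - n * (2 * H) := ⟨_, rfl⟩
  have h1 : 0 ≤ y := by
    have := Int.floor_le (x / (2 * H))
    rw [← hn, le_div_iff₀ (by positivity)] at this
    rw [hy]; linarith
  have h2 : y < 2 * H := by
    have := Int.lt_floor_add_one (x / (2 * H))
    rw [← hn, div_lt_iff₀ (by positivity)] at this
    rw [hy]; linarith only [this]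
  have e : rho h (x : ℂ) = rho h (y : ℂ) := by
    have := per_int hper n (y : ℂ)
    rw [← this]
    congr 1
    rw [hy]; push_cast; ring
  rw [e]
  rcases h1.eq_or_lt with h3 | h3
  · rw [← h3]; simpa using h0
  · have := T.dom y 0 h3 h2 le_rfl T.Ypos.le
    simp only [Complex.ofReal_zero, zero_mul, add_zero] at this
    linarith only [h0, this]

/-- near the cusp -/
theorem near_cusp {γ t : ℝ} (hγ : 0 < γ) (ht : 0 < t) (ht1 : t ≤ 1) {ζ e : ℂ} (hζ : ζ ≠ 0)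
    (he : ‖e‖ ≤ t / 400) (hre : t * ζ.im < ζ.re) : Good (ζ * (γ * I * (1 + e))) ∧
    γ / 2 * ‖ζ‖ ≤ ‖ζ * (γ * I * (1 + e))‖ := by
  have hζn := norm_pos_iff.2 hζ
  have hI1 : ‖I‖ = 1 := Complex.norm_I
  have hγn : ‖(γ : ℂ)‖ = γ := by rw [Complex.norm_real, Real.norm_eq_abs, abs_of_pos hγ]
  have h1 : 1 - t / 400 ≤ ‖1 + e‖ := by
    have := norm_sub_le (1 + e) e
    rw [add_sub_cancel_right, norm_one] at this
    linarith only [this, he]
  have hn : ‖ζ * (γ * I * (1 + e))‖ = γ * ‖ζ‖ * ‖1 + e‖ := by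
    rw [norm_mul, norm_mul, norm_mul, hI1, hγn]; ring
  have hgz : 0 < γ * ‖ζ‖ := by positivity
  have hlow : γ * ‖ζ‖ * (399 / 400) ≤ ‖ζ * (γ * I * (1 + e))‖ := by
    rw [hn]; gcongr; linarith only [ht1, h1]
  have hsplit : ζ * (γ * I * (1 + e)) = (γ : ℂ) * (I * ζ) + (γ : ℂ) * (I * ζ * e) := by ring
  have herr : ‖(γ : ℂ) * (I * ζ * e)‖ ≤ γ * ‖ζ‖ * (t / 400) := by
    rw [norm_mul, norm_mul, norm_mul, hI1, hγn, one_mul, ← mul_assoc]
    gcongr
  have hr := abs_le.1 ((Complex.abs_re_le_norm _).trans herr)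
  have hi := abs_le.1 ((Complex.abs_im_le_norm _).trans herr)
  have hre' : (ζ * (γ * I * (1 + e))).re = -(γ * ζ.im) + ((γ : ℂ) * (I * ζ * e)).re := by
    rw [hsplit, Complex.add_re, Complex.re_ofReal_mul]
    simp only [mul_re, I_re, zero_mul, I_im, one_mul, zero_sub, mul_neg, ofReal_re, neg_mul, mul_im, zero_add, ofReal_im, sub_zero]
  have him' : (ζ * (γ * I * (1 + e))).im = γ * ζ.re + ((γ : ℂ) * (I * ζ * e)).im := by
    rw [hsplit, Complex.add_im, Complex.im_ofReal_mul]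
    simp only [mul_im, I_re, zero_mul, I_im, one_mul, zero_add, ofReal_re, mul_re, zero_sub, neg_mul, ofReal_im, add_zero]
  refine ⟨⟨?_, ?_⟩, by linarith only [hlow, hgz]⟩
  · rw [← norm_pos_iff]; linarith only [hgz, hlow]
  · rcases le_or_gt ζ.im (1 / 200 * ‖ζ‖) with hc | hc
    · right
      rw [hre']
      have h2 : γ * ζ.im ≤ γ * (1 / 200 * ‖ζ‖) := by (clear * - hc hγ; gcongr)
      have h3 : γ * ‖ζ‖ * (t / 400) ≤ γ * ‖ζ‖ * (1 / 400) := by (clear * - ht1 hγ hζ; gcongr)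
      linarith only [hgz, hlow, hr, h2, h3]
    · left
      rw [him']
      have h2 : t * (1 / 200 * ‖ζ‖) < ζ.re := lt_of_le_of_lt (by (clear * - hc ht; gcongr)) hre
      have h3 : γ * (t * (1 / 200 * ‖ζ‖)) < γ * ζ.re := by (clear * - h2 hγ; gcongr)
      nlinarith only [hi, h3]

namespace DomTable

variable {h : ℂ → ℂ} {H Y : ℝ} (T : DomTable h H Y)
include T

theorem nonneg_im {y : ℝ} (h0 : 0 ≤ y) (h1 : y ≤ Y) : 0 ≤ (rho h (y * I)).re := by
  rcases h1.eq_or_lt with h2 | h2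
  · rw [h2, T.zero]; simp
  · exact (T.posI y h0 h2).le

theorem region : ∃ t σ c : ℝ, 0 < t ∧ t ≤ 1 / 100 ∧ 0 < σ ∧ σ ≤ 1 / 100 ∧ σ ≤ H / 2 ∧ 0 < c ∧
    ∀ z ∈ Om H Y t σ, c * ‖z - Y * I‖ ≤ ‖rho h z‖ ∧ Good (rho h z) := by
  have S := T.sym
  have hH := T.Hpos
  have hY := T.Ypos
  -- Lipschitz constant
  obtain ⟨M, hM1, hM⟩ := exists_bound T.ent (H + Y + 3)
  have hM0 : 0 < M := by linarith
  have hlip : ∀ z w : ℂ, ‖z‖ ≤ H + Y + 3 → ‖w‖ ≤ H + Y + 3 →
      ‖rho h z - rho h w‖ ≤ M * ‖z - w‖ := by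
    intro z w hz hw
    exact mvt_ball (fun x => (S.diff_rho x).hasDerivAt) (fun x hx => (hM x hx).2.1) hw hz
  -- slope function
  set g := dslope (rho h) (Y * I) with hg
  have hgc : Continuous g := by
    rw [hg, continuous_iff_continuousAt]
    intro z
    rcases eq_or_ne z (Y * I) with rfl | hne
    · exact continuousAt_dslope_same.2 (S.diff_rho _)
    · exact (continuousAt_dslope_of_ne hne).2 (S.diff_rho.continuous.continuousAt)
  have hgr : ∀ z, rho h z = (z - Y * I) * g z := by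
    intro z
    have := sub_smul_dslope (rho h) (Y * I : ℂ) z
    rw [T.zero, sub_zero, smul_eq_mul] at this
    exact this.symm
  have hgY : g (Y * I) = deriv (rho h) (Y * I) := dslope_same _ _
  have hg0 : ∀ z, rho h z ≠ 0 → g z ≠ 0 := by
    intro z hz h0
    rw [hgr z, h0, mul_zero] at hz
    exact hz rfl
  -- lower bound on the imaginary axis
  obtain ⟨c0, hc0, hc0b⟩ := exists_lower
    (K := (fun y : ℝ => (y : ℂ) * I) '' Set.Icc 0 Y)
    (isCompact_Icc.image (by (clear * -; fun_prop))) (f := g) hgc.continuousOn (by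
      rintro _ ⟨y, hy, rfl⟩
      rcases hy.2.eq_or_lt with h1 | h1
      · simp only [h1]; rw [hgY]; exact T.simple
      · apply hg0
        intro h0
        have := T.posI y hy.1 h1
        rw [h0] at this
        simp at this)
  have hax : ∀ y : ℝ, 0 ≤ y → y < Y → c0 * (Y - y) ≤ (rho h (y * I)).re := by
    intro y hy0 hy1
    have h1 := hc0b (y * I) ⟨y, ⟨hy0, hy1.le⟩, rfl⟩
    have h2 : ‖rho h (y * I)‖ = (Y - y) * ‖g (y * I)‖ := by
      rw [hgr, norm_mul]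
      congr 1
      have : (y * I - Y * I : ℂ) = ((y - Y : ℝ) : ℂ) * I := by push_cast; ring
      rw [this, norm_mul, Complex.norm_I, mul_one, Complex.norm_real, Real.norm_eq_abs,
        abs_sub_comm, abs_of_pos (by linarith only [hy1])]
    have h3 : ‖rho h (y * I)‖ = (rho h (y * I)).re := by
      have h4 : rho h (y * I) = (((rho h (y * I)).re : ℝ) : ℂ) :=
        Complex.ext (by simp) (by simp [S.rho_imag_im y])
      rw [h4, Complex.norm_real, Real.norm_eq_abs, abs_of_pos (T.posI y hy0 hy1),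
        Complex.ofReal_re]
    rw [← h3, h2]
    linarith [mul_nonneg (le_of_lt (sub_pos.2 hy1)) (sub_nonneg.2 h1)]
  -- the slope at the cusp
  obtain ⟨γ, hγ, hγ0⟩ : ∃ γ : ℝ, g (Y * I) = γ * I ∧ 0 < γ := by
    refine ⟨(g (Y * I)).im, ?_, ?_⟩
    · apply Complex.ext
      · rw [hgY, S.deriv_re]; simp
      · simp
    · have hlim : Tendsto (fun y : ℝ => (g (y * I)).im) (𝓝[<] Y) (𝓝 (g (Y * I)).im) := by
        have hc : Continuous fun y : ℝ => (g (y * I)).im :=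
          Complex.continuous_im.comp (hgc.comp (by fun_prop))
        exact (hc.tendsto Y).mono_left nhdsWithin_le_nhds
      have hge : c0 ≤ (g (Y * I)).im := by
        refine ge_of_tendsto hlim ?_
        have h5 : ∀ᶠ y in 𝓝[<] Y, 0 < y ∧ y < Y := by
          have := Ioo_mem_nhdsLT hY
          filter_upwards [this] with y hy using hy
        filter_upwards [h5] with y hy
        have h6 := hax y hy.1.le hy.2
        rw [hgr] at h6
        have e : (((y : ℂ) * I - Y * I) * g (y * I)).re = (Y - y) * (g (y * I)).im := by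
          have : (y : ℂ) * I - Y * I = ((y - Y : ℝ) : ℂ) * I := by push_cast; ring
          rw [this, mul_assoc, Complex.re_ofReal_mul]
          simp; ring
        rw [e] at h6
        have h7 : 0 < Y - y := by linarith [hy.2]
        nlinarith only [h6, hy]
      linarith
  -- lower bound on the real axis
  obtain ⟨r1, hr1, hr1b⟩ := exists_lower
    (K := (fun x : ℝ => (x : ℂ)) '' Set.Icc (-1) (H + 1))
    (isCompact_Icc.image (by fun_prop)) (f := rho h) S.diff_rho.continuous.continuousOn (by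
      rintro _ ⟨x, -, rfl⟩ h0
      have := S.pos x
      rw [h0] at this
      simp at this)
  have hreal : ∀ x : ℝ, -1 ≤ x → x ≤ H + 1 → r1 ≤ (rho h x).re := by
    intro x h1 h2
    have h3 := hr1b x ⟨x, ⟨h1, h2⟩, rfl⟩
    have h4 : rho h x = (((rho h x).re : ℝ) : ℂ) :=
      Complex.ext (by simp) (by simp [S.rho_real_im x])
    rw [h4, Complex.norm_real, Real.norm_eq_abs, abs_of_pos (S.pos x)] at h3
    exact h3
  -- choice of t
  obtain ⟨t, ht0, ht1, ht2, ht3⟩ : ∃ t : ℝ, 0 < t ∧ t ≤ 1 / 100 ∧ t * (Y + 1) ≤ 1 ∧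
      M * t ≤ 1 / 200 * c0 := by
    refine ⟨min (1 / 100) (min (1 / (Y + 1)) (1 / 200 * c0 / M)), ?_, min_le_left _ _, ?_, ?_⟩
    · (clear * - hY hc0 hM1; positivity)
    · have : min (1 / 100) (min (1 / (Y + 1)) (1 / 200 * c0 / M)) ≤ 1 / (Y + 1) :=
        (min_le_right _ _).trans (min_le_left _ _)
      calc _ ≤ 1 / (Y + 1) * (Y + 1) := by (clear * - this hY; gcongr)
        _ = 1 := by field_simp
    · have : min (1 / 100) (min (1 / (Y + 1)) (1 / 200 * c0 / M)) ≤ 1 / 200 * c0 / M :=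
        (min_le_right _ _).trans (min_le_right _ _)
      calc _ ≤ M * (1 / 200 * c0 / M) := by (clear * - this hM1; gcongr)
        _ = 1 / 200 * c0 := by field_simp
  -- choice of the radius
  obtain ⟨r0, hr0, hr0b⟩ : ∃ r0 : ℝ, 0 < r0 ∧ ∀ z : ℂ, ‖z - Y * I‖ < r0 →
      ‖g z - g (Y * I)‖ ≤ γ * (t / 400) := by
    have h1 := Metric.continuousAt_iff.1 (hgc.continuousAt (x := (Y : ℂ) * I)) (γ * (t / 400))
      (by (clear * - hγ0 ht0; positivity))
    obtain ⟨r0, hr0, h2⟩ := h1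
    refine ⟨r0, hr0, fun z hz => ?_⟩
    have := h2 (x := z) (by rw [dist_eq_norm]; exact hz)
    rw [dist_eq_norm] at this
    exact this.le
  -- the compact part
  obtain ⟨r3, hr3, hr3b⟩ : ∃ r3 : ℝ, 0 < r3 ∧ ∀ z : ℂ, 0 ≤ z.re → z.re ≤ 3 / 2 * H → 0 ≤ z.im →
      z.im ≤ Y → r0 / 2 ≤ ‖z - Y * I‖ → r3 ≤ (rho h z).re := by
    obtain ⟨K, hK⟩ : ∃ K : Set ℂ, K = (Set.Icc 0 (3 / 2 * H) ×ℂ Set.Icc 0 Y)
      ∩ {z | r0 / 2 ≤ ‖z - Y * I‖} := ⟨_, rfl⟩
    have hKc : IsCompact K := by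
      rw [hK]
      refine (isCompact_Icc.reProdIm isCompact_Icc).inter_right ?_
      exact isClosed_le continuous_const (by fun_prop)
    have hpos : ∀ z ∈ K, 0 < (rho h z).re := by
      intro z hz
      rw [hK] at hz
      obtain ⟨⟨⟨h1, h2⟩, ⟨h3, h4⟩⟩, h5⟩ := hz
      have e : ((z.re : ℝ) : ℂ) + ((z.im : ℝ) : ℂ) * I = z := Complex.re_add_im z
      rcases h1.eq_or_lt with h6 | h6
      · have e2 : z = ((z.im : ℝ) : ℂ) * I := by
          rw [← e, ← h6]; simp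
        rcases h4.eq_or_lt with h7 | h7
        · exfalso
          have h8 : r0 / 2 ≤ ‖z - Y * I‖ := h5
          rw [e2, h7, sub_self, norm_zero] at h8
          linarith only [hr0, h8]
        · rw [e2]; exact T.posI _ h3 h7
      · have h7 := T.dom z.re z.im h6 (by linarith only [hH, h2]) h3 h4
        rw [e] at h7
        exact lt_of_le_of_lt (T.nonneg_im h3 h4) h7
    rcases K.eq_empty_or_nonempty with hemp | hne
    · refine ⟨1, one_pos, fun z h1 h2 h3 h4 h5 => ?_⟩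
      have : z ∈ K := by rw [hK]; exact ⟨⟨⟨h1, h2⟩, ⟨h3, h4⟩⟩, h5⟩
      rw [hemp] at this
      exact absurd this (Set.notMem_empty z)
    · obtain ⟨z0, hz0, hmin⟩ := hKc.exists_isMinOn hne
        (Complex.continuous_re.comp S.diff_rho.continuous).continuousOn
      refine ⟨(rho h z0).re, hpos z0 hz0, fun z h1 h2 h3 h4 h5 => ?_⟩
      exact hmin (by rw [hK]; exact ⟨⟨⟨h1, h2⟩, ⟨h3, h4⟩⟩, h5⟩)
  obtain ⟨σ, hσ0, hσ1, hσH, hσr, hσ3, hσ4⟩ : ∃ σ : ℝ, 0 < σ ∧ σ ≤ 1 / 100 ∧ σ ≤ H / 2 ∧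
      σ ≤ r0 / 2 ∧ M * σ ≤ 1 / 200 * r1 ∧ M * σ ≤ r3 / 2 := by
    refine ⟨min (min (1 / 100) (H / 2)) (min (r0 / 2) (min (1 / 200 * r1 / M) (r3 / 2 / M))), ?_,
      (min_le_left _ _).trans (min_le_left _ _), (min_le_left _ _).trans (min_le_right _ _),
      (min_le_right _ _).trans (min_le_left _ _), ?_, ?_⟩
    · (clear * - hH hr0 hr1 hM1 hr3; positivity)
    · have : min (min (1 / 100) (H / 2)) (min (r0 / 2) (min (1 / 200 * r1 / M) (r3 / 2 / M)))
          ≤ 1 / 200 * r1 / M :=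
        (min_le_right _ _).trans ((min_le_right _ _).trans (min_le_left _ _))
      calc _ ≤ M * (1 / 200 * r1 / M) := by (clear * - this hM1; gcongr)
        _ = 1 / 200 * r1 := by (clear * - hM1 hr1; field_simp)
    · have : min (min (1 / 100) (H / 2)) (min (r0 / 2) (min (1 / 200 * r1 / M) (r3 / 2 / M)))
          ≤ r3 / 2 / M :=
        (min_le_right _ _).trans ((min_le_right _ _).trans (min_le_right _ _))
      calc _ ≤ M * (r3 / 2 / M) := by (clear * - this hM1; gcongr)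
        _ = r3 / 2 := by (clear * - hM1 hr3; field_simp)
  obtain ⟨c, hc, hcγ, hc0', hc1', hc3'⟩ : ∃ c : ℝ, 0 < c ∧ c ≤ γ / 2 ∧ c ≤ c0 / 4 ∧
      c * (2 * (H + Y + 3)) ≤ r1 / 2 ∧ c * (2 * (H + Y + 3)) ≤ r3 / 2 := by
    refine ⟨min (min (γ / 2) (c0 / 4)) (min (r1 / 2 / (2 * (H + Y + 3)))
      (r3 / 2 / (2 * (H + Y + 3)))), ?_, ?_, ?_, ?_, ?_⟩
    · (clear * - hγ0 hc0 hr1 hH hY hr3; positivity)
    · exact (min_le_left _ _).trans (min_le_left _ _)
    · exact (min_le_left _ _).trans (min_le_right _ _)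
    · have : min (min (γ / 2) (c0 / 4)) (min (r1 / 2 / (2 * (H + Y + 3)))
          (r3 / 2 / (2 * (H + Y + 3)))) ≤ r1 / 2 / (2 * (H + Y + 3)) :=
        (min_le_right _ _).trans (min_le_left _ _)
      calc _ ≤ r1 / 2 / (2 * (H + Y + 3)) * (2 * (H + Y + 3)) := by (clear * - this hH hY; gcongr)
        _ = r1 / 2 := by (clear * - hH hY hr1; field_simp)
    · have : min (min (γ / 2) (c0 / 4)) (min (r1 / 2 / (2 * (H + Y + 3)))
          (r3 / 2 / (2 * (H + Y + 3)))) ≤ r3 / 2 / (2 * (H + Y + 3)) :=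
        (min_le_right _ _).trans (min_le_right _ _)
      calc _ ≤ r3 / 2 / (2 * (H + Y + 3)) * (2 * (H + Y + 3)) := by (clear * - this hH hY; gcongr)
        _ = r3 / 2 := by field_simp
  refine ⟨t, σ, c, ht0, ht1, hσ0, hσ1, hσH, hc, ?_⟩
  rintro z ⟨z1, z2, z3, z4⟩
  have htY : t * Y ≤ 1 := by linarith only [ht2, ht0]
  have hzre : -2 ≤ z.re := by nlinarith only [ht2, z1, ht0, hσ1, z3]
  have hzn : ‖z‖ ≤ H + Y + 3 := by
    have h1 := Complex.norm_le_abs_re_add_abs_im z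
    rcases le_or_gt 0 z.re with h2 | h2
    · rw [abs_of_nonneg h2] at h1
      rcases le_or_gt 0 z.im with h3 | h3
      · rw [abs_of_nonneg h3] at h1; linarith only [hσ1, z2, z4, h1]
      · rw [abs_of_neg h3] at h1; linarith only [hY, hσ1, z2, z3, h1]
    · rw [abs_of_neg h2] at h1
      rcases le_or_gt 0 z.im with h3 | h3
      · rw [abs_of_nonneg h3] at h1; linarith only [hσ0, hσH, z4, hzre, h1]
      · rw [abs_of_neg h3] at h1; linarith only [hY, hσH, z3, hzre, h1, h3]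
  have hYn : ‖(Y : ℂ) * I‖ ≤ H + Y + 3 := by
    rw [norm_mul, Complex.norm_I, mul_one, Complex.norm_real, Real.norm_eq_abs,
      abs_of_pos hY]; linarith only [hσ0, hσH]
  have hDn : ‖z - Y * I‖ ≤ 2 * (H + Y + 3) := (norm_sub_le _ _).trans (by linarith only [hzn, hYn])
  -- near the cusp
  rcases lt_or_ge ‖z - Y * I‖ r0 with hnear | hfar
  · have hζ : z - Y * I ≠ 0 := by
      intro h0
      rw [sub_eq_zero] at h0
      rw [h0] at z1
      simp at z1
    obtain ⟨e, he⟩ : ∃ e : ℂ, e = (g z - g (Y * I)) / (γ * I) := ⟨_, rfl⟩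
    have hγI : (γ : ℂ) * I ≠ 0 := mul_ne_zero (by exact_mod_cast hγ0.ne') I_ne_zero
    have hez : rho h z = (z - Y * I) * (γ * I * (1 + e)) := by
      rw [hgr, he, hγ]
      congr 1
      rw [mul_add, mul_div_cancel₀ _ hγI]
      ring
    have hen : ‖e‖ ≤ t / 400 := by
      have h5 := hr0b z hnear
      rw [he, norm_div, norm_mul, Complex.norm_I, mul_one, Complex.norm_real, Real.norm_eq_abs,
        abs_of_pos hγ0, div_le_iff₀ hγ0]
      linarith only [h5]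
    have h6 := near_cusp hγ0 ht0 (by linarith only [ht1]) hζ hen (by simpa only [sub_im, mul_im, ofReal_re, I_im, mul_one, ofReal_im, I_re, mul_zero, add_zero, sub_re, mul_re,     sub_self, sub_zero] using z1)
    rw [hez]
    refine ⟨?_, h6.1⟩
    exact (mul_le_mul_of_nonneg_right hcγ (norm_nonneg _)).trans h6.2
  -- far from the cusp
  have key : ∀ (x y : ℝ) (r : ℝ), 0 < r → (rho h (x + y * I)).im = 0 →
      r ≤ (rho h (x + y * I)).re → ‖(x : ℂ) + y * I‖ ≤ H + Y + 3 →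
      M * ‖z - (x + y * I)‖ ≤ 1 / 200 * r →
      r / 2 ≤ ‖rho h z‖ ∧ Good (rho h z) := by
    intro x y r hr him hre hn hMz
    have e : rho h (x + y * I) = (((rho h (x + y * I)).re : ℝ) : ℂ) :=
      Complex.ext (by simp) (by simp [him])
    have h1 : ‖rho h z - (((rho h (x + y * I)).re : ℝ) : ℂ)‖
        ≤ 1 / 200 * (rho h (x + y * I)).re := by
      rw [← e]
      refine (hlip z _ hzn hn).trans (hMz.trans ?_)
      linarith only [hre]
    obtain ⟨a1, a2, a3⟩ := near_real (by linarith only [hr, hre]) le_rfl h1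
    refine ⟨by linarith only [hre, a3], ?_, Or.inr ?_⟩
    · intro h0; rw [h0] at a1; simp at a1
    · have := norm_nonneg (rho h z); linarith only [hr, hre, a1, a3]
  rcases le_or_gt z.im 0 with hi | hi
  · have hx1 : -1 ≤ z.re := by nlinarith only [ht2, z1, ht0, hσ1, z3]
    have := key z.re 0 r1 hr1 (by simpa using S.rho_real_im z.re)
      (by simpa using hreal z.re hx1 (by linarith only [hσ1, z2]))
      (by
        simp only [ofReal_zero, zero_mul, add_zero]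
        rw [Complex.norm_real, Real.norm_eq_abs, abs_le]; constructor <;> linarith only [hY, hσ0, hσH, hzre, hσ1, z2])
      (by
        have e : z - (z.re + ((0 : ℝ) : ℂ) * I) = (z.im : ℂ) * I :=
          Complex.ext (by simp) (by simp)
        rw [e, norm_mul, Complex.norm_I, mul_one, Complex.norm_real, Real.norm_eq_abs]
        have : |z.im| ≤ σ := by rw [abs_le]; constructor <;> linarith only [hσ0, hi, z3]
        calc M * |z.im| ≤ M * σ := by (clear * - this hM1; gcongr)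
          _ ≤ _ := hσ3)
    refine ⟨?_, this.2⟩
    calc c * ‖z - Y * I‖ ≤ c * (2 * (H + Y + 3)) := by (clear * - hDn hc; gcongr)
      _ ≤ r1 / 2 := hc1'
      _ ≤ _ := this.1
  · rcases le_or_gt z.re 0 with hl | hl
    · -- the wedge
      have hzY : z.im < Y := by
        by_contra hcon
        push Not at hcon
        have : 0 ≤ t * (z.im - Y) := mul_nonneg ht0.le (by linarith only [hcon])
        linarith only [z1, hl, this]
      have hYy : 0 < Y - z.im := by linarith only [hzY]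
      have hre : |z.re| ≤ t * (Y - z.im) := by
        rw [abs_of_nonpos hl]; nlinarith only [z1]
      have := key 0 z.im (c0 * (Y - z.im)) (by (clear * - hc0 hzY; positivity))
        (by simpa using S.rho_imag_im z.im)
        (by simpa only [ofReal_zero, zero_add] using hax z.im hi.le hzY)
        (by
          simp only [ofReal_zero, zero_add]
          rw [norm_mul, Complex.norm_I, mul_one, Complex.norm_real, Real.norm_eq_abs,
            abs_of_pos hi]; linarith only [hσ0, hσH, hzY])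
        (by
          have e : z - (((0 : ℝ) : ℂ) + (z.im : ℂ) * I) = ((z.re : ℝ) : ℂ) :=
            Complex.ext (by simp) (by simp)
          rw [e, Complex.norm_real, Real.norm_eq_abs]
          calc M * |z.re| ≤ M * (t * (Y - z.im)) := by (clear * - hre hM1; gcongr)
            _ = (M * t) * (Y - z.im) := by ring
            _ ≤ (1 / 200 * c0) * (Y - z.im) := by (clear * - ht3 hzY; gcongr)
            _ = _ := by ring)
      refine ⟨?_, this.2⟩
      have hD : ‖z - Y * I‖ ≤ 2 * (Y - z.im) := by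
        have h1 := Complex.norm_le_abs_re_add_abs_im (z - Y * I)
        have e1 : (z - Y * I).re = z.re := by simp
        have e2 : (z - Y * I).im = z.im - Y := by simp
        rw [e1, e2, abs_sub_comm, abs_of_pos hYy] at h1
        have : t * (Y - z.im) ≤ 1 * (Y - z.im) := by gcongr; linarith only [ht1]
        linarith only [hre, h1, this]
      calc c * ‖z - Y * I‖ ≤ (c0 / 4) * (2 * (Y - z.im)) := by (clear * - hc0' hD hc0; gcongr)
        _ = c0 * (Y - z.im) / 2 := by ring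
        _ ≤ _ := this.1
    · -- the main part
      obtain ⟨y', hy'⟩ : ∃ y' : ℝ, y' = min z.im Y := ⟨_, rfl⟩
      have hy0 : 0 ≤ y' := by rw [hy']; exact le_min hi.le hY.le
      have hy1 : y' ≤ Y := by rw [hy']; exact min_le_right _ _
      have hy2 : y' ≤ z.im := by rw [hy']; exact min_le_left _ _
      have hy3 : z.im - y' ≤ σ := by
        rw [hy']
        rcases le_or_gt z.im Y with h5 | h5
        · rw [min_eq_left h5]; linarith only [hσ0]
        · rw [min_eq_right h5.le]; linarith only [z4]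
      obtain ⟨p, hp⟩ : ∃ p : ℂ, p = (z.re : ℂ) + (y' : ℂ) * I := ⟨_, rfl⟩
      have hpre : p.re = z.re := by rw [hp]; simp
      have hpim : p.im = y' := by rw [hp]; simp
      have hzp : ‖z - p‖ = z.im - y' := by
        have e : z - p = ((z.im - y' : ℝ) : ℂ) * I :=
          Complex.ext (by rw [Complex.sub_re, hpre]; simp)
            (by rw [Complex.sub_im, hpim]; simp)
        rw [e, norm_mul, Complex.norm_I, mul_one, Complex.norm_real, Real.norm_eq_abs,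
          abs_of_nonneg (by linarith only [hy2])]
      have hpY : r0 / 2 ≤ ‖p - Y * I‖ := by
        have h5 := norm_add_le (z - p) (p - Y * I)
        have e : z - p + (p - Y * I) = z - Y * I := by ring
        rw [e, hzp] at h5
        linarith only [hσr, hfar, hy3, h5]
      have h5 := hr3b p (by rw [hpre]; exact hl.le) (by rw [hpre]; linarith only [hσH, z2])
        (by rw [hpim]; exact hy0) (by rw [hpim]; exact hy1) hpY
      have hpn : ‖p‖ ≤ H + Y + 3 := by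
        have h6 := Complex.norm_le_abs_re_add_abs_im p
        rw [hpre, hpim, abs_of_pos hl, abs_of_nonneg hy0] at h6
        linarith only [hσ1, z2, hy1, h6]
      have h6 := (Complex.abs_re_le_norm _).trans (hlip z p hzn hpn)
      rw [hzp, Complex.sub_re] at h6
      have h7 : M * (z.im - y') ≤ r3 / 2 := by
        calc M * (z.im - y') ≤ M * σ := by (clear * - hy3 hM1; gcongr)
          _ ≤ _ := hσ4
      have h8 : r3 / 2 ≤ (rho h z).re := by linarith only [h5, h7, (abs_le.1 h6).1]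
      have h9 : r3 / 2 ≤ ‖rho h z‖ := h8.trans ((le_abs_self _).trans (Complex.abs_re_le_norm _))
      refine ⟨?_, ?_, Or.inr ?_⟩
      · calc c * ‖z - Y * I‖ ≤ c * (2 * (H + Y + 3)) := by (clear * - hDn hc; gcongr)
          _ ≤ r3 / 2 := hc3'
          _ ≤ _ := h9
      · rw [← norm_pos_iff]; linarith only [hr3, h9]
      · have := norm_nonneg (rho h z); linarith only [hr3, h8, h9]

end DomTable

end Vale.Agent.P097.Cusp
end

section

namespace Vale.Agent.P097.Cusp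

open Complex Filter Topology
open scoped ComplexConjugate

theorem scaled_im {d : ℝ} (hd : 0 < d) {A B C : ℂ} {k : ℝ}
    (hin : |(A * B ^ 3).im| ≤ k * (‖B‖ / ‖C‖) * ‖A * B ^ 3‖) :
    |(A / d * (B / d) ^ 3).im| ≤ k * (‖B / d‖ / ‖C / d‖) * ‖A / d * (B / d) ^ 3‖ := by
  have hd' : (d : ℂ) ≠ 0 := by exact_mod_cast hd.ne'
  have e1 : A / d * (B / d) ^ 3 = (((d ^ 4)⁻¹ : ℝ) : ℂ) * (A * B ^ 3) := by
    push_cast; (clear * - hd'; field_simp)
  have hn : ‖(d : ℂ)‖ = d := by rw [Complex.norm_real, Real.norm_eq_abs, abs_of_pos hd]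
  have e2 : ‖B / d‖ / ‖C / d‖ = ‖B‖ / ‖C‖ := by
    rw [norm_div, norm_div, hn, div_div_div_cancel_right₀ hd.ne']
  have hp : (0 : ℝ) < (d ^ 4)⁻¹ := by positivity
  rw [e1, e2, Complex.im_ofReal_mul, abs_mul, norm_mul, Complex.norm_real, Real.norm_eq_abs,
    abs_of_pos hp]
  calc (d ^ 4)⁻¹ * |(A * B ^ 3).im| ≤ (d ^ 4)⁻¹ * (k * (‖B‖ / ‖C‖) * ‖A * B ^ 3‖) := by (clear * - hin hd; gcongr)
    _ = _ := by ring


namespace Setup

variable {h : ℂ → ℂ} {H Y : ℝ} (S : Setup h H Y)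

theorem inner_ineq (hper : ∀ m₀ : ℕ, ∃ m ≥ m₀, Per h H m (S.c3 * Y / 2)) {η : ℝ} (hη : 0 < η)
    (hη1 : η < 3 / 10 * S.c3) (n : ℕ) :
    |(PPi n (η * I)).re| ≤ 12 * S.K * ‖MM^[n] (η * I)‖ * ‖PPi n (η * I)‖ := by
  have hη' : 0 < 2 / 3 * η := by (clear * - hη; positivity)
  have hη2 : 2 / 3 * η < S.c3 / 5 := by linarith only [hη1]
  choose d hd0 hd1 m hm hn a ha hG hdl hw using fun j : ℕ =>
    S.exists_d hper hη' hη2 n (ε := 1 / ((j : ℝ) + 1)) (by positivity)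
  have hdl0 : Tendsto d atTop (𝓝 0) :=
    squeeze_zero (fun j => (hd0 j).le) (fun j => (hd1 j).le) tendsto_one_div_add_atTop_nhds_zero_nat
  obtain ⟨ψ, hψ⟩ : ∃ ψ : ℕ → ℂ, ψ = fun j => ((Y - d j : ℝ) : ℂ) * I := ⟨_, rfl⟩
  obtain ⟨δ, hδ⟩ : ∃ δ : ℕ → ℂ, δ = fun j => S.dl (m j) (((Y - d j : ℝ) : ℂ) * I) (a j) :=
    ⟨_, rfl⟩
  have hne : (η : ℂ) * I ≠ 0 := mul_ne_zero (by exact_mod_cast hη.ne') I_ne_zero
  have hre : 0 ≤ ((η : ℂ) * I).re := by simp
  have ha' : ∀ j, ‖(a j : ℂ)‖ ≤ S.r1 := fun j => by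
    have := S.r1_pos
    rw [Complex.norm_real, Real.norm_eq_abs]; linarith only [this, ha j]
  have l1 : Tendsto (fun j => (ψ j - Y * I) / d j) atTop (𝓝 (-I)) := by
    refine tendsto_const_nhds.congr (fun j => ?_)
    have : (d j : ℂ) ≠ 0 := by exact_mod_cast (hd0 j).ne'
    rw [hψ]
    push_cast
    field_simp
    ring
  have l2 : Tendsto (fun j => δ j / d j) atTop (𝓝 (2 / 3 * ((η : ℂ) * I) * (-I))) := by
    refine tendsto_const_nhds.congr (fun j => ?_)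
    have : (d j : ℂ) ≠ 0 := by exact_mod_cast (hd0 j).ne'
    rw [hδ]
    simp only
    rw [hdl]
    push_cast
    have hI := Complex.I_mul_I
    field_simp
    linear_combination (-(η : ℂ)) * hI
  have hA : ∀ k < n, ∀ᶠ j in atTop, Adm h S.B S.M (orb h (ψ j) (δ j) k).1
      (orb h (ψ j) (δ j) k).2 := by
    intro k hk
    refine Eventually.of_forall (fun j => ?_)
    rw [hψ, hδ]
    have hs := (hG j).start2 (hm j) (ha' j)
    exact (at_k hs (hm j) (fun i hi => stay_mem hs (hm j) (by have := hn j; omega))).2.2.1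
  have hI0 : -I ≠ 0 := neg_ne_zero.2 I_ne_zero
  obtain ⟨s1, s2⟩ := scal_orb S.T.ent S.bnd S.T.zero S.T.simple hdl0
    (Eventually.of_forall hd0) hI0 hre hne l1 l2 n hA
  have s3 := rho_lim S.T.ent S.T.zero hdl0 (Eventually.of_forall hd0) s1
  have hvn := vv_ne hre hne n
  have hVn : vv n ((η : ℂ) * I) * (-I) ≠ 0 := mul_ne_zero hvn hI0
  have hout : ∀ j, |(rho h (orb h (ψ j) (δ j) n).1 / d j
        * ((orb h (ψ j) (δ j) n).2 / d j) ^ 3).im|
      ≤ 18 * S.K * (‖(orb h (ψ j) (δ j) n).2 / d j‖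
          / ‖((orb h (ψ j) (δ j) n).1 - Y * I) / d j‖)
        * ‖rho h (orb h (ψ j) (δ j) n).1 / d j * ((orb h (ψ j) (δ j) n).2 / d j) ^ 3‖ := by
    intro j
    refine scaled_im (hd0 j) ?_
    rw [hψ, hδ]
    exact outer (hm j) (hn j) (hG j) (ha j) (hw j)
  have lim1 := (continuous_abs.comp Complex.continuous_im).tendsto _ |>.comp (s3.mul (s2.pow 3))
  have lim2 := ((s2.norm.div s1.norm (norm_ne_zero_iff.2 hVn)).const_mul (18 * S.K)).mul
    (s3.mul (s2.pow 3)).norm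
  have hfin := le_of_tendsto_of_tendsto' lim1 lim2 hout
  simp only [Function.comp_apply] at hfin
  have e1 : deriv (rho h) (Y * I) * (vv n ((η : ℂ) * I) * (-I))
      * (2 / 3 * MM^[n] ((η : ℂ) * I) * (vv n ((η : ℂ) * I) * (-I))) ^ 3
      = ((8 / 27 : ℝ) : ℂ) * (deriv (rho h) (Y * I) * PPi n ((η : ℂ) * I)) := by
    rw [PPi_vv]
    have h4 : (-I) ^ 4 = 1 := by
      rw [neg_pow, Complex.I_pow_four]; norm_num
    push_cast
    generalize MM^[n] ((η : ℂ) * I) = X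
    generalize vv n ((η : ℂ) * I) = v
    generalize -I = V at *
    linear_combination (8 / 27 * deriv (rho h) (Y * I) * v ^ 4 * X ^ 3) * h4
  have e2 : ‖2 / 3 * MM^[n] ((η : ℂ) * I) * (vv n ((η : ℂ) * I) * (-I))‖
      / ‖vv n ((η : ℂ) * I) * (-I)‖ = 2 / 3 * ‖MM^[n] ((η : ℂ) * I)‖ := by
    rw [norm_mul (2 / 3 * MM^[n] ((η : ℂ) * I)), mul_div_assoc,
      div_self (norm_ne_zero_iff.2 hVn), mul_one, norm_mul]
    norm_num
  rw [e1, e2] at hfin
  have hg := S.T.deriv_re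
  have hgne := S.T.simple
  generalize deriv (rho h) (Y * I) = g at *
  generalize PPi n ((η : ℂ) * I) = P at *
  generalize ‖MM^[n] ((η : ℂ) * I)‖ = N at *
  have hgn : ‖g‖ = |g.im| := by
    have h1 : ‖g‖ ^ 2 = |g.im| ^ 2 := by
      rw [← Complex.normSq_eq_norm_sq, Complex.normSq_apply, hg, sq_abs]; ring
    exact (pow_left_inj₀ (norm_nonneg _) (abs_nonneg _) two_ne_zero).1 h1
  have hgp : 0 < |g.im| := by rw [← hgn]; exact norm_pos_iff.2 hgne
  rw [Complex.im_ofReal_mul, Complex.mul_im, hg, zero_mul, zero_add, abs_mul, abs_mul, norm_mul,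
    norm_mul, hgn, Complex.norm_real, Real.norm_eq_abs,
    abs_of_pos (by norm_num : (0 : ℝ) < 8 / 27)] at hfin
  have h5 : (8 / 27 * |g.im|) * |P.re| ≤ (8 / 27 * |g.im|) * (12 * S.K * N * ‖P‖) := by
    linarith only [hfin]
  exact le_of_mul_le_mul_left h5 (by (clear * - hgp; positivity))

end Setup

/-- Main theorem: no small invariant curves of large denominators carrying closed orbits. -/
theorem setup_main {h : ℂ → ℂ} {H Y : ℝ} (S : Setup h H Y) :
    ∃ c > 0, ∃ m₀ : ℕ, ∀ m ≥ m₀, ¬ Per h H m c := by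
  have hc3 := S.c3_pos
  have hY := S.T.Ypos
  refine ⟨S.c3 * Y / 2, by positivity, ?_⟩
  by_contra hcon
  push Not at hcon
  exact inner_false (12 * S.K) (3 / 10 * S.c3) (by (clear * - hc3; positivity))
    (fun η h1 h2 n => S.inner_ineq hcon h1 h2 n)

theorem dom_main {h : ℂ → ℂ} {H Y : ℝ} (T : DomTable h H Y) :
    ∃ c > 0, ∃ m₀ : ℕ, ∀ m ≥ m₀, ¬ Per h H m c := by
  obtain ⟨t, σ, c, ht0, ht1, hσ0, hσ1, hσH, hc, hreg⟩ := T.region
  obtain ⟨P, hPt, hPσ, hPc⟩ := exists_pre T.sym (t := t) (σ := σ) (c := c)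
    ⟨ht0, ht1, hσ0, hσ1, hσH, hc, fun z hz => (hreg z hz).1, fun z hz => (hreg z hz).2⟩
  obtain ⟨S⟩ := setup_of_pre P (fun m hm0 hm1 hmt z hz hzi y hy0 hy1 =>
    P.topD T.dom hm0 hm1 hmt hz hzi hy0 hy1)
  exact setup_main S

end Vale.Agent.P097.Cusp
end

section

namespace Vale.Agent.P097.Cusp

open Filter Topology

theorem deriv_real {h : ℂ → ℂ} {hr : ℝ → ℝ} (hh : Differentiable ℂ h)
    (hre : ∀ x : ℝ, h x = hr x) (ha : ∀ x, AnalyticAt ℝ hr x) (x : ℝ) :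
    deriv h x = ((deriv hr x : ℝ) : ℂ) := by
  have h1 := (hh (x : ℂ)).hasDerivAt.comp_ofReal
  have h2 := (ha x).differentiableAt.hasDerivAt.ofReal_comp
  have e : (fun y : ℝ => h (y : ℂ)) = fun y : ℝ => ((hr y : ℝ) : ℂ) := funext hre
  rw [e] at h1
  exact h1.unique h2

theorem lp_real {h : ℂ → ℂ} {hr : ℝ → ℝ} (hh : Differentiable ℂ h)
    (hre : ∀ x : ℝ, h x = hr x) (ha : ∀ x, AnalyticAt ℝ hr x) (φ x : ℝ) :
    lp h (φ : ℂ) (x : ℂ) = ((K hr φ (φ + x) : ℝ) : ℂ) := by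
  have e : (φ : ℂ) + x = ((φ + x : ℝ) : ℂ) := by push_cast; ring
  rw [lp, K, e, deriv_real hh hre ha, hre, add_sub_cancel_left]
  push_cast
  ring

theorem per_of_leaf {h : ℂ → ℂ} {hr : ℝ → ℝ} (hh : Differentiable ℂ h)
    (hre : ∀ x : ℝ, h x = hr x) (HT : IsTable hr) {N m : ℕ} (hN : 1 ≤ N) (hm : 1 ≤ m)
    (hp : ∀ x, hr (x + 2 * Real.pi / N) = hr x) {f : ℝ → ℝ} (R : RatLeaf hr (2 * m * N) f)
    {c : ℝ} (hc : f 0 < c) : Per h (Real.pi / N) m c := by
  have Ha := HT.adm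
  obtain ⟨F, hS, -, -, -, -⟩ := R.1.exists_F' Ha
  have hfc := R.1.1
  have hfb := R.1.2.2.1
  obtain ⟨ε, hε, hε2⟩ : ∃ ε > 0, ∀ x : ℝ, |x| < ε → f x < c := by
    have h1 : ∀ᶠ x in 𝓝 (0 : ℝ), f x < c := hfc.continuousAt.eventually (gt_mem_nhds hc)
    obtain ⟨ε, hε, h2⟩ := Metric.eventually_nhds_iff.1 h1
    refine ⟨ε, hε, fun x hx => h2 ?_⟩
    rwa [Real.dist_eq, sub_zero]
  refine ⟨ε, hε, fun x hx => ?_⟩
  obtain ⟨Xs, hXs⟩ : ∃ Xs : ℕ → ℝ, Xs = fun j => F^[j] x := ⟨_, rfl⟩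
  have hX0 : Xs 0 = x := by rw [hXs]; rfl
  have hstep : ∀ j, Step hr (Xs j) (f (Xs j)) (Xs (j + 1)) (f (Xs (j + 1))) := by
    intro j
    have e : Xs (j + 1) = F (Xs j) := by
      rw [hXs]
      exact Function.iterate_succ_apply' F j x
    rw [e]
    exact hS _
  have hend : Xs (2 * m) = Xs 0 + 2 * Real.pi / N :=
    R.symm_orbit Ha hN (by omega) hp hstep
  refine ⟨Xs, fun j => f (Xs j), ⟨fun k _ => hfb _, fun k _ => ?_⟩, hX0, ?_, ?_, ?_⟩
  · have h1 := (hstep k).2.2.2.2.1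
    refine ⟨h1, ?_⟩
    rw [lp_real hh hre HT.1, lp_real hh hre HT.1]
    have h2 := (hstep k).K_eq
    have e1 : Xs k + f (Xs k) + -f (Xs k) = Xs k := by ring
    rw [e1, ← h1, ← h2]
  · rw [hend, hX0]; ring
  · have hf2 : ∀ y, f (y + 2 * Real.pi / N) = f y := by
      obtain ⟨n, hn⟩ : ∃ n, 2 * m * N = n + 1 := ⟨2 * m * N - 1, by
        have : 1 ≤ 2 * m * N := Nat.one_le_iff_ne_zero.2 (Nat.mul_ne_zero (by omega) (by omega))
        omega⟩
      rw [hn] at R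
      exact fun y => R.symm Ha hp y
    show f (Xs (2 * m)) = f (Xs 0)
    rw [hend, hf2]
  · show f (Xs 0) < c
    rw [hX0]; exact hε2 x hx

theorem main_leaf {h : ℂ → ℂ} {hr : ℝ → ℝ} {N : ℕ} (hN : 1 ≤ N) (hh : Differentiable ℂ h)
    (hper : ∀ z, h (z + 2 * ((Real.pi / N : ℝ) : ℂ)) = h z)
    (hmain : ∃ c > 0, ∃ m₀ : ℕ, ∀ m ≥ m₀, ¬ Per h (Real.pi / N) m c)
    (hre : ∀ x : ℝ, h x = hr x) (HT : IsTable hr) :
    ∃ m₀ : ℕ, ∀ m ≥ m₀, ∀ f, ¬ RatLeaf hr (2 * m * N) f := by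
  obtain ⟨c, hc, m₀, hm₀⟩ := hmain
  obtain ⟨q₀, hq₀⟩ := eventually_atTop.1 (ratLeaf_small HT.adm 0 hc)
  have hp : ∀ x, hr (x + 2 * Real.pi / N) = hr x := by
    intro x
    have h1 := hper (x : ℂ)
    have e : (x : ℂ) + 2 * ((Real.pi / N : ℝ) : ℂ) = ((x + 2 * Real.pi / N : ℝ) : ℂ) := by
      push_cast; ring
    rw [e, hre, hre] at h1
    exact_mod_cast h1
  refine ⟨max m₀ (max q₀ 1), fun m hm f R => ?_⟩
  have h1 : m₀ ≤ m := (le_max_left _ _).trans hm
  have h2 : q₀ ≤ m := (le_max_left _ _).trans ((le_max_right _ _).trans hm)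
  have h3 : 1 ≤ m := (le_max_right _ _).trans ((le_max_right _ _).trans hm)
  have h4 : q₀ ≤ 2 * m * N := by nlinarith
  exact hm₀ m h1 (per_of_leaf hh hre HT hN h3 hp R (hq₀ _ h4 f R))

theorem collar_of_leaf {hr : ℝ → ℝ} {N : ℕ} (hN : 1 ≤ N) (HT : IsTable hr)
    (hl : ∃ m₀ : ℕ, ∀ m ≥ m₀, ∀ f, ¬ RatLeaf hr (2 * m * N) f)
    {η : ℝ} (hη : 0 < η) : ¬ Collar hr η := by
  intro hcol
  obtain ⟨m₀, hm₀⟩ := hl
  obtain ⟨k, hk⟩ := exists_nat_gt (Real.pi / η)
  obtain ⟨m, hm⟩ : ∃ m, m = max m₀ (max k 1) := ⟨_, rfl⟩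
  have h1 : m₀ ≤ m := by rw [hm]; exact le_max_left _ _
  have h2 : k ≤ m := by rw [hm]; exact (le_max_left _ _).trans (le_max_right _ _)
  have h3 : 1 ≤ m := by rw [hm]; exact (le_max_right _ _).trans (le_max_right _ _)
  have h5 : 2 ≤ 2 * m * N := by nlinarith
  obtain ⟨n, hn⟩ : ∃ n, 2 * m * N = n + 1 := ⟨2 * m * N - 1, by omega⟩
  have h6 : (k : ℝ) ≤ (n : ℝ) + 1 := by
    have : k ≤ n + 1 := by rw [← hn]; nlinarith
    exact_mod_cast this
  obtain ⟨f, R⟩ := exists_ratLeaf_of_collar HT hcol (n := n) (by omega) (by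
    rw [div_lt_iff₀ hη] at hk
    rw [div_lt_iff₀ (by positivity)]
    linarith only [mul_nonneg (le_of_lt (sub_pos.2 hη)) (sub_nonneg.2 h6), hk])
  rw [← hn] at R
  exact hm₀ m h1 f R

theorem dom_leaf {h : ℂ → ℂ} {hr : ℝ → ℝ} {N : ℕ} (hN : 1 ≤ N) {Y : ℝ}
    (T : DomTable h (Real.pi / N) Y) (hre : ∀ x : ℝ, h x = hr x) (HT : IsTable hr) :
    ∃ m₀ : ℕ, ∀ m ≥ m₀, ∀ f, ¬ RatLeaf hr (2 * m * N) f :=
  main_leaf hN T.ent T.per (dom_main T) hre HT

theorem dom_collar {h : ℂ → ℂ} {hr : ℝ → ℝ} {N : ℕ} (hN : 1 ≤ N) {Y : ℝ}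
    (T : DomTable h (Real.pi / N) Y) (hre : ∀ x : ℝ, h x = hr x) (HT : IsTable hr)
    {η : ℝ} (hη : 0 < η) : ¬ Collar hr η :=
  collar_of_leaf hN HT (dom_leaf hN T hre HT) hη

end Vale.Agent.P097.Cusp
end

section

namespace Vale.Agent.P097.Cusp

theorem bdry_shift (h : ℝ → ℝ) (b ψ : ℝ) :
    bdry h (ψ + b) = bdry (fun x => h (x + b)) ψ * Complex.exp ((b : ℂ) * Complex.I) := by
  unfold bdry
  have e1 : deriv (fun x => h (x + b)) ψ = deriv h (ψ + b) := deriv_comp_add_const h b ψ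
  have e2 : Complex.exp (((ψ + b : ℝ) : ℂ) * Complex.I)
      = Complex.exp ((ψ : ℂ) * Complex.I) * Complex.exp ((b : ℂ) * Complex.I) := by
    rw [← Complex.exp_add]
    congr 1
    push_cast
    ring
  rw [e1, e2]
  ring

theorem step_shift {h : ℝ → ℝ} (b : ℝ) {ψ δ ψ' δ' : ℝ} :
    Step h (ψ + b) δ (ψ' + b) δ' ↔ Step (fun x => h (x + b)) ψ δ ψ' δ' := by
  unfold Step
  rw [bdry_shift, bdry_shift]
  have hne : Complex.exp ((b : ℂ) * Complex.I) ≠ 0 := Complex.exp_ne_zero _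
  have e2 : Complex.exp (((ψ + b + δ : ℝ) : ℂ) * Complex.I)
      = Complex.exp (((ψ + δ : ℝ) : ℂ) * Complex.I) * Complex.exp ((b : ℂ) * Complex.I) := by
    rw [← Complex.exp_add]
    congr 1
    push_cast
    ring
  rw [e2]
  constructor
  · rintro ⟨h1, h2, h3, h4, h5, l, h6, h7⟩
    refine ⟨h1, h2, h3, h4, by linarith, l, h6, ?_⟩
    apply mul_right_cancel₀ hne
    rw [h7]; ring
  · rintro ⟨h1, h2, h3, h4, h5, l, h6, h7⟩
    refine ⟨h1, h2, h3, h4, by linarith, l, h6, ?_⟩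
    rw [h7]; ring

theorem inv_shift {h f : ℝ → ℝ} (b : ℝ) (G : InvGraph h f) :
    InvGraph (fun x => h (x + b)) (fun x => f (x + b)) := by
  obtain ⟨g1, g2, g3, g4⟩ := G
  refine ⟨g1.comp (continuous_id.add continuous_const), fun x => ?_, fun x => g3 _, fun ψ => ?_⟩
  · have := g2 (x + b)
    show f (x + 2 * Real.pi + b) = f (x + b)
    rw [show x + 2 * Real.pi + b = x + b + 2 * Real.pi by ring]
    exact this
  · obtain ⟨ψ', hS⟩ := g4 (ψ + b)
    refine ⟨ψ' - b, ?_⟩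
    rw [← step_shift]
    simp only [sub_add_cancel]
    exact hS

theorem leaf_shift {h f : ℝ → ℝ} {q : ℕ} (b : ℝ) (R : RatLeaf h q f) :
    RatLeaf (fun x => h (x + b)) q (fun x => f (x + b)) := by
  refine ⟨inv_shift b R.1, fun x hx => ?_⟩
  have := R.2 (fun j => x j + b) (fun j => (step_shift b).2 (hx j))
  linarith

theorem collar_shift {h : ℝ → ℝ} {η : ℝ} (b : ℝ) (C : Collar h η) :
    Collar (fun x => h (x + b)) η := by
  intro ψ δ h1 h2
  obtain ⟨f, hf, hf2⟩ := C (ψ + b) δ h1 h2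
  exact ⟨fun x => f (x + b), inv_shift b hf, hf2⟩

theorem table_shift {h : ℝ → ℝ} (b : ℝ) (HT : IsTable h) : IsTable (fun x => h (x + b)) := by
  obtain ⟨h1, h2, h3⟩ := HT
  have e : deriv (fun x => h (x + b)) = fun x => deriv h (x + b) :=
    funext fun x => deriv_comp_add_const h b x
  refine ⟨fun x => ?_, fun x => ?_, fun x => ?_⟩
  · have h4 : AnalyticAt ℝ (fun x : ℝ => x + b) x := analyticAt_id.add analyticAt_const
    exact (h1 (x + b)).comp_of_eq h4 rfl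
  · show h (x + 2 * Real.pi + b) = h (x + b)
    rw [show x + 2 * Real.pi + b = x + b + 2 * Real.pi by ring]
    exact h2 _
  · rw [e, deriv_comp_add_const (deriv h) b x]
    exact h3 _

end Vale.Agent.P097.Cusp
end

section

namespace Vale.Agent.P097.Cusp

/-- adding first harmonics -/
noncomputable def addh (h : ℝ → ℝ) (p q : ℝ) (x : ℝ) : ℝ :=
  h x + (p * Real.cos x + q * Real.sin x)

theorem addh_deriv {h : ℝ → ℝ} (hd : Differentiable ℝ h) (p q ψ : ℝ) :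
    deriv (addh h p q) ψ = deriv h ψ + (-p * Real.sin ψ + q * Real.cos ψ) := by
  have h1 := (hd ψ).hasDerivAt
  have h2 := (Real.hasDerivAt_cos ψ).const_mul p
  have h3 := (Real.hasDerivAt_sin ψ).const_mul q
  have h4 : HasDerivAt (addh h p q) (deriv h ψ + (p * -Real.sin ψ + q * Real.cos ψ)) ψ :=
    h1.add (h2.add h3)
  rw [h4.deriv]
  ring

/-- adding first harmonics translates the table -/
theorem bdry_add {h : ℝ → ℝ} (hd : Differentiable ℝ h) (p q ψ : ℝ) :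
    bdry (addh h p q) ψ = bdry h ψ + ((p : ℂ) + q * Complex.I) := by
  unfold bdry
  rw [addh_deriv hd]
  have e2 : Complex.exp ((ψ : ℂ) * Complex.I) = Complex.cos ψ + Complex.sin ψ * Complex.I :=
    Complex.exp_mul_I _
  have h4 : (Complex.cos (ψ : ℂ)) ^ 2 + (Complex.sin (ψ : ℂ)) ^ 2 = 1 := by
    rw [add_comm]; exact Complex.sin_sq_add_cos_sq _
  rw [e2, addh]
  push_cast
  have hI := Complex.I_mul_I
  generalize Complex.cos (ψ : ℂ) = c at *
  generalize Complex.sin (ψ : ℂ) = s at *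
  linear_combination ((p : ℂ) + q * Complex.I) * h4
    + (-(p : ℂ) * s * s + q * c * s) * hI

theorem step_add {h : ℝ → ℝ} (hd : Differentiable ℝ h) (p q : ℝ) {ψ δ ψ' δ' : ℝ} :
    Step (addh h p q) ψ δ ψ' δ' ↔ Step h ψ δ ψ' δ' := by
  unfold Step
  rw [bdry_add hd, bdry_add hd]
  constructor
  · rintro ⟨h1, h2, h3, h4, h5, l, h6, h7⟩
    exact ⟨h1, h2, h3, h4, h5, l, h6, by linear_combination h7⟩
  · rintro ⟨h1, h2, h3, h4, h5, l, h6, h7⟩
    exact ⟨h1, h2, h3, h4, h5, l, h6, by linear_combination h7⟩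

theorem inv_add {h : ℝ → ℝ} (hd : Differentiable ℝ h) (p q : ℝ) {f : ℝ → ℝ} :
    InvGraph (addh h p q) f ↔ InvGraph h f := by
  unfold InvGraph
  simp only [step_add hd]

theorem leaf_add {h : ℝ → ℝ} (hd : Differentiable ℝ h) (p q : ℝ) {f : ℝ → ℝ} {n : ℕ} :
    RatLeaf (addh h p q) n f ↔ RatLeaf h n f := by
  unfold RatLeaf
  simp only [step_add hd, inv_add hd]

theorem collar_add {h : ℝ → ℝ} (hd : Differentiable ℝ h) (p q : ℝ) {η : ℝ} :
    Collar (addh h p q) η ↔ Collar h η := by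
  unfold Collar
  simp only [inv_add hd]

theorem diff_of_table {h : ℝ → ℝ} (HT : IsTable h) : Differentiable ℝ h :=
  fun x => (HT.1 x).differentiableAt

theorem table_add {h : ℝ → ℝ} (HT : IsTable h) (p q : ℝ) : IsTable (addh h p q) := by
  have hd := diff_of_table HT
  obtain ⟨h1, h2, h3⟩ := HT
  refine ⟨fun x => ?_, fun x => ?_, fun x => ?_⟩
  · have a1 : AnalyticAt ℝ (fun x => p * Real.cos x + q * Real.sin x) x := by fun_prop
    exact (h1 x).add a1
  · rw [addh, addh, h2, Real.cos_add_two_pi, Real.sin_add_two_pi]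
  · have e1 : deriv (addh h p q) = fun x => deriv h x + (-p * Real.sin x + q * Real.cos x) :=
      funext (addh_deriv hd p q)
    have e2 : deriv (deriv (addh h p q)) x
        = deriv (deriv h) x + (-p * Real.cos x - q * Real.sin x) := by
      rw [e1]
      have b1 : HasDerivAt (deriv h) (deriv (deriv h) x) x :=
        ((h1 x).deriv).differentiableAt.hasDerivAt
      have b2 := (Real.hasDerivAt_sin x).const_mul (-p)
      have b3 := (Real.hasDerivAt_cos x).const_mul q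
      have b4 : HasDerivAt (fun x => deriv h x + (-p * Real.sin x + q * Real.cos x))
        (deriv (deriv h) x + (-p * Real.cos x + q * -Real.sin x)) x := b1.add (b2.add b3)
      rw [b4.deriv]
      ring
    rw [e2, addh]
    have := h3 x
    linarith

theorem addh_neg {h : ℝ → ℝ} (p q : ℝ) : addh (addh h p q) (-p) (-q) = h := by
  funext x
  rw [addh, addh]
  ring

end Vale.Agent.P097.Cusp
end

section

namespace Vale.Agent.P097.Cusp

open scoped ComplexConjugate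

/-- order of the rotational symmetry -/
theorem exists_order (a : ℕ → ℝ) {k₀ : ℕ} (hk₀ : a k₀ ≠ 0) :
    ∃ N : ℕ, 1 ≤ N ∧ (∀ k, a k ≠ 0 → N ∣ (k + 2)) ∧
      ∀ x : ℝ, (∀ k, a k ≠ 0 → ∃ j : ℤ, ((k + 2 : ℕ) : ℝ) * x = 2 * Real.pi * j) →
        ∃ j : ℤ, (N : ℝ) * x = 2 * Real.pi * j := by
  obtain ⟨g, hg⟩ := Int.subgroup_cyclic
    (AddSubgroup.closure {m : ℤ | ∃ k : ℕ, a k ≠ 0 ∧ m = ((k + 2 : ℕ) : ℤ)})
  have hmem : ∀ k, a k ≠ 0 → g ∣ ((k + 2 : ℕ) : ℤ) := by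
    intro k hk
    have h1 : ((k + 2 : ℕ) : ℤ) ∈ AddSubgroup.closure ({g} : Set ℤ) := by
      rw [← hg]
      exact AddSubgroup.subset_closure ⟨k, hk, rfl⟩
    exact Int.mem_zmultiples_iff.1 (by rwa [AddSubgroup.zmultiples_eq_closure])
  have hdvd : ∀ k, a k ≠ 0 → g.natAbs ∣ (k + 2) := by
    intro k hk
    have := Int.natAbs_dvd_natAbs.2 (hmem k hk)
    rwa [Int.natAbs_natCast] at this
  refine ⟨g.natAbs, ?_, hdvd, ?_⟩
  · exact Nat.pos_of_dvd_of_pos (hdvd k₀ hk₀) (by omega)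
  · intro x hx
    let D : AddSubgroup ℤ :=
      { carrier := {m : ℤ | ∃ j : ℤ, (m : ℝ) * x = 2 * Real.pi * j}
        add_mem' := by
          rintro m n ⟨i, hi⟩ ⟨j, hj⟩
          refine ⟨i + j, ?_⟩
          push_cast
          linear_combination hi + hj
        zero_mem' := ⟨0, by simp⟩
        neg_mem' := by
          rintro m ⟨i, hi⟩
          refine ⟨-i, ?_⟩
          push_cast
          linear_combination -hi }
    have hD : AddSubgroup.closure {m : ℤ | ∃ k : ℕ, a k ≠ 0 ∧ m = ((k + 2 : ℕ) : ℤ)} ≤ D := by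
      rw [AddSubgroup.closure_le]
      rintro m ⟨k, hk, rfl⟩
      obtain ⟨j, hj⟩ := hx k hk
      exact ⟨j, by push_cast at hj ⊢; exact hj⟩
    have h2 : g ∈ D := hD (by rw [hg]; exact AddSubgroup.subset_closure rfl)
    obtain ⟨j, hj⟩ := h2
    rcases Int.natAbs_eq g with h3 | h3
    · refine ⟨j, ?_⟩
      have h4 : ((g.natAbs : ℕ) : ℤ) = g := by omega
      have h5 : ((g.natAbs : ℕ) : ℝ) = (g : ℝ) := by
        rw [← Int.cast_natCast, h4]
      rw [h5, hj]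
    · refine ⟨-j, ?_⟩
      have h4 : ((g.natAbs : ℕ) : ℤ) = -g := by omega
      have h5 : ((g.natAbs : ℕ) : ℝ) = -(g : ℝ) := by
        rw [← Int.cast_natCast, h4]
        push_cast
        rfl
      rw [h5]
      push_cast
      linear_combination -hj


section
variable {b : ℝ} {a : ℕ → ℝ}

theorem cosC_parts (n : ℕ) (x y : ℝ) : Complex.cos ((n : ℂ) * ((x : ℂ) + y * Complex.I))
      = ((Real.cos (n * x) * Real.cosh (n * y) : ℝ) : ℂ)
        - ((Real.sin (n * x) * Real.sinh (n * y) : ℝ) : ℂ) * Complex.I := by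
  have e : (n : ℂ) * ((x : ℂ) + y * Complex.I) = ((n * x : ℝ) : ℂ) + ((n * y : ℝ) : ℂ)
      * Complex.I := by push_cast; ring
  rw [e, Complex.cos_add_mul_I]
  push_cast
  ring

theorem cosC_re (n : ℕ) (x y : ℝ) (α : ℝ) :
    ((α : ℂ) * Complex.cos ((n : ℂ) * ((x : ℂ) + y * Complex.I))).re
      = α * (Real.cos (n * x) * Real.cosh (n * y)) := by
  rw [Complex.re_ofReal_mul, cosC_parts, Complex.sub_re, Complex.ofReal_re, Complex.re_ofReal_mul,
    Complex.I_re, mul_zero, sub_zero]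

theorem cosC_im (n : ℕ) (x y : ℝ) (α : ℝ) :
    ((α : ℂ) * Complex.cos ((n : ℂ) * ((x : ℂ) + y * Complex.I))).im
      = -(α * (Real.sin (n * x) * Real.sinh (n * y))) := by
  rw [Complex.im_ofReal_mul, cosC_parts, Complex.sub_im, Complex.ofReal_im, Complex.im_ofReal_mul,
    Complex.I_im]
  ring

theorem re_summable (ha : Fast a) (x y : ℝ) :
    Summable fun k : ℕ => a k * (Real.cos (((k + 2 : ℕ) : ℝ) * x) * Real.cosh (((k + 2 : ℕ) : ℝ) * y)) := by
  have h1 := CS_summable ha ((x : ℂ) + y * Complex.I)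
  refine (Complex.hasSum_re h1.hasSum).summable.congr (fun k => ?_)
  rw [cosC_re]

theorem hser_re (ha : Fast a) (b x y : ℝ) :
    (rho (hser b a) ((x : ℂ) + y * Complex.I)).re
      = b - ∑' k : ℕ, cc a k * (Real.cos (((k + 2 : ℕ) : ℝ) * x) * Real.cosh (((k + 2 : ℕ) : ℝ) * y)) := by
  rw [hser_rho ha, Complex.sub_re, Complex.ofReal_re, CS, Complex.re_tsum (CS_summable ha.cc _)]
  simp only [cosC_re]

theorem hser_im (ha : Fast a) (b x y : ℝ) :
    (rho (hser b a) ((x : ℂ) + y * Complex.I)).im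
      = ∑' k : ℕ, cc a k * (Real.sin (((k + 2 : ℕ) : ℝ) * x) * Real.sinh (((k + 2 : ℕ) : ℝ) * y)) := by
  rw [hser_rho ha, Complex.sub_im, Complex.ofReal_im, CS, Complex.im_tsum (CS_summable ha.cc _)]
  simp only [cosC_im]
  rw [tsum_neg]
  ring

theorem cc_nonneg (h0 : ∀ k, 0 ≤ a k) (k : ℕ) : 0 ≤ cc a k := by
  have h1 : (2 : ℝ) ≤ ((k + 2 : ℕ) : ℝ) := by push_cast; linarith [(Nat.cast_nonneg k : (0 : ℝ) ≤ k)]
  exact mul_nonneg (by (by_contra nlg; linarith [mul_nonneg (sub_nonneg.2 h1) (sub_nonneg.2 h1), mul_nonneg (le_of_lt (sub_pos.2 (not_le.1 nlg))) (sub_nonneg.2 h1), mul_nonneg (sq_nonneg (↑(k + 2) : ℝ)) (sub_nonneg.2 h1)])) (h0 k)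

theorem cc_pos (h0 : ∀ k, 0 ≤ a k) {k : ℕ} (hk : a k ≠ 0) : 0 < cc a k := by
  have h1 : (2 : ℝ) ≤ ((k + 2 : ℕ) : ℝ) := by push_cast; linarith only []
  exact mul_pos (by nlinarith only [h1]) (lt_of_le_of_ne (h0 k) (Ne.symm hk))

/-- the size of the oscillating part on the imaginary axis -/
noncomputable def FS (a : ℕ → ℝ) (y : ℝ) : ℝ := ∑' k : ℕ, cc a k * Real.cosh (((k + 2 : ℕ) : ℝ) * y)

theorem FS_summable (ha : Fast a) (y : ℝ) :
    Summable fun k : ℕ => cc a k * Real.cosh (((k + 2 : ℕ) : ℝ) * y) := by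
  have h1 := re_summable ha.cc 0 y
  refine h1.congr (fun k => ?_)
  rw [mul_zero, Real.cos_zero, one_mul]

theorem axis_re (ha : Fast a) (b y : ℝ) : (rho (hser b a) (y * Complex.I)).re = b - FS a y := by
  have h1 := hser_re ha b 0 y
  rw [Complex.ofReal_zero, zero_add] at h1
  rw [h1, FS]
  congr 2
  funext k
  rw [mul_zero, Real.cos_zero, one_mul]

theorem axis_im (ha : Fast a) (b y : ℝ) : (rho (hser b a) (y * Complex.I)).im = 0 := by
  have h1 := hser_im ha b 0 y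
  rw [Complex.ofReal_zero, zero_add] at h1
  rw [h1]
  convert tsum_zero using 2
  funext k
  rw [mul_zero, Real.sin_zero, zero_mul, mul_zero]

theorem FS_cont (ha : Fast a) : Continuous (FS a) := by
  have e : FS a = fun y : ℝ => 0 - (rho (hser 0 a) (y * Complex.I)).re := by
    funext y
    rw [axis_re ha]; ring
  rw [e]
  have h1 := (differentiable_rho (hser_diff ha 0)).continuous
  exact continuous_const.sub (Complex.continuous_re.comp (h1.comp
    (Complex.continuous_ofReal.mul continuous_const)))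

theorem FS_mono (ha : Fast a) (h0 : ∀ k, 0 ≤ a k) {k₀ : ℕ} (hk₀ : a k₀ ≠ 0) {x y : ℝ}
    (hx : 0 ≤ x) (hxy : x < y) : FS a x < FS a y := by
  have hlt : ∀ k : ℕ, Real.cosh (((k + 2 : ℕ) : ℝ) * x) < Real.cosh (((k + 2 : ℕ) : ℝ) * y) := by
    intro k
    have h1 : (2 : ℝ) ≤ ((k + 2 : ℕ) : ℝ) := by
      push_cast; linarith only []
    rw [Real.cosh_lt_cosh, abs_of_nonneg (by (clear * - hx; positivity)), abs_of_nonneg (by
      have : 0 ≤ y := by linarith only [hx, hxy]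
      (clear * - this; positivity))]
    linarith only [mul_nonneg (le_of_lt (sub_pos.2 hxy)) (sub_nonneg.2 h1), hxy]
  exact Summable.tsum_lt_tsum (i := k₀)
    (fun k => mul_le_mul_of_nonneg_left (hlt k).le (cc_nonneg h0 k))
    (mul_lt_mul_of_pos_left (hlt k₀) (cc_pos h0 hk₀)) (FS_summable ha x) (FS_summable ha y)

theorem exists_FS (ha : Fast a) (h0 : ∀ k, 0 ≤ a k) {k₀ : ℕ} (hk₀ : a k₀ ≠ 0)
    (hb : FS a 0 < b) : ∃ Y : ℝ, 0 < Y ∧ FS a Y = b := by
  have hc := cc_pos h0 hk₀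
  have hk2 : (2 : ℝ) ≤ ((k₀ + 2 : ℕ) : ℝ) := by
    push_cast; linarith only []
  have hcosh : ∀ t : ℝ, t ≤ 2 * Real.cosh t := by
    intro t
    rw [Real.cosh_eq]
    have h2 := Real.add_one_le_exp t
    have h3 := Real.exp_pos (-t)
    linarith only [h3, h2]
  have h1 : ∀ y : ℝ, cc a k₀ * Real.cosh (((k₀ + 2 : ℕ) : ℝ) * y) ≤ FS a y := by
    intro y
    exact (FS_summable ha y).le_tsum k₀
      (fun k _ => mul_nonneg (cc_nonneg h0 k) (Real.cosh_pos _).le)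
  obtain ⟨y, hy⟩ : ∃ y : ℝ, y = max 0 (b / cc a k₀) := ⟨_, rfl⟩
  have hy0 : 0 ≤ y := by rw [hy]; exact le_max_left _ _
  have hy1 : b / cc a k₀ ≤ y := by rw [hy]; exact le_max_right _ _
  have h2 : b ≤ FS a y := by
    refine le_trans ?_ (h1 y)
    have h3 := hcosh (((k₀ + 2 : ℕ) : ℝ) * y)
    have h4 : b / cc a k₀ ≤ Real.cosh (((k₀ + 2 : ℕ) : ℝ) * y) := by linarith only [mul_nonneg (sub_nonneg.2 hk2) (sub_nonneg.2 hy0), h3, hy1]
    calc b = cc a k₀ * (b / cc a k₀) := by (clear * - hc; field_simp)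
      _ ≤ _ := by (clear * - h4 hc; gcongr)
  obtain ⟨Y, hY, hY2⟩ := intermediate_value_Icc hy0 (FS_cont ha).continuousOn
    (show b ∈ Set.Icc (FS a 0) (FS a y) from ⟨hb.le, h2⟩)
  refine ⟨Y, ?_, hY2⟩
  rcases hY.1.lt_or_eq with h | h
  · exact h
  · rw [← h] at hY2; linarith only [hb, hY2]

theorem ser_dom (ha : Fast a) (h0 : ∀ k, 0 ≤ a k) {N : ℕ} (hN : 1 ≤ N)
    (hgcd : ∀ x : ℝ, (∀ k, a k ≠ 0 → ∃ j : ℤ, ((k + 2 : ℕ) : ℝ) * x = 2 * Real.pi * j) →
        ∃ j : ℤ, (N : ℝ) * x = 2 * Real.pi * j) {x : ℝ} (hx : 0 < x)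
    (hx2 : x < 2 * (Real.pi / N)) (y : ℝ) :
    (rho (hser b a) (y * Complex.I)).re < (rho (hser b a) (x + y * Complex.I)).re := by
  have hN' : (1 : ℝ) ≤ N := by exact_mod_cast hN
  rw [axis_re ha, hser_re ha, FS]
  apply sub_lt_sub_left
  have hle : ∀ k : ℕ, cc a k * (Real.cos (((k + 2 : ℕ) : ℝ) * x) * Real.cosh (((k + 2 : ℕ) : ℝ) * y))
      ≤ cc a k * Real.cosh (((k + 2 : ℕ) : ℝ) * y) := by
    intro k
    apply mul_le_mul_of_nonneg_left _ (cc_nonneg h0 k)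
    have h1 := Real.cos_le_one (((k + 2 : ℕ) : ℝ) * x)
    have h2 := Real.cosh_pos (((k + 2 : ℕ) : ℝ) * y)
    linarith only [mul_nonneg (sub_nonneg.2 h1) (le_of_lt (sub_pos.2 h2))]
  have hex : ∃ k, cc a k * (Real.cos (((k + 2 : ℕ) : ℝ) * x) * Real.cosh (((k + 2 : ℕ) : ℝ) * y))
      < cc a k * Real.cosh (((k + 2 : ℕ) : ℝ) * y) := by
    by_contra hcon
    push Not at hcon
    have h1 : ∀ k, a k ≠ 0 → ∃ j : ℤ, ((k + 2 : ℕ) : ℝ) * x = 2 * Real.pi * j := by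
      intro k hk
      have h3 := le_of_mul_le_mul_left (hcon k) (cc_pos h0 hk)
      have h4 := Real.cosh_pos (((k + 2 : ℕ) : ℝ) * y)
      have h5 : Real.cos (((k + 2 : ℕ) : ℝ) * x) = 1 := by
        apply le_antisymm (Real.cos_le_one _)
        by_contra h6
        push Not at h6
        nlinarith only [h3, h4, h6]
      obtain ⟨j, hj⟩ := (Real.cos_eq_one_iff _).1 h5
      exact ⟨j, by rw [← hj]; ring⟩
    obtain ⟨j, hj⟩ := hgcd x h1
    have hpi := Real.pi_pos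
    have h2 : 0 < 2 * Real.pi * (j : ℝ) := by rw [← hj]; positivity
    have h3 : 0 < (j : ℝ) := by
      by_contra h4
      push Not at h4
      linarith only [mul_nonneg (le_of_lt (sub_pos.2 hpi)) (sub_nonneg.2 h4), h2]
    have h5 : (1 : ℝ) ≤ j := by
      have : 0 < j := by exact_mod_cast h3
      exact_mod_cast this
    have h6 : (N : ℝ) * x < 2 * Real.pi := by
      have e2 : (N : ℝ) * (2 * (Real.pi / N)) = 2 * Real.pi := by field_simp
      rw [← e2]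
      gcongr
    nlinarith only [hj, h6, hpi, h5]
  obtain ⟨k, hk⟩ := hex
  exact Summable.tsum_lt_tsum (i := k) hle hk (re_summable ha.cc x y) (FS_summable ha y)

theorem ser_table (ha : Fast a) (h0 : ∀ k, 0 ≤ a k) {k₀ : ℕ} (hk₀ : a k₀ ≠ 0)
    (hb : FS a 0 < b) : ∃ N : ℕ, 1 ≤ N ∧ ∃ Y : ℝ, DomTable (hser b a) (Real.pi / N) Y := by
  obtain ⟨N, hN, hdvd, hgcd⟩ := exists_order a hk₀
  obtain ⟨Y, hY0, hY⟩ := exists_FS ha h0 hk₀ hb
  have hN' : (1 : ℝ) ≤ N := by exact_mod_cast hN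
  refine ⟨N, hN, Y, ?_⟩
  constructor
  · exact hser_diff ha b
  · intro z
    rw [hser, hser, map_add, Complex.conj_ofReal, CS, CS, Complex.conj_tsum]
    congr 2
    funext k
    rw [map_mul, Complex.conj_ofReal, ← Complex.cos_conj, map_mul, map_natCast]
  · intro z
    rw [hser, hser, CS, CS]
    congr 2
    funext k
    rw [mul_neg, Complex.cos_neg]
  · intro z
    rw [hser, hser, CS, CS]
    congr 2
    funext k
    rcases eq_or_ne (a k) 0 with h | h
    · rw [h, Complex.ofReal_zero, zero_mul, zero_mul]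
    · obtain ⟨l, hl⟩ := hdvd k h
      have e : ((k + 2 : ℕ) : ℂ) * (z + 2 * ((Real.pi / N : ℝ) : ℂ))
          = ((k + 2 : ℕ) : ℂ) * z + l * (2 * Real.pi) := by
        have hg' : (N : ℂ) ≠ 0 := by
          have : (N : ℝ) ≠ 0 := by (clear * - hN; positivity)
          exact_mod_cast this
        have hl' : ((k + 2 : ℕ) : ℂ) = (N : ℂ) * l := by exact_mod_cast hl
        rw [hl']
        push_cast
        field_simp
      rw [e, Complex.cos_add_nat_mul_two_pi]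
  · have := Real.pi_pos; (clear * - hN; positivity)
  · exact hY0
  · intro y h1 h2
    rw [axis_re ha, ← hY]
    linarith only [FS_mono ha h0 hk₀ h1 h2]
  · apply Complex.ext
    · rw [axis_re ha, hY, sub_self]; simp
    · rw [axis_im ha]; simp
  · have e1 : rho (hser b a) = fun z => (b : ℂ) - CS (cc a) z := funext (hser_rho ha b)
    have e2 : deriv (rho (hser b a)) (Y * Complex.I) = SN (up (cc a)) (Y * Complex.I) := by
      rw [e1]
      have h1 := ((CS_diff ha.cc (Y * Complex.I)).hasDerivAt.const_sub (b : ℂ)).deriv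
      rw [h1, CS_deriv ha.cc, neg_neg]
    rw [e2]
    intro h3
    have h4 := congrArg Complex.im h3
    rw [SN, Complex.im_tsum (SN_summable ha.cc.up _), Complex.zero_im] at h4
    have e5 : ∀ k : ℕ, ((up (cc a) k : ℂ) * Complex.sin (((k + 2 : ℕ) : ℂ) * (Y * Complex.I))).im
        = up (cc a) k * Real.sinh (((k + 2 : ℕ) : ℝ) * Y) := by
      intro k
      have e : ((k + 2 : ℕ) : ℂ) * (Y * Complex.I) = (((k + 2 : ℕ) * Y : ℝ) : ℂ) * Complex.I := by
        push_cast; ring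
      rw [Complex.im_ofReal_mul, e, Complex.sin_mul_I, ← Complex.ofReal_sinh, Complex.im_ofReal_mul,
        Complex.I_im, mul_one]
    simp only [e5] at h4
    have hsm : Summable fun k : ℕ => up (cc a) k * Real.sinh (((k + 2 : ℕ) : ℝ) * Y) := by
      refine (Complex.hasSum_im (SN_summable ha.cc.up (Y * Complex.I)).hasSum).summable.congr
        (fun k => (e5 k))
    have hs : ∀ k : ℕ, 0 < Real.sinh (((k + 2 : ℕ) : ℝ) * Y) := fun k =>
      Real.sinh_pos_iff.2 (by (clear * - hY0; positivity))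
    have h6 := hsm.tsum_pos (fun k => mul_nonneg (mul_nonneg (by positivity) (cc_nonneg h0 k))
      (hs k).le) k₀ (mul_pos (mul_pos (by positivity) (cc_pos h0 hk₀)) (hs k₀))
    linarith only [h4, h6]
  · intro x y h1 h2 _ _
    exact ser_dom ha h0 hN hgcd h1 h2 y

/-- the real support function -/
noncomputable def rser (b : ℝ) (a : ℕ → ℝ) (x : ℝ) : ℝ :=
  b + ∑' k : ℕ, a k * Real.cos (((k + 2 : ℕ) : ℝ) * x)

theorem rser_eq (a : ℕ → ℝ) (b : ℝ) (x : ℝ) : hser b a x = rser b a x := by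
  rw [hser, rser, CS, Complex.ofReal_add, Complex.ofReal_tsum]
  congr 2
  funext k
  push_cast
  rfl

theorem rser_bound (ha : Fast a) (HT : IsTable (rser b a)) : FS a 0 < b := by
  have hre : ∀ x : ℝ, hser b a x = rser b a x := rser_eq a b
  have hd := hser_diff ha b
  have e1 : ∀ x : ℝ, deriv (hser b a) x = ((deriv (rser b a) x : ℝ) : ℂ) :=
    deriv_real hd hre HT.1
  have e2 : deriv (deriv (hser b a)) ((0 : ℝ) : ℂ) = ((deriv (deriv (rser b a)) 0 : ℝ) : ℂ) :=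
    deriv_real (differentiable_deriv hd) e1 (fun x => (HT.1 x).deriv) 0
  have h1 := HT.2.2 0
  have h2 := axis_re ha b 0
  rw [Complex.ofReal_zero, zero_mul, rho] at h2
  rw [Complex.ofReal_zero] at e2
  have h3 := hre 0
  rw [Complex.ofReal_zero] at h3
  rw [e2, h3, ← Complex.ofReal_add, Complex.ofReal_re] at h2
  linarith

theorem ser_leaf (ha : Fast a) (h0 : ∀ k, 0 ≤ a k) {k₀ : ℕ} (hk₀ : a k₀ ≠ 0)
    (HT : IsTable (rser b a)) :
    (∀ η > 0, ¬ Collar (rser b a) η) ∧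
      ∃ N ≥ 1, ∃ m₀ : ℕ, ∀ m ≥ m₀, ∀ f, ¬ RatLeaf (rser b a) (2 * m * N) f := by
  obtain ⟨N, hN, Y, T⟩ := ser_table ha h0 hk₀ (rser_bound ha HT)
  exact ⟨fun η hη => dom_collar hN T (rser_eq a b) HT hη, N, hN,
    dom_leaf hN T (rser_eq a b) HT⟩

/-- the general table of the class -/
noncomputable def gser (b p q β : ℝ) (a : ℕ → ℝ) (x : ℝ) : ℝ :=
  b + p * Real.cos x + q * Real.sin x + ∑' k : ℕ, a k * Real.cos (((k + 2 : ℕ) : ℝ) * (x - β))

theorem gser_eq (b p q β : ℝ) (a : ℕ → ℝ) :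
    gser b p q β a = addh (fun x => rser b a (x + -β)) p q := by
  funext x
  rw [gser, addh, rser, ← sub_eq_add_neg]
  ring

theorem gser_leaf (p q β : ℝ) (ha : Fast a) (h0 : ∀ k, 0 ≤ a k) (hk : ∃ k, a k ≠ 0)
    (HT : IsTable (gser b p q β a)) :
    (∀ η > 0, ¬ Collar (gser b p q β a) η) ∧
      ∃ N ≥ 1, ∃ m₀ : ℕ, ∀ m ≥ m₀, ∀ f, ¬ RatLeaf (gser b p q β a) (2 * m * N) f := by
  obtain ⟨k₀, hk₀⟩ := hk
  rw [gser_eq] at HT ⊢
  have HT1 : IsTable (fun x => rser b a (x + -β)) := by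
    have := table_add HT (-p) (-q)
    rwa [addh_neg] at this
  have hd := diff_of_table HT1
  have e : (fun x => (fun x => rser b a (x + -β)) (x + β)) = rser b a := by
    funext x
    simp
  have HT2 : IsTable (rser b a) := by
    have := table_shift β HT1
    rwa [e] at this
  obtain ⟨g1, N, hN, m₀, g2⟩ := ser_leaf ha h0 hk₀ HT2
  refine ⟨fun η hη C => ?_, N, hN, m₀, fun m hm f R => ?_⟩
  · rw [collar_add hd] at C
    have := collar_shift β C
    rw [e] at this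
    exact g1 η hη this
  · rw [leaf_add hd] at R
    have := leaf_shift β R
    rw [e] at this
    exact g2 m hm _ this

end

end Vale.Agent.P097.Cusp
end
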